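import Vale.Agent.Lib.P062.Part4.K_0

set_option maxRecDepth 100000
set_option linter.all false

namespace Vale.Agent.Lib.P062.Part4
open Vale.Agent.Lib.P062 Vale.Agent.Lib.P062.V2

noncomputable def s16448 : Cert := .r (nat_lit 3773962425700235452738272624505952193199339552226928146794549392648115485167898379561026699849346401546134558067857772757880134458676407096525164659442171664912122642432) (.p (nat_lit 496) (.a (.p (nat_lit 592) (.a (.f (nat_lit 591) (nat_lit 623) (nat_lit 5615) (.f (nat_lit 593) (nat_lit 625) (nat_lit 4592) (.d (nat_lit 464) (nat_lit 559) (nat_lit 5583) (nat_lit 561) (nat_lit 4560)))) (.a (.f (nat_lit 623) (nat_lit 591) (nat_lit 5615) (.f (nat_lit 624) (nat_lit 655) (nat_lit 5647) (.d (nat_lit 625) (nat_lit 593) (nat_lit 4592) (nat_lit 657) (nat_lit 4624)))) (.a (.f (nat_lit 593) (nat_lit 625) (nat_lit 4592) (.f (nat_lit 464) (nat_lit 561) (nat_lit 4560) (.d (nat_lit 465) (nat_lit 433) (nat_lit 6576)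 (nat_lit 497) (nat_lit 6608)))) (.f (nat_lit 591) (nat_lit 623) (nat_lit 5615) (.f (nat_lit 464) (nat_lit 559) (nat_lit 5583) (.d (nat_lit 465) (nat_lit 433) (nat_lit 6576) (nat_lit 497) (nat_lit 6608)))))))) (.a (.p (nat_lit 464) (.a (.f (nat_lit 559) (nat_lit 591) (nat_lit 5583) (.f (nat_lit 432) (nat_lit 527) (nat_lit 5551) (.d (nat_lit 433) (nat_lit 401) (nat_lit 6544) (nat_lit 465) (nat_lit 6576)))) (.a (.f (nat_lit 431) (nat_lit 463) (nat_lit 7599) (.f (nat_lit 432) (nat_lit 399) (nat_lit 7567) (.d (nat_lit 433) (nat_lit 401) (nat_lit 6544) (nat_lit 465) (nat_lit 6576)))) (.a (.f (nat_lit 431) (nat_lit 463) (nat_lit 7599) (.f (nat_lit 432) (nat_lit 399) (nat_lit 7567) (.d (nat_lit 559) (nat_lit 527) (nat_lit 5551) (nat_lit 591) (nat_lit 5583)))) (.f (nat_lit 463) (nat_lit 431) (nat_lit 7599) (.p (nat_lit 462) (.a (.f (nat_lit 465) (nat_lit 433) (nat_lit 6576) (.d (nat_lit 497) (nat_lit 461) (nat_lit 461) (nat_lit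 498) (nat_lit 462))) (.a (.f (nat_lit 461) (nat_lit 497) (nat_lit 461) (.f (nat_lit 460) (nat_lit 495) (nat_lit 460) (.d (nat_lit 492) (nat_lit 491) (nat_lit 1483) (nat_lit 493) (nat_lit 1484)))) (.a (.f (nat_lit 465) (nat_lit 433) (nat_lit 6576) (.f (nat_lit 497) (nat_lit 498) (nat_lit 462) (.f (nat_lit 494) (nat_lit 493) (nat_lit 1485) (.f (nat_lit 466) (nat_lit 495) (nat_lit 1486) (.f (nat_lit 467) (nat_lit 468) (nat_lit 1488) (.d (nat_lit 435) (nat_lit 434) (nat_lit 2479) (nat_lit 436) (nat_lit 2480))))))) (.f (nat_lit 465) (nat_lit 433) (nat_lit 6576) (.f (nat_lit 494) (nat_lit 493) (nat_lit 1485) (.f (nat_lit 495) (nat_lit 466) (nat_lit 1486) (.f (nat_lit 430) (nat_lit 429) (nat_lit 3501) (.d (nat_lit 398) (nat_lit 366) (nat_lit 4462) (nat_lit 527) (nat_lit 4494))))))))))))))) (.a (.p (nat_lit 592) (.a (.f (nat_lit 623) (nat_lit 591) (nat_lit 5615) (.f (nat_lit 624) (nat_lit 655) (nat_lit 5647) (.d (nat_lit 625) (nat_lit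 593) (nat_lit 4592) (nat_lit 657) (nat_lit 4624)))) (.a (.f (nat_lit 591) (nat_lit 623) (nat_lit 5615) (.p (nat_lit 590) (.a (.f (nat_lit 593) (nat_lit 625) (nat_lit 4592) (.d (nat_lit 561) (nat_lit 562) (nat_lit 2606) (nat_lit 589) (nat_lit 2605))) (.a (.f (nat_lit 593) (nat_lit 625) (nat_lit 4592) (.f (nat_lit 558) (nat_lit 557) (nat_lit 3629) (.f (nat_lit 559) (nat_lit 594) (nat_lit 3630) (.f (nat_lit 622) (nat_lit 621) (nat_lit 1613) (.d (nat_lit 495) (nat_lit 463) (nat_lit 7631) (nat_lit 527) (nat_lit 5614)))))) (.f (nat_lit 589) (nat_lit 561) (nat_lit 2605) (.f (nat_lit 588) (nat_lit 559) (nat_lit 2604) (.d (nat_lit 620) (nat_lit 619) (nat_lit 1611) (nat_lit 621) (nat_lit 1612)))))))) (.a (.f (nat_lit 495) (nat_lit 463) (nat_lit 7631) (.f (nat_lit 624) (nat_lit 527) (nat_lit 7663) (.d (nat_lit 625) (nat_lit 593) (nat_lit 4592) (nat_lit 657) (nat_lit 4624)))) (.f (nat_lit 623) (nat_lit 591) (nat_lit 5615) (.f (nat_lit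 624) (nat_lit 655) (nat_lit 5647) (.d (nat_lit 495) (nat_lit 463) (nat_lit 7631) (nat_lit 527) (nat_lit 7663)))))))) (.a (.p (nat_lit 592) (.a (.f (nat_lit 623) (nat_lit 591) (nat_lit 5615) (.f (nat_lit 624) (nat_lit 655) (nat_lit 5647) (.d (nat_lit 625) (nat_lit 593) (nat_lit 4592) (nat_lit 657) (nat_lit 4624)))) (.a (.f (nat_lit 593) (nat_lit 625) (nat_lit 4592) (.f (nat_lit 464) (nat_lit 561) (nat_lit 4560) (.d (nat_lit 465) (nat_lit 433) (nat_lit 6576) (nat_lit 497) (nat_lit 6608)))) (.f (nat_lit 623) (nat_lit 591) (nat_lit 5615) (.f (nat_lit 624) (nat_lit 655) (nat_lit 5647) (.d (nat_lit 495) (nat_lit 463) (nat_lit 7631) (nat_lit 527) (nat_lit 7663))))))) (.p (nat_lit 592) (.a (.f (nat_lit 593) (nat_lit 625) (nat_lit 4592) (.f (nat_lit 464) (nat_lit 561) (nat_lit 4560) (.d (nat_lit 465) (nat_lit 433) (nat_lit 6576) (nat_lit 497) (nat_lit 6608)))) (.a (.f (nat_lit 495) (nat_lit 463) (nat_lit 7631) (.f (nat_lit 624)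 (nat_lit 527) (nat_lit 7663) (.d (nat_lit 625) (nat_lit 593) (nat_lit 4592) (nat_lit 657) (nat_lit 4624)))) (.f (nat_lit 495) (nat_lit 463) (nat_lit 7631) (.f (nat_lit 527) (nat_lit 624) (nat_lit 7663) (.f (nat_lit 497) (nat_lit 465) (nat_lit 6608) (.d (nat_lit 526) (nat_lit 498) (nat_lit 1518) (nat_lit 525) (nat_lit 2541)))))))))))))
end Vale.Agent.Lib.P062.Part4
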