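import Vale.Agent.Lib.P062.Part4.K_0

set_option maxRecDepth 100000
set_option linter.all false

namespace Vale.Agent.Lib.P062.Part4
open Vale.Agent.Lib.P062 Vale.Agent.Lib.P062.V2

noncomputable def s13521 : Cert := .r (nat_lit 13208868487754088833342159076976624420491642603268029217735065143262175891148270509776343512793493320399805495644767385007306596033488388677928750288023911774035610959872) (.p (nat_lit 558) (.a (.f (nat_lit 593) (nat_lit 594) (nat_lit 558) (.f (nat_lit 592) (nat_lit 557) (nat_lit 557) (.d (nat_lit 496) (nat_lit 464) (nat_lit 4560) (nat_lit 625) (nat_lit 4592)))) (.a (.f (nat_lit 526) (nat_lit 525) (nat_lit 3597) (.f (nat_lit 562) (nat_lit 527) (nat_lit 3598) (.d (nat_lit 594) (nat_lit 593) (nat_lit 558) (nat_lit 595) (nat_lit 559)))) (.a (.f (nat_lit 526) (nat_lit 525) (nat_lit 3597) (.f (nat_lit 562) (nat_lit 527) (nat_lit 3598) (.f (nat_lit 531) (nat_lit 530) (nat_lit 2575) (.f (nat_lit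 563) (nat_lit 532) (nat_lit 2576) (.d (nat_lit 595) (nat_lit 594) (nat_lit 559) (nat_lit 596) (nat_lit 560)))))) (.f (nat_lit 526) (nat_lit 525) (nat_lit 3597) (.f (nat_lit 527) (nat_lit 562) (nat_lit 3598) (.f (nat_lit 557) (nat_lit 556) (nat_lit 2572) (.f (nat_lit 592) (nat_lit 593) (nat_lit 557) (.f (nat_lit 624) (nat_lit 656) (nat_lit 7695) (.f (nat_lit 623) (nat_lit 655) (nat_lit 5647) (.d (nat_lit 591) (nat_lit 494) (nat_lit 7662) (nat_lit 496) (nat_lit 5615))))))))))))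
noncomputable def s44998 : Cert := .r (nat_lit 13208868487754088833342159076976624420491642603268029217735065143262175891148270509776343512793493320399805495644767385007306596033488388677928750288023911774035610959872) (.p (nat_lit 558) (.a (.f (nat_lit 526) (nat_lit 525) (nat_lit 3597) (.f (nat_lit 562) (nat_lit 527) (nat_lit 3598) (.d (nat_lit 594) (nat_lit 593) (nat_lit 558) (nat_lit 595) (nat_lit 559)))) (.a (.f (nat_lit 526) (nat_lit 525) (nat_lit 3597) (.f (nat_lit 562) (nat_lit 527) (nat_lit 3598) (.d (nat_lit 590) (nat_lit 589) (nat_lit 1581) (nat_lit 591) (nat_lit 1582)))) (.a (.f (nat_lit 590) (nat_lit 589) (nat_lit 1581) (.f (nat_lit 591) (nat_lit 562) (nat_lit 1582) (.f (nat_lit 526) (nat_lit 525) (nat_lit 3597) (.d (nat_lit 494) (nat_lit 462) (nat_lit 4558) (nat_lit 623) (nat_lit 4590))))) (.a (.f (nat_lit 590) (nat_lit 589) (nat_lit 1581) (.f (nat_lit 562) (nat_lit 591) (nat_lit 1582) (.f (nat_lit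 563) (nat_lit 527) (nat_lit 3599) (.d (nat_lit 531) (nat_lit 530) (nat_lit 2575) (nat_lit 532) (nat_lit 2576))))) (.f (nat_lit 525) (nat_lit 526) (nat_lit 3597) (.f (nat_lit 557) (nat_lit 524) (nat_lit 3596) (.d (nat_lit 589) (nat_lit 588) (nat_lit 1580) (nat_lit 590) (nat_lit 1581)))))))))
noncomputable def s44999 : Cert := .r (nat_lit 13208868487754088833342159076976624420491642603268029217735065143262175891148270509776343512793493320399805495644767385007306596033488388677928750288023911774035610959872) (.p (nat_lit 558) (.a (.f (nat_lit 526) (nat_lit 525) (nat_lit 3597) (.f (nat_lit 562) (nat_lit 527) (nat_lit 3598) (.d (nat_lit 590) (nat_lit 589) (nat_lit 1581) (nat_lit 591) (nat_lit 1582)))) (.a (.f (nat_lit 590) (nat_lit 589) (nat_lit 1581) (.f (nat_lit 591) (nat_lit 562) (nat_lit 1582) (.f (nat_lit 526) (nat_lit 525) (nat_lit 3597) (.d (nat_lit 494) (nat_lit 462) (nat_lit 4558) (nat_lit 623) (nat_lit 4590)))))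 (.a (.f (nat_lit 590) (nat_lit 589) (nat_lit 1581) (.f (nat_lit 562) (nat_lit 591) (nat_lit 1582) (.f (nat_lit 563) (nat_lit 527) (nat_lit 3599) (.d (nat_lit 531) (nat_lit 530) (nat_lit 2575) (nat_lit 532) (nat_lit 2576))))) (.a (.f (nat_lit 525) (nat_lit 526) (nat_lit 3597) (.f (nat_lit 557) (nat_lit 524) (nat_lit 3596) (.d (nat_lit 589) (nat_lit 588) (nat_lit 1580) (nat_lit 590) (nat_lit 1581)))) (.f (nat_lit 526) (nat_lit 525) (nat_lit 3597) (.f (nat_lit 562) (nat_lit 527) (nat_lit 3598) (.f (nat_lit 531) (nat_lit 530) (nat_lit 2575) (.f (nat_lit 563) (nat_lit 532) (nat_lit 2576) (.d (nat_lit 595) (nat_lit 594) (nat_lit 559) (nat_lit 596) (nat_lit 560)))))))))))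
noncomputable def s45001 : Cert := .r (nat_lit 13208868487754088833342159076976624420491642603268029217735065143262175891148270509776343512793493320399805495644767385007306596033488388677928750288023911774035610959872) (.p (nat_lit 558) (.a (.f (nat_lit 526) (nat_lit 525) (nat_lit 3597) (.f (nat_lit 562) (nat_lit 527) (nat_lit 3598) (.d (nat_lit 594) (nat_lit 593) (nat_lit 558) (nat_lit 595) (nat_lit 559)))) (.a (.f (nat_lit 526) (nat_lit 525) (nat_lit 3597) (.f (nat_lit 562) (nat_lit 527) (nat_lit 3598) (.d (nat_lit 590) (nat_lit 589) (nat_lit 1581) (nat_lit 591) (nat_lit 1582)))) (.a (.f (nat_lit 525) (nat_lit 526) (nat_lit 3597) (.f (nat_lit 557) (nat_lit 524) (nat_lit 3596) (.d (nat_lit 589) (nat_lit 588) (nat_lit 1580) (nat_lit 590) (nat_lit 1581)))) (.f (nat_lit 590) (nat_lit 589) (nat_lit 1581) (.f (nat_lit 562) (nat_lit 591) (nat_lit 1582) (.f (nat_lit 563) (nat_lit 527) (nat_lit 3599) (.d (nat_lit 531)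 (nat_lit 530) (nat_lit 2575) (nat_lit 532) (nat_lit 2576)))))))))
noncomputable def s45006 : Cert := .r (nat_lit 13208868487754088833342159076976624420491642603268029217735065143262175891148270509776343512793493320399805495644767385007306596033488388677928750288023911774035610959872) (.p (nat_lit 558) (.a (.f (nat_lit 590) (nat_lit 589) (nat_lit 1581) (.f (nat_lit 591) (nat_lit 562) (nat_lit 1582) (.f (nat_lit 526) (nat_lit 525) (nat_lit 3597) (.d (nat_lit 494) (nat_lit 462) (nat_lit 4558) (nat_lit 623) (nat_lit 4590))))) (.a (.f (nat_lit 525) (nat_lit 526) (nat_lit 3597) (.f (nat_lit 557) (nat_lit 524) (nat_lit 3596) (.d (nat_lit 589) (nat_lit 588) (nat_lit 1580) (nat_lit 590) (nat_lit 1581)))) (.a (.f (nat_lit 593) (nat_lit 594) (nat_lit 558) (.f (nat_lit 557) (nat_lit 592) (nat_lit 557) (.d (nat_lit 589) (nat_lit 588) (nat_lit 1580) (nat_lit 590) (nat_lit 1581)))) (.f (nat_lit 593) (nat_lit 594) (nat_lit 558)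 (.f (nat_lit 557) (nat_lit 592) (nat_lit 557) (.d (nat_lit 525) (nat_lit 524) (nat_lit 3596) (nat_lit 526) (nat_lit 3597))))))))
noncomputable def s45020 : Cert := .r (nat_lit 14152359093959474171402547722223691643220872908372139324829116718323581931746307722797875194087908012285172589402458346232249242190969586836069108850882085784947959791616) (.p (nat_lit 591) (.a (.f (nat_lit 526) (nat_lit 525) (nat_lit 3597) (.f (nat_lit 623) (nat_lit 655) (nat_lit 7694) (.d (nat_lit 494) (nat_lit 527) (nat_lit 7662) (nat_lit 590) (nat_lit 4590)))) (.a (.f (nat_lit 590) (nat_lit 589) (nat_lit 1581) (.f (nat_lit 623) (nat_lit 655) (nat_lit 6671) (.d (nat_lit 526) (nat_lit 494) (nat_lit 4590) (nat_lit 525) (nat_lit 3597)))) (.a (.f (nat_lit 590) (nat_lit 589) (nat_lit 1581) (.f (nat_lit 593) (nat_lit 594) (nat_lit 558) (.f (nat_lit 625) (nat_lit 657) (nat_lit 7696) (.f (nat_lit 592) (nat_lit 626) (nat_lit 590) (.f (nat_lit 622)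 (nat_lit 621) (nat_lit 1613) (.d (nat_lit 654) (nat_lit 527) (nat_lit 6670) (nat_lit 686) (nat_lit 6702))))))) (.f (nat_lit 526) (nat_lit 525) (nat_lit 3597) (.f (nat_lit 623) (nat_lit 655) (nat_lit 7694) (.d (nat_lit 494) (nat_lit 462) (nat_lit 4558) (nat_lit 527) (nat_lit 7662))))))))
noncomputable def s45079 : Cert := .r (nat_lit 16209045196602322382300099346402648161142454733354819303043184805086765087352600013237828465553714258876448779892262453326970754096092674070071908233563552437741261106273966882816) (.p (nat_lit 624) (.a (.f (nat_lit 623) (nat_lit 655) (nat_lit 5647) (.f (nat_lit 591) (nat_lit 496) (nat_lit 5615) (.f (nat_lit 625) (nat_lit 657) (nat_lit 4624) (.d (nat_lit 626) (nat_lit 590) (nat_lit 3662) (nat_lit 627) (nat_lit 3663))))) (.a (.f (nat_lit 655) (nat_lit 623) (nat_lit 5647) (.f (nat_lit 656) (nat_lit 687) (nat_lit 5679) (.d (nat_lit 657) (nat_lit 625) (nat_lit 4624) (nat_lit 689) (nat_lit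 4656)))) (.a (.f (nat_lit 657) (nat_lit 625) (nat_lit 4624) (.f (nat_lit 656) (nat_lit 689) (nat_lit 4656) (.f (nat_lit 687) (nat_lit 655) (nat_lit 5679) (.d (nat_lit 688) (nat_lit 591) (nat_lit 7727) (nat_lit 719) (nat_lit 5711))))) (.a (.f (nat_lit 655) (nat_lit 623) (nat_lit 5647) (.f (nat_lit 656) (nat_lit 687) (nat_lit 5679) (.f (nat_lit 688) (nat_lit 591) (nat_lit 7727) (.d (nat_lit 689) (nat_lit 657) (nat_lit 4656) (nat_lit 721) (nat_lit 4688))))) (.a (.p (nat_lit 656) (.a (.d (nat_lit 655) (nat_lit 623) (nat_lit 5647) (nat_lit 687) (nat_lit 5679)) (.a (.f (nat_lit 688) (nat_lit 591) (nat_lit 7727) (.d (nat_lit 687) (nat_lit 655) (nat_lit 5679) (nat_lit 719) (nat_lit 5711))) (.f (nat_lit 591) (nat_lit 688) (nat_lit 7727) (.d (nat_lit 496) (nat_lit 464) (nat_lit 5583) (nat_lit 623) (nat_lit 5615)))))) (.f (nat_lit 657) (nat_lit 625) (nat_lit 4624) (.f (nat_lit 656) (nat_lit 689) (nat_lit 4656) (.f (nat_lit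 591) (nat_lit 688) (nat_lit 7727) (.d (nat_lit 496) (nat_lit 464) (nat_lit 5583) (nat_lit 623) (nat_lit 5615)))))))))))
noncomputable def s45092 : Cert := .r (nat_lit 16209045204150247231943182050885757323118992515188661743876065661839177687843848338022126169725967709231766314975199203388498443895633843329921493498686420940606653193572757536768) (.p (nat_lit 558) (.a (.f (nat_lit 590) (nat_lit 589) (nat_lit 1581) (.f (nat_lit 591) (nat_lit 562) (nat_lit 1582) (.f (nat_lit 623) (nat_lit 655) (nat_lit 6671) (.d (nat_lit 526) (nat_lit 494) (nat_lit 4590) (nat_lit 525) (nat_lit 3597))))) (.a (.f (nat_lit 590) (nat_lit 589) (nat_lit 1581) (.f (nat_lit 591) (nat_lit 562) (nat_lit 1582) (.f (nat_lit 557) (nat_lit 556) (nat_lit 556) (.d (nat_lit 525) (nat_lit 524) (nat_lit 3596) (nat_lit 526) (nat_lit 3597))))) (.a (.f (nat_lit 590) (nat_lit 589) (nat_lit 1581) (.f (nat_lit 562) (nat_lit 591) (nat_lit 1582) (.f (nat_lit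 595) (nat_lit 594) (nat_lit 559) (.f (nat_lit 563) (nat_lit 596) (nat_lit 560) (.d (nat_lit 531) (nat_lit 530) (nat_lit 2575) (nat_lit 532) (nat_lit 2576)))))) (.a (.f (nat_lit 525) (nat_lit 526) (nat_lit 3597) (.f (nat_lit 557) (nat_lit 524) (nat_lit 3596) (.d (nat_lit 589) (nat_lit 588) (nat_lit 1580) (nat_lit 590) (nat_lit 1581)))) (.a (.f (nat_lit 525) (nat_lit 526) (nat_lit 3597) (.f (nat_lit 557) (nat_lit 524) (nat_lit 3596) (.f (nat_lit 588) (nat_lit 589) (nat_lit 1580) (.d (nat_lit 556) (nat_lit 587) (nat_lit 1579) (nat_lit 591) (nat_lit 556))))) (.f (nat_lit 525) (nat_lit 526) (nat_lit 3597) (.f (nat_lit 557) (nat_lit 524) (nat_lit 3596) (.f (nat_lit 591) (nat_lit 556) (nat_lit 556) (.d (nat_lit 562) (nat_lit 563) (nat_lit 1583) (nat_lit 590) (nat_lit 1582)))))))))))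
noncomputable def s45093 : Cert := .r (nat_lit 16209045204150247231943182050885757323118992515188661743876065661839177687843848338022126169725967709231766314975199203388498443895633843329921493498686420940606653193572757536768) (.p (nat_lit 558) (.a (.f (nat_lit 590) (nat_lit 589) (nat_lit 1581) (.f (nat_lit 591) (nat_lit 562) (nat_lit 1582) (.f (nat_lit 557) (nat_lit 556) (nat_lit 556) (.d (nat_lit 525) (nat_lit 524) (nat_lit 3596) (nat_lit 526) (nat_lit 3597))))) (.a (.f (nat_lit 590) (nat_lit 589) (nat_lit 1581) (.f (nat_lit 562) (nat_lit 591) (nat_lit 1582) (.f (nat_lit 595) (nat_lit 594) (nat_lit 559) (.f (nat_lit 563) (nat_lit 596) (nat_lit 560) (.d (nat_lit 531) (nat_lit 530) (nat_lit 2575) (nat_lit 532) (nat_lit 2576)))))) (.a (.f (nat_lit 525) (nat_lit 526) (nat_lit 3597) (.f (nat_lit 557) (nat_lit 524) (nat_lit 3596) (.d (nat_lit 589) (nat_lit 588) (nat_lit 1580) (nat_lit 590) (nat_lit 1581)))) (.a (.f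 (nat_lit 525) (nat_lit 526) (nat_lit 3597) (.f (nat_lit 557) (nat_lit 524) (nat_lit 3596) (.f (nat_lit 588) (nat_lit 589) (nat_lit 1580) (.d (nat_lit 556) (nat_lit 587) (nat_lit 1579) (nat_lit 591) (nat_lit 556))))) (.f (nat_lit 525) (nat_lit 526) (nat_lit 3597) (.f (nat_lit 557) (nat_lit 524) (nat_lit 3596) (.f (nat_lit 591) (nat_lit 556) (nat_lit 556) (.d (nat_lit 562) (nat_lit 563) (nat_lit 1583) (nat_lit 590) (nat_lit 1582))))))))))
noncomputable def s45098 : Cert := .r (nat_lit 16209045204150247231943182050885757323118992515188661743876065661839177687843848338022126169725967709231766314975199203388498443895633843329921493498686420940606653193572757536768) (.p (nat_lit 558) (.a (.f (nat_lit 590) (nat_lit 589) (nat_lit 1581) (.f (nat_lit 591) (nat_lit 562) (nat_lit 1582) (.f (nat_lit 623) (nat_lit 655) (nat_lit 6671) (.d (nat_lit 526) (nat_lit 494) (nat_lit 4590) (nat_lit 525) (nat_lit 3597))))) (.a (.f (nat_lit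 590) (nat_lit 589) (nat_lit 1581) (.f (nat_lit 591) (nat_lit 562) (nat_lit 1582) (.f (nat_lit 557) (nat_lit 556) (nat_lit 556) (.d (nat_lit 525) (nat_lit 524) (nat_lit 3596) (nat_lit 526) (nat_lit 3597))))) (.a (.f (nat_lit 557) (nat_lit 593) (nat_lit 557) (.d (nat_lit 589) (nat_lit 588) (nat_lit 1580) (nat_lit 590) (nat_lit 1581))) (.a (.f (nat_lit 525) (nat_lit 526) (nat_lit 3597) (.f (nat_lit 557) (nat_lit 524) (nat_lit 3596) (.f (nat_lit 588) (nat_lit 589) (nat_lit 1580) (.d (nat_lit 556) (nat_lit 587) (nat_lit 1579) (nat_lit 591) (nat_lit 556))))) (.f (nat_lit 525) (nat_lit 526) (nat_lit 3597) (.f (nat_lit 557) (nat_lit 524) (nat_lit 3596) (.f (nat_lit 591) (nat_lit 556) (nat_lit 556) (.d (nat_lit 562) (nat_lit 563) (nat_lit 1583) (nat_lit 590) (nat_lit 1582))))))))))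
noncomputable def s45110 : Cert := .r (nat_lit 16209045204150247231943182050885757323118992515188661743876065661839177687843848338022126169725967709231766314975199203388498443895633843329921493498686420940606653193572757536768) (.p (nat_lit 558) (.a (.f (nat_lit 589) (nat_lit 590) (nat_lit 1581) (.f (nat_lit 557) (nat_lit 588) (nat_lit 1580) (.f (nat_lit 591) (nat_lit 556) (nat_lit 556) (.d (nat_lit 496) (nat_lit 464) (nat_lit 5583) (nat_lit 623) (nat_lit 5615))))) (.a (.f (nat_lit 590) (nat_lit 589) (nat_lit 1581) (.f (nat_lit 591) (nat_lit 562) (nat_lit 1582) (.f (nat_lit 623) (nat_lit 655) (nat_lit 6671) (.d (nat_lit 526) (nat_lit 494) (nat_lit 4590) (nat_lit 525) (nat_lit 3597))))) (.a (.f (nat_lit 590) (nat_lit 589) (nat_lit 1581) (.f (nat_lit 591) (nat_lit 562) (nat_lit 1582) (.f (nat_lit 557) (nat_lit 556) (nat_lit 556) (.d (nat_lit 525) (nat_lit 524) (nat_lit 3596) (nat_lit 526) (nat_lit 3597))))) (.a (.f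 (nat_lit 525) (nat_lit 526) (nat_lit 3597) (.f (nat_lit 557) (nat_lit 524) (nat_lit 3596) (.d (nat_lit 589) (nat_lit 588) (nat_lit 1580) (nat_lit 590) (nat_lit 1581)))) (.f (nat_lit 525) (nat_lit 526) (nat_lit 3597) (.f (nat_lit 557) (nat_lit 524) (nat_lit 3596) (.f (nat_lit 591) (nat_lit 556) (nat_lit 556) (.d (nat_lit 496) (nat_lit 464) (nat_lit 5583) (nat_lit 623) (nat_lit 5615))))))))))
noncomputable def s45135 : Cert := .r (nat_lit 14152359093959474171402547722223691643220872908372139324829116718323581931746307722797875194087908012285172589402458346232249242190969586836069108850882085784947959791616) (.p (nat_lit 623) (.a (.f (nat_lit 591) (nat_lit 655) (nat_lit 6671) (.d (nat_lit 496) (nat_lit 464) (nat_lit 5583) (nat_lit 527) (nat_lit 6639))) (.a (.f (nat_lit 591) (nat_lit 655) (nat_lit 6671) (.f (nat_lit 590) (nat_lit 589) (nat_lit 1581) (.d (nat_lit 526) (nat_lit 494) (nat_lit 4590) (nat_lit 525) (nat_lit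 3597)))) (.a (.f (nat_lit 526) (nat_lit 525) (nat_lit 3597) (.f (nat_lit 590) (nat_lit 589) (nat_lit 1581) (.f (nat_lit 622) (nat_lit 655) (nat_lit 4622) (.f (nat_lit 653) (nat_lit 621) (nat_lit 5645) (.d (nat_lit 654) (nat_lit 527) (nat_lit 6670) (nat_lit 685) (nat_lit 5677)))))) (.f (nat_lit 526) (nat_lit 525) (nat_lit 3597) (.f (nat_lit 590) (nat_lit 589) (nat_lit 1581) (.f (nat_lit 591) (nat_lit 494) (nat_lit 4590) (.d (nat_lit 496) (nat_lit 464) (nat_lit 5583) (nat_lit 527) (nat_lit 6639)))))))))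
noncomputable def s45144 : Cert := .r (nat_lit 16209045196602322382300099346402648161142454733354819303043184805086765087352600013237828465553714258876448779892262453326970754096092674070071908233563552437741261106273966882816) (.p (nat_lit 624) (.a (.f (nat_lit 656) (nat_lit 527) (nat_lit 7695) (.d (nat_lit 655) (nat_lit 623) (nat_lit 5647) (nat_lit 687) (nat_lit 5679))) (.a (.f (nat_lit 655) (nat_lit 623) (nat_lit 5647) (.f (nat_lit 656) (nat_lit 687) (nat_lit 5679) (.f (nat_lit 688) (nat_lit 591) (nat_lit 7727) (.d (nat_lit 689) (nat_lit 657) (nat_lit 4656) (nat_lit 721) (nat_lit 4688))))) (.a (.f (nat_lit 656) (nat_lit 527) (nat_lit 7695) (.f (nat_lit 688) (nat_lit 591) (nat_lit 7727) (.d (nat_lit 687) (nat_lit 655) (nat_lit 5679) (nat_lit 719) (nat_lit 5711)))) (.a (.f (nat_lit 623) (nat_lit 655) (nat_lit 5647) (.f (nat_lit 496) (nat_lit 591) (nat_lit 5615) (.f (nat_lit 465) (nat_lit 497) (nat_lit 6608) (.f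 (nat_lit 464) (nat_lit 433) (nat_lit 6576) (.f (nat_lit 432) (nat_lit 527) (nat_lit 5551) (.d (nat_lit 431) (nat_lit 399) (nat_lit 7567) (nat_lit 463) (nat_lit 7599))))))) (.f (nat_lit 656) (nat_lit 527) (nat_lit 7695) (.f (nat_lit 591) (nat_lit 688) (nat_lit 7727) (.d (nat_lit 496) (nat_lit 464) (nat_lit 5583) (nat_lit 623) (nat_lit 5615)))))))))
noncomputable def s45162 : Cert := .r (nat_lit 6604434244316391466919438560247153861387030467539258468076704117832333606962010018625621743732590477202235839340930656432708072931120001570946240348016693697649169137664) (.p (nat_lit 525) (.a (.f (nat_lit 526) (nat_lit 561) (nat_lit 3597) (.d (nat_lit 524) (nat_lit 527) (nat_lit 524) (nat_lit 557) (nat_lit 3596))) (.a (.f (nat_lit 557) (nat_lit 524) (nat_lit 3596) (.f (nat_lit 556) (nat_lit 527) (nat_lit 2572) (.d (nat_lit 588) (nat_lit 587) (nat_lit 1579) (nat_lit 589) (nat_lit 1580)))) (.a (.f (nat_lit 557) (nat_lit 524)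 (nat_lit 3596) (.f (nat_lit 589) (nat_lit 588) (nat_lit 1580) (.f (nat_lit 526) (nat_lit 561) (nat_lit 3597) (.d (nat_lit 494) (nat_lit 462) (nat_lit 5581) (nat_lit 621) (nat_lit 6637))))) (.a (.f (nat_lit 526) (nat_lit 561) (nat_lit 3597) (.d (nat_lit 524) (nat_lit 523) (nat_lit 523) (nat_lit 527) (nat_lit 524))) (.f (nat_lit 561) (nat_lit 526) (nat_lit 3597) (.f (nat_lit 594) (nat_lit 593) (nat_lit 558) (.f (nat_lit 562) (nat_lit 595) (nat_lit 559) (.f (nat_lit 531) (nat_lit 530) (nat_lit 2575) (.d (nat_lit 563) (nat_lit 527) (nat_lit 3599) (nat_lit 532) (nat_lit 2576)))))))))))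
noncomputable def s45181 : Cert := .r (nat_lit 87021648747151382753641910691920124672985874530179656182058212855445386826704763704362136089815640097603855535868785452200467824957882975259645638076345949518612973424833204058691792273408) (.p (nat_lit 623) (.a (.f (nat_lit 526) (nat_lit 655) (nat_lit 4622) (.f (nat_lit 621) (nat_lit 653) (nat_lit 5645) (.d (nat_lit 589) (nat_lit 494) (nat_lit 5613) (nat_lit 588) (nat_lit 3660)))) (.a (.f (nat_lit 625) (nat_lit 589) (nat_lit 3661) (.f (nat_lit 654) (nat_lit 653) (nat_lit 1645) (.d (nat_lit 655) (nat_lit 626) (nat_lit 1646) (nat_lit 687) (nat_lit 4654)))) (.a (.f (nat_lit 625) (nat_lit 589) (nat_lit 3661) (.f (nat_lit 653) (nat_lit 654) (nat_lit 1645) (.d (nat_lit 621) (nat_lit 526) (nat_lit 5645) (nat_lit 652) (nat_lit 1644)))) (.f (nat_lit 655) (nat_lit 526) (nat_lit 4622) (.d (nat_lit 687) (nat_lit 654) (nat_lit 4654) (nat_lit 719) (nat_lit 7758)))))))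
noncomputable def s45196 : Cert := .r (nat_lit 121830308240338770035627418710495435329272189532002828277182729111395025414719548148370471726551242648212780583969867894098372821494358032179506127580684742010414481927155848706270840225792) (.p (nat_lit 625) (.a (.f (nat_lit 590) (nat_lit 589) (nat_lit 3661) (.f (nat_lit 654) (nat_lit 653) (nat_lit 1645) (.d (nat_lit 655) (nat_lit 526) (nat_lit 4622) (nat_lit 626) (nat_lit 1646)))) (.a (.f (nat_lit 657) (nat_lit 658) (nat_lit 622) (.f (nat_lit 621) (nat_lit 656) (nat_lit 621) (.d (nat_lit 653) (nat_lit 652) (nat_lit 1644) (nat_lit 654) (nat_lit 1645)))) (.a (.f (nat_lit 590) (nat_lit 589) (nat_lit 3661) (.f (nat_lit 526) (nat_lit 655) (nat_lit 4622) (.f (nat_lit 621) (nat_lit 653) (nat_lit 5645) (.d (nat_lit 657) (nat_lit 656) (nat_lit 621) (nat_lit 658) (nat_lit 622))))) (.f (nat_lit 590) (nat_lit 589) (nat_lit 3661) (.f (nat_lit 655) (nat_lit 526) (nat_lit 4622)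 (.d (nat_lit 654) (nat_lit 626) (nat_lit 1646) (nat_lit 687) (nat_lit 4654))))))))
noncomputable def s45200 : Cert := .r (nat_lit 121830308240338770035627418710495435329272189532002828277182729111395025414719548148370471726551242648212780583969867894098372821494358032179506127580684742010414481927155848706270840225792) (.p (nat_lit 625) (.a (.f (nat_lit 657) (nat_lit 658) (nat_lit 622) (.f (nat_lit 621) (nat_lit 656) (nat_lit 621) (.d (nat_lit 653) (nat_lit 652) (nat_lit 1644) (nat_lit 654) (nat_lit 1645)))) (.a (.f (nat_lit 654) (nat_lit 653) (nat_lit 1645) (.f (nat_lit 626) (nat_lit 655) (nat_lit 1646) (.f (nat_lit 595) (nat_lit 594) (nat_lit 2639) (.f (nat_lit 627) (nat_lit 596) (nat_lit 2640) (.d (nat_lit 659) (nat_lit 658) (nat_lit 623) (nat_lit 660) (nat_lit 624)))))) (.a (.f (nat_lit 657) (nat_lit 658) (nat_lit 622) (.f (nat_lit 621) (nat_lit 656) (nat_lit 621) (.f (nat_lit 588) (nat_lit 589) (nat_lit 3660)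 (.f (nat_lit 620) (nat_lit 587) (nat_lit 3659) (.d (nat_lit 652) (nat_lit 651) (nat_lit 1643) (nat_lit 653) (nat_lit 1644)))))) (.a (.f (nat_lit 653) (nat_lit 654) (nat_lit 1645) (.f (nat_lit 621) (nat_lit 652) (nat_lit 1644) (.f (nat_lit 588) (nat_lit 589) (nat_lit 3660) (.f (nat_lit 620) (nat_lit 587) (nat_lit 3659) (.d (nat_lit 656) (nat_lit 655) (nat_lit 620) (nat_lit 657) (nat_lit 621)))))) (.f (nat_lit 658) (nat_lit 657) (nat_lit 622) (.f (nat_lit 626) (nat_lit 659) (nat_lit 623) (.f (nat_lit 595) (nat_lit 594) (nat_lit 2639) (.f (nat_lit 627) (nat_lit 596) (nat_lit 2640) (.d (nat_lit 655) (nat_lit 654) (nat_lit 1646) (nat_lit 656) (nat_lit 1647)))))))))))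
noncomputable def s45347 : Cert := .r (nat_lit 87021648747151382753641910691920124672985874530179656182058212855445386826704763704362136089815640097603855535868785452200467824957882975259645638076345949518612973424833204058691792273408) (.p (nat_lit 654) (.a (.f (nat_lit 655) (nat_lit 687) (nat_lit 4654) (.d (nat_lit 623) (nat_lit 526) (nat_lit 4622) (nat_lit 592) (nat_lit 5647))) (.a (.f (nat_lit 653) (nat_lit 685) (nat_lit 5677) (.f (nat_lit 655) (nat_lit 687) (nat_lit 4654) (.d (nat_lit 526) (nat_lit 621) (nat_lit 5645) (nat_lit 623) (nat_lit 4622)))) (.a (.f (nat_lit 653) (nat_lit 685) (nat_lit 5677) (.f (nat_lit 655) (nat_lit 687) (nat_lit 4654) (.f (nat_lit 621) (nat_lit 526) (nat_lit 5645) (.d (nat_lit 656) (nat_lit 620) (nat_lit 3692) (nat_lit 657) (nat_lit 3693))))) (.a (.f (nat_lit 655) (nat_lit 687) (nat_lit 4654) (.f (nat_lit 653) (nat_lit 685) (nat_lit 5677) (.d (nat_lit 623) (nat_lit 592) (nat_lit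 5647) (nat_lit 652) (nat_lit 2668)))) (.a (.f (nat_lit 653) (nat_lit 685) (nat_lit 5677) (.f (nat_lit 621) (nat_lit 526) (nat_lit 5645) (.f (nat_lit 652) (nat_lit 623) (nat_lit 1644) (.f (nat_lit 651) (nat_lit 650) (nat_lit 2666) (.f (nat_lit 686) (nat_lit 687) (nat_lit 651) (.d (nat_lit 718) (nat_lit 589) (nat_lit 7757) (nat_lit 750) (nat_lit 7789))))))) (.f (nat_lit 653) (nat_lit 685) (nat_lit 5677) (.f (nat_lit 621) (nat_lit 526) (nat_lit 5645) (.f (nat_lit 623) (nat_lit 652) (nat_lit 1644) (.d (nat_lit 592) (nat_lit 593) (nat_lit 2637) (nat_lit 655) (nat_lit 5647)))))))))))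
noncomputable def s45475 : Cert := .r (nat_lit 6604434244316391466919438560247153861387030467539258468076704117832333606962010018625621743732590477202235839340930656432708072931120001570946240348016693697649169137664) (.p (nat_lit 496) (.a (.f (nat_lit 464) (nat_lit 591) (nat_lit 5583) (.f (nat_lit 432) (nat_lit 527) (nat_lit 5551) (.d (nat_lit 433) (nat_lit 401) (nat_lit 6544) (nat_lit 465) (nat_lit 6576)))) (.a (.f (nat_lit 464) (nat_lit 591) (nat_lit 5583) (.f (nat_lit 433) (nat_lit 465) (nat_lit 6576) (.f (nat_lit 432) (nat_lit 401) (nat_lit 6544) (.d (nat_lit 431) (nat_lit 399) (nat_lit 7567) (nat_lit 463) (nat_lit 7599))))) (.a (.f (nat_lit 591) (nat_lit 464) (nat_lit 5583) (.d (nat_lit 623) (nat_lit 527) (nat_lit 6639) (nat_lit 655) (nat_lit 6671))) (.p (nat_lit 557) (.a (.f (nat_lit 556) (nat_lit 527) (nat_lit 2572) (.d (nat_lit 588) (nat_lit 587) (nat_lit 1579) (nat_lit 589) (nat_lit 1580))) (.a (.f (nat_lit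 588) (nat_lit 589) (nat_lit 1580) (.f (nat_lit 556) (nat_lit 587) (nat_lit 1579) (.d (nat_lit 524) (nat_lit 523) (nat_lit 3595) (nat_lit 525) (nat_lit 3596)))) (.a (.f (nat_lit 556) (nat_lit 527) (nat_lit 2572) (.d (nat_lit 524) (nat_lit 523) (nat_lit 3595) (nat_lit 525) (nat_lit 3596))) (.p (nat_lit 526) (.a (.f (nat_lit 525) (nat_lit 524) (nat_lit 3596) (.f (nat_lit 589) (nat_lit 588) (nat_lit 1580) (.d (nat_lit 494) (nat_lit 462) (nat_lit 5581) (nat_lit 621) (nat_lit 6637)))) (.a (.f (nat_lit 589) (nat_lit 588) (nat_lit 1580) (.f (nat_lit 494) (nat_lit 462) (nat_lit 5581) (.d (nat_lit 621) (nat_lit 590) (nat_lit 5613) (nat_lit 653) (nat_lit 6669)))) (.f (nat_lit 525) (nat_lit 524) (nat_lit 3596) (.f (nat_lit 527) (nat_lit 497) (nat_lit 2541) (.f (nat_lit 493) (nat_lit 492) (nat_lit 3564) (.d (nat_lit 461) (nat_lit 429) (nat_lit 4525) (nat_lit 590) (nat_lit 4557))))))))))))))))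
noncomputable def s45584 : Cert := .r (nat_lit 3773962425700235452738272624505952193199339552226928146794549392648115485167898379561026699849346401546134558067857772757880134458676407096525164659442171664912122642432) (.p (nat_lit 559) (.a (.p (nat_lit 561) (.a (.p (nat_lit 558) (.a (.f (nat_lit 593) (nat_lit 594) (nat_lit 558) (.f (nat_lit 592) (nat_lit 557) (nat_lit 557) (.d (nat_lit 496) (nat_lit 464) (nat_lit 4560) (nat_lit 625) (nat_lit 4592)))) (.a (.f (nat_lit 526) (nat_lit 525) (nat_lit 3597) (.f (nat_lit 562) (nat_lit 527) (nat_lit 3598) (.d (nat_lit 594) (nat_lit 593) (nat_lit 558) (nat_lit 595) (nat_lit 559)))) (.f (nat_lit 526) (nat_lit 525) (nat_lit 3597) (.f (nat_lit 562) (nat_lit 527) (nat_lit 3598) (.d (nat_lit 590) (nat_lit 589) (nat_lit 1581) (nat_lit 591) (nat_lit 1582))))))) (.a s44998 (.a s44999 (.a (.p (nat_lit 558) (.a (.f (nat_lit 593) (nat_lit 594) (nat_lit 558) (.f (nat_lit 592) (nat_lit 557) (nat_lit 557) (.d (nat_lit 496) (nat_lit 464) (nat_lit 4560) (nat_lit 625) (nat_lit 4592)))) (.f (nat_lit 590) (nat_lit 589) (nat_lit 1581) (.f (nat_lit 591) (nat_lit 562) (nat_lit 1582) (.f (nat_lit 526) (nat_lit 525) (nat_lit 3597) (.d (nat_lit 494) (nat_lit 462) (nat_lit 4558) (nat_lit 623) (nat_lit 4590))))))) (.a (.p (nat_lit 562) (.a (.d (nat_lit 527) (nat_lit 526) (nat_lit 3598) (nat_lit 563) (nat_lit 3599)) (.a (.f (nat_lit 591) (nat_lit 590) (nat_lit 1582) (.f (nat_lit 592) (nat_lit 563) (nat_lit 1583) (.d (nat_lit 496) (nat_lit 464) (nat_lit 5583) (nat_lit 623) (nat_lit 5615)))) (.f (nat_lit 591) (nat_lit 590) (nat_lit 1582) (.f (nat_lit 496) (nat_lit 464) (nat_lit 5583) (.d (nat_lit 527) (nat_lit 526) (nat_lit 3598) (nat_lit 623) (nat_lit 6639))))))) (.a (.p (nat_lit 558) (.a (.f (nat_lit 593) (nat_lit 594) (nat_lit 558) (.f (nat_lit 592) (nat_lit 557) (nat_lit 557) (.d (nat_lit 496) (nat_lit 464) (nat_lit 4560) (nat_lit 625) (nat_lit 4592)))) (.f (nat_lit 590) (nat_lit 589) (nat_lit 1581) (.f (nat_lit 562) (nat_lit 591) (nat_lit 1582) (.f (nat_lit 563) (nat_lit 527) (nat_lit 3599) (.d (nat_lit 531) (nat_lit 530) (nat_lit 2575) (nat_lit 532) (nat_lit 2576))))))) (.a (.p (nat_lit 558) (.a (.f (nat_lit 593) (nat_lit 594) (nat_lit 558) (.f (nat_lit 592) (nat_lit 557) (nat_lit 557) (.d (nat_lit 496) (nat_lit 464) (nat_lit 4560) (nat_lit 625) (nat_lit 4592)))) (.a (.f (nat_lit 525) (nat_lit 526) (nat_lit 3597) (.f (nat_lit 557) (nat_lit 524) (nat_lit 3596) (.d (nat_lit 589) (nat_lit 588) (nat_lit 1580) (nat_lit 590) (nat_lit 1581)))) (.f (nat_lit 593) (nat_lit 594) (nat_lit 558) (.f (nat_lit 496) (nat_lit 464) (nat_lit 4560) (.d (nat_lit 625) (nat_lit 592) (nat_lit 4592) (nat_lit 657) (nat_lit 7696))))))) s13521)))))))) (.a (.p (nat_lit 561) (.a (.p (nat_lit 558) (.a (.f (nat_lit 593) (nat_lit 594) (nat_lit 558) (.f (nat_lit 592) (nat_lit 557) (nat_lit 557) (.d (nat_lit 496) (nat_lit 464) (nat_lit 4560) (nat_lit 625) (nat_lit 4592)))) (.a (.f (nat_lit 526) (nat_lit 525) (nat_lit 3597) (.f (nat_lit 562) (nat_lit 527) (nat_lit 3598) (.d (nat_lit 594) (nat_lit 593) (nat_lit 558) (nat_lit 595) (nat_lit 559)))) (.f (nat_lit 526) (nat_lit 525) (nat_lit 3597) (.f (nat_lit 562) (nat_lit 527) (nat_lit 3598) (.d (nat_lit 590) (nat_lit 589) (nat_lit 1581) (nat_lit 591) (nat_lit 1582))))))) (.a s45001 (.a (.p (nat_lit 562) (.a (.d (nat_lit 527) (nat_lit 526) (nat_lit 3598) (nat_lit 563) (nat_lit 3599)) (.a (.f (nat_lit 591) (nat_lit 590) (nat_lit 1582) (.f (nat_lit 592) (nat_lit 563) (nat_lit 1583) (.d (nat_lit 496) (nat_lit 464) (nat_lit 5583) (nat_lit 623) (nat_lit 5615)))) (.f (nat_lit 591) (nat_lit 590) (nat_lit 1582) (.f (nat_lit 496) (nat_lit 464) (nat_lit 5583) (.d (nat_lit 527) (nat_lit 526) (nat_lit 3598) (nat_lit 623) (nat_lit 6639))))))) (.a (.p (nat_lit 558) (.a (.f (nat_lit 593) (nat_lit 594) (nat_lit 558) (.f (nat_lit 592) (nat_lit 557) (nat_lit 557) (.d (nat_lit 496) (nat_lit 464) (nat_lit 4560) (nat_lit 625) (nat_lit 4592)))) (.a (.f (nat_lit 525) (nat_lit 526) (nat_lit 3597) (.f (nat_lit 557) (nat_lit 524) (nat_lit 3596) (.d (nat_lit 589) (nat_lit 588) (nat_lit 1580) (nat_lit 590) (nat_lit 1581)))) (.f (nat_lit 593) (nat_lit 594) (nat_lit 558) (.f (nat_lit 496) (nat_lit 464) (nat_lit 4560) (.d (nat_lit 625) (nat_lit 592) (nat_lit 4592) (nat_lit 657) (nat_lit 7696))))))) (.a (.p (nat_lit 558) (.a (.f (nat_lit 593) (nat_lit 594) (nat_lit 558) (.f (nat_lit 592) (nat_lit 557) (nat_lit 557) (.d (nat_lit 496) (nat_lit 464) (nat_lit 4560) (nat_lit 625) (nat_lit 4592)))) (.f (nat_lit 590) (nat_lit 589) (nat_lit 1581) (.f (nat_lit 562) (nat_lit 591) (nat_lit 1582) (.f (nat_lit 563) (nat_lit 527) (nat_lit 3599) (.d (nat_lit 531) (nat_lit 530) (nat_lit 2575) (nat_lit 532) (nat_lit 2576))))))) s13521)))))) (.a (.p (nat_lit 561) (.a s44998 (.a s44999 (.a (.p (nat_lit 558) (.a (.f (nat_lit 590) (nat_lit 589) (nat_lit 1581) (.f (nat_lit 591) (nat_lit 562) (nat_lit 1582) (.f (nat_lit 526) (nat_lit 525) (nat_lit 3597) (.d (nat_lit 494) (nat_lit 462) (nat_lit 4558) (nat_lit 623) (nat_lit 4590))))) (.a (.f (nat_lit 525) (nat_lit 526) (nat_lit 3597) (.f (nat_lit 557) (nat_lit 524) (nat_lit 3596) (.d (nat_lit 589) (nat_lit 588) (nat_lit 1580) (nat_lit 590) (nat_lit 1581)))) (.f (nat_lit 593) (nat_lit 594) (nat_lit 558) (.f (nat_lit 592) (nat_lit 557) (nat_lit 557) (.d (nat_lit 625) (nat_lit 496) (nat_lit 4592) (nat_lit 657) (nat_lit 7696))))))) (.a s45001 (.a (.p (nat_lit 562) (.a (.d (nat_lit 527) (nat_lit 526) (nat_lit 3598) (nat_lit 563) (nat_lit 3599)) (.a (.f (nat_lit 591) (nat_lit 590) (nat_lit 1582) (.f (nat_lit 592) (nat_lit 563) (nat_lit 1583) (.d (nat_lit 623) (nat_lit 496) (nat_lit 5615) (nat_lit 655) (nat_lit 6671)))) (.f (nat_lit 591) (nat_lit 590) (nat_lit 1582) (.f (nat_lit 623) (nat_lit 655) (nat_lit 6671) (.d (nat_lit 527) (nat_lit 496) (nat_lit 6639) (nat_lit 526) (nat_lit 3598))))))) (.a (.p (nat_lit 558) (.a (.f (nat_lit 590) (nat_lit 589) (nat_lit 1581) (.f (nat_lit 562) (nat_lit 591) (nat_lit 1582) (.f (nat_lit 563) (nat_lit 527) (nat_lit 3599) (.d (nat_lit 531) (nat_lit 530) (nat_lit 2575) (nat_lit 532) (nat_lit 2576))))) (.f (nat_lit 593) (nat_lit 594) (nat_lit 558) (.f (nat_lit 592) (nat_lit 557) (nat_lit 557) (.d (nat_lit 625) (nat_lit 496) (nat_lit 4592) (nat_lit 657) (nat_lit 7696)))))) (.a (.p (nat_lit 558) (.a (.f (nat_lit 525) (nat_lit 526) (nat_lit 3597) (.f (nat_lit 557) (nat_lit 524) (nat_lit 3596) (.d (nat_lit 589) (nat_lit 588) (nat_lit 1580) (nat_lit 590) (nat_lit 1581)))) (.a (.f (nat_lit 593) (nat_lit 594) (nat_lit 558) (.f (nat_lit 592) (nat_lit 557) (nat_lit 557) (.d (nat_lit 625) (nat_lit 496) (nat_lit 4592) (nat_lit 657) (nat_lit 7696)))) (.f (nat_lit 593) (nat_lit 594) (nat_lit 558) (.f (nat_lit 526) (nat_lit 525) (nat_lit 3597) (.f (nat_lit 590) (nat_lit 589) (nat_lit 1581) (.f (nat_lit 625) (nat_lit 657) (nat_lit 7696) (.f (nat_lit 592) (nat_lit 496) (nat_lit 4592) (.f (nat_lit 591) (nat_lit 626) (nat_lit 590) (.d (nat_lit 494) (nat_lit 462) (nat_lit 4558) (nat_lit 623) (nat_lit 4590))))))))))) (.a (.p (nat_lit 558) (.a (.f (nat_lit 526) (nat_lit 525) (nat_lit 3597) (.f (nat_lit 562) (nat_lit 527) (nat_lit 3598) (.d (nat_lit 594) (nat_lit 593) (nat_lit 558) (nat_lit 595) (nat_lit 559)))) (.a (.f (nat_lit 525) (nat_lit 526) (nat_lit 3597) (.f (nat_lit 557) (nat_lit 524) (nat_lit 3596) (.d (nat_lit 589) (nat_lit 588) (nat_lit 1580) (nat_lit 590) (nat_lit 1581)))) (.f (nat_lit 593) (nat_lit 594) (nat_lit 558) (.f (nat_lit 592) (nat_lit 557) (nat_lit 557) (.d (nat_lit 625) (nat_lit 496) (nat_lit 4592) (nat_lit 657) (nat_lit 7696))))))) (.p (nat_lit 558) (.a (.f (nat_lit 526) (nat_lit 525) (nat_lit 3597) (.f (nat_lit 562) (nat_lit 527) (nat_lit 3598) (.d (nat_lit 594) (nat_lit 593) (nat_lit 558) (nat_lit 595) (nat_lit 559)))) (.a (.f (nat_lit 526) (nat_lit 525) (nat_lit 3597) (.f (nat_lit 562) (nat_lit 527) (nat_lit 3598) (.f (nat_lit 531) (nat_lit 530) (nat_lit 2575) (.f (nat_lit 563) (nat_lit 532) (nat_lit 2576) (.d (nat_lit 595) (nat_lit 594) (nat_lit 559) (nat_lit 596) (nat_lit 560)))))) (.a (.f (nat_lit 593) (nat_lit 594) (nat_lit 558) (.f (nat_lit 592) (nat_lit 557) (nat_lit 557) (.d (nat_lit 625) (nat_lit 496) (nat_lit 4592) (nat_lit 657) (nat_lit 7696)))) (.f (nat_lit 526) (nat_lit 525) (nat_lit 3597) (.f (nat_lit 527) (nat_lit 562) (nat_lit 3598) (.f (nat_lit 557) (nat_lit 556) (nat_lit 2572) (.f (nat_lit 592) (nat_lit 593) (nat_lit 557) (.f (nat_lit 624) (nat_lit 656) (nat_lit 7695) (.f (nat_lit 623) (nat_lit 655) (nat_lit 5647) (.d (nat_lit 591) (nat_lit 494) (nat_lit 7662) (nat_lit 496) (nat_lit 5615))))))))))))))))))))) (.a (.p (nat_lit 561) (.a (.p (nat_lit 558) (.a (.f (nat_lit 593) (nat_lit 594) (nat_lit 558) (.f (nat_lit 592) (nat_lit 557) (nat_lit 557) (.d (nat_lit 496) (nat_lit 464) (nat_lit 4560) (nat_lit 625) (nat_lit 4592)))) (.a (.f (nat_lit 526) (nat_lit 525) (nat_lit 3597) (.f (nat_lit 562) (nat_lit 527) (nat_lit 3598) (.d (nat_lit 594) (nat_lit 593) (nat_lit 558) (nat_lit 595) (nat_lit 559)))) (.f (nat_lit 526) (nat_lit 525) (nat_lit 3597) (.f (nat_lit 562) (nat_lit 527) (nat_lit 3598) (.d (nat_lit 590) (nat_lit 589) (nat_lit 1581) (nat_lit 591) (nat_lit 1582))))))) (.a s45001 (.a (.p (nat_lit 562) (.a (.d (nat_lit 527) (nat_lit 526) (nat_lit 3598) (nat_lit 563) (nat_lit 3599)) (.a (.f (nat_lit 591) (nat_lit 590) (nat_lit 1582) (.f (nat_lit 592) (nat_lit 563) (nat_lit 1583) (.d (nat_lit 496) (nat_lit 464) (nat_lit 5583) (nat_lit 623) (nat_lit 5615)))) (.f (nat_lit 591) (nat_lit 590) (nat_lit 1582) (.f (nat_lit 496) (nat_lit 464) (nat_lit 5583) (.d (nat_lit 527) (nat_lit 526) (nat_lit 3598) (nat_lit 623) (nat_lit 6639))))))) (.a (.p (nat_lit 558) (.a (.f (nat_lit 593) (nat_lit 594) (nat_lit 558) (.f (nat_lit 592) (nat_lit 557) (nat_lit 557) (.d (nat_lit 496) (nat_lit 464) (nat_lit 4560) (nat_lit 625) (nat_lit 4592)))) (.a (.f (nat_lit 525) (nat_lit 526) (nat_lit 3597) (.f (nat_lit 557) (nat_lit 524) (nat_lit 3596) (.d (nat_lit 589) (nat_lit 588) (nat_lit 1580) (nat_lit 590) (nat_lit 1581)))) (.f (nat_lit 593) (nat_lit 594) (nat_lit 558) (.f (nat_lit 496) (nat_lit 464) (nat_lit 4560) (.d (nat_lit 625) (nat_lit 592) (nat_lit 4592) (nat_lit 657) (nat_lit 7696))))))) (.a (.p (nat_lit 558) (.a (.f (nat_lit 593) (nat_lit 594) (nat_lit 558) (.f (nat_lit 592) (nat_lit 557) (nat_lit 557) (.d (nat_lit 496) (nat_lit 464) (nat_lit 4560) (nat_lit 625) (nat_lit 4592)))) (.f (nat_lit 590) (nat_lit 589) (nat_lit 1581) (.f (nat_lit 562) (nat_lit 591) (nat_lit 1582) (.f (nat_lit 563) (nat_lit 527) (nat_lit 3599) (.d (nat_lit 531) (nat_lit 530) (nat_lit 2575) (nat_lit 532) (nat_lit 2576))))))) (.p (nat_lit 558) (.a (.f (nat_lit 593) (nat_lit 594) (nat_lit 558) (.f (nat_lit 592) (nat_lit 557) (nat_lit 557) (.d (nat_lit 496) (nat_lit 464) (nat_lit 4560) (nat_lit 625) (nat_lit 4592)))) (.a (.f (nat_lit 526) (nat_lit 525) (nat_lit 3597) (.f (nat_lit 562) (nat_lit 527) (nat_lit 3598) (.d (nat_lit 594) (nat_lit 593) (nat_lit 558) (nat_lit 595) (nat_lit 559)))) (.a (.f (nat_lit 526) (nat_lit 525) (nat_lit 3597) (.f (nat_lit 562) (nat_lit 527) (nat_lit 3598) (.f (nat_lit 531) (nat_lit 530) (nat_lit 2575) (.f (nat_lit 563) (nat_lit 532) (nat_lit 2576) (.d (nat_lit 595) (nat_lit 594) (nat_lit 559) (nat_lit 596) (nat_lit 560)))))) (.f (nat_lit 526) (nat_lit 525) (nat_lit 3597) (.f (nat_lit 527) (nat_lit 562) (nat_lit 3598) (.f (nat_lit 557) (nat_lit 556) (nat_lit 2572) (.f (nat_lit 592) (nat_lit 593) (nat_lit 557) (.f (nat_lit 624) (nat_lit 656) (nat_lit 7695) (.f (nat_lit 623) (nat_lit 655) (nat_lit 5647) (.f (nat_lit 496) (nat_lit 591) (nat_lit 5615) (.f (nat_lit 464) (nat_lit 432) (nat_lit 5551) (.d (nat_lit 465) (nat_lit 433) (nat_lit 6576) (nat_lit 497) (nat_lit 6608)))))))))))))))))))) (.a (.p (nat_lit 561) (.a s44998 (.a s44999 (.a s45006 (.a s45001 (.a (.p (nat_lit 562) (.a (.d (nat_lit 527) (nat_lit 526) (nat_lit 3598) (nat_lit 563) (nat_lit 3599)) (.a (.f (nat_lit 591) (nat_lit 590) (nat_lit 1582) (.f (nat_lit 563) (nat_lit 592) (nat_lit 1583) (.d (nat_lit 595) (nat_lit 594) (nat_lit 559) (nat_lit 596) (nat_lit 560)))) (.f (nat_lit 591) (nat_lit 590) (nat_lit 1582) (.f (nat_lit 527) (nat_lit 526) (nat_lit 3598) (.f (nat_lit 623) (nat_lit 655) (nat_lit 6671) (.f (nat_lit 624) (nat_lit 656) (nat_lit 4623) (.f (nat_lit 622) (nat_lit 654) (nat_lit 5646) (.f (nat_lit 594) (nat_lit 595) (nat_lit 559) (.d (nat_lit 593) (nat_lit 592) (nat_lit 1614) (nat_lit 625) (nat_lit 2638))))))))))) (.a (.p (nat_lit 558) (.a (.f (nat_lit 590) (nat_lit 589) (nat_lit 1581) (.f (nat_lit 562) (nat_lit 591) (nat_lit 1582) (.f (nat_lit 563) (nat_lit 527) (nat_lit 3599) (.d (nat_lit 531) (nat_lit 530) (nat_lit 2575) (nat_lit 532) (nat_lit 2576))))) (.a (.f (nat_lit 593) (nat_lit 594) (nat_lit 558) (.f (nat_lit 557) (nat_lit 592) (nat_lit 557) (.d (nat_lit 589) (nat_lit 588) (nat_lit 1580) (nat_lit 590) (nat_lit 1581)))) (.a (.f (nat_lit 593) (nat_lit 594) (nat_lit 558) (.f (nat_lit 557) (nat_lit 592) (nat_lit 557) (.f (nat_lit 556) (nat_lit 527) (nat_lit 2572) (.d (nat_lit 588) (nat_lit 587) (nat_lit 1579) (nat_lit 589) (nat_lit 1580))))) (.f (nat_lit 593) (nat_lit 594) (nat_lit 558) (.f (nat_lit 557) (nat_lit 592) (nat_lit 557) (.f (nat_lit 556) (nat_lit 527) (nat_lit 2572) (.d (nat_lit 524) (nat_lit 523) (nat_lit 3595) (nat_lit 525) (nat_lit 3596))))))))) (.a (.p (nat_lit 558) (.a (.f (nat_lit 525) (nat_lit 526) (nat_lit 3597) (.f (nat_lit 557) (nat_lit 524) (nat_lit 3596) (.d (nat_lit 589) (nat_lit 588) (nat_lit 1580) (nat_lit 590) (nat_lit 1581)))) (.a (.f (nat_lit 593) (nat_lit 594) (nat_lit 558) (.f (nat_lit 557) (nat_lit 592) (nat_lit 557) (.d (nat_lit 589) (nat_lit 588) (nat_lit 1580) (nat_lit 590) (nat_lit 1581)))) (.a s45020 (.f (nat_lit 593) (nat_lit 594) (nat_lit 558) (.f (nat_lit 557) (nat_lit 592) (nat_lit 557) (.d (nat_lit 525) (nat_lit 524) (nat_lit 3596) (nat_lit 526) (nat_lit 3597)))))))) (.a (.p (nat_lit 558) (.a (.f (nat_lit 526) (nat_lit 525) (nat_lit 3597) (.f (nat_lit 562) (nat_lit 527) (nat_lit 3598) (.d (nat_lit 594) (nat_lit 593) (nat_lit 558) (nat_lit 595) (nat_lit 559)))) (.a (.f (nat_lit 525) (nat_lit 526) (nat_lit 3597) (.f (nat_lit 557) (nat_lit 524) (nat_lit 3596) (.d (nat_lit 589) (nat_lit 588) (nat_lit 1580) (nat_lit 590) (nat_lit 1581)))) (.f (nat_lit 593) (nat_lit 594) (nat_lit 558) (.f (nat_lit 557) (nat_lit 592) (nat_lit 557) (.d (nat_lit 589) (nat_lit 588) (nat_lit 1580) (nat_lit 590) (nat_lit 1581))))))) (.a (.p (nat_lit 558) (.a (.f (nat_lit 526) (nat_lit 525) (nat_lit 3597) (.f (nat_lit 562) (nat_lit 527) (nat_lit 3598) (.d (nat_lit 594) (nat_lit 593) (nat_lit 558) (nat_lit 595) (nat_lit 559)))) (.a (.f (nat_lit 526) (nat_lit 525) (nat_lit 3597) (.f (nat_lit 562) (nat_lit 527) (nat_lit 3598) (.f (nat_lit 531) (nat_lit 530) (nat_lit 2575) (.f (nat_lit 563) (nat_lit 532) (nat_lit 2576) (.d (nat_lit 595) (nat_lit 594) (nat_lit 559) (nat_lit 596) (nat_lit 560)))))) (.a (.f (nat_lit 593) (nat_lit 594) (nat_lit 558) (.f (nat_lit 557) (nat_lit 592) (nat_lit 557) (.d (nat_lit 525) (nat_lit 524) (nat_lit 3596) (nat_lit 526) (nat_lit 3597)))) (.a (.f (nat_lit 593) (nat_lit 594) (nat_lit 558) (.f (nat_lit 557) (nat_lit 592) (nat_lit 557) (.f (nat_lit 556) (nat_lit 527) (nat_lit 2572) (.d (nat_lit 588) (nat_lit 587) (nat_lit 1579) (nat_lit 589) (nat_lit 1580))))) (.f (nat_lit 526) (nat_lit 525) (nat_lit 3597) (.f (nat_lit 527) (nat_lit 562) (nat_lit 3598) (.f (nat_lit 557) (nat_lit 556) (nat_lit 2572) (.f (nat_lit 589) (nat_lit 588) (nat_lit 1580) (.f (nat_lit 494) (nat_lit 462) (nat_lit 5581) (.f (nat_lit 623) (nat_lit 591) (nat_lit 7662) (.f (nat_lit 592) (nat_lit 593) (nat_lit 557) (.d (nat_lit 624) (nat_lit 655) (nat_lit 5647) (nat_lit 656) (nat_lit 7695)))))))))))))) (.p (nat_lit 558) (.a (.f (nat_lit 526) (nat_lit 525) (nat_lit 3597) (.f (nat_lit 562) (nat_lit 527) (nat_lit 3598) (.d (nat_lit 590) (nat_lit 589) (nat_lit 1581) (nat_lit 591) (nat_lit 1582)))) (.a (.f (nat_lit 590) (nat_lit 589) (nat_lit 1581) (.f (nat_lit 591) (nat_lit 562) (nat_lit 1582) (.f (nat_lit 526) (nat_lit 525) (nat_lit 3597) (.d (nat_lit 494) (nat_lit 462) (nat_lit 4558) (nat_lit 623) (nat_lit 4590))))) (.a (.f (nat_lit 590) (nat_lit 589) (nat_lit 1581) (.f (nat_lit 562) (nat_lit 591) (nat_lit 1582) (.f (nat_lit 563) (nat_lit 527) (nat_lit 3599) (.d (nat_lit 531) (nat_lit 530) (nat_lit 2575) (nat_lit 532) (nat_lit 2576))))) (.a (.f (nat_lit 525) (nat_lit 526) (nat_lit 3597) (.f (nat_lit 557) (nat_lit 524) (nat_lit 3596) (.d (nat_lit 589) (nat_lit 588) (nat_lit 1580) (nat_lit 590) (nat_lit 1581)))) (.a (.f (nat_lit 526) (nat_lit 525) (nat_lit 3597) (.f (nat_lit 527) (nat_lit 562) (nat_lit 3598) (.f (nat_lit 557) (nat_lit 556) (nat_lit 2572) (.f (nat_lit 589) (nat_lit 588) (nat_lit 1580) (.f (nat_lit 494) (nat_lit 462) (nat_lit 5581) (.f (nat_lit 623) (nat_lit 591) (nat_lit 7662) (.f (nat_lit 592) (nat_lit 593) (nat_lit 557) (.d (nat_lit 624) (nat_lit 655) (nat_lit 5647) (nat_lit 656) (nat_lit 7695))))))))) (.f (nat_lit 526) (nat_lit 525) (nat_lit 3597) (.f (nat_lit 562) (nat_lit 527) (nat_lit 3598) (.f (nat_lit 591) (nat_lit 590) (nat_lit 1582) (.f (nat_lit 592) (nat_lit 563) (nat_lit 1583) (.d (nat_lit 557) (nat_lit 556) (nat_lit 556) (nat_lit 593) (nat_lit 557)))))))))))))))))))))) (.a (.p (nat_lit 561) (.a (.p (nat_lit 558) (.a (.f (nat_lit 593) (nat_lit 594) (nat_lit 558) (.f (nat_lit 592) (nat_lit 557) (nat_lit 557) (.d (nat_lit 496) (nat_lit 464) (nat_lit 4560) (nat_lit 625) (nat_lit 4592)))) (.a (.f (nat_lit 526) (nat_lit 525) (nat_lit 3597) (.f (nat_lit 562) (nat_lit 527) (nat_lit 3598) (.d (nat_lit 594) (nat_lit 593) (nat_lit 558) (nat_lit 595) (nat_lit 559)))) (.f (nat_lit 526) (nat_lit 525) (nat_lit 3597) (.f (nat_lit 562) (nat_lit 527) (nat_lit 3598) (.d (nat_lit 590) (nat_lit 589) (nat_lit 1581) (nat_lit 591) (nat_lit 1582))))))) (.a (.p (nat_lit 562) (.a (.d (nat_lit 527) (nat_lit 526) (nat_lit 3598) (nat_lit 563) (nat_lit 3599)) (.f (nat_lit 594) (nat_lit 595) (nat_lit 559) (.f (nat_lit 593) (nat_lit 558) (nat_lit 558) (.f (nat_lit 530) (nat_lit 531) (nat_lit 2575) (.d (nat_lit 498) (nat_lit 466) (nat_lit 5585) (nat_lit 625) (nat_lit 5617))))))) (.a (.p (nat_lit 562) (.a (.d (nat_lit 527) (nat_lit 526) (nat_lit 3598) (nat_lit 563) (nat_lit 3599)) (.a (.f (nat_lit 591) (nat_lit 590) (nat_lit 1582) (.f (nat_lit 592) (nat_lit 563) (nat_lit 1583) (.d (nat_lit 496) (nat_lit 464) (nat_lit 5583) (nat_lit 623) (nat_lit 5615)))) (.f (nat_lit 591) (nat_lit 590) (nat_lit 1582) (.f (nat_lit 496) (nat_lit 464) (nat_lit 5583) (.d (nat_lit 527) (nat_lit 526) (nat_lit 3598) (nat_lit 623) (nat_lit 6639))))))) (.a (.p (nat_lit 558) (.a (.f (nat_lit 593) (nat_lit 594) (nat_lit 558) (.f (nat_lit 592) (nat_lit 557) (nat_lit 557) (.d (nat_lit 496) (nat_lit 464) (nat_lit 4560) (nat_lit 625) (nat_lit 4592)))) (.f (nat_lit 590) (nat_lit 589) (nat_lit 1581) (.f (nat_lit 591) (nat_lit 562) (nat_lit 1582) (.f (nat_lit 526) (nat_lit 525) (nat_lit 3597) (.d (nat_lit 494) (nat_lit 462) (nat_lit 4558) (nat_lit 623) (nat_lit 4590))))))) (.a (.p (nat_lit 558) (.a (.f (nat_lit 593) (nat_lit 594) (nat_lit 558) (.f (nat_lit 592) (nat_lit 557) (nat_lit 557) (.d (nat_lit 496) (nat_lit 464) (nat_lit 4560) (nat_lit 625) (nat_lit 4592)))) (.f (nat_lit 590) (nat_lit 589) (nat_lit 1581) (.f (nat_lit 562) (nat_lit 591) (nat_lit 1582) (.f (nat_lit 563) (nat_lit 527) (nat_lit 3599) (.d (nat_lit 531) (nat_lit 530) (nat_lit 2575) (nat_lit 532) (nat_lit 2576))))))) (.p (nat_lit 592) (.a (.p (nat_lit 558) (.a (.d (nat_lit 593) (nat_lit 557) (nat_lit 557) (nat_lit 594) (nat_lit 558)) (.a (.f (nat_lit 589) (nat_lit 590) (nat_lit 1581) (.f (nat_lit 557) (nat_lit 588) (nat_lit 1580) (.d (nat_lit 556) (nat_lit 527) (nat_lit 2572) (nat_lit 591) (nat_lit 556)))) (.f (nat_lit 593) (nat_lit 594) (nat_lit 558) (.f (nat_lit 625) (nat_lit 657) (nat_lit 7696) (.f (nat_lit 590) (nat_lit 589) (nat_lit 1581) (.f (nat_lit 591) (nat_lit 626) (nat_lit 590) (.f (nat_lit 623) (nat_lit 655) (nat_lit 6671) (.d (nat_lit 526) (nat_lit 494) (nat_lit 4590) (nat_lit 525) (nat_lit 3597)))))))))) (.a (.p (nat_lit 624) (.a (.f (nat_lit 656) (nat_lit 527) (nat_lit 7695) (.d (nat_lit 655) (nat_lit 623) (nat_lit 5647) (nat_lit 687) (nat_lit 5679))) (.a (.f (nat_lit 623) (nat_lit 655) (nat_lit 5647) (.f (nat_lit 591) (nat_lit 496) (nat_lit 5615) (.f (nat_lit 590) (nat_lit 589) (nat_lit 2605) (.d (nat_lit 625) (nat_lit 626) (nat_lit 3662) (nat_lit 657) (nat_lit 4624))))) (.f (nat_lit 656) (nat_lit 527) (nat_lit 7695) (.d (nat_lit 657) (nat_lit 625) (nat_lit 4624) (nat_lit 689) (nat_lit 4656)))))) (.a (.p (nat_lit 558) (.a (.d (nat_lit 593) (nat_lit 557) (nat_lit 557) (nat_lit 594) (nat_lit 558)) (.a (.f (nat_lit 589) (nat_lit 590) (nat_lit 1581) (.f (nat_lit 557) (nat_lit 588) (nat_lit 1580) (.f (nat_lit 591) (nat_lit 556) (nat_lit 556) (.d (nat_lit 496) (nat_lit 464) (nat_lit 5583) (nat_lit 623) (nat_lit 5615))))) (.f (nat_lit 593) (nat_lit 594) (nat_lit 558) (.f (nat_lit 625) (nat_lit 657) (nat_lit 7696) (.f (nat_lit 590) (nat_lit 589) (nat_lit 1581) (.f (nat_lit 591) (nat_lit 626) (nat_lit 590) (.f (nat_lit 623) (nat_lit 655) (nat_lit 6671) (.d (nat_lit 526) (nat_lit 494) (nat_lit 4590) (nat_lit 525) (nat_lit 3597)))))))))) (.a (.p (nat_lit 558) (.a (.d (nat_lit 593) (nat_lit 557) (nat_lit 557) (nat_lit 594) (nat_lit 558)) (.a (.f (nat_lit 589) (nat_lit 590) (nat_lit 1581) (.f (nat_lit 557) (nat_lit 588) (nat_lit 1580) (.d (nat_lit 556) (nat_lit 527) (nat_lit 2572) (nat_lit 591) (nat_lit 556)))) (.f (nat_lit 593) (nat_lit 594) (nat_lit 558) (.d (nat_lit 625) (nat_lit 496) (nat_lit 4592) (nat_lit 657) (nat_lit 7696)))))) (.a (.p (nat_lit 558) (.a (.d (nat_lit 593) (nat_lit 557) (nat_lit 557) (nat_lit 594) (nat_lit 558)) (.a (.f (nat_lit 589) (nat_lit 590) (nat_lit 1581) (.f (nat_lit 557) (nat_lit 588) (nat_lit 1580) (.d (nat_lit 556) (nat_lit 527) (nat_lit 2572) (nat_lit 591) (nat_lit 556)))) (.f (nat_lit 593) (nat_lit 594) (nat_lit 558) (.f (nat_lit 496) (nat_lit 464) (nat_lit 4560) (.f (nat_lit 591) (nat_lit 623) (nat_lit 5615) (.f (nat_lit 590) (nat_lit 589) (nat_lit 1581) (.f (nat_lit 622) (nat_lit 621) (nat_lit 1613) (.d (nat_lit 654) (nat_lit 527) (nat_lit 6670) (nat_lit 686) (nat_lit 6702)))))))))) (.p (nat_lit 624) (.a (.f (nat_lit 656) (nat_lit 527) (nat_lit 7695) (.d (nat_lit 655) (nat_lit 623) (nat_lit 5647) (nat_lit 687) (nat_lit 5679))) (.f (nat_lit 625) (nat_lit 657) (nat_lit 4624) (.f (nat_lit 593) (nat_lit 496) (nat_lit 4592) (.d (nat_lit 558) (nat_lit 557) (nat_lit 557) (nat_lit 594) (nat_lit 558)))))))))))))))))) (.a (.p (nat_lit 561) (.a (.p (nat_lit 562) (.a (.d (nat_lit 527) (nat_lit 526) (nat_lit 3598) (nat_lit 563) (nat_lit 3599)) (.a (.f (nat_lit 591) (nat_lit 590) (nat_lit 1582) (.f (nat_lit 592) (nat_lit 563) (nat_lit 1583) (.d (nat_lit 496) (nat_lit 464) (nat_lit 5583) (nat_lit 623) (nat_lit 5615)))) (.f (nat_lit 591) (nat_lit 590) (nat_lit 1582) (.f (nat_lit 496) (nat_lit 464) (nat_lit 5583) (.d (nat_lit 527) (nat_lit 526) (nat_lit 3598) (nat_lit 623) (nat_lit 6639))))))) (.a (.p (nat_lit 562) (.a (.d (nat_lit 527) (nat_lit 526) (nat_lit 3598) (nat_lit 563) (nat_lit 3599)) (.f (nat_lit 594) (nat_lit 595) (nat_lit 559) (.f (nat_lit 593) (nat_lit 558) (nat_lit 558) (.f (nat_lit 530) (nat_lit 531) (nat_lit 2575) (.d (nat_lit 498) (nat_lit 466) (nat_lit 5585) (nat_lit 625) (nat_lit 5617))))))) (.a (.p (nat_lit 558) (.a (.f (nat_lit 593) (nat_lit 594) (nat_lit 558) (.f (nat_lit 592) (nat_lit 557) (nat_lit 557) (.d (nat_lit 496) (nat_lit 464) (nat_lit 4560) (nat_lit 625) (nat_lit 4592)))) (.a (.f (nat_lit 590) (nat_lit 589) (nat_lit 1581) (.f (nat_lit 562) (nat_lit 591) (nat_lit 1582) (.d (nat_lit 594) (nat_lit 593) (nat_lit 558) (nat_lit 595) (nat_lit 559)))) (.f (nat_lit 590) (nat_lit 589) (nat_lit 1581) (.f (nat_lit 591) (nat_lit 562) (nat_lit 1582) (.f (nat_lit 623) (nat_lit 655) (nat_lit 6671) (.d (nat_lit 496) (nat_lit 464) (nat_lit 5583) (nat_lit 592) (nat_lit 5615)))))))) (.p (nat_lit 592) (.a (.p (nat_lit 624) (.a (.f (nat_lit 656) (nat_lit 527) (nat_lit 7695) (.d (nat_lit 655) (nat_lit 623) (nat_lit 5647) (nat_lit 687) (nat_lit 5679))) (.a (.f (nat_lit 623) (nat_lit 655) (nat_lit 5647) (.f (nat_lit 591) (nat_lit 496) (nat_lit 5615) (.f (nat_lit 590) (nat_lit 589) (nat_lit 2605) (.d (nat_lit 625) (nat_lit 626) (nat_lit 3662) (nat_lit 657) (nat_lit 4624))))) (.f (nat_lit 656) (nat_lit 527) (nat_lit 7695) (.d (nat_lit 657) (nat_lit 625) (nat_lit 4624) (nat_lit 689) (nat_lit 4656)))))) (.a (.p (nat_lit 558) (.a (.d (nat_lit 593) (nat_lit 557) (nat_lit 557) (nat_lit 594) (nat_lit 558)) (.a (.f (nat_lit 589) (nat_lit 590) (nat_lit 1581) (.f (nat_lit 557) (nat_lit 588) (nat_lit 1580) (.f (nat_lit 591) (nat_lit 556) (nat_lit 556) (.d (nat_lit 496) (nat_lit 464) (nat_lit 5583) (nat_lit 623) (nat_lit 5615))))) (.f (nat_lit 593) (nat_lit 594) (nat_lit 558) (.d (nat_lit 625) (nat_lit 496) (nat_lit 4592) (nat_lit 657) (nat_lit 7696)))))) (.a (.p (nat_lit 558) (.a (.d (nat_lit 593) (nat_lit 557) (nat_lit 557) (nat_lit 594) (nat_lit 558)) (.a (.f (nat_lit 589) (nat_lit 590) (nat_lit 1581) (.f (nat_lit 557) (nat_lit 588) (nat_lit 1580) (.d (nat_lit 556) (nat_lit 527) (nat_lit 2572) (nat_lit 591) (nat_lit 556)))) (.f (nat_lit 593) (nat_lit 594) (nat_lit 558) (.f (nat_lit 625) (nat_lit 657) (nat_lit 7696) (.f (nat_lit 590) (nat_lit 589) (nat_lit 1581) (.f (nat_lit 591) (nat_lit 626) (nat_lit 590) (.f (nat_lit 622) (nat_lit 621) (nat_lit 1613) (.d (nat_lit 654) (nat_lit 527) (nat_lit 6670) (nat_lit 686) (nat_lit 6702)))))))))) (.a (.p (nat_lit 558) (.a (.d (nat_lit 593) (nat_lit 557) (nat_lit 557) (nat_lit 594) (nat_lit 558)) (.a (.f (nat_lit 589) (nat_lit 590) (nat_lit 1581) (.f (nat_lit 557) (nat_lit 588) (nat_lit 1580) (.d (nat_lit 556) (nat_lit 527) (nat_lit 2572) (nat_lit 591) (nat_lit 556)))) (.f (nat_lit 593) (nat_lit 594) (nat_lit 558) (.f (nat_lit 496) (nat_lit 464) (nat_lit 4560) (.f (nat_lit 591) (nat_lit 623) (nat_lit 5615) (.f (nat_lit 590) (nat_lit 589) (nat_lit 1581) (.f (nat_lit 622) (nat_lit 621) (nat_lit 1613) (.d (nat_lit 654) (nat_lit 527) (nat_lit 6670) (nat_lit 686) (nat_lit 6702)))))))))) (.p (nat_lit 624) (.a (.f (nat_lit 656) (nat_lit 527) (nat_lit 7695) (.d (nat_lit 655) (nat_lit 623) (nat_lit 5647) (nat_lit 687) (nat_lit 5679))) (.f (nat_lit 625) (nat_lit 657) (nat_lit 4624) (.f (nat_lit 593) (nat_lit 496) (nat_lit 4592) (.d (nat_lit 558) (nat_lit 557) (nat_lit 557) (nat_lit 594) (nat_lit 558))))))))))))))) (.a (.p (nat_lit 561) (.a (.p (nat_lit 558) (.a (.f (nat_lit 593) (nat_lit 594) (nat_lit 558) (.f (nat_lit 592) (nat_lit 557) (nat_lit 557) (.d (nat_lit 496) (nat_lit 464) (nat_lit 4560) (nat_lit 625) (nat_lit 4592)))) (.f (nat_lit 590) (nat_lit 589) (nat_lit 1581) (.f (nat_lit 562) (nat_lit 591) (nat_lit 1582) (.f (nat_lit 563) (nat_lit 527) (nat_lit 3599) (.d (nat_lit 531) (nat_lit 530) (nat_lit 2575) (nat_lit 532) (nat_lit 2576))))))) (.a (.p (nat_lit 558) (.a (.f (nat_lit 590) (nat_lit 589) (nat_lit 1581) (.f (nat_lit 562) (nat_lit 591) (nat_lit 1582) (.f (nat_lit 563) (nat_lit 527) (nat_lit 3599) (.d (nat_lit 531) (nat_lit 530) (nat_lit 2575) (nat_lit 532) (nat_lit 2576))))) (.a (.f (nat_lit 590) (nat_lit 589) (nat_lit 1581) (.f (nat_lit 562) (nat_lit 591) (nat_lit 1582) (.d (nat_lit 594) (nat_lit 593) (nat_lit 558) (nat_lit 595) (nat_lit 559)))) (.a (.f (nat_lit 589) (nat_lit 590) (nat_lit 1581) (.f (nat_lit 557) (nat_lit 588) (nat_lit 1580) (.f (nat_lit 556) (nat_lit 527) (nat_lit 2572) (.d (nat_lit 524) (nat_lit 523) (nat_lit 3595) (nat_lit 525) (nat_lit 3596))))) (.f (nat_lit 594) (nat_lit 593) (nat_lit 558) (.f (nat_lit 562) (nat_lit 595) (nat_lit 559) (.f (nat_lit 531) (nat_lit 530) (nat_lit 2575) (.d (nat_lit 563) (nat_lit 527) (nat_lit 3599) (nat_lit 532) (nat_lit 2576))))))))) (.a (.p (nat_lit 562) (.a (.f (nat_lit 591) (nat_lit 590) (nat_lit 1582) (.f (nat_lit 592) (nat_lit 563) (nat_lit 1583) (.d (nat_lit 496) (nat_lit 464) (nat_lit 5583) (nat_lit 623) (nat_lit 5615)))) (.a (.f (nat_lit 563) (nat_lit 527) (nat_lit 3599) (.d (nat_lit 531) (nat_lit 530) (nat_lit 2575) (nat_lit 532) (nat_lit 2576))) (.f (nat_lit 591) (nat_lit 590) (nat_lit 1582) (.f (nat_lit 623) (nat_lit 655) (nat_lit 6671) (.d (nat_lit 496) (nat_lit 464) (nat_lit 5583) (nat_lit 527) (nat_lit 6639))))))) (.a (.p (nat_lit 558) (.a (.f (nat_lit 593) (nat_lit 594) (nat_lit 558) (.f (nat_lit 592) (nat_lit 557) (nat_lit 557) (.d (nat_lit 496) (nat_lit 464) (nat_lit 4560) (nat_lit 625) (nat_lit 4592)))) (.a (.f (nat_lit 590) (nat_lit 589) (nat_lit 1581) (.f (nat_lit 562) (nat_lit 591) (nat_lit 1582) (.d (nat_lit 594) (nat_lit 593) (nat_lit 558) (nat_lit 595) (nat_lit 559)))) (.f (nat_lit 590) (nat_lit 589) (nat_lit 1581) (.f (nat_lit 591) (nat_lit 562) (nat_lit 1582) (.f (nat_lit 623) (nat_lit 655) (nat_lit 6671) (.d (nat_lit 496) (nat_lit 464) (nat_lit 5583) (nat_lit 592) (nat_lit 5615)))))))) (.a (.p (nat_lit 558) (.a (.f (nat_lit 593) (nat_lit 594) (nat_lit 558) (.f (nat_lit 592) (nat_lit 557) (nat_lit 557) (.d (nat_lit 496) (nat_lit 464) (nat_lit 4560) (nat_lit 625) (nat_lit 4592)))) (.a (.f (nat_lit 589) (nat_lit 590) (nat_lit 1581) (.f (nat_lit 557) (nat_lit 588) (nat_lit 1580) (.f (nat_lit 556) (nat_lit 527) (nat_lit 2572) (.d (nat_lit 524) (nat_lit 523) (nat_lit 3595) (nat_lit 525) (nat_lit 3596))))) (.f (nat_lit 593) (nat_lit 594) (nat_lit 558) (.f (nat_lit 496) (nat_lit 464) (nat_lit 4560) (.d (nat_lit 625) (nat_lit 592) (nat_lit 4592) (nat_lit 657) (nat_lit 7696))))))) (.p (nat_lit 562) (.a (.f (nat_lit 594) (nat_lit 595) (nat_lit 559) (.f (nat_lit 593) (nat_lit 558) (nat_lit 558) (.f (nat_lit 530) (nat_lit 531) (nat_lit 2575) (.d (nat_lit 498) (nat_lit 466) (nat_lit 5585) (nat_lit 625) (nat_lit 5617))))) (.a (.f (nat_lit 563) (nat_lit 527) (nat_lit 3599) (.d (nat_lit 531) (nat_lit 530) (nat_lit 2575) (nat_lit 532) (nat_lit 2576))) (.f (nat_lit 563) (nat_lit 527) (nat_lit 3599) (.d (nat_lit 595) (nat_lit 594) (nat_lit 559) (nat_lit 596) (nat_lit 560)))))))))))) (.a (.p (nat_lit 592) (.a (.p (nat_lit 624) (.a (.f (nat_lit 623) (nat_lit 655) (nat_lit 5647) (.f (nat_lit 591) (nat_lit 496) (nat_lit 5615) (.f (nat_lit 625) (nat_lit 657) (nat_lit 4624) (.d (nat_lit 626) (nat_lit 590) (nat_lit 3662) (nat_lit 627) (nat_lit 3663))))) (.a (.f (nat_lit 655) (nat_lit 623) (nat_lit 5647) (.f (nat_lit 656) (nat_lit 687) (nat_lit 5679) (.d (nat_lit 657) (nat_lit 625) (nat_lit 4624) (nat_lit 689) (nat_lit 4656)))) (.a (.f (nat_lit 625) (nat_lit 657) (nat_lit 4624) (.f (nat_lit 593) (nat_lit 496) (nat_lit 4592) (.f (nat_lit 594) (nat_lit 595) (nat_lit 3631) (.d (nat_lit 558) (nat_lit 557) (nat_lit 557) (nat_lit 591) (nat_lit 3630))))) (.a (.f (nat_lit 655) (nat_lit 623) (nat_lit 5647) (.f (nat_lit 656) (nat_lit 687) (nat_lit 5679) (.f (nat_lit 688) (nat_lit 591) (nat_lit 7727) (.d (nat_lit 689) (nat_lit 657) (nat_lit 4656) (nat_lit 721) (nat_lit 4688))))) (.f (nat_lit 623) (nat_lit 655) (nat_lit 5647) (.f (nat_lit 496) (nat_lit 591) (nat_lit 5615) (.f (nat_lit 593) (nat_lit 625) (nat_lit 4592) (.f (nat_lit 594) (nat_lit 595) (nat_lit 1615) (.d (nat_lit 558) (nat_lit 557) (nat_lit 557) (nat_lit 561) (nat_lit 558))))))))))) (.a s45079 (.a (.p (nat_lit 496) (.a (.d (nat_lit 591) (nat_lit 464) (nat_lit 5583) (nat_lit 623) (nat_lit 5615)) (.a (.f (nat_lit 464) (nat_lit 591) (nat_lit 5583) (.d (nat_lit 593) (nat_lit 561) (nat_lit 4560) (nat_lit 625) (nat_lit 4592))) (.a (.f (nat_lit 591) (nat_lit 623) (nat_lit 5615) (.f (nat_lit 593) (nat_lit 625) (nat_lit 4592) (.d (nat_lit 594) (nat_lit 558) (nat_lit 3630) (nat_lit 595) (nat_lit 3631)))) (.f (nat_lit 593) (nat_lit 625) (nat_lit 4592) (.f (nat_lit 561) (nat_lit 464) (nat_lit 4560) (.d (nat_lit 558) (nat_lit 557) (nat_lit 557) (nat_lit 594) (nat_lit 558)))))))) (.a (.p (nat_lit 561) (.a s45092 (.a s45093 (.a (.p (nat_lit 562) (.a (.d (nat_lit 591) (nat_lit 563) (nat_lit 1583) (nat_lit 590) (nat_lit 1582)) (.a (.f (nat_lit 595) (nat_lit 594) (nat_lit 559) (.f (nat_lit 563) (nat_lit 596) (nat_lit 560) (.d (nat_lit 531) (nat_lit 530) (nat_lit 2575) (nat_lit 532) (nat_lit 2576)))) (.f (nat_lit 591) (nat_lit 590) (nat_lit 1582) (.f (nat_lit 623) (nat_lit 655) (nat_lit 6671) (.f (nat_lit 594) (nat_lit 595) (nat_lit 559) (.f (nat_lit 593) (nat_lit 622) (nat_lit 1614) (.f (nat_lit 625) (nat_lit 657) (nat_lit 7696) (.d (nat_lit 530) (nat_lit 498) (nat_lit 5617) (nat_lit 531) (nat_lit 2575)))))))))) (.a (.p (nat_lit 558) (.a (.d (nat_lit 593) (nat_lit 557) (nat_lit 557) (nat_lit 594) (nat_lit 558)) (.a (.f (nat_lit 525) (nat_lit 526) (nat_lit 3597) (.f (nat_lit 557) (nat_lit 524) (nat_lit 3596) (.d (nat_lit 589) (nat_lit 588) (nat_lit 1580) (nat_lit 590) (nat_lit 1581)))) (.f (nat_lit 593) (nat_lit 594) (nat_lit 558) (.f (nat_lit 625) (nat_lit 657) (nat_lit 7696) (.f (nat_lit 590) (nat_lit 589) (nat_lit 1581) (.f (nat_lit 591) (nat_lit 626) (nat_lit 590) (.f (nat_lit 623) (nat_lit 655) (nat_lit 6671) (.d (nat_lit 526) (nat_lit 494) (nat_lit 4590) (nat_lit 525) (nat_lit 3597)))))))))) (.a (.p (nat_lit 562) (.a (.f (nat_lit 595) (nat_lit 594) (nat_lit 559) (.f (nat_lit 563) (nat_lit 596) (nat_lit 560) (.d (nat_lit 531) (nat_lit 530) (nat_lit 2575) (nat_lit 532) (nat_lit 2576)))) (.a (.f (nat_lit 594) (nat_lit 595) (nat_lit 559) (.f (nat_lit 593) (nat_lit 558) (nat_lit 558) (.f (nat_lit 625) (nat_lit 657) (nat_lit 7696) (.d (nat_lit 530) (nat_lit 498) (nat_lit 5617) (nat_lit 531) (nat_lit 2575))))) (.a (.f (nat_lit 531) (nat_lit 530) (nat_lit 2575) (.f (nat_lit 563) (nat_lit 532) (nat_lit 2576) (.f (nat_lit 564) (nat_lit 593) (nat_lit 1584) (.d (nat_lit 596) (nat_lit 595) (nat_lit 560) (nat_lit 597) (nat_lit 561))))) (.a (.f (nat_lit 531) (nat_lit 530) (nat_lit 2575) (.f (nat_lit 563) (nat_lit 532) (nat_lit 2576) (.f (nat_lit 593) (nat_lit 564) (nat_lit 1584) (.d (nat_lit 558) (nat_lit 557) (nat_lit 557) (nat_lit 594) (nat_lit 558))))) (.f (nat_lit 594) (nat_lit 595) (nat_lit 559) (.f (nat_lit 558) (nat_lit 593) (nat_lit 558) (.f (nat_lit 525) (nat_lit 526) (nat_lit 3597) (.f (nat_lit 557) (nat_lit 524) (nat_lit 3596) (.d (nat_lit 589) (nat_lit 588) (nat_lit 1580) (nat_lit 590) (nat_lit 1581))))))))))) (.a (.p (nat_lit 558) (.a (.d (nat_lit 593) (nat_lit 557) (nat_lit 557) (nat_lit 594) (nat_lit 558)) (.a (.f (nat_lit 525) (nat_lit 526) (nat_lit 3597) (.f (nat_lit 557) (nat_lit 524) (nat_lit 3596) (.f (nat_lit 588) (nat_lit 589) (nat_lit 1580) (.d (nat_lit 556) (nat_lit 587) (nat_lit 1579) (nat_lit 591) (nat_lit 556))))) (.f (nat_lit 594) (nat_lit 593) (nat_lit 558) (.f (nat_lit 562) (nat_lit 595) (nat_lit 559) (.f (nat_lit 563) (nat_lit 591) (nat_lit 1583) (.d (nat_lit 531) (nat_lit 530) (nat_lit 2575) (nat_lit 532) (nat_lit 2576)))))))) s45098))))))) (.a (.p (nat_lit 496) (.a (.f (nat_lit 464) (nat_lit 591) (nat_lit 5583) (.d (nat_lit 593) (nat_lit 561) (nat_lit 4560) (nat_lit 625) (nat_lit 4592))) (.a (.f (nat_lit 464) (nat_lit 591) (nat_lit 5583) (.d (nat_lit 465) (nat_lit 433) (nat_lit 6576) (nat_lit 497) (nat_lit 6608))) (.a (.f (nat_lit 593) (nat_lit 625) (nat_lit 4592) (.f (nat_lit 594) (nat_lit 595) (nat_lit 3631) (.d (nat_lit 558) (nat_lit 557) (nat_lit 557) (nat_lit 591) (nat_lit 3630)))) (.f (nat_lit 593) (nat_lit 625) (nat_lit 4592) (.f (nat_lit 561) (nat_lit 464) (nat_lit 4560) (.d (nat_lit 558) (nat_lit 557) (nat_lit 557) (nat_lit 594) (nat_lit 558)))))))) (.a (.p (nat_lit 561) (.a s45110 (.a s45092 (.a s45093 (.a (.p (nat_lit 496) (.a (.d (nat_lit 464) (nat_lit 591) (nat_lit 5583) (nat_lit 593) (nat_lit 4560)) (.a (.d (nat_lit 591) (nat_lit 464) (nat_lit 5583) (nat_lit 623) (nat_lit 5615)) (.a (.f (nat_lit 591) (nat_lit 623) (nat_lit 5615) (.d (nat_lit 590) (nat_lit 562) (nat_lit 1582) (nat_lit 589) (nat_lit 2605))) (.f (nat_lit 464) (nat_lit 593) (nat_lit 4560) (.d (nat_lit 465) (nat_lit 433) (nat_lit 6576) (nat_lit 497) (nat_lit 6608))))))) (.a (.p (nat_lit 558) (.a (.d (nat_lit 593) (nat_lit 557) (nat_lit 557) (nat_lit 594) (nat_lit 558)) (.a (.f (nat_lit 589) (nat_lit 590) (nat_lit 1581) (.f (nat_lit 557) (nat_lit 588) (nat_lit 1580) (.f (nat_lit 591) (nat_lit 556) (nat_lit 556) (.d (nat_lit 496) (nat_lit 464) (nat_lit 5583) (nat_lit 623) (nat_lit 5615))))) (.f (nat_lit 593) (nat_lit 594) (nat_lit 558) (.f (nat_lit 496) (nat_lit 464) (nat_lit 4560) (.f (nat_lit 623) (nat_lit 591) (nat_lit 5615) (.f (nat_lit 655) (nat_lit 624) (nat_lit 5647) (.f (nat_lit 590) (nat_lit 589) (nat_lit 1581) (.d (nat_lit 526) (nat_lit 525) (nat_lit 3597) (nat_lit 622) (nat_lit 4622)))))))))) (.a (.p (nat_lit 562) (.a (.f (nat_lit 595) (nat_lit 594) (nat_lit 559) (.f (nat_lit 563) (nat_lit 596) (nat_lit 560) (.d (nat_lit 531) (nat_lit 530) (nat_lit 2575) (nat_lit 532) (nat_lit 2576)))) (.a (.f (nat_lit 594) (nat_lit 595) (nat_lit 559) (.f (nat_lit 558) (nat_lit 593) (nat_lit 558) (.f (nat_lit 525) (nat_lit 526) (nat_lit 3597) (.f (nat_lit 557) (nat_lit 524) (nat_lit 3596) (.d (nat_lit 589) (nat_lit 588) (nat_lit 1580) (nat_lit 590) (nat_lit 1581)))))) (.a (.f (nat_lit 531) (nat_lit 530) (nat_lit 2575) (.f (nat_lit 563) (nat_lit 532) (nat_lit 2576) (.f (nat_lit 564) (nat_lit 593) (nat_lit 1584) (.d (nat_lit 596) (nat_lit 595) (nat_lit 560) (nat_lit 597) (nat_lit 561))))) (.f (nat_lit 531) (nat_lit 530) (nat_lit 2575) (.f (nat_lit 563) (nat_lit 532) (nat_lit 2576) (.f (nat_lit 593) (nat_lit 564) (nat_lit 1584) (.d (nat_lit 558) (nat_lit 557) (nat_lit 557) (nat_lit 594) (nat_lit 558))))))))) (.a (.p (nat_lit 558) (.a (.d (nat_lit 593) (nat_lit 557) (nat_lit 557) (nat_lit 594) (nat_lit 558)) (.a (.f (nat_lit 525) (nat_lit 526) (nat_lit 3597) (.f (nat_lit 557) (nat_lit 524) (nat_lit 3596) (.f (nat_lit 588) (nat_lit 589) (nat_lit 1580) (.d (nat_lit 556) (nat_lit 587) (nat_lit 1579) (nat_lit 591) (nat_lit 556))))) (.f (nat_lit 594) (nat_lit 593) (nat_lit 558) (.f (nat_lit 562) (nat_lit 595) (nat_lit 559) (.f (nat_lit 563) (nat_lit 591) (nat_lit 1583) (.d (nat_lit 531) (nat_lit 530) (nat_lit 2575) (nat_lit 532) (nat_lit 2576)))))))) (.p (nat_lit 558) (.a (.d (nat_lit 593) (nat_lit 557) (nat_lit 557) (nat_lit 594) (nat_lit 558)) (.a (.f (nat_lit 525) (nat_lit 526) (nat_lit 3597) (.f (nat_lit 557) (nat_lit 524) (nat_lit 3596) (.f (nat_lit 591) (nat_lit 556) (nat_lit 556) (.d (nat_lit 496) (nat_lit 464) (nat_lit 5583) (nat_lit 623) (nat_lit 5615))))) (.f (nat_lit 594) (nat_lit 593) (nat_lit 558) (.f (nat_lit 562) (nat_lit 595) (nat_lit 559) (.f (nat_lit 563) (nat_lit 591) (nat_lit 1583) (.d (nat_lit 531) (nat_lit 530) (nat_lit 2575) (nat_lit 532) (nat_lit 2576)))))))))))))))) (.p (nat_lit 593) (.a (.f (nat_lit 625) (nat_lit 496) (nat_lit 4592) (.d (nat_lit 657) (nat_lit 561) (nat_lit 7696) (nat_lit 624) (nat_lit 4624))) (.a (.f (nat_lit 625) (nat_lit 496) (nat_lit 4592) (.d (nat_lit 657) (nat_lit 624) (nat_lit 4624) (nat_lit 689) (nat_lit 7728))) (.a (.f (nat_lit 496) (nat_lit 625) (nat_lit 4592) (.f (nat_lit 561) (nat_lit 464) (nat_lit 4560) (.d (nat_lit 558) (nat_lit 557) (nat_lit 557) (nat_lit 594) (nat_lit 558)))) (.f (nat_lit 594) (nat_lit 595) (nat_lit 3631) (.d (nat_lit 558) (nat_lit 557) (nat_lit 557) (nat_lit 561) (nat_lit 558)))))))))))))) (.a (.p (nat_lit 561) (.a (.p (nat_lit 558) (.a (.f (nat_lit 593) (nat_lit 594) (nat_lit 558) (.f (nat_lit 592) (nat_lit 557) (nat_lit 557) (.d (nat_lit 496) (nat_lit 464) (nat_lit 4560) (nat_lit 625) (nat_lit 4592)))) (.a (.f (nat_lit 526) (nat_lit 525) (nat_lit 3597) (.f (nat_lit 562) (nat_lit 527) (nat_lit 3598) (.d (nat_lit 594) (nat_lit 593) (nat_lit 558) (nat_lit 595) (nat_lit 559)))) (.f (nat_lit 526) (nat_lit 525) (nat_lit 3597) (.f (nat_lit 562) (nat_lit 527) (nat_lit 3598) (.d (nat_lit 590) (nat_lit 589) (nat_lit 1581) (nat_lit 591) (nat_lit 1582))))))) (.a (.p (nat_lit 558) (.a (.f (nat_lit 526) (nat_lit 525) (nat_lit 3597) (.f (nat_lit 562) (nat_lit 527) (nat_lit 3598) (.d (nat_lit 594) (nat_lit 593) (nat_lit 558) (nat_lit 595) (nat_lit 559)))) (.a (.f (nat_lit 526) (nat_lit 525) (nat_lit 3597) (.f (nat_lit 562) (nat_lit 527) (nat_lit 3598) (.d (nat_lit 590) (nat_lit 589) (nat_lit 1581) (nat_lit 591) (nat_lit 1582)))) (.a (.f (nat_lit 590) (nat_lit 589) (nat_lit 1581) (.f (nat_lit 591) (nat_lit 562) (nat_lit 1582) (.f (nat_lit 526) (nat_lit 525) (nat_lit 3597) (.d (nat_lit 494) (nat_lit 462) (nat_lit 4558) (nat_lit 623) (nat_lit 4590))))) (.a (.f (nat_lit 590) (nat_lit 589) (nat_lit 1581) (.f (nat_lit 562) (nat_lit 591) (nat_lit 1582) (.d (nat_lit 594) (nat_lit 593) (nat_lit 558) (nat_lit 595) (nat_lit 559)))) (.f (nat_lit 525) (nat_lit 526) (nat_lit 3597) (.f (nat_lit 557) (nat_lit 524) (nat_lit 3596) (.d (nat_lit 589) (nat_lit 588) (nat_lit 1580) (nat_lit 590) (nat_lit 1581))))))))) (.a (.p (nat_lit 562) (.a (.d (nat_lit 527) (nat_lit 526) (nat_lit 3598) (nat_lit 563) (nat_lit 3599)) (.a (.f (nat_lit 591) (nat_lit 590) (nat_lit 1582) (.f (nat_lit 592) (nat_lit 563) (nat_lit 1583) (.d (nat_lit 496) (nat_lit 464) (nat_lit 5583) (nat_lit 623) (nat_lit 5615)))) (.f (nat_lit 591) (nat_lit 590) (nat_lit 1582) (.f (nat_lit 496) (nat_lit 464) (nat_lit 5583) (.d (nat_lit 527) (nat_lit 526) (nat_lit 3598) (nat_lit 623) (nat_lit 6639))))))) (.a (.p (nat_lit 558) (.a (.f (nat_lit 593) (nat_lit 594) (nat_lit 558) (.f (nat_lit 592) (nat_lit 557) (nat_lit 557) (.d (nat_lit 496) (nat_lit 464) (nat_lit 4560) (nat_lit 625) (nat_lit 4592)))) (.f (nat_lit 590) (nat_lit 589) (nat_lit 1581) (.f (nat_lit 591) (nat_lit 562) (nat_lit 1582) (.f (nat_lit 526) (nat_lit 525) (nat_lit 3597) (.d (nat_lit 494) (nat_lit 462) (nat_lit 4558) (nat_lit 623) (nat_lit 4590))))))) (.a (.p (nat_lit 558) (.a (.f (nat_lit 593) (nat_lit 594) (nat_lit 558) (.f (nat_lit 592) (nat_lit 557) (nat_lit 557) (.d (nat_lit 496) (nat_lit 464) (nat_lit 4560) (nat_lit 625) (nat_lit 4592)))) (.a (.f (nat_lit 590) (nat_lit 589) (nat_lit 1581) (.f (nat_lit 562) (nat_lit 591) (nat_lit 1582) (.d (nat_lit 594) (nat_lit 593) (nat_lit 558) (nat_lit 595) (nat_lit 559)))) (.f (nat_lit 590) (nat_lit 589) (nat_lit 1581) (.f (nat_lit 591) (nat_lit 562) (nat_lit 1582) (.f (nat_lit 623) (nat_lit 655) (nat_lit 6671) (.d (nat_lit 496) (nat_lit 464) (nat_lit 5583) (nat_lit 592) (nat_lit 5615)))))))) (.a (.p (nat_lit 558) (.a (.f (nat_lit 593) (nat_lit 594) (nat_lit 558) (.f (nat_lit 592) (nat_lit 557) (nat_lit 557) (.d (nat_lit 496) (nat_lit 464) (nat_lit 4560) (nat_lit 625) (nat_lit 4592)))) (.a (.f (nat_lit 525) (nat_lit 526) (nat_lit 3597) (.f (nat_lit 557) (nat_lit 524) (nat_lit 3596) (.d (nat_lit 589) (nat_lit 588) (nat_lit 1580) (nat_lit 590) (nat_lit 1581)))) (.f (nat_lit 593) (nat_lit 594) (nat_lit 558) (.f (nat_lit 496) (nat_lit 464) (nat_lit 4560) (.d (nat_lit 625) (nat_lit 592) (nat_lit 4592) (nat_lit 657) (nat_lit 7696))))))) (.p (nat_lit 558) (.a (.f (nat_lit 593) (nat_lit 594) (nat_lit 558) (.f (nat_lit 592) (nat_lit 557) (nat_lit 557) (.d (nat_lit 496) (nat_lit 464) (nat_lit 4560) (nat_lit 625) (nat_lit 4592)))) (.a (.f (nat_lit 526) (nat_lit 525) (nat_lit 3597) (.f (nat_lit 562) (nat_lit 527) (nat_lit 3598) (.d (nat_lit 594) (nat_lit 593) (nat_lit 558) (nat_lit 595) (nat_lit 559)))) (.f (nat_lit 525) (nat_lit 526) (nat_lit 3597) (.f (nat_lit 557) (nat_lit 524) (nat_lit 3596) (.f (nat_lit 556) (nat_lit 527) (nat_lit 2572) (.d (nat_lit 588) (nat_lit 587) (nat_lit 1579) (nat_lit 589) (nat_lit 1580))))))))))))))) (.a (.p (nat_lit 561) (.a (.p (nat_lit 558) (.a (.f (nat_lit 593) (nat_lit 594) (nat_lit 558) (.f (nat_lit 592) (nat_lit 557) (nat_lit 557) (.d (nat_lit 496) (nat_lit 464) (nat_lit 4560) (nat_lit 625) (nat_lit 4592)))) (.a (.f (nat_lit 526) (nat_lit 525) (nat_lit 3597) (.f (nat_lit 562) (nat_lit 527) (nat_lit 3598) (.d (nat_lit 594) (nat_lit 593) (nat_lit 558) (nat_lit 595) (nat_lit 559)))) (.f (nat_lit 526) (nat_lit 525) (nat_lit 3597) (.f (nat_lit 562) (nat_lit 527) (nat_lit 3598) (.d (nat_lit 590) (nat_lit 589) (nat_lit 1581) (nat_lit 591) (nat_lit 1582))))))) (.a s44998 (.a s44999 (.a (.p (nat_lit 558) (.a (.f (nat_lit 593) (nat_lit 594) (nat_lit 558) (.f (nat_lit 592) (nat_lit 557) (nat_lit 557) (.d (nat_lit 496) (nat_lit 464) (nat_lit 4560) (nat_lit 625) (nat_lit 4592)))) (.f (nat_lit 590) (nat_lit 589) (nat_lit 1581) (.f (nat_lit 591) (nat_lit 562) (nat_lit 1582) (.f (nat_lit 526) (nat_lit 525) (nat_lit 3597) (.d (nat_lit 494) (nat_lit 462) (nat_lit 4558) (nat_lit 623) (nat_lit 4590))))))) (.a (.p (nat_lit 562) (.a (.d (nat_lit 527) (nat_lit 526) (nat_lit 3598) (nat_lit 563) (nat_lit 3599)) (.a (.f (nat_lit 591) (nat_lit 590) (nat_lit 1582) (.f (nat_lit 592) (nat_lit 563) (nat_lit 1583) (.d (nat_lit 496) (nat_lit 464) (nat_lit 5583) (nat_lit 623) (nat_lit 5615)))) (.f (nat_lit 591) (nat_lit 590) (nat_lit 1582) (.f (nat_lit 496) (nat_lit 464) (nat_lit 5583) (.d (nat_lit 527) (nat_lit 526) (nat_lit 3598) (nat_lit 623) (nat_lit 6639))))))) (.a (.p (nat_lit 558) (.a (.f (nat_lit 593) (nat_lit 594) (nat_lit 558) (.f (nat_lit 592) (nat_lit 557) (nat_lit 557) (.d (nat_lit 496) (nat_lit 464) (nat_lit 4560) (nat_lit 625) (nat_lit 4592)))) (.f (nat_lit 590) (nat_lit 589) (nat_lit 1581) (.f (nat_lit 562) (nat_lit 591) (nat_lit 1582) (.f (nat_lit 563) (nat_lit 527) (nat_lit 3599) (.d (nat_lit 531) (nat_lit 530) (nat_lit 2575) (nat_lit 532) (nat_lit 2576))))))) (.a (.p (nat_lit 558) (.a (.f (nat_lit 593) (nat_lit 594) (nat_lit 558) (.f (nat_lit 592) (nat_lit 557) (nat_lit 557) (.d (nat_lit 496) (nat_lit 464) (nat_lit 4560) (nat_lit 625) (nat_lit 4592)))) (.a (.f (nat_lit 525) (nat_lit 526) (nat_lit 3597) (.f (nat_lit 557) (nat_lit 524) (nat_lit 3596) (.d (nat_lit 589) (nat_lit 588) (nat_lit 1580) (nat_lit 590) (nat_lit 1581)))) (.f (nat_lit 593) (nat_lit 594) (nat_lit 558) (.f (nat_lit 496) (nat_lit 464) (nat_lit 4560) (.d (nat_lit 625) (nat_lit 592) (nat_lit 4592) (nat_lit 657) (nat_lit 7696))))))) (.p (nat_lit 562) (.a (.d (nat_lit 527) (nat_lit 526) (nat_lit 3598) (nat_lit 563) (nat_lit 3599)) (.f (nat_lit 594) (nat_lit 595) (nat_lit 559) (.f (nat_lit 593) (nat_lit 558) (nat_lit 558) (.f (nat_lit 530) (nat_lit 531) (nat_lit 2575) (.d (nat_lit 498) (nat_lit 466) (nat_lit 5585) (nat_lit 625) (nat_lit 5617))))))))))))))) (.a (.p (nat_lit 561) (.a (.p (nat_lit 562) (.a (.d (nat_lit 527) (nat_lit 526) (nat_lit 3598) (nat_lit 563) (nat_lit 3599)) (.a (.f (nat_lit 591) (nat_lit 590) (nat_lit 1582) (.f (nat_lit 592) (nat_lit 563) (nat_lit 1583) (.d (nat_lit 496) (nat_lit 464) (nat_lit 5583) (nat_lit 623) (nat_lit 5615)))) (.f (nat_lit 591) (nat_lit 590) (nat_lit 1582) (.f (nat_lit 496) (nat_lit 464) (nat_lit 5583) (.d (nat_lit 527) (nat_lit 526) (nat_lit 3598) (nat_lit 623) (nat_lit 6639))))))) (.a (.p (nat_lit 562) (.a (.d (nat_lit 527) (nat_lit 526) (nat_lit 3598) (nat_lit 563) (nat_lit 3599)) (.f (nat_lit 594) (nat_lit 595) (nat_lit 559) (.f (nat_lit 593) (nat_lit 558) (nat_lit 558) (.f (nat_lit 530) (nat_lit 531) (nat_lit 2575) (.d (nat_lit 498) (nat_lit 466) (nat_lit 5585) (nat_lit 625) (nat_lit 5617))))))) (.a (.p (nat_lit 558) (.a (.f (nat_lit 590) (nat_lit 589) (nat_lit 1581) (.f (nat_lit 591) (nat_lit 562) (nat_lit 1582) (.f (nat_lit 526) (nat_lit 525) (nat_lit 3597) (.d (nat_lit 494) (nat_lit 462) (nat_lit 4558) (nat_lit 623) (nat_lit 4590))))) (.f (nat_lit 593) (nat_lit 594) (nat_lit 558) (.f (nat_lit 496) (nat_lit 464) (nat_lit 4560) (.d (nat_lit 625) (nat_lit 592) (nat_lit 4592) (nat_lit 657) (nat_lit 7696)))))) (.a (.p (nat_lit 562) (.a (.f (nat_lit 591) (nat_lit 590) (nat_lit 1582) (.f (nat_lit 592) (nat_lit 563) (nat_lit 1583) (.d (nat_lit 496) (nat_lit 464) (nat_lit 5583) (nat_lit 623) (nat_lit 5615)))) (.a (.f (nat_lit 563) (nat_lit 527) (nat_lit 3599) (.d (nat_lit 531) (nat_lit 530) (nat_lit 2575) (nat_lit 532) (nat_lit 2576))) (.f (nat_lit 591) (nat_lit 590) (nat_lit 1582) (.f (nat_lit 623) (nat_lit 655) (nat_lit 6671) (.d (nat_lit 496) (nat_lit 464) (nat_lit 5583) (nat_lit 527) (nat_lit 6639))))))) (.p (nat_lit 558) (.a (.f (nat_lit 593) (nat_lit 594) (nat_lit 558) (.f (nat_lit 496) (nat_lit 464) (nat_lit 4560) (.d (nat_lit 625) (nat_lit 592) (nat_lit 4592) (nat_lit 657) (nat_lit 7696)))) (.a s45135 s45020)))))))) (.a (.p (nat_lit 496) (.a (.f (nat_lit 464) (nat_lit 591) (nat_lit 5583) (.f (nat_lit 561) (nat_lit 593) (nat_lit 4560) (.f (nat_lit 527) (nat_lit 432) (nat_lit 5551) (.d (nat_lit 562) (nat_lit 526) (nat_lit 3598) (nat_lit 563) (nat_lit 3599))))) (.a (.f (nat_lit 464) (nat_lit 591) (nat_lit 5583) (.f (nat_lit 432) (nat_lit 527) (nat_lit 5551) (.d (nat_lit 433) (nat_lit 401) (nat_lit 6544) (nat_lit 465) (nat_lit 6576)))) (.a (.f (nat_lit 464) (nat_lit 591) (nat_lit 5583) (.f (nat_lit 593) (nat_lit 561) (nat_lit 4560) (.f (nat_lit 592) (nat_lit 625) (nat_lit 4592) (.d (nat_lit 465) (nat_lit 433) (nat_lit 6576) (nat_lit 497) (nat_lit 6608))))) (.a (.p (nat_lit 592) (.a (.f (nat_lit 623) (nat_lit 591) (nat_lit 5615) (.f (nat_lit 624) (nat_lit 655) (nat_lit 5647) (.f (nat_lit 657) (nat_lit 625) (nat_lit 4624) (.d (nat_lit 656) (nat_lit 527) (nat_lit 7695) (nat_lit 689) (nat_lit 4656))))) (.a (.f (nat_lit 591) (nat_lit 623) (nat_lit 5615) (.f (nat_lit 593) (nat_lit 625) (nat_lit 4592) (.f (nat_lit 594) (nat_lit 595) (nat_lit 3631) (.f (nat_lit 562) (nat_lit 563) (nat_lit 2607) (.f (nat_lit 590) (nat_lit 561) (nat_lit 2606) (.f (nat_lit 589) (nat_lit 588) (nat_lit 2604) (.d (nat_lit 621) (nat_lit 620) (nat_lit 1612) (nat_lit 622) (nat_lit 1613)))))))) (.a (.f (nat_lit 625) (nat_lit 593) (nat_lit 4592) (.f (nat_lit 624) (nat_lit 657) (nat_lit 4624) (.f (nat_lit 656) (nat_lit 527) (nat_lit 7695) (.f (nat_lit 688) (nat_lit 591) (nat_lit 7727) (.d (nat_lit 687) (nat_lit 655) (nat_lit 5679) (nat_lit 719) (nat_lit 5711)))))) (.a (.p (nat_lit 624) (.a (.d (nat_lit 623) (nat_lit 591) (nat_lit 5615) (nat_lit 655) (nat_lit 5647)) (.a (.f (nat_lit 656) (nat_lit 527) (nat_lit 7695) (.f (nat_lit 688) (nat_lit 591) (nat_lit 7727) (.d (nat_lit 689) (nat_lit 657) (nat_lit 4656) (nat_lit 721) (nat_lit 4688)))) (.f (nat_lit 656) (nat_lit 527) (nat_lit 7695) (.d (nat_lit 655) (nat_lit 623) (nat_lit 5647) (nat_lit 687) (nat_lit 5679)))))) (.f (nat_lit 625) (nat_lit 593) (nat_lit 4592) (.f (nat_lit 624) (nat_lit 657) (nat_lit 4624) (.f (nat_lit 655) (nat_lit 623) (nat_lit 5647) (.d (nat_lit 656) (nat_lit 527) (nat_lit 7695) (nat_lit 687) (nat_lit 5679)))))))))) (.p (nat_lit 592) (.a (.f (nat_lit 593) (nat_lit 625) (nat_lit 4592) (.f (nat_lit 464) (nat_lit 561) (nat_lit 4560) (.d (nat_lit 465) (nat_lit 433) (nat_lit 6576) (nat_lit 497) (nat_lit 6608)))) (.a (.f (nat_lit 465) (nat_lit 497) (nat_lit 6608) (.f (nat_lit 464) (nat_lit 433) (nat_lit 6576) (.f (nat_lit 432) (nat_lit 527) (nat_lit 5551) (.d (nat_lit 431) (nat_lit 399) (nat_lit 7567) (nat_lit 463) (nat_lit 7599))))) (.f (nat_lit 625) (nat_lit 593) (nat_lit 4592) (.f (nat_lit 624) (nat_lit 657) (nat_lit 4624) (.f (nat_lit 655) (nat_lit 623) (nat_lit 5647) (.d (nat_lit 656) (nat_lit 527) (nat_lit 7695) (nat_lit 687) (nat_lit 5679))))))))))))) (.a (.p (nat_lit 592) (.a (.p (nat_lit 624) (.a (.f (nat_lit 656) (nat_lit 527) (nat_lit 7695) (.d (nat_lit 655) (nat_lit 623) (nat_lit 5647) (nat_lit 687) (nat_lit 5679))) (.a (.f (nat_lit 623) (nat_lit 655) (nat_lit 5647) (.f (nat_lit 591) (nat_lit 496) (nat_lit 5615) (.f (nat_lit 625) (nat_lit 657) (nat_lit 4624) (.d (nat_lit 626) (nat_lit 590) (nat_lit 3662) (nat_lit 627) (nat_lit 3663))))) (.f (nat_lit 656) (nat_lit 527) (nat_lit 7695) (.d (nat_lit 657) (nat_lit 625) (nat_lit 4624) (nat_lit 689) (nat_lit 4656)))))) (.a s45079 (.a (.p (nat_lit 496) (.a (.d (nat_lit 591) (nat_lit 464) (nat_lit 5583) (nat_lit 623) (nat_lit 5615)) (.a (.f (nat_lit 593) (nat_lit 625) (nat_lit 4592) (.f (nat_lit 594) (nat_lit 595) (nat_lit 3631) (.d (nat_lit 558) (nat_lit 557) (nat_lit 557) (nat_lit 591) (nat_lit 3630)))) (.f (nat_lit 465) (nat_lit 497) (nat_lit 6608) (.f (nat_lit 464) (nat_lit 433) (nat_lit 6576) (.f (nat_lit 432) (nat_lit 527) (nat_lit 5551) (.d (nat_lit 431) (nat_lit 399) (nat_lit 7567) (nat_lit 463) (nat_lit 7599)))))))) (.a (.p (nat_lit 624) (.a (.f (nat_lit 656) (nat_lit 527) (nat_lit 7695) (.d (nat_lit 655) (nat_lit 623) (nat_lit 5647) (nat_lit 687) (nat_lit 5679))) (.a (.f (nat_lit 655) (nat_lit 623) (nat_lit 5647) (.f (nat_lit 656) (nat_lit 687) (nat_lit 5679) (.d (nat_lit 657) (nat_lit 625) (nat_lit 4624) (nat_lit 689) (nat_lit 4656)))) (.a (.f (nat_lit 656) (nat_lit 527) (nat_lit 7695) (.d (nat_lit 657) (nat_lit 625) (nat_lit 4624) (nat_lit 689) (nat_lit 4656))) (.p (nat_lit 594) (.a (.f (nat_lit 593) (nat_lit 595) (nat_lit 3631) (.d (nat_lit 558) (nat_lit 557) (nat_lit 557) (nat_lit 591) (nat_lit 3630))) (.a (.f (nat_lit 623) (nat_lit 655) (nat_lit 5647) (.f (nat_lit 625) (nat_lit 657) (nat_lit 4624) (.f (nat_lit 626) (nat_lit 595) (nat_lit 2639) (.d (nat_lit 591) (nat_lit 590) (nat_lit 3662) (nat_lit 627) (nat_lit 3663))))) (.a (.f (nat_lit 593) (nat_lit 595) (nat_lit 3631) (.f (nat_lit 625) (nat_lit 657) (nat_lit 4624) (.d (nat_lit 623) (nat_lit 622) (nat_lit 2638) (nat_lit 655) (nat_lit 5647)))) (.f (nat_lit 623) (nat_lit 655) (nat_lit 5647) (.f (nat_lit 625) (nat_lit 657) (nat_lit 4624) (.f (nat_lit 593) (nat_lit 622) (nat_lit 2638) (.d (nat_lit 558) (nat_lit 557) (nat_lit 557) (nat_lit 591) (nat_lit 3630))))))))))))) (.a (.p (nat_lit 624) (.a (.f (nat_lit 656) (nat_lit 527) (nat_lit 7695) (.d (nat_lit 657) (nat_lit 625) (nat_lit 4624) (nat_lit 689) (nat_lit 4656))) (.a (.f (nat_lit 625) (nat_lit 657) (nat_lit 4624) (.f (nat_lit 593) (nat_lit 496) (nat_lit 4592) (.f (nat_lit 594) (nat_lit 595) (nat_lit 3631) (.d (nat_lit 558) (nat_lit 557) (nat_lit 557) (nat_lit 591) (nat_lit 3630))))) (.f (nat_lit 656) (nat_lit 527) (nat_lit 7695) (.f (nat_lit 688) (nat_lit 591) (nat_lit 7727) (.d (nat_lit 687) (nat_lit 655) (nat_lit 5679) (nat_lit 719) (nat_lit 5711))))))) (.a s45144 (.p (nat_lit 624) (.a (.f (nat_lit 656) (nat_lit 527) (nat_lit 7695) (.d (nat_lit 655) (nat_lit 623) (nat_lit 5647) (nat_lit 687) (nat_lit 5679))) (.a (.f (nat_lit 655) (nat_lit 623) (nat_lit 5647) (.f (nat_lit 656) (nat_lit 687) (nat_lit 5679) (.d (nat_lit 657) (nat_lit 625) (nat_lit 4624) (nat_lit 689) (nat_lit 4656)))) (.a (.f (nat_lit 656) (nat_lit 527) (nat_lit 7695) (.d (nat_lit 657) (nat_lit 625) (nat_lit 4624) (nat_lit 689) (nat_lit 4656))) (.f (nat_lit 625) (nat_lit 657) (nat_lit 4624) (.f (nat_lit 593) (nat_lit 496) (nat_lit 4592) (.f (nat_lit 623) (nat_lit 655) (nat_lit 5647) (.d (nat_lit 594) (nat_lit 595) (nat_lit 3631) (nat_lit 622) (nat_lit 2638)))))))))))))))) (.a (.p (nat_lit 592) (.a (.p (nat_lit 496) (.a (.d (nat_lit 591) (nat_lit 464) (nat_lit 5583) (nat_lit 623) (nat_lit 5615)) (.a (.f (nat_lit 464) (nat_lit 591) (nat_lit 5583) (.d (nat_lit 593) (nat_lit 561) (nat_lit 4560) (nat_lit 625) (nat_lit 4592))) (.a (.f (nat_lit 591) (nat_lit 623) (nat_lit 5615) (.f (nat_lit 593) (nat_lit 625) (nat_lit 4592) (.d (nat_lit 594) (nat_lit 558) (nat_lit 3630) (nat_lit 595) (nat_lit 3631)))) (.f (nat_lit 593) (nat_lit 625) (nat_lit 4592) (.f (nat_lit 561) (nat_lit 464) (nat_lit 4560) (.d (nat_lit 558) (nat_lit 557) (nat_lit 557) (nat_lit 594) (nat_lit 558)))))))) (.a s45144 (.a (.p (nat_lit 624) (.a (.f (nat_lit 656) (nat_lit 527) (nat_lit 7695) (.d (nat_lit 655) (nat_lit 623) (nat_lit 5647) (nat_lit 687) (nat_lit 5679))) (.a (.f (nat_lit 655) (nat_lit 623) (nat_lit 5647) (.f (nat_lit 656) (nat_lit 687) (nat_lit 5679) (.d (nat_lit 657) (nat_lit 625) (nat_lit 4624) (nat_lit 689) (nat_lit 4656)))) (.a (.f (nat_lit 656) (nat_lit 527) (nat_lit 7695) (.d (nat_lit 657) (nat_lit 625) (nat_lit 4624) (nat_lit 689) (nat_lit 4656))) (.p (nat_lit 594) (.a (.f (nat_lit 593) (nat_lit 595) (nat_lit 3631) (.d (nat_lit 558) (nat_lit 557) (nat_lit 557) (nat_lit 591) (nat_lit 3630))) (.a (.f (nat_lit 623) (nat_lit 655) (nat_lit 5647) (.f (nat_lit 625) (nat_lit 657) (nat_lit 4624) (.f (nat_lit 626) (nat_lit 595) (nat_lit 2639) (.f (nat_lit 659) (nat_lit 658) (nat_lit 623) (.d (nat_lit 627) (nat_lit 591) (nat_lit 3663) (nat_lit 660) (nat_lit 624)))))) (.a (.f (nat_lit 593) (nat_lit 595) (nat_lit 3631) (.f (nat_lit 625) (nat_lit 657) (nat_lit 4624) (.d (nat_lit 623) (nat_lit 622) (nat_lit 2638) (nat_lit 655) (nat_lit 5647)))) (.f (nat_lit 623) (nat_lit 655) (nat_lit 5647) (.f (nat_lit 625) (nat_lit 657) (nat_lit 4624) (.f (nat_lit 593) (nat_lit 622) (nat_lit 2638) (.d (nat_lit 558) (nat_lit 557) (nat_lit 557) (nat_lit 591) (nat_lit 3630))))))))))))) (.a (.p (nat_lit 496) (.a (.f (nat_lit 464) (nat_lit 591) (nat_lit 5583) (.d (nat_lit 593) (nat_lit 561) (nat_lit 4560) (nat_lit 625) (nat_lit 4592))) (.a (.f (nat_lit 464) (nat_lit 591) (nat_lit 5583) (.d (nat_lit 465) (nat_lit 433) (nat_lit 6576) (nat_lit 497) (nat_lit 6608))) (.a (.f (nat_lit 593) (nat_lit 625) (nat_lit 4592) (.f (nat_lit 594) (nat_lit 595) (nat_lit 3631) (.d (nat_lit 558) (nat_lit 557) (nat_lit 557) (nat_lit 591) (nat_lit 3630)))) (.f (nat_lit 593) (nat_lit 625) (nat_lit 4592) (.f (nat_lit 561) (nat_lit 464) (nat_lit 4560) (.d (nat_lit 558) (nat_lit 557) (nat_lit 557) (nat_lit 594) (nat_lit 558)))))))) (.p (nat_lit 593) (.a (.f (nat_lit 625) (nat_lit 496) (nat_lit 4592) (.d (nat_lit 657) (nat_lit 561) (nat_lit 7696) (nat_lit 624) (nat_lit 4624))) (.a (.f (nat_lit 625) (nat_lit 496) (nat_lit 4592) (.d (nat_lit 657) (nat_lit 624) (nat_lit 4624) (nat_lit 689) (nat_lit 7728))) (.a (.f (nat_lit 496) (nat_lit 625) (nat_lit 4592) (.f (nat_lit 561) (nat_lit 464) (nat_lit 4560) (.d (nat_lit 558) (nat_lit 557) (nat_lit 557) (nat_lit 594) (nat_lit 558)))) (.f (nat_lit 594) (nat_lit 595) (nat_lit 3631) (.d (nat_lit 558) (nat_lit 557) (nat_lit 557) (nat_lit 561) (nat_lit 558)))))))))))) (.a (.p (nat_lit 558) (.a s45162 (.a (.p (nat_lit 561) (.a (.f (nat_lit 593) (nat_lit 594) (nat_lit 558) (.f (nat_lit 592) (nat_lit 557) (nat_lit 557) (.d (nat_lit 496) (nat_lit 464) (nat_lit 4560) (nat_lit 625) (nat_lit 4592)))) (.a (.f (nat_lit 526) (nat_lit 525) (nat_lit 3597) (.f (nat_lit 562) (nat_lit 527) (nat_lit 3598) (.d (nat_lit 594) (nat_lit 593) (nat_lit 558) (nat_lit 595) (nat_lit 559)))) (.f (nat_lit 525) (nat_lit 526) (nat_lit 3597) (.f (nat_lit 557) (nat_lit 524) (nat_lit 3596) (.d (nat_lit 589) (nat_lit 588) (nat_lit 1580) (nat_lit 590) (nat_lit 1581))))))) (.a (.p (nat_lit 561) (.a (.f (nat_lit 593) (nat_lit 594) (nat_lit 558) (.f (nat_lit 592) (nat_lit 557) (nat_lit 557) (.d (nat_lit 496) (nat_lit 464) (nat_lit 4560) (nat_lit 625) (nat_lit 4592)))) (.a (.f (nat_lit 526) (nat_lit 525) (nat_lit 3597) (.f (nat_lit 562) (nat_lit 527) (nat_lit 3598) (.d (nat_lit 594) (nat_lit 593) (nat_lit 558) (nat_lit 595) (nat_lit 559)))) (.a (.f (nat_lit 526) (nat_lit 525) (nat_lit 3597) (.f (nat_lit 562) (nat_lit 527) (nat_lit 3598) (.f (nat_lit 531) (nat_lit 530) (nat_lit 2575) (.f (nat_lit 563) (nat_lit 532) (nat_lit 2576) (.d (nat_lit 595) (nat_lit 594) (nat_lit 559) (nat_lit 596) (nat_lit 560)))))) (.f (nat_lit 526) (nat_lit 525) (nat_lit 3597) (.f (nat_lit 527) (nat_lit 562) (nat_lit 3598) (.f (nat_lit 557) (nat_lit 556) (nat_lit 2572) (.d (nat_lit 589) (nat_lit 588) (nat_lit 1580) (nat_lit 590) (nat_lit 1581))))))))) (.a (.p (nat_lit 561) (.a (.f (nat_lit 593) (nat_lit 594) (nat_lit 558) (.f (nat_lit 592) (nat_lit 557) (nat_lit 557) (.d (nat_lit 496) (nat_lit 464) (nat_lit 4560) (nat_lit 625) (nat_lit 4592)))) (.a (.f (nat_lit 594) (nat_lit 593) (nat_lit 558) (.f (nat_lit 562) (nat_lit 595) (nat_lit 559) (.f (nat_lit 531) (nat_lit 530) (nat_lit 2575) (.d (nat_lit 563) (nat_lit 527) (nat_lit 3599) (nat_lit 532) (nat_lit 2576))))) (.f (nat_lit 589) (nat_lit 590) (nat_lit 1581) (.f (nat_lit 557) (nat_lit 588) (nat_lit 1580) (.f (nat_lit 527) (nat_lit 556) (nat_lit 2572) (.d (nat_lit 562) (nat_lit 526) (nat_lit 3598) (nat_lit 563) (nat_lit 3599)))))))) (.a (.p (nat_lit 561) (.a (.f (nat_lit 593) (nat_lit 594) (nat_lit 558) (.f (nat_lit 592) (nat_lit 557) (nat_lit 557) (.d (nat_lit 496) (nat_lit 464) (nat_lit 4560) (nat_lit 625) (nat_lit 4592)))) (.a (.f (nat_lit 589) (nat_lit 590) (nat_lit 1581) (.f (nat_lit 557) (nat_lit 588) (nat_lit 1580) (.f (nat_lit 556) (nat_lit 527) (nat_lit 2572) (.d (nat_lit 524) (nat_lit 523) (nat_lit 3595) (nat_lit 525) (nat_lit 3596))))) (.f (nat_lit 593) (nat_lit 594) (nat_lit 558) (.f (nat_lit 496) (nat_lit 464) (nat_lit 4560) (.d (nat_lit 625) (nat_lit 592) (nat_lit 4592) (nat_lit 657) (nat_lit 7696))))))) (.a (.p (nat_lit 561) (.a (.f (nat_lit 593) (nat_lit 594) (nat_lit 558) (.f (nat_lit 592) (nat_lit 557) (nat_lit 557) (.d (nat_lit 496) (nat_lit 464) (nat_lit 4560) (nat_lit 625) (nat_lit 4592)))) (.a (.f (nat_lit 525) (nat_lit 526) (nat_lit 3597) (.f (nat_lit 557) (nat_lit 524) (nat_lit 3596) (.d (nat_lit 589) (nat_lit 588) (nat_lit 1580) (nat_lit 590) (nat_lit 1581)))) (.f (nat_lit 593) (nat_lit 594) (nat_lit 558) (.f (nat_lit 496) (nat_lit 464) (nat_lit 4560) (.d (nat_lit 625) (nat_lit 592) (nat_lit 4592) (nat_lit 657) (nat_lit 7696))))))) (.a (.p (nat_lit 624) (.a (.p (nat_lit 561) (.a (.f (nat_lit 593) (nat_lit 594) (nat_lit 558) (.f (nat_lit 625) (nat_lit 657) (nat_lit 7696) (.d (nat_lit 496) (nat_lit 464) (nat_lit 4560) (nat_lit 592) (nat_lit 4592)))) (.a (.f (nat_lit 526) (nat_lit 525) (nat_lit 3597) (.f (nat_lit 562) (nat_lit 527) (nat_lit 3598) (.d (nat_lit 594) (nat_lit 593) (nat_lit 558) (nat_lit 595) (nat_lit 559)))) (.a (.f (nat_lit 526) (nat_lit 525) (nat_lit 3597) (.f (nat_lit 562) (nat_lit 527) (nat_lit 3598) (.f (nat_lit 531) (nat_lit 530) (nat_lit 2575) (.f (nat_lit 563) (nat_lit 532) (nat_lit 2576) (.d (nat_lit 595) (nat_lit 594) (nat_lit 559) (nat_lit 596) (nat_lit 560)))))) (.f (nat_lit 526) (nat_lit 525) (nat_lit 3597) (.f (nat_lit 527) (nat_lit 562) (nat_lit 3598) (.f (nat_lit 592) (nat_lit 656) (nat_lit 7695) (.f (nat_lit 590) (nat_lit 589) (nat_lit 1581) (.f (nat_lit 622) (nat_lit 654) (nat_lit 6670) (.f (nat_lit 623) (nat_lit 655) (nat_lit 5647) (.d (nat_lit 621) (nat_lit 593) (nat_lit 2637) (nat_lit 653) (nat_lit 5645)))))))))))) (.a (.p (nat_lit 590) (.a (.f (nat_lit 561) (nat_lit 589) (nat_lit 1581) (.f (nat_lit 526) (nat_lit 525) (nat_lit 3597) (.f (nat_lit 562) (nat_lit 527) (nat_lit 3598) (.d (nat_lit 594) (nat_lit 593) (nat_lit 558) (nat_lit 595) (nat_lit 559))))) (.a (.f (nat_lit 561) (nat_lit 589) (nat_lit 1581) (.f (nat_lit 526) (nat_lit 525) (nat_lit 3597) (.f (nat_lit 562) (nat_lit 527) (nat_lit 3598) (.f (nat_lit 531) (nat_lit 530) (nat_lit 2575) (.f (nat_lit 563) (nat_lit 532) (nat_lit 2576) (.d (nat_lit 595) (nat_lit 594) (nat_lit 559) (nat_lit 596) (nat_lit 560))))))) (.a (.p (nat_lit 622) (.a (.f (nat_lit 654) (nat_lit 527) (nat_lit 6670) (.f (nat_lit 653) (nat_lit 685) (nat_lit 5677) (.f (nat_lit 623) (nat_lit 625) (nat_lit 1645) (.d (nat_lit 652) (nat_lit 621) (nat_lit 1644) (nat_lit 651) (nat_lit 2667))))) (.a s45181 (.a (.f (nat_lit 654) (nat_lit 527) (nat_lit 6670) (.f (nat_lit 685) (nat_lit 653) (nat_lit 5677) (.f (nat_lit 686) (nat_lit 717) (nat_lit 5709) (.d (nat_lit 687) (nat_lit 655) (nat_lit 4654) (nat_lit 719) (nat_lit 4686))))) (.a (.p (nat_lit 623) (.a (.f (nat_lit 526) (nat_lit 655) (nat_lit 4622) (.f (nat_lit 621) (nat_lit 653) (nat_lit 5645) (.d (nat_lit 589) (nat_lit 494) (nat_lit 5613) (nat_lit 588) (nat_lit 3660)))) (.a (.f (nat_lit 589) (nat_lit 625) (nat_lit 3661) (.d (nat_lit 588) (nat_lit 587) (nat_lit 587) (nat_lit 621) (nat_lit 3660))) (.f (nat_lit 526) (nat_lit 655) (nat_lit 4622) (.f (nat_lit 525) (nat_lit 493) (nat_lit 7661) (.d (nat_lit 524) (nat_lit 523) (nat_lit 523) (nat_lit 527) (nat_lit 524))))))) (.f (nat_lit 654) (nat_lit 527) (nat_lit 6670) (.f (nat_lit 655) (nat_lit 687) (nat_lit 4654) (.f (nat_lit 623) (nat_lit 526) (nat_lit 4622) (.d (nat_lit 625) (nat_lit 589) (nat_lit 3661) (nat_lit 626) (nat_lit 1646)))))))))) (.a (.p (nat_lit 622) (.a (.f (nat_lit 589) (nat_lit 561) (nat_lit 1581) (.f (nat_lit 623) (nat_lit 625) (nat_lit 3661) (.d (nat_lit 588) (nat_lit 587) (nat_lit 2603) (nat_lit 621) (nat_lit 3660)))) (.a s45181 (.a (.f (nat_lit 561) (nat_lit 589) (nat_lit 1581) (.f (nat_lit 526) (nat_lit 525) (nat_lit 3597) (.f (nat_lit 593) (nat_lit 594) (nat_lit 558) (.f (nat_lit 653) (nat_lit 621) (nat_lit 5645) (.f (nat_lit 654) (nat_lit 685) (nat_lit 5677) (.f (nat_lit 655) (nat_lit 687) (nat_lit 4654) (.d (nat_lit 625) (nat_lit 656) (nat_lit 2669) (nat_lit 657) (nat_lit 7696)))))))) (.a (.f (nat_lit 561) (nat_lit 589) (nat_lit 1581) (.f (nat_lit 526) (nat_lit 525) (nat_lit 3597) (.f (nat_lit 653) (nat_lit 621) (nat_lit 5645) (.f (nat_lit 654) (nat_lit 685) (nat_lit 5677) (.d (nat_lit 655) (nat_lit 623) (nat_lit 4622) (nat_lit 687) (nat_lit 4654)))))) (.a (.p (nat_lit 526) (.a (.d (nat_lit 525) (nat_lit 493) (nat_lit 7661) (nat_lit 561) (nat_lit 3597)) (.f (nat_lit 623) (nat_lit 655) (nat_lit 4622) (.f (nat_lit 653) (nat_lit 621) (nat_lit 5645) (.d (nat_lit 654) (nat_lit 625) (nat_lit 1645) (nat_lit 685) (nat_lit 5677)))))) (.f (nat_lit 561) (nat_lit 589) (nat_lit 1581) (.f (nat_lit 593) (nat_lit 594) (nat_lit 558) (.f (nat_lit 526) (nat_lit 525) (nat_lit 3597) (.f (nat_lit 625) (nat_lit 657) (nat_lit 7696) (.f (nat_lit 655) (nat_lit 623) (nat_lit 4622) (.f (nat_lit 654) (nat_lit 687) (nat_lit 4654) (.d (nat_lit 653) (nat_lit 656) (nat_lit 2669) (nat_lit 685) (nat_lit 5677)))))))))))))) (.a (.f (nat_lit 561) (nat_lit 589) (nat_lit 1581) (.f (nat_lit 594) (nat_lit 593) (nat_lit 558) (.f (nat_lit 562) (nat_lit 595) (nat_lit 559) (.f (nat_lit 531) (nat_lit 530) (nat_lit 2575) (.d (nat_lit 563) (nat_lit 527) (nat_lit 3599) (nat_lit 532) (nat_lit 2576)))))) (.p (nat_lit 622) (.a (.f (nat_lit 654) (nat_lit 527) (nat_lit 6670) (.f (nat_lit 653) (nat_lit 685) (nat_lit 5677) (.f (nat_lit 623) (nat_lit 625) (nat_lit 1645) (.d (nat_lit 652) (nat_lit 621) (nat_lit 1644) (nat_lit 651) (nat_lit 2667))))) (.a (.p (nat_lit 526) (.a (.d (nat_lit 525) (nat_lit 493) (nat_lit 7661) (nat_lit 561) (nat_lit 3597)) (.f (nat_lit 623) (nat_lit 655) (nat_lit 4622) (.f (nat_lit 653) (nat_lit 621) (nat_lit 5645) (.d (nat_lit 654) (nat_lit 625) (nat_lit 1645) (nat_lit 685) (nat_lit 5677)))))) (.a (.f (nat_lit 654) (nat_lit 527) (nat_lit 6670) (.f (nat_lit 685) (nat_lit 653) (nat_lit 5677) (.f (nat_lit 686) (nat_lit 717) (nat_lit 5709) (.d (nat_lit 687) (nat_lit 655) (nat_lit 4654) (nat_lit 719) (nat_lit 4686))))) (.a (.p (nat_lit 561) (.a (.f (nat_lit 526) (nat_lit 525) (nat_lit 3597) (.f (nat_lit 562) (nat_lit 527) (nat_lit 3598) (.d (nat_lit 594) (nat_lit 593) (nat_lit 558) (nat_lit 595) (nat_lit 559)))) (.a (.f (nat_lit 526) (nat_lit 525) (nat_lit 3597) (.f (nat_lit 562) (nat_lit 527) (nat_lit 3598) (.f (nat_lit 531) (nat_lit 530) (nat_lit 2575) (.f (nat_lit 563) (nat_lit 532) (nat_lit 2576) (.d (nat_lit 595) (nat_lit 594) (nat_lit 559) (nat_lit 596) (nat_lit 560)))))) (.a (.f (nat_lit 526) (nat_lit 525) (nat_lit 3597) (.f (nat_lit 593) (nat_lit 594) (nat_lit 558) (.f (nat_lit 657) (nat_lit 625) (nat_lit 7696) (.f (nat_lit 623) (nat_lit 655) (nat_lit 4622) (.d (nat_lit 621) (nat_lit 653) (nat_lit 5645) (nat_lit 656) (nat_lit 621)))))) (.a (.f (nat_lit 594) (nat_lit 593) (nat_lit 558) (.f (nat_lit 562) (nat_lit 595) (nat_lit 559) (.f (nat_lit 531) (nat_lit 530) (nat_lit 2575) (.d (nat_lit 563) (nat_lit 527) (nat_lit 3599) (nat_lit 532) (nat_lit 2576))))) (.f (nat_lit 526) (nat_lit 525) (nat_lit 3597) (.f (nat_lit 623) (nat_lit 655) (nat_lit 4622) (.f (nat_lit 621) (nat_lit 653) (nat_lit 5645) (.f (nat_lit 657) (nat_lit 656) (nat_lit 621) (.d (nat_lit 625) (nat_lit 593) (nat_lit 7696) (nat_lit 658) (nat_lit 622))))))))))) (.f (nat_lit 654) (nat_lit 527) (nat_lit 6670) (.f (nat_lit 655) (nat_lit 687) (nat_lit 4654) (.f (nat_lit 623) (nat_lit 526) (nat_lit 4622) (.f (nat_lit 625) (nat_lit 626) (nat_lit 1646) (.f (nat_lit 657) (nat_lit 658) (nat_lit 622) (.d (nat_lit 593) (nat_lit 561) (nat_lit 7696) (nat_lit 594) (nat_lit 2638)))))))))))))))))) (.a (.p (nat_lit 623) (.a (.p (nat_lit 622) (.a (.p (nat_lit 625) (.a (.f (nat_lit 590) (nat_lit 589) (nat_lit 3661) (.d (nat_lit 654) (nat_lit 527) (nat_lit 6670) (nat_lit 653) (nat_lit 1645))) (.a (.f (nat_lit 590) (nat_lit 589) (nat_lit 3661) (.f (nat_lit 654) (nat_lit 653) (nat_lit 1645) (.d (nat_lit 655) (nat_lit 526) (nat_lit 4622) (nat_lit 626) (nat_lit 1646)))) (.a (.f (nat_lit 657) (nat_lit 658) (nat_lit 622) (.f (nat_lit 621) (nat_lit 656) (nat_lit 621) (.d (nat_lit 653) (nat_lit 652) (nat_lit 1644) (nat_lit 654) (nat_lit 1645)))) (.a (.f (nat_lit 590) (nat_lit 589) (nat_lit 3661) (.f (nat_lit 526) (nat_lit 655) (nat_lit 4622) (.f (nat_lit 621) (nat_lit 653) (nat_lit 5645) (.d (nat_lit 657) (nat_lit 656) (nat_lit 621) (nat_lit 658) (nat_lit 622))))) (.f (nat_lit 590) (nat_lit 589) (nat_lit 3661) (.f (nat_lit 655) (nat_lit 526) (nat_lit 4622) (.d (nat_lit 654) (nat_lit 527) (nat_lit 6670) (nat_lit 626) (nat_lit 1646))))))))) (.a s45196 (.a (.p (nat_lit 625) (.a (.f (nat_lit 590) (nat_lit 589) (nat_lit 3661) (.d (nat_lit 654) (nat_lit 527) (nat_lit 6670) (nat_lit 653) (nat_lit 1645))) (.a (.f (nat_lit 657) (nat_lit 658) (nat_lit 622) (.f (nat_lit 621) (nat_lit 656) (nat_lit 621) (.d (nat_lit 653) (nat_lit 652) (nat_lit 1644) (nat_lit 654) (nat_lit 1645)))) (.f (nat_lit 657) (nat_lit 658) (nat_lit 622) (.f (nat_lit 621) (nat_lit 656) (nat_lit 621) (.d (nat_lit 589) (nat_lit 588) (nat_lit 3660) (nat_lit 590) (nat_lit 3661))))))) (.a (.p (nat_lit 590) (.a (.f (nat_lit 526) (nat_lit 655) (nat_lit 4622) (.f (nat_lit 621) (nat_lit 653) (nat_lit 5645) (.d (nat_lit 589) (nat_lit 494) (nat_lit 5613) (nat_lit 588) (nat_lit 3660)))) (.a (.f (nat_lit 654) (nat_lit 527) (nat_lit 6670) (.f (nat_lit 653) (nat_lit 685) (nat_lit 5677) (.d (nat_lit 655) (nat_lit 652) (nat_lit 2668) (nat_lit 687) (nat_lit 4654)))) (.a (.f (nat_lit 654) (nat_lit 527) (nat_lit 6670) (.f (nat_lit 653) (nat_lit 685) (nat_lit 5677) (.d (nat_lit 621) (nat_lit 526) (nat_lit 5645) (nat_lit 652) (nat_lit 1644)))) (.f (nat_lit 655) (nat_lit 526) (nat_lit 4622) (.d (nat_lit 654) (nat_lit 527) (nat_lit 6670) (nat_lit 687) (nat_lit 4654))))))) (.a s45200 (.a (.p (nat_lit 625) (.a (.f (nat_lit 657) (nat_lit 658) (nat_lit 622) (.f (nat_lit 621) (nat_lit 656) (nat_lit 621) (.d (nat_lit 653) (nat_lit 652) (nat_lit 1644) (nat_lit 654) (nat_lit 1645)))) (.a (.f (nat_lit 654) (nat_lit 653) (nat_lit 1645) (.f (nat_lit 626) (nat_lit 655) (nat_lit 1646) (.f (nat_lit 595) (nat_lit 594) (nat_lit 2639) (.f (nat_lit 627) (nat_lit 596) (nat_lit 2640) (.d (nat_lit 659) (nat_lit 658) (nat_lit 623) (nat_lit 660) (nat_lit 624)))))) (.a (.f (nat_lit 657) (nat_lit 658) (nat_lit 622) (.f (nat_lit 621) (nat_lit 656) (nat_lit 621) (.f (nat_lit 653) (nat_lit 652) (nat_lit 1644) (.f (nat_lit 526) (nat_lit 590) (nat_lit 5645) (.f (nat_lit 525) (nat_lit 561) (nat_lit 3597) (.d (nat_lit 524) (nat_lit 523) (nat_lit 523) (nat_lit 527) (nat_lit 524))))))) (.a (.f (nat_lit 654) (nat_lit 653) (nat_lit 1645) (.f (nat_lit 655) (nat_lit 626) (nat_lit 1646) (.d (nat_lit 590) (nat_lit 526) (nat_lit 4622) (nat_lit 527) (nat_lit 6670)))) (.f (nat_lit 658) (nat_lit 657) (nat_lit 622) (.f (nat_lit 626) (nat_lit 659) (nat_lit 623) (.f (nat_lit 595) (nat_lit 594) (nat_lit 2639) (.f (nat_lit 627) (nat_lit 596) (nat_lit 2640) (.d (nat_lit 655) (nat_lit 654) (nat_lit 1646) (nat_lit 656) (nat_lit 1647))))))))))) (.a (.p (nat_lit 561) (.a (.f (nat_lit 526) (nat_lit 525) (nat_lit 3597) (.f (nat_lit 562) (nat_lit 527) (nat_lit 3598) (.f (nat_lit 595) (nat_lit 594) (nat_lit 559) (.f (nat_lit 563) (nat_lit 596) (nat_lit 560) (.d (nat_lit 531) (nat_lit 530) (nat_lit 2575) (nat_lit 532) (nat_lit 2576)))))) (.a (.f (nat_lit 590) (nat_lit 589) (nat_lit 1581) (.d (nat_lit 526) (nat_lit 525) (nat_lit 3597) (nat_lit 655) (nat_lit 4622))) (.f (nat_lit 590) (nat_lit 589) (nat_lit 1581) (.f (nat_lit 654) (nat_lit 527) (nat_lit 6670) (.d (nat_lit 653) (nat_lit 625) (nat_lit 1645) (nat_lit 685) (nat_lit 5677))))))) (.a (.p (nat_lit 561) (.a (.f (nat_lit 589) (nat_lit 590) (nat_lit 1581) (.f (nat_lit 621) (nat_lit 588) (nat_lit 3660) (.f (nat_lit 652) (nat_lit 653) (nat_lit 1644) (.f (nat_lit 620) (nat_lit 651) (nat_lit 1643) (.d (nat_lit 656) (nat_lit 655) (nat_lit 620) (nat_lit 657) (nat_lit 621)))))) (.f (nat_lit 526) (nat_lit 525) (nat_lit 3597) (.f (nat_lit 562) (nat_lit 527) (nat_lit 3598) (.f (nat_lit 595) (nat_lit 594) (nat_lit 559) (.f (nat_lit 563) (nat_lit 596) (nat_lit 560) (.d (nat_lit 531) (nat_lit 530) (nat_lit 2575) (nat_lit 532) (nat_lit 2576)))))))) (.p (nat_lit 561) (.a (.f (nat_lit 526) (nat_lit 525) (nat_lit 3597) (.f (nat_lit 562) (nat_lit 527) (nat_lit 3598) (.f (nat_lit 595) (nat_lit 594) (nat_lit 559) (.f (nat_lit 563) (nat_lit 596) (nat_lit 560) (.d (nat_lit 531) (nat_lit 530) (nat_lit 2575) (nat_lit 532) (nat_lit 2576)))))) (.a (.f (nat_lit 590) (nat_lit 589) (nat_lit 1581) (.d (nat_lit 526) (nat_lit 525) (nat_lit 3597) (nat_lit 655) (nat_lit 4622))) (.f (nat_lit 590) (nat_lit 589) (nat_lit 1581) (.f (nat_lit 654) (nat_lit 527) (nat_lit 6670) (.f (nat_lit 655) (nat_lit 687) (nat_lit 4654) (.f (nat_lit 625) (nat_lit 626) (nat_lit 1646) (.f (nat_lit 657) (nat_lit 658) (nat_lit 622) (.f (nat_lit 656) (nat_lit 621) (nat_lit 621) (.f (nat_lit 686) (nat_lit 685) (nat_lit 1677) (.f (nat_lit 718) (nat_lit 750) (nat_lit 6766) (.f (nat_lit 689) (nat_lit 690) (nat_lit 654) (.f (nat_lit 721) (nat_lit 753) (nat_lit 7792) (.f (nat_lit 720) (nat_lit 752) (nat_lit 5744) (.f (nat_lit 719) (nat_lit 751) (nat_lit 4718) (.d (nat_lit 717) (nat_lit 688) (nat_lit 2733) (nat_lit 749) (nat_lit 5741)))))))))))))))))))))))))) (.a (.f (nat_lit 592) (nat_lit 655) (nat_lit 5647) (.f (nat_lit 657) (nat_lit 625) (nat_lit 4624) (.d (nat_lit 656) (nat_lit 527) (nat_lit 7695) (nat_lit 689) (nat_lit 4656)))) (.a (.p (nat_lit 622) (.a s45196 (.a s45200 (.a (.p (nat_lit 589) (.a (.f (nat_lit 621) (nat_lit 588) (nat_lit 3660) (.f (nat_lit 653) (nat_lit 652) (nat_lit 1644) (.d (nat_lit 590) (nat_lit 526) (nat_lit 5645) (nat_lit 685) (nat_lit 6701)))) (.a (.f (nat_lit 621) (nat_lit 588) (nat_lit 3660) (.f (nat_lit 653) (nat_lit 652) (nat_lit 1644) (.f (nat_lit 685) (nat_lit 590) (nat_lit 6701) (.f (nat_lit 656) (nat_lit 657) (nat_lit 621) (.f (nat_lit 655) (nat_lit 620) (nat_lit 620) (.d (nat_lit 684) (nat_lit 654) (nat_lit 1676) (nat_lit 716) (nat_lit 5708))))))) (.a (.f (nat_lit 621) (nat_lit 588) (nat_lit 3660) (.f (nat_lit 652) (nat_lit 653) (nat_lit 1644) (.f (nat_lit 620) (nat_lit 651) (nat_lit 1643) (.d (nat_lit 656) (nat_lit 655) (nat_lit 620) (nat_lit 657) (nat_lit 621))))) (.f (nat_lit 590) (nat_lit 561) (nat_lit 1581) (.f (nat_lit 655) (nat_lit 526) (nat_lit 4622) (.d (nat_lit 687) (nat_lit 654) (nat_lit 4654) (nat_lit 719) (nat_lit 7758)))))))) (.a (.f (nat_lit 655) (nat_lit 592) (nat_lit 5647) (.f (nat_lit 590) (nat_lit 526) (nat_lit 4622) (.d (nat_lit 589) (nat_lit 561) (nat_lit 1581) (nat_lit 625) (nat_lit 3661)))) (.a (.p (nat_lit 625) (.a (.f (nat_lit 657) (nat_lit 658) (nat_lit 622) (.f (nat_lit 621) (nat_lit 656) (nat_lit 621) (.d (nat_lit 653) (nat_lit 652) (nat_lit 1644) (nat_lit 654) (nat_lit 1645)))) (.a (.f (nat_lit 590) (nat_lit 589) (nat_lit 3661) (.f (nat_lit 653) (nat_lit 654) (nat_lit 1645) (.d (nat_lit 621) (nat_lit 526) (nat_lit 5645) (nat_lit 652) (nat_lit 1644)))) (.d (nat_lit 657) (nat_lit 592) (nat_lit 4624) (nat_lit 658) (nat_lit 622))))) (.f (nat_lit 655) (nat_lit 592) (nat_lit 5647) (.f (nat_lit 590) (nat_lit 526) (nat_lit 4622) (.d (nat_lit 687) (nat_lit 654) (nat_lit 4654) (nat_lit 719) (nat_lit 7758)))))))))) (.a (.p (nat_lit 590) (.a (.f (nat_lit 561) (nat_lit 589) (nat_lit 1581) (.f (nat_lit 526) (nat_lit 525) (nat_lit 3597) (.f (nat_lit 622) (nat_lit 655) (nat_lit 4622) (.d (nat_lit 527) (nat_lit 562) (nat_lit 3598) (nat_lit 654) (nat_lit 6670))))) (.a (.f (nat_lit 655) (nat_lit 592) (nat_lit 5647) (.f (nat_lit 622) (nat_lit 526) (nat_lit 4622) (.d (nat_lit 654) (nat_lit 527) (nat_lit 6670) (nat_lit 687) (nat_lit 4654)))) (.a (.f (nat_lit 589) (nat_lit 561) (nat_lit 1581) (.f (nat_lit 588) (nat_lit 587) (nat_lit 2603) (.f (nat_lit 622) (nat_lit 621) (nat_lit 3660) (.f (nat_lit 655) (nat_lit 526) (nat_lit 4622) (.d (nat_lit 687) (nat_lit 654) (nat_lit 4654) (nat_lit 719) (nat_lit 7758)))))) (.a (.f (nat_lit 592) (nat_lit 655) (nat_lit 5647) (.f (nat_lit 589) (nat_lit 561) (nat_lit 1581) (.f (nat_lit 588) (nat_lit 587) (nat_lit 2603) (.f (nat_lit 622) (nat_lit 621) (nat_lit 3660) (.d (nat_lit 527) (nat_lit 654) (nat_lit 6670) (nat_lit 656) (nat_lit 7695)))))) (.f (nat_lit 561) (nat_lit 589) (nat_lit 1581) (.f (nat_lit 526) (nat_lit 525) (nat_lit 3597) (.f (nat_lit 562) (nat_lit 527) (nat_lit 3598) (.f (nat_lit 531) (nat_lit 530) (nat_lit 2575) (.f (nat_lit 563) (nat_lit 532) (nat_lit 2576) (.d (nat_lit 595) (nat_lit 594) (nat_lit 559) (nat_lit 596) (nat_lit 560)))))))))))) (.a (.p (nat_lit 590) (.a (.f (nat_lit 561) (nat_lit 589) (nat_lit 1581) (.f (nat_lit 526) (nat_lit 525) (nat_lit 3597) (.f (nat_lit 622) (nat_lit 655) (nat_lit 4622) (.d (nat_lit 527) (nat_lit 562) (nat_lit 3598) (nat_lit 654) (nat_lit 6670))))) (.a (.f (nat_lit 655) (nat_lit 592) (nat_lit 5647) (.f (nat_lit 622) (nat_lit 526) (nat_lit 4622) (.d (nat_lit 654) (nat_lit 527) (nat_lit 6670) (nat_lit 687) (nat_lit 4654)))) (.a (.f (nat_lit 589) (nat_lit 561) (nat_lit 1581) (.f (nat_lit 588) (nat_lit 587) (nat_lit 2603) (.f (nat_lit 622) (nat_lit 621) (nat_lit 3660) (.f (nat_lit 655) (nat_lit 526) (nat_lit 4622) (.d (nat_lit 687) (nat_lit 654) (nat_lit 4654) (nat_lit 719) (nat_lit 7758)))))) (.a (.f (nat_lit 589) (nat_lit 561) (nat_lit 1581) (.f (nat_lit 622) (nat_lit 625) (nat_lit 3661) (.d (nat_lit 588) (nat_lit 587) (nat_lit 2603) (nat_lit 621) (nat_lit 3660)))) (.f (nat_lit 561) (nat_lit 589) (nat_lit 1581) (.f (nat_lit 526) (nat_lit 525) (nat_lit 3597) (.f (nat_lit 562) (nat_lit 527) (nat_lit 3598) (.f (nat_lit 531) (nat_lit 530) (nat_lit 2575) (.f (nat_lit 563) (nat_lit 532) (nat_lit 2576) (.d (nat_lit 595) (nat_lit 594) (nat_lit 559) (nat_lit 596) (nat_lit 560)))))))))))) (.p (nat_lit 622) (.a (.p (nat_lit 625) (.a (.f (nat_lit 590) (nat_lit 589) (nat_lit 3661) (.d (nat_lit 654) (nat_lit 527) (nat_lit 6670) (nat_lit 653) (nat_lit 1645))) (.a (.f (nat_lit 657) (nat_lit 658) (nat_lit 622) (.f (nat_lit 621) (nat_lit 656) (nat_lit 621) (.d (nat_lit 653) (nat_lit 652) (nat_lit 1644) (nat_lit 654) (nat_lit 1645)))) (.f (nat_lit 657) (nat_lit 658) (nat_lit 622) (.f (nat_lit 621) (nat_lit 656) (nat_lit 621) (.d (nat_lit 589) (nat_lit 588) (nat_lit 3660) (nat_lit 590) (nat_lit 3661))))))) (.a (.p (nat_lit 625) (.a (.f (nat_lit 657) (nat_lit 658) (nat_lit 622) (.f (nat_lit 621) (nat_lit 656) (nat_lit 621) (.d (nat_lit 653) (nat_lit 652) (nat_lit 1644) (nat_lit 654) (nat_lit 1645)))) (.a (.f (nat_lit 590) (nat_lit 589) (nat_lit 3661) (.f (nat_lit 653) (nat_lit 654) (nat_lit 1645) (.d (nat_lit 621) (nat_lit 526) (nat_lit 5645) (nat_lit 652) (nat_lit 1644)))) (.d (nat_lit 657) (nat_lit 592) (nat_lit 4624) (nat_lit 658) (nat_lit 622))))) (.a (.p (nat_lit 590) (.a (.f (nat_lit 654) (nat_lit 527) (nat_lit 6670) (.f (nat_lit 653) (nat_lit 685) (nat_lit 5677) (.d (nat_lit 621) (nat_lit 526) (nat_lit 5645) (nat_lit 652) (nat_lit 1644)))) (.a (.f (nat_lit 589) (nat_lit 561) (nat_lit 1581) (.d (nat_lit 588) (nat_lit 587) (nat_lit 587) (nat_lit 621) (nat_lit 3660))) (.f (nat_lit 561) (nat_lit 589) (nat_lit 1581) (.f (nat_lit 526) (nat_lit 525) (nat_lit 3597) (.d (nat_lit 527) (nat_lit 562) (nat_lit 3598) (nat_lit 654) (nat_lit 6670))))))) (.a (.p (nat_lit 621) (.a (.f (nat_lit 657) (nat_lit 656) (nat_lit 621) (.f (nat_lit 625) (nat_lit 658) (nat_lit 622) (.d (nat_lit 653) (nat_lit 652) (nat_lit 1644) (nat_lit 654) (nat_lit 1645)))) (.a (.f (nat_lit 652) (nat_lit 653) (nat_lit 1644) (.f (nat_lit 620) (nat_lit 651) (nat_lit 1643) (.d (nat_lit 588) (nat_lit 587) (nat_lit 3659) (nat_lit 589) (nat_lit 3660)))) (.f (nat_lit 657) (nat_lit 656) (nat_lit 621) (.d (nat_lit 625) (nat_lit 592) (nat_lit 4624) (nat_lit 658) (nat_lit 622)))))) (.a (.p (nat_lit 592) (.a (.f (nat_lit 657) (nat_lit 625) (nat_lit 4624) (.d (nat_lit 656) (nat_lit 527) (nat_lit 7695) (nat_lit 689) (nat_lit 4656))) (.a (.f (nat_lit 657) (nat_lit 625) (nat_lit 4624) (.d (nat_lit 656) (nat_lit 621) (nat_lit 621) (nat_lit 689) (nat_lit 4656))) (.a (.f (nat_lit 656) (nat_lit 527) (nat_lit 7695) (.d (nat_lit 657) (nat_lit 621) (nat_lit 621) (nat_lit 689) (nat_lit 4656))) (.a (.f (nat_lit 527) (nat_lit 656) (nat_lit 7695) (.f (nat_lit 654) (nat_lit 590) (nat_lit 6670) (.f (nat_lit 653) (nat_lit 625) (nat_lit 1645) (.d (nat_lit 652) (nat_lit 621) (nat_lit 1644) (nat_lit 651) (nat_lit 2667))))) (.f (nat_lit 625) (nat_lit 657) (nat_lit 4624) (.f (nat_lit 653) (nat_lit 654) (nat_lit 1645) (.f (nat_lit 621) (nat_lit 652) (nat_lit 1644) (.f (nat_lit 526) (nat_lit 590) (nat_lit 5645) (.f (nat_lit 525) (nat_lit 561) (nat_lit 3597) (.d (nat_lit 524) (nat_lit 523) (nat_lit 523) (nat_lit 527) (nat_lit 524)))))))))))) (.a (.p (nat_lit 625) (.a (.f (nat_lit 590) (nat_lit 589) (nat_lit 3661) (.d (nat_lit 654) (nat_lit 527) (nat_lit 6670) (nat_lit 653) (nat_lit 1645))) (.d (nat_lit 657) (nat_lit 592) (nat_lit 4624) (nat_lit 658) (nat_lit 622)))) (.p (nat_lit 561) (.a (.f (nat_lit 526) (nat_lit 525) (nat_lit 3597) (.f (nat_lit 562) (nat_lit 527) (nat_lit 3598) (.f (nat_lit 595) (nat_lit 594) (nat_lit 559) (.f (nat_lit 563) (nat_lit 596) (nat_lit 560) (.d (nat_lit 531) (nat_lit 530) (nat_lit 2575) (nat_lit 532) (nat_lit 2576)))))) (.f (nat_lit 589) (nat_lit 590) (nat_lit 1581) (.f (nat_lit 621) (nat_lit 588) (nat_lit 3660) (.f (nat_lit 657) (nat_lit 656) (nat_lit 621) (.d (nat_lit 625) (nat_lit 592) (nat_lit 4624) (nat_lit 658) (nat_lit 622)))))))))))))))))))) (.a (.p (nat_lit 592) (.a (.f (nat_lit 655) (nat_lit 623) (nat_lit 5647) (.f (nat_lit 656) (nat_lit 687) (nat_lit 5679) (.d (nat_lit 657) (nat_lit 625) (nat_lit 4624) (nat_lit 689) (nat_lit 4656)))) (.a (.f (nat_lit 656) (nat_lit 527) (nat_lit 7695) (.d (nat_lit 657) (nat_lit 625) (nat_lit 4624) (nat_lit 689) (nat_lit 4656))) (.a (.f (nat_lit 656) (nat_lit 527) (nat_lit 7695) (.d (nat_lit 655) (nat_lit 623) (nat_lit 5647) (nat_lit 687) (nat_lit 5679))) (.f (nat_lit 625) (nat_lit 657) (nat_lit 4624) (.f (nat_lit 623) (nat_lit 655) (nat_lit 5647) (.f (nat_lit 593) (nat_lit 496) (nat_lit 4592) (.d (nat_lit 622) (nat_lit 594) (nat_lit 2638) (nat_lit 621) (nat_lit 2637))))))))) (.a (.p (nat_lit 625) (.a (.p (nat_lit 623) (.a (.p (nat_lit 622) (.a (.f (nat_lit 657) (nat_lit 658) (nat_lit 622) (.f (nat_lit 621) (nat_lit 656) (nat_lit 621) (.d (nat_lit 653) (nat_lit 652) (nat_lit 1644) (nat_lit 654) (nat_lit 1645)))) (.a (.f (nat_lit 654) (nat_lit 653) (nat_lit 1645) (.f (nat_lit 626) (nat_lit 655) (nat_lit 1646) (.f (nat_lit 595) (nat_lit 594) (nat_lit 2639) (.f (nat_lit 627) (nat_lit 596) (nat_lit 2640) (.d (nat_lit 659) (nat_lit 658) (nat_lit 623) (nat_lit 660) (nat_lit 624)))))) (.a (.f (nat_lit 657) (nat_lit 658) (nat_lit 622) (.f (nat_lit 621) (nat_lit 656) (nat_lit 621) (.f (nat_lit 588) (nat_lit 589) (nat_lit 3660) (.f (nat_lit 620) (nat_lit 587) (nat_lit 3659) (.d (nat_lit 652) (nat_lit 651) (nat_lit 1643) (nat_lit 653) (nat_lit 1644)))))) (.a (.f (nat_lit 653) (nat_lit 654) (nat_lit 1645) (.f (nat_lit 621) (nat_lit 652) (nat_lit 1644) (.f (nat_lit 588) (nat_lit 589) (nat_lit 3660) (.f (nat_lit 620) (nat_lit 587) (nat_lit 3659) (.d (nat_lit 656) (nat_lit 655) (nat_lit 620) (nat_lit 657) (nat_lit 621)))))) (.f (nat_lit 658) (nat_lit 657) (nat_lit 622) (.f (nat_lit 626) (nat_lit 659) (nat_lit 623) (.f (nat_lit 595) (nat_lit 594) (nat_lit 2639) (.f (nat_lit 627) (nat_lit 596) (nat_lit 2640) (.d (nat_lit 655) (nat_lit 654) (nat_lit 1646) (nat_lit 656) (nat_lit 1647))))))))))) (.a (.f (nat_lit 655) (nat_lit 592) (nat_lit 5647) (.f (nat_lit 626) (nat_lit 654) (nat_lit 1646) (.f (nat_lit 627) (nat_lit 656) (nat_lit 1647) (.d (nat_lit 659) (nat_lit 658) (nat_lit 623) (nat_lit 660) (nat_lit 624))))) (.a (.d (nat_lit 592) (nat_lit 655) (nat_lit 5647) (nat_lit 657) (nat_lit 4624)) (.f (nat_lit 657) (nat_lit 592) (nat_lit 4624) (.f (nat_lit 622) (nat_lit 658) (nat_lit 622) (.f (nat_lit 621) (nat_lit 656) (nat_lit 621) (.d (nat_lit 653) (nat_lit 652) (nat_lit 1644) (nat_lit 654) (nat_lit 1645))))))))) (.a (.p (nat_lit 622) (.a (.p (nat_lit 623) (.a (.f (nat_lit 590) (nat_lit 589) (nat_lit 3661) (.f (nat_lit 654) (nat_lit 653) (nat_lit 1645) (.d (nat_lit 655) (nat_lit 526) (nat_lit 4622) (nat_lit 626) (nat_lit 1646)))) (.a (.f (nat_lit 657) (nat_lit 658) (nat_lit 622) (.f (nat_lit 621) (nat_lit 656) (nat_lit 621) (.d (nat_lit 653) (nat_lit 652) (nat_lit 1644) (nat_lit 654) (nat_lit 1645)))) (.a (.f (nat_lit 590) (nat_lit 589) (nat_lit 3661) (.f (nat_lit 526) (nat_lit 655) (nat_lit 4622) (.f (nat_lit 621) (nat_lit 653) (nat_lit 5645) (.d (nat_lit 657) (nat_lit 656) (nat_lit 621) (nat_lit 658) (nat_lit 622))))) (.f (nat_lit 590) (nat_lit 589) (nat_lit 3661) (.f (nat_lit 655) (nat_lit 526) (nat_lit 4622) (.d (nat_lit 654) (nat_lit 626) (nat_lit 1646) (nat_lit 687) (nat_lit 4654)))))))) (.a (.p (nat_lit 561) (.a (.d (nat_lit 593) (nat_lit 594) (nat_lit 558) (nat_lit 657) (nat_lit 7696)) (.f (nat_lit 590) (nat_lit 589) (nat_lit 1581) (.f (nat_lit 526) (nat_lit 525) (nat_lit 3597) (.f (nat_lit 653) (nat_lit 621) (nat_lit 5645) (.f (nat_lit 654) (nat_lit 685) (nat_lit 5677) (.d (nat_lit 655) (nat_lit 656) (nat_lit 2669) (nat_lit 687) (nat_lit 4654)))))))) (.a (.p (nat_lit 623) (.a (.f (nat_lit 657) (nat_lit 658) (nat_lit 622) (.f (nat_lit 621) (nat_lit 656) (nat_lit 621) (.d (nat_lit 653) (nat_lit 652) (nat_lit 1644) (nat_lit 654) (nat_lit 1645)))) (.a (.f (nat_lit 654) (nat_lit 653) (nat_lit 1645) (.f (nat_lit 626) (nat_lit 655) (nat_lit 1646) (.d (nat_lit 594) (nat_lit 593) (nat_lit 2638) (nat_lit 595) (nat_lit 2639)))) (.f (nat_lit 657) (nat_lit 658) (nat_lit 622) (.f (nat_lit 621) (nat_lit 656) (nat_lit 621) (.d (nat_lit 589) (nat_lit 588) (nat_lit 3660) (nat_lit 590) (nat_lit 3661))))))) (.a (.p (nat_lit 623) (.a (.f (nat_lit 657) (nat_lit 658) (nat_lit 622) (.f (nat_lit 621) (nat_lit 656) (nat_lit 621) (.d (nat_lit 653) (nat_lit 652) (nat_lit 1644) (nat_lit 654) (nat_lit 1645)))) (.a (.f (nat_lit 654) (nat_lit 653) (nat_lit 1645) (.f (nat_lit 626) (nat_lit 655) (nat_lit 1646) (.d (nat_lit 594) (nat_lit 593) (nat_lit 2638) (nat_lit 595) (nat_lit 2639)))) (.a (.f (nat_lit 657) (nat_lit 658) (nat_lit 622) (.f (nat_lit 621) (nat_lit 656) (nat_lit 621) (.f (nat_lit 588) (nat_lit 589) (nat_lit 3660) (.f (nat_lit 620) (nat_lit 587) (nat_lit 3659) (.d (nat_lit 652) (nat_lit 651) (nat_lit 1643) (nat_lit 653) (nat_lit 1644)))))) (.f (nat_lit 657) (nat_lit 658) (nat_lit 622) (.f (nat_lit 656) (nat_lit 621) (nat_lit 621) (.f (nat_lit 594) (nat_lit 593) (nat_lit 2638) (.f (nat_lit 626) (nat_lit 595) (nat_lit 2639) (.d (nat_lit 655) (nat_lit 627) (nat_lit 1647) (nat_lit 654) (nat_lit 2670)))))))))) (.a (.p (nat_lit 561) (.a (.f (nat_lit 590) (nat_lit 589) (nat_lit 1581) (.f (nat_lit 526) (nat_lit 525) (nat_lit 3597) (.f (nat_lit 653) (nat_lit 621) (nat_lit 5645) (.f (nat_lit 654) (nat_lit 685) (nat_lit 5677) (.d (nat_lit 655) (nat_lit 656) (nat_lit 2669) (nat_lit 687) (nat_lit 4654)))))) (.f (nat_lit 594) (nat_lit 593) (nat_lit 558) (.f (nat_lit 595) (nat_lit 562) (nat_lit 559) (.f (nat_lit 626) (nat_lit 623) (nat_lit 2639) (.d (nat_lit 596) (nat_lit 597) (nat_lit 1617) (nat_lit 627) (nat_lit 2640))))))) (.a (.p (nat_lit 561) (.a (.d (nat_lit 593) (nat_lit 594) (nat_lit 558) (nat_lit 657) (nat_lit 7696)) (.f (nat_lit 590) (nat_lit 589) (nat_lit 1581) (.f (nat_lit 526) (nat_lit 525) (nat_lit 3597) (.f (nat_lit 623) (nat_lit 655) (nat_lit 4622) (.d (nat_lit 653) (nat_lit 621) (nat_lit 5645) (nat_lit 654) (nat_lit 1645))))))) (.a (.p (nat_lit 561) (.a (.d (nat_lit 593) (nat_lit 594) (nat_lit 558) (nat_lit 657) (nat_lit 7696)) (.f (nat_lit 590) (nat_lit 589) (nat_lit 1581) (.f (nat_lit 526) (nat_lit 525) (nat_lit 3597) (.f (nat_lit 653) (nat_lit 621) (nat_lit 5645) (.d (nat_lit 654) (nat_lit 623) (nat_lit 1645) (nat_lit 685) (nat_lit 5677))))))) (.a (.p (nat_lit 623) (.a (.f (nat_lit 657) (nat_lit 658) (nat_lit 622) (.f (nat_lit 621) (nat_lit 656) (nat_lit 621) (.d (nat_lit 653) (nat_lit 652) (nat_lit 1644) (nat_lit 654) (nat_lit 1645)))) (.a (.f (nat_lit 654) (nat_lit 653) (nat_lit 1645) (.f (nat_lit 626) (nat_lit 655) (nat_lit 1646) (.d (nat_lit 594) (nat_lit 593) (nat_lit 2638) (nat_lit 595) (nat_lit 2639)))) (.f (nat_lit 657) (nat_lit 658) (nat_lit 622) (.f (nat_lit 594) (nat_lit 593) (nat_lit 2638) (.f (nat_lit 626) (nat_lit 595) (nat_lit 2639) (.f (nat_lit 656) (nat_lit 621) (nat_lit 621) (.d (nat_lit 627) (nat_lit 628) (nat_lit 1648) (nat_lit 655) (nat_lit 1647))))))))) (.a (.p (nat_lit 561) (.a (.d (nat_lit 593) (nat_lit 594) (nat_lit 558) (nat_lit 657) (nat_lit 7696)) (.f (nat_lit 590) (nat_lit 589) (nat_lit 1581) (.f (nat_lit 526) (nat_lit 525) (nat_lit 3597) (.f (nat_lit 655) (nat_lit 623) (nat_lit 4622) (.f (nat_lit 654) (nat_lit 687) (nat_lit 4654) (.d (nat_lit 653) (nat_lit 656) (nat_lit 2669) (nat_lit 685) (nat_lit 5677)))))))) (.a (.p (nat_lit 561) (.a (.d (nat_lit 593) (nat_lit 594) (nat_lit 558) (nat_lit 657) (nat_lit 7696)) (.a (.f (nat_lit 590) (nat_lit 589) (nat_lit 1581) (.f (nat_lit 526) (nat_lit 525) (nat_lit 3597) (.f (nat_lit 623) (nat_lit 655) (nat_lit 4622) (.f (nat_lit 621) (nat_lit 653) (nat_lit 5645) (.d (nat_lit 657) (nat_lit 656) (nat_lit 621) (nat_lit 658) (nat_lit 622)))))) (.f (nat_lit 594) (nat_lit 593) (nat_lit 558) (.f (nat_lit 595) (nat_lit 562) (nat_lit 559) (.f (nat_lit 626) (nat_lit 623) (nat_lit 2639) (.d (nat_lit 596) (nat_lit 597) (nat_lit 1617) (nat_lit 627) (nat_lit 2640)))))))) (.p (nat_lit 623) (.a (.f (nat_lit 590) (nat_lit 589) (nat_lit 3661) (.f (nat_lit 655) (nat_lit 526) (nat_lit 4622) (.d (nat_lit 654) (nat_lit 626) (nat_lit 1646) (nat_lit 687) (nat_lit 4654)))) (.a (.f (nat_lit 657) (nat_lit 658) (nat_lit 622) (.f (nat_lit 621) (nat_lit 656) (nat_lit 621) (.d (nat_lit 589) (nat_lit 588) (nat_lit 3660) (nat_lit 590) (nat_lit 3661)))) (.f (nat_lit 657) (nat_lit 658) (nat_lit 622) (.f (nat_lit 656) (nat_lit 621) (nat_lit 621) (.f (nat_lit 594) (nat_lit 593) (nat_lit 2638) (.f (nat_lit 626) (nat_lit 595) (nat_lit 2639) (.d (nat_lit 655) (nat_lit 627) (nat_lit 1647) (nat_lit 654) (nat_lit 2670)))))))))))))))))))) (.a (.f (nat_lit 592) (nat_lit 657) (nat_lit 4624) (.f (nat_lit 593) (nat_lit 496) (nat_lit 4592) (.d (nat_lit 594) (nat_lit 561) (nat_lit 558) (nat_lit 595) (nat_lit 3631)))) (.a (.p (nat_lit 593) (.a (.f (nat_lit 594) (nat_lit 561) (nat_lit 558) (.d (nat_lit 595) (nat_lit 592) (nat_lit 3631) (nat_lit 596) (nat_lit 1616))) (.a (.f (nat_lit 594) (nat_lit 561) (nat_lit 558) (.f (nat_lit 595) (nat_lit 596) (nat_lit 1616) (.d (nat_lit 623) (nat_lit 622) (nat_lit 2638) (nat_lit 626) (nat_lit 2639)))) (.a (.f (nat_lit 592) (nat_lit 496) (nat_lit 4592) (.f (nat_lit 623) (nat_lit 655) (nat_lit 5647) (.d (nat_lit 594) (nat_lit 595) (nat_lit 3631) (nat_lit 622) (nat_lit 2638)))) (.f (nat_lit 592) (nat_lit 496) (nat_lit 4592) (.f (nat_lit 655) (nat_lit 623) (nat_lit 5647) (.f (nat_lit 656) (nat_lit 687) (nat_lit 5679) (.d (nat_lit 688) (nat_lit 561) (nat_lit 6704) (nat_lit 720) (nat_lit 6736))))))))) (.f (nat_lit 592) (nat_lit 657) (nat_lit 4624) (.f (nat_lit 655) (nat_lit 623) (nat_lit 5647) (.f (nat_lit 656) (nat_lit 687) (nat_lit 5679) (.f (nat_lit 593) (nat_lit 496) (nat_lit 4592) (.d (nat_lit 688) (nat_lit 561) (nat_lit 6704) (nat_lit 720) (nat_lit 6736))))))))))) (.a (.p (nat_lit 561) (.a (.f (nat_lit 593) (nat_lit 594) (nat_lit 558) (.f (nat_lit 625) (nat_lit 657) (nat_lit 7696) (.d (nat_lit 496) (nat_lit 464) (nat_lit 4560) (nat_lit 592) (nat_lit 4592)))) (.a (.f (nat_lit 526) (nat_lit 525) (nat_lit 3597) (.f (nat_lit 562) (nat_lit 527) (nat_lit 3598) (.d (nat_lit 594) (nat_lit 593) (nat_lit 558) (nat_lit 595) (nat_lit 559)))) (.a (.f (nat_lit 526) (nat_lit 525) (nat_lit 3597) (.f (nat_lit 562) (nat_lit 527) (nat_lit 3598) (.f (nat_lit 531) (nat_lit 530) (nat_lit 2575) (.f (nat_lit 563) (nat_lit 532) (nat_lit 2576) (.d (nat_lit 595) (nat_lit 594) (nat_lit 559) (nat_lit 596) (nat_lit 560)))))) (.f (nat_lit 526) (nat_lit 525) (nat_lit 3597) (.f (nat_lit 527) (nat_lit 562) (nat_lit 3598) (.f (nat_lit 592) (nat_lit 656) (nat_lit 7695) (.f (nat_lit 625) (nat_lit 657) (nat_lit 4624) (.f (nat_lit 496) (nat_lit 593) (nat_lit 4592) (.f (nat_lit 464) (nat_lit 432) (nat_lit 5551) (.d (nat_lit 465) (nat_lit 433) (nat_lit 6576) (nat_lit 497) (nat_lit 6608)))))))))))) (.a (.p (nat_lit 590) (.a (.f (nat_lit 561) (nat_lit 589) (nat_lit 1581) (.f (nat_lit 526) (nat_lit 525) (nat_lit 3597) (.f (nat_lit 562) (nat_lit 527) (nat_lit 3598) (.d (nat_lit 594) (nat_lit 593) (nat_lit 558) (nat_lit 595) (nat_lit 559))))) (.a (.f (nat_lit 561) (nat_lit 589) (nat_lit 1581) (.f (nat_lit 526) (nat_lit 525) (nat_lit 3597) (.f (nat_lit 562) (nat_lit 527) (nat_lit 3598) (.f (nat_lit 531) (nat_lit 530) (nat_lit 2575) (.f (nat_lit 563) (nat_lit 532) (nat_lit 2576) (.d (nat_lit 595) (nat_lit 594) (nat_lit 559) (nat_lit 596) (nat_lit 560))))))) (.a (.p (nat_lit 622) (.a (.f (nat_lit 654) (nat_lit 527) (nat_lit 6670) (.f (nat_lit 685) (nat_lit 653) (nat_lit 5677) (.f (nat_lit 686) (nat_lit 717) (nat_lit 5709) (.d (nat_lit 687) (nat_lit 655) (nat_lit 4654) (nat_lit 719) (nat_lit 4686))))) (.a s45347 (.a (.f (nat_lit 654) (nat_lit 527) (nat_lit 6670) (.f (nat_lit 653) (nat_lit 685) (nat_lit 5677) (.f (nat_lit 621) (nat_lit 526) (nat_lit 5645) (.f (nat_lit 652) (nat_lit 623) (nat_lit 1644) (.f (nat_lit 651) (nat_lit 650) (nat_lit 2666) (.f (nat_lit 686) (nat_lit 687) (nat_lit 651) (.d (nat_lit 718) (nat_lit 589) (nat_lit 7757) (nat_lit 750) (nat_lit 7789)))))))) (.a (.p (nat_lit 592) (.a (.f (nat_lit 623) (nat_lit 655) (nat_lit 5647) (.f (nat_lit 621) (nat_lit 593) (nat_lit 2637) (.d (nat_lit 653) (nat_lit 526) (nat_lit 5645) (nat_lit 652) (nat_lit 1644)))) (.a (.f (nat_lit 623) (nat_lit 655) (nat_lit 5647) (.f (nat_lit 656) (nat_lit 527) (nat_lit 7695) (.d (nat_lit 657) (nat_lit 621) (nat_lit 621) (nat_lit 689) (nat_lit 4656)))) (.a (.f (nat_lit 656) (nat_lit 527) (nat_lit 7695) (.f (nat_lit 687) (nat_lit 655) (nat_lit 5679) (.f (nat_lit 688) (nat_lit 719) (nat_lit 5711) (.d (nat_lit 689) (nat_lit 657) (nat_lit 4656) (nat_lit 721) (nat_lit 4688))))) (.f (nat_lit 656) (nat_lit 527) (nat_lit 7695) (.f (nat_lit 657) (nat_lit 689) (nat_lit 4656) (.f (nat_lit 621) (nat_lit 623) (nat_lit 621) (.f (nat_lit 526) (nat_lit 653) (nat_lit 5645) (.f (nat_lit 494) (nat_lit 589) (nat_lit 5613) (.d (nat_lit 493) (nat_lit 461) (nat_lit 7629) (nat_lit 525) (nat_lit 7661))))))))))) (.a (.f (nat_lit 654) (nat_lit 527) (nat_lit 6670) (.f (nat_lit 655) (nat_lit 687) (nat_lit 4654) (.d (nat_lit 623) (nat_lit 526) (nat_lit 4622) (nat_lit 592) (nat_lit 5647)))) (.f (nat_lit 527) (nat_lit 654) (nat_lit 6670) (.f (nat_lit 592) (nat_lit 656) (nat_lit 7695) (.f (nat_lit 623) (nat_lit 655) (nat_lit 5647) (.f (nat_lit 621) (nat_lit 593) (nat_lit 2637) (.d (nat_lit 653) (nat_lit 526) (nat_lit 5645) (nat_lit 652) (nat_lit 1644)))))))))))) (.a (.p (nat_lit 622) (.a (.f (nat_lit 561) (nat_lit 589) (nat_lit 1581) (.f (nat_lit 526) (nat_lit 525) (nat_lit 3597) (.f (nat_lit 653) (nat_lit 621) (nat_lit 5645) (.f (nat_lit 654) (nat_lit 685) (nat_lit 5677) (.d (nat_lit 655) (nat_lit 623) (nat_lit 4622) (nat_lit 687) (nat_lit 4654)))))) (.a s45347 (.a (.p (nat_lit 526) (.a (.d (nat_lit 525) (nat_lit 493) (nat_lit 7661) (nat_lit 561) (nat_lit 3597)) (.a (.f (nat_lit 621) (nat_lit 653) (nat_lit 5645) (.f (nat_lit 494) (nat_lit 589) (nat_lit 5613) (.d (nat_lit 493) (nat_lit 461) (nat_lit 7629) (nat_lit 525) (nat_lit 7661)))) (.f (nat_lit 589) (nat_lit 561) (nat_lit 1581) (.d (nat_lit 621) (nat_lit 494) (nat_lit 5613) (nat_lit 653) (nat_lit 5645)))))) (.a (.f (nat_lit 589) (nat_lit 561) (nat_lit 1581) (.f (nat_lit 588) (nat_lit 587) (nat_lit 2603) (.f (nat_lit 623) (nat_lit 621) (nat_lit 3660) (.f (nat_lit 655) (nat_lit 592) (nat_lit 5647) (.d (nat_lit 687) (nat_lit 654) (nat_lit 4654) (nat_lit 719) (nat_lit 7758)))))) (.a (.p (nat_lit 526) (.a (.d (nat_lit 525) (nat_lit 493) (nat_lit 7661) (nat_lit 561) (nat_lit 3597)) (.f (nat_lit 655) (nat_lit 623) (nat_lit 4622) (.f (nat_lit 654) (nat_lit 687) (nat_lit 4654) (.d (nat_lit 653) (nat_lit 621) (nat_lit 5645) (nat_lit 685) (nat_lit 5677)))))) (.f (nat_lit 561) (nat_lit 589) (nat_lit 1581) (.f (nat_lit 526) (nat_lit 525) (nat_lit 3597) (.f (nat_lit 655) (nat_lit 623) (nat_lit 4622) (.f (nat_lit 687) (nat_lit 654) (nat_lit 4654) (.f (nat_lit 656) (nat_lit 592) (nat_lit 5679) (.f (nat_lit 594) (nat_lit 593) (nat_lit 558) (.f (nat_lit 562) (nat_lit 595) (nat_lit 559) (.f (nat_lit 531) (nat_lit 530) (nat_lit 2575) (.f (nat_lit 563) (nat_lit 532) (nat_lit 2576) (.f (nat_lit 658) (nat_lit 626) (nat_lit 6674) (.f (nat_lit 657) (nat_lit 686) (nat_lit 1678) (.f (nat_lit 659) (nat_lit 688) (nat_lit 1679) (.d (nat_lit 691) (nat_lit 690) (nat_lit 655) (nat_lit 692) (nat_lit 656)))))))))))))))))))) (.a (.f (nat_lit 561) (nat_lit 589) (nat_lit 1581) (.f (nat_lit 594) (nat_lit 593) (nat_lit 558) (.f (nat_lit 562) (nat_lit 595) (nat_lit 559) (.f (nat_lit 531) (nat_lit 530) (nat_lit 2575) (.d (nat_lit 563) (nat_lit 527) (nat_lit 3599) (nat_lit 532) (nat_lit 2576)))))) (.p (nat_lit 622) (.a (.f (nat_lit 654) (nat_lit 527) (nat_lit 6670) (.f (nat_lit 685) (nat_lit 653) (nat_lit 5677) (.f (nat_lit 686) (nat_lit 717) (nat_lit 5709) (.d (nat_lit 687) (nat_lit 655) (nat_lit 4654) (nat_lit 719) (nat_lit 4686))))) (.a (.p (nat_lit 526) (.a (.d (nat_lit 525) (nat_lit 493) (nat_lit 7661) (nat_lit 561) (nat_lit 3597)) (.f (nat_lit 655) (nat_lit 623) (nat_lit 4622) (.f (nat_lit 654) (nat_lit 687) (nat_lit 4654) (.d (nat_lit 653) (nat_lit 621) (nat_lit 5645) (nat_lit 685) (nat_lit 5677)))))) (.a (.f (nat_lit 654) (nat_lit 527) (nat_lit 6670) (.f (nat_lit 653) (nat_lit 685) (nat_lit 5677) (.f (nat_lit 526) (nat_lit 621) (nat_lit 5645) (.d (nat_lit 525) (nat_lit 493) (nat_lit 7661) (nat_lit 561) (nat_lit 3597))))) (.a (.p (nat_lit 561) (.a (.f (nat_lit 526) (nat_lit 525) (nat_lit 3597) (.f (nat_lit 562) (nat_lit 527) (nat_lit 3598) (.d (nat_lit 594) (nat_lit 593) (nat_lit 558) (nat_lit 595) (nat_lit 559)))) (.a (.f (nat_lit 526) (nat_lit 525) (nat_lit 3597) (.f (nat_lit 562) (nat_lit 527) (nat_lit 3598) (.f (nat_lit 531) (nat_lit 530) (nat_lit 2575) (.f (nat_lit 563) (nat_lit 532) (nat_lit 2576) (.d (nat_lit 595) (nat_lit 594) (nat_lit 559) (nat_lit 596) (nat_lit 560)))))) (.a (.f (nat_lit 526) (nat_lit 525) (nat_lit 3597) (.f (nat_lit 593) (nat_lit 594) (nat_lit 558) (.f (nat_lit 623) (nat_lit 655) (nat_lit 4622) (.d (nat_lit 621) (nat_lit 592) (nat_lit 2637) (nat_lit 653) (nat_lit 5645))))) (.a (.f (nat_lit 594) (nat_lit 593) (nat_lit 558) (.f (nat_lit 562) (nat_lit 595) (nat_lit 559) (.f (nat_lit 531) (nat_lit 530) (nat_lit 2575) (.d (nat_lit 563) (nat_lit 527) (nat_lit 3599) (nat_lit 532) (nat_lit 2576))))) (.f (nat_lit 526) (nat_lit 525) (nat_lit 3597) (.f (nat_lit 527) (nat_lit 562) (nat_lit 3598) (.f (nat_lit 592) (nat_lit 656) (nat_lit 7695) (.f (nat_lit 623) (nat_lit 655) (nat_lit 4622) (.d (nat_lit 621) (nat_lit 593) (nat_lit 2637) (nat_lit 653) (nat_lit 5645))))))))))) (.f (nat_lit 654) (nat_lit 527) (nat_lit 6670) (.f (nat_lit 655) (nat_lit 687) (nat_lit 4654) (.d (nat_lit 623) (nat_lit 526) (nat_lit 4622) (nat_lit 592) (nat_lit 5647))))))))))))))) (.a (.p (nat_lit 561) (.a (.f (nat_lit 526) (nat_lit 525) (nat_lit 3597) (.f (nat_lit 562) (nat_lit 527) (nat_lit 3598) (.d (nat_lit 594) (nat_lit 593) (nat_lit 558) (nat_lit 595) (nat_lit 559)))) (.a (.f (nat_lit 526) (nat_lit 525) (nat_lit 3597) (.f (nat_lit 562) (nat_lit 527) (nat_lit 3598) (.f (nat_lit 531) (nat_lit 530) (nat_lit 2575) (.f (nat_lit 563) (nat_lit 532) (nat_lit 2576) (.d (nat_lit 595) (nat_lit 594) (nat_lit 559) (nat_lit 596) (nat_lit 560)))))) (.a (.f (nat_lit 593) (nat_lit 594) (nat_lit 558) (.f (nat_lit 496) (nat_lit 464) (nat_lit 4560) (.f (nat_lit 592) (nat_lit 625) (nat_lit 4592) (.f (nat_lit 656) (nat_lit 688) (nat_lit 6704) (.d (nat_lit 655) (nat_lit 623) (nat_lit 5647) (nat_lit 687) (nat_lit 5679)))))) (.f (nat_lit 526) (nat_lit 525) (nat_lit 3597) (.f (nat_lit 527) (nat_lit 562) (nat_lit 3598) (.f (nat_lit 592) (nat_lit 656) (nat_lit 7695) (.f (nat_lit 590) (nat_lit 589) (nat_lit 1581) (.f (nat_lit 622) (nat_lit 654) (nat_lit 6670) (.f (nat_lit 623) (nat_lit 655) (nat_lit 5647) (.d (nat_lit 621) (nat_lit 593) (nat_lit 2637) (nat_lit 653) (nat_lit 5645)))))))))))) (.a (.p (nat_lit 622) (.a (.p (nat_lit 561) (.a (.f (nat_lit 526) (nat_lit 525) (nat_lit 3597) (.f (nat_lit 590) (nat_lit 589) (nat_lit 1581) (.d (nat_lit 527) (nat_lit 562) (nat_lit 3598) (nat_lit 654) (nat_lit 6670)))) (.a (.f (nat_lit 593) (nat_lit 594) (nat_lit 558) (.f (nat_lit 590) (nat_lit 589) (nat_lit 1581) (.f (nat_lit 526) (nat_lit 525) (nat_lit 3597) (.f (nat_lit 625) (nat_lit 657) (nat_lit 7696) (.f (nat_lit 653) (nat_lit 621) (nat_lit 5645) (.d (nat_lit 623) (nat_lit 654) (nat_lit 1645) (nat_lit 655) (nat_lit 4622))))))) (.a (.f (nat_lit 593) (nat_lit 594) (nat_lit 558) (.f (nat_lit 590) (nat_lit 589) (nat_lit 1581) (.f (nat_lit 654) (nat_lit 527) (nat_lit 6670) (.f (nat_lit 625) (nat_lit 657) (nat_lit 7696) (.d (nat_lit 653) (nat_lit 623) (nat_lit 1645) (nat_lit 685) (nat_lit 5677)))))) (.f (nat_lit 526) (nat_lit 525) (nat_lit 3597) (.f (nat_lit 562) (nat_lit 527) (nat_lit 3598) (.d (nat_lit 594) (nat_lit 593) (nat_lit 558) (nat_lit 595) (nat_lit 559)))))))) (.a (.p (nat_lit 590) (.a (.f (nat_lit 589) (nat_lit 561) (nat_lit 1581) (.f (nat_lit 623) (nat_lit 625) (nat_lit 3661) (.d (nat_lit 588) (nat_lit 587) (nat_lit 2603) (nat_lit 621) (nat_lit 3660)))) (.a (.f (nat_lit 654) (nat_lit 527) (nat_lit 6670) (.f (nat_lit 653) (nat_lit 685) (nat_lit 5677) (.f (nat_lit 623) (nat_lit 625) (nat_lit 1645) (.d (nat_lit 652) (nat_lit 621) (nat_lit 1644) (nat_lit 651) (nat_lit 2667))))) (.f (nat_lit 654) (nat_lit 527) (nat_lit 6670) (.f (nat_lit 685) (nat_lit 653) (nat_lit 5677) (.f (nat_lit 686) (nat_lit 717) (nat_lit 5709) (.d (nat_lit 687) (nat_lit 655) (nat_lit 4654) (nat_lit 719) (nat_lit 4686)))))))) (.a (.p (nat_lit 592) (.a (.f (nat_lit 623) (nat_lit 655) (nat_lit 5647) (.f (nat_lit 625) (nat_lit 657) (nat_lit 4624) (.f (nat_lit 653) (nat_lit 654) (nat_lit 1645) (.f (nat_lit 621) (nat_lit 652) (nat_lit 1644) (.d (nat_lit 589) (nat_lit 588) (nat_lit 3660) (nat_lit 590) (nat_lit 3661)))))) (.a (.f (nat_lit 625) (nat_lit 657) (nat_lit 4624) (.f (nat_lit 496) (nat_lit 593) (nat_lit 4592) (.f (nat_lit 465) (nat_lit 497) (nat_lit 6608) (.f (nat_lit 464) (nat_lit 433) (nat_lit 6576) (.f (nat_lit 432) (nat_lit 527) (nat_lit 5551) (.d (nat_lit 431) (nat_lit 399) (nat_lit 7567) (nat_lit 463) (nat_lit 7599))))))) (.f (nat_lit 623) (nat_lit 655) (nat_lit 5647) (.f (nat_lit 621) (nat_lit 593) (nat_lit 2637) (.f (nat_lit 653) (nat_lit 652) (nat_lit 1644) (.f (nat_lit 590) (nat_lit 526) (nat_lit 5645) (.d (nat_lit 685) (nat_lit 589) (nat_lit 6701) (nat_lit 654) (nat_lit 5677))))))))) (.a (.p (nat_lit 561) (.a (.f (nat_lit 593) (nat_lit 594) (nat_lit 558) (.f (nat_lit 590) (nat_lit 589) (nat_lit 1581) (.f (nat_lit 526) (nat_lit 525) (nat_lit 3597) (.f (nat_lit 625) (nat_lit 657) (nat_lit 7696) (.f (nat_lit 653) (nat_lit 621) (nat_lit 5645) (.d (nat_lit 623) (nat_lit 654) (nat_lit 1645) (nat_lit 655) (nat_lit 4622))))))) (.a (.f (nat_lit 590) (nat_lit 589) (nat_lit 1581) (.f (nat_lit 526) (nat_lit 525) (nat_lit 3597) (.f (nat_lit 653) (nat_lit 621) (nat_lit 5645) (.f (nat_lit 654) (nat_lit 685) (nat_lit 5677) (.d (nat_lit 655) (nat_lit 623) (nat_lit 4622) (nat_lit 687) (nat_lit 4654)))))) (.f (nat_lit 593) (nat_lit 594) (nat_lit 558) (.f (nat_lit 625) (nat_lit 657) (nat_lit 7696) (.d (nat_lit 496) (nat_lit 464) (nat_lit 4560) (nat_lit 592) (nat_lit 4592))))))) (.a (.p (nat_lit 590) (.a (.f (nat_lit 654) (nat_lit 527) (nat_lit 6670) (.f (nat_lit 685) (nat_lit 653) (nat_lit 5677) (.f (nat_lit 686) (nat_lit 717) (nat_lit 5709) (.d (nat_lit 687) (nat_lit 655) (nat_lit 4654) (nat_lit 719) (nat_lit 4686))))) (.a (.p (nat_lit 526) (.a (.d (nat_lit 525) (nat_lit 493) (nat_lit 7661) (nat_lit 561) (nat_lit 3597)) (.a (.f (nat_lit 621) (nat_lit 653) (nat_lit 5645) (.f (nat_lit 494) (nat_lit 589) (nat_lit 5613) (.d (nat_lit 493) (nat_lit 461) (nat_lit 7629) (nat_lit 525) (nat_lit 7661)))) (.f (nat_lit 589) (nat_lit 561) (nat_lit 1581) (.d (nat_lit 621) (nat_lit 494) (nat_lit 5613) (nat_lit 653) (nat_lit 5645)))))) (.f (nat_lit 561) (nat_lit 589) (nat_lit 1581) (.f (nat_lit 527) (nat_lit 654) (nat_lit 6670) (.d (nat_lit 562) (nat_lit 526) (nat_lit 3598) (nat_lit 563) (nat_lit 3599))))))) (.a (.p (nat_lit 625) (.a (.f (nat_lit 592) (nat_lit 657) (nat_lit 4624) (.f (nat_lit 593) (nat_lit 496) (nat_lit 4592) (.d (nat_lit 594) (nat_lit 561) (nat_lit 558) (nat_lit 595) (nat_lit 3631)))) (.a (.p (nat_lit 561) (.a (.d (nat_lit 593) (nat_lit 594) (nat_lit 558) (nat_lit 657) (nat_lit 7696)) (.a (.f (nat_lit 526) (nat_lit 525) (nat_lit 3597) (.f (nat_lit 562) (nat_lit 527) (nat_lit 3598) (.f (nat_lit 595) (nat_lit 594) (nat_lit 559) (.f (nat_lit 563) (nat_lit 596) (nat_lit 560) (.d (nat_lit 531) (nat_lit 530) (nat_lit 2575) (nat_lit 532) (nat_lit 2576)))))) (.f (nat_lit 526) (nat_lit 525) (nat_lit 3597) (.f (nat_lit 562) (nat_lit 527) (nat_lit 3598) (.f (nat_lit 657) (nat_lit 593) (nat_lit 7696) (.f (nat_lit 658) (nat_lit 623) (nat_lit 622) (.f (nat_lit 531) (nat_lit 530) (nat_lit 2575) (.f (nat_lit 563) (nat_lit 532) (nat_lit 2576) (.f (nat_lit 595) (nat_lit 596) (nat_lit 560) (.f (nat_lit 627) (nat_lit 626) (nat_lit 5650) (.d (nat_lit 660) (nat_lit 628) (nat_lit 4627) (nat_lit 659) (nat_lit 3696))))))))))))) (.a (.p (nat_lit 623) (.a (.f (nat_lit 654) (nat_lit 653) (nat_lit 1645) (.f (nat_lit 626) (nat_lit 655) (nat_lit 1646) (.f (nat_lit 595) (nat_lit 594) (nat_lit 2639) (.f (nat_lit 627) (nat_lit 596) (nat_lit 2640) (.d (nat_lit 659) (nat_lit 658) (nat_lit 623) (nat_lit 660) (nat_lit 624)))))) (.a (.d (nat_lit 657) (nat_lit 592) (nat_lit 4624) (nat_lit 658) (nat_lit 622)) (.d (nat_lit 592) (nat_lit 655) (nat_lit 5647) (nat_lit 657) (nat_lit 4624))))) (.a (.p (nat_lit 623) (.a (.f (nat_lit 654) (nat_lit 653) (nat_lit 1645) (.f (nat_lit 626) (nat_lit 655) (nat_lit 1646) (.d (nat_lit 594) (nat_lit 593) (nat_lit 2638) (nat_lit 595) (nat_lit 2639)))) (.a (.f (nat_lit 654) (nat_lit 653) (nat_lit 1645) (.f (nat_lit 626) (nat_lit 655) (nat_lit 1646) (.f (nat_lit 595) (nat_lit 594) (nat_lit 2639) (.f (nat_lit 627) (nat_lit 596) (nat_lit 2640) (.d (nat_lit 659) (nat_lit 658) (nat_lit 623) (nat_lit 660) (nat_lit 624)))))) (.a (.f (nat_lit 593) (nat_lit 594) (nat_lit 2638) (.d (nat_lit 592) (nat_lit 496) (nat_lit 4592) (nat_lit 621) (nat_lit 2637))) (.f (nat_lit 592) (nat_lit 655) (nat_lit 5647) (.d (nat_lit 593) (nat_lit 496) (nat_lit 4592) (nat_lit 621) (nat_lit 2637))))))) (.f (nat_lit 592) (nat_lit 657) (nat_lit 4624) (.f (nat_lit 623) (nat_lit 655) (nat_lit 5647) (.d (nat_lit 593) (nat_lit 496) (nat_lit 4592) (nat_lit 621) (nat_lit 2637))))))))) (.a (.p (nat_lit 561) (.a (.f (nat_lit 526) (nat_lit 525) (nat_lit 3597) (.f (nat_lit 590) (nat_lit 589) (nat_lit 1581) (.d (nat_lit 527) (nat_lit 562) (nat_lit 3598) (nat_lit 654) (nat_lit 6670)))) (.f (nat_lit 593) (nat_lit 594) (nat_lit 558) (.f (nat_lit 625) (nat_lit 657) (nat_lit 7696) (.d (nat_lit 496) (nat_lit 464) (nat_lit 4560) (nat_lit 592) (nat_lit 4592)))))) (.p (nat_lit 561) (.a (.f (nat_lit 526) (nat_lit 525) (nat_lit 3597) (.f (nat_lit 562) (nat_lit 527) (nat_lit 3598) (.d (nat_lit 594) (nat_lit 593) (nat_lit 558) (nat_lit 595) (nat_lit 559)))) (.a (.f (nat_lit 526) (nat_lit 525) (nat_lit 3597) (.f (nat_lit 562) (nat_lit 527) (nat_lit 3598) (.f (nat_lit 531) (nat_lit 530) (nat_lit 2575) (.f (nat_lit 563) (nat_lit 532) (nat_lit 2576) (.d (nat_lit 595) (nat_lit 594) (nat_lit 559) (nat_lit 596) (nat_lit 560)))))) (.a (.f (nat_lit 593) (nat_lit 594) (nat_lit 558) (.f (nat_lit 625) (nat_lit 657) (nat_lit 7696) (.d (nat_lit 496) (nat_lit 464) (nat_lit 4560) (nat_lit 592) (nat_lit 4592)))) (.p (nat_lit 621) (.a (.f (nat_lit 526) (nat_lit 525) (nat_lit 3597) (.d (nat_lit 590) (nat_lit 589) (nat_lit 1581) (nat_lit 653) (nat_lit 5645))) (.a (.f (nat_lit 589) (nat_lit 590) (nat_lit 1581) (.f (nat_lit 623) (nat_lit 588) (nat_lit 3660) (.d (nat_lit 592) (nat_lit 593) (nat_lit 2637) (nat_lit 655) (nat_lit 5647)))) (.a (.f (nat_lit 526) (nat_lit 525) (nat_lit 3597) (.f (nat_lit 562) (nat_lit 527) (nat_lit 3598) (.f (nat_lit 531) (nat_lit 530) (nat_lit 2575) (.f (nat_lit 563) (nat_lit 532) (nat_lit 2576) (.f (nat_lit 596) (nat_lit 595) (nat_lit 560) (.f (nat_lit 564) (nat_lit 597) (nat_lit 561) (.f (nat_lit 592) (nat_lit 593) (nat_lit 1584) (.f (nat_lit 623) (nat_lit 655) (nat_lit 5647) (.f (nat_lit 652) (nat_lit 653) (nat_lit 1644) (.f (nat_lit 620) (nat_lit 651) (nat_lit 1643) (.d (nat_lit 588) (nat_lit 587) (nat_lit 3659) (nat_lit 589) (nat_lit 3660)))))))))))) (.f (nat_lit 526) (nat_lit 525) (nat_lit 3597) (.f (nat_lit 653) (nat_lit 590) (nat_lit 5645) (.f (nat_lit 623) (nat_lit 652) (nat_lit 1644) (.d (nat_lit 592) (nat_lit 593) (nat_lit 2637) (nat_lit 655) (nat_lit 5647))))))))))))))))))))) (.p (nat_lit 592) (.a (.f (nat_lit 655) (nat_lit 623) (nat_lit 5647) (.f (nat_lit 656) (nat_lit 687) (nat_lit 5679) (.d (nat_lit 657) (nat_lit 625) (nat_lit 4624) (nat_lit 689) (nat_lit 4656)))) (.a (.f (nat_lit 656) (nat_lit 527) (nat_lit 7695) (.d (nat_lit 657) (nat_lit 625) (nat_lit 4624) (nat_lit 689) (nat_lit 4656))) (.a (.f (nat_lit 656) (nat_lit 527) (nat_lit 7695) (.d (nat_lit 655) (nat_lit 623) (nat_lit 5647) (nat_lit 687) (nat_lit 5679))) (.f (nat_lit 625) (nat_lit 657) (nat_lit 4624) (.f (nat_lit 496) (nat_lit 593) (nat_lit 4592) (.f (nat_lit 465) (nat_lit 497) (nat_lit 6608) (.f (nat_lit 464) (nat_lit 433) (nat_lit 6576) (.f (nat_lit 432) (nat_lit 527) (nat_lit 5551) (.d (nat_lit 431) (nat_lit 399) (nat_lit 7567) (nat_lit 463) (nat_lit 7599))))))))))))))))))))) (.a (.p (nat_lit 592) (.a (.f (nat_lit 557) (nat_lit 593) (nat_lit 557) (.f (nat_lit 556) (nat_lit 527) (nat_lit 2572) (.d (nat_lit 588) (nat_lit 587) (nat_lit 1579) (nat_lit 589) (nat_lit 1580)))) (.a (.p (nat_lit 624) (.a (.f (nat_lit 655) (nat_lit 623) (nat_lit 5647) (.f (nat_lit 656) (nat_lit 687) (nat_lit 5679) (.d (nat_lit 657) (nat_lit 625) (nat_lit 4624) (nat_lit 689) (nat_lit 4656)))) (.a (.f (nat_lit 656) (nat_lit 527) (nat_lit 7695) (.d (nat_lit 657) (nat_lit 625) (nat_lit 4624) (nat_lit 689) (nat_lit 4656))) (.a (.f (nat_lit 656) (nat_lit 527) (nat_lit 7695) (.d (nat_lit 655) (nat_lit 623) (nat_lit 5647) (nat_lit 687) (nat_lit 5679))) (.p (nat_lit 557) (.a (.f (nat_lit 556) (nat_lit 527) (nat_lit 2572) (.d (nat_lit 588) (nat_lit 587) (nat_lit 1579) (nat_lit 589) (nat_lit 1580))) (.a (.f (nat_lit 588) (nat_lit 589) (nat_lit 1580) (.f (nat_lit 556) (nat_lit 587) (nat_lit 1579) (.d (nat_lit 524) (nat_lit 523) (nat_lit 3595) (nat_lit 525) (nat_lit 3596)))) (.a (.f (nat_lit 556) (nat_lit 527) (nat_lit 2572) (.d (nat_lit 524) (nat_lit 523) (nat_lit 3595) (nat_lit 525) (nat_lit 3596))) (.f (nat_lit 525) (nat_lit 524) (nat_lit 3596) (.f (nat_lit 589) (nat_lit 588) (nat_lit 1580) (.f (nat_lit 625) (nat_lit 657) (nat_lit 4624) (.f (nat_lit 623) (nat_lit 655) (nat_lit 5647) (.f (nat_lit 622) (nat_lit 590) (nat_lit 3661) (.d (nat_lit 654) (nat_lit 621) (nat_lit 4621) (nat_lit 653) (nat_lit 1645))))))))))))))) (.a (.f (nat_lit 557) (nat_lit 593) (nat_lit 557) (.f (nat_lit 588) (nat_lit 589) (nat_lit 1580) (.f (nat_lit 556) (nat_lit 587) (nat_lit 1579) (.d (nat_lit 524) (nat_lit 523) (nat_lit 3595) (nat_lit 525) (nat_lit 3596))))) (.p (nat_lit 624) (.a (.f (nat_lit 655) (nat_lit 623) (nat_lit 5647) (.f (nat_lit 656) (nat_lit 687) (nat_lit 5679) (.d (nat_lit 657) (nat_lit 625) (nat_lit 4624) (nat_lit 689) (nat_lit 4656)))) (.a (.f (nat_lit 656) (nat_lit 527) (nat_lit 7695) (.d (nat_lit 657) (nat_lit 625) (nat_lit 4624) (nat_lit 689) (nat_lit 4656))) (.a (.f (nat_lit 656) (nat_lit 527) (nat_lit 7695) (.d (nat_lit 655) (nat_lit 623) (nat_lit 5647) (nat_lit 687) (nat_lit 5679))) (.f (nat_lit 625) (nat_lit 657) (nat_lit 4624) (.f (nat_lit 623) (nat_lit 655) (nat_lit 5647) (.f (nat_lit 593) (nat_lit 496) (nat_lit 4592) (.d (nat_lit 622) (nat_lit 594) (nat_lit 2638) (nat_lit 621) (nat_lit 2637))))))))))))) (.a (.p (nat_lit 557) (.a (.f (nat_lit 556) (nat_lit 527) (nat_lit 2572) (.d (nat_lit 524) (nat_lit 523) (nat_lit 3595) (nat_lit 525) (nat_lit 3596))) (.a (.f (nat_lit 593) (nat_lit 592) (nat_lit 557) (.f (nat_lit 561) (nat_lit 594) (nat_lit 558) (.d (nat_lit 525) (nat_lit 524) (nat_lit 3596) (nat_lit 526) (nat_lit 3597)))) (.f (nat_lit 593) (nat_lit 592) (nat_lit 557) (.f (nat_lit 561) (nat_lit 594) (nat_lit 558) (.f (nat_lit 527) (nat_lit 556) (nat_lit 2572) (.d (nat_lit 562) (nat_lit 526) (nat_lit 3598) (nat_lit 563) (nat_lit 3599)))))))) (.p (nat_lit 557) (.a (.f (nat_lit 556) (nat_lit 527) (nat_lit 2572) (.d (nat_lit 588) (nat_lit 587) (nat_lit 1579) (nat_lit 589) (nat_lit 1580))) (.a (.f (nat_lit 525) (nat_lit 524) (nat_lit 3596) (.f (nat_lit 589) (nat_lit 588) (nat_lit 1580) (.f (nat_lit 526) (nat_lit 561) (nat_lit 3597) (.d (nat_lit 494) (nat_lit 462) (nat_lit 5581) (nat_lit 621) (nat_lit 6637))))) (.f (nat_lit 556) (nat_lit 527) (nat_lit 2572) (.d (nat_lit 524) (nat_lit 523) (nat_lit 3595) (nat_lit 525) (nat_lit 3596)))))))))))))))) (.a (.p (nat_lit 558) (.a s45162 (.a (.p (nat_lit 557) (.a (.f (nat_lit 556) (nat_lit 527) (nat_lit 2572) (.d (nat_lit 588) (nat_lit 587) (nat_lit 1579) (nat_lit 589) (nat_lit 1580))) (.a (.f (nat_lit 525) (nat_lit 524) (nat_lit 3596) (.f (nat_lit 589) (nat_lit 588) (nat_lit 1580) (.f (nat_lit 526) (nat_lit 561) (nat_lit 3597) (.d (nat_lit 494) (nat_lit 462) (nat_lit 5581) (nat_lit 621) (nat_lit 6637))))) (.f (nat_lit 556) (nat_lit 527) (nat_lit 2572) (.d (nat_lit 524) (nat_lit 523) (nat_lit 3595) (nat_lit 525) (nat_lit 3596)))))) (.a s45475 (.a (.p (nat_lit 525) (.a (.f (nat_lit 561) (nat_lit 526) (nat_lit 3597) (.f (nat_lit 590) (nat_lit 589) (nat_lit 1581) (.f (nat_lit 562) (nat_lit 591) (nat_lit 1582) (.d (nat_lit 594) (nat_lit 593) (nat_lit 558) (nat_lit 595) (nat_lit 559))))) (.a (.f (nat_lit 557) (nat_lit 524) (nat_lit 3596) (.f (nat_lit 589) (nat_lit 588) (nat_lit 1580) (.f (nat_lit 526) (nat_lit 561) (nat_lit 3597) (.d (nat_lit 494) (nat_lit 462) (nat_lit 5581) (nat_lit 621) (nat_lit 6637))))) (.a (.f (nat_lit 557) (nat_lit 524) (nat_lit 3596) (.p (nat_lit 622) (.a (.f (nat_lit 590) (nat_lit 654) (nat_lit 7693) (.d (nat_lit 493) (nat_lit 461) (nat_lit 4557) (nat_lit 526) (nat_lit 7661))) (.a (.f (nat_lit 589) (nat_lit 588) (nat_lit 1580) (.d (nat_lit 590) (nat_lit 493) (nat_lit 4589) (nat_lit 654) (nat_lit 7693))) (.a (.f (nat_lit 589) (nat_lit 588) (nat_lit 1580) (.f (nat_lit 621) (nat_lit 654) (nat_lit 4621) (.d (nat_lit 526) (nat_lit 494) (nat_lit 6637) (nat_lit 653) (nat_lit 6669)))) (.f (nat_lit 589) (nat_lit 588) (nat_lit 1580) (.f (nat_lit 493) (nat_lit 590) (nat_lit 4589) (.f (nat_lit 494) (nat_lit 462) (nat_lit 6605) (.f (nat_lit 526) (nat_lit 621) (nat_lit 6637) (.f (nat_lit 461) (nat_lit 429) (nat_lit 4525) (.d (nat_lit 460) (nat_lit 428) (nat_lit 7596) (nat_lit 492) (nat_lit 7628)))))))))))) (.a (.f (nat_lit 557) (nat_lit 524) (nat_lit 3596) (.f (nat_lit 589) (nat_lit 588) (nat_lit 1580) (.f (nat_lit 590) (nat_lit 561) (nat_lit 1581) (.d (nat_lit 493) (nat_lit 461) (nat_lit 4557) (nat_lit 622) (nat_lit 4589))))) (.f (nat_lit 526) (nat_lit 561) (nat_lit 3597) (.d (nat_lit 524) (nat_lit 523) (nat_lit 523) (nat_lit 557) (nat_lit 3596)))))))) (.a (.p (nat_lit 561) (.a (.f (nat_lit 590) (nat_lit 589) (nat_lit 1581) (.f (nat_lit 562) (nat_lit 591) (nat_lit 1582) (.f (nat_lit 563) (nat_lit 527) (nat_lit 3599) (.d (nat_lit 531) (nat_lit 530) (nat_lit 2575) (nat_lit 532) (nat_lit 2576))))) (.a (.f (nat_lit 590) (nat_lit 589) (nat_lit 1581) (.f (nat_lit 562) (nat_lit 591) (nat_lit 1582) (.d (nat_lit 594) (nat_lit 593) (nat_lit 558) (nat_lit 595) (nat_lit 559)))) (.a (.f (nat_lit 589) (nat_lit 590) (nat_lit 1581) (.f (nat_lit 557) (nat_lit 588) (nat_lit 1580) (.f (nat_lit 556) (nat_lit 527) (nat_lit 2572) (.d (nat_lit 524) (nat_lit 523) (nat_lit 3595) (nat_lit 525) (nat_lit 3596))))) (.f (nat_lit 594) (nat_lit 593) (nat_lit 558) (.f (nat_lit 562) (nat_lit 595) (nat_lit 559) (.f (nat_lit 531) (nat_lit 530) (nat_lit 2575) (.d (nat_lit 563) (nat_lit 527) (nat_lit 3599) (nat_lit 532) (nat_lit 2576))))))))) (.a (.p (nat_lit 561) (.a (.f (nat_lit 590) (nat_lit 589) (nat_lit 1581) (.f (nat_lit 562) (nat_lit 591) (nat_lit 1582) (.f (nat_lit 563) (nat_lit 527) (nat_lit 3599) (.d (nat_lit 531) (nat_lit 530) (nat_lit 2575) (nat_lit 532) (nat_lit 2576))))) (.a (.f (nat_lit 590) (nat_lit 589) (nat_lit 1581) (.f (nat_lit 562) (nat_lit 591) (nat_lit 1582) (.d (nat_lit 594) (nat_lit 593) (nat_lit 558) (nat_lit 595) (nat_lit 559)))) (.a (.p (nat_lit 557) (.a (.d (nat_lit 589) (nat_lit 588) (nat_lit 1580) (nat_lit 590) (nat_lit 1581)) (.a (.f (nat_lit 556) (nat_lit 527) (nat_lit 2572) (.d (nat_lit 588) (nat_lit 587) (nat_lit 1579) (nat_lit 589) (nat_lit 1580))) (.a (.f (nat_lit 556) (nat_lit 527) (nat_lit 2572) (.f (nat_lit 587) (nat_lit 588) (nat_lit 1579) (.f (nat_lit 555) (nat_lit 586) (nat_lit 1578) (.d (nat_lit 523) (nat_lit 522) (nat_lit 3594) (nat_lit 524) (nat_lit 3595))))) (.f (nat_lit 556) (nat_lit 527) (nat_lit 2572) (.f (nat_lit 590) (nat_lit 589) (nat_lit 1581) (.f (nat_lit 555) (nat_lit 591) (nat_lit 555) (.d (nat_lit 523) (nat_lit 522) (nat_lit 3594) (nat_lit 524) (nat_lit 3595))))))))) (.f (nat_lit 594) (nat_lit 593) (nat_lit 558) (.f (nat_lit 562) (nat_lit 595) (nat_lit 559) (.f (nat_lit 531) (nat_lit 530) (nat_lit 2575) (.d (nat_lit 563) (nat_lit 527) (nat_lit 3599) (nat_lit 532) (nat_lit 2576))))))))) (.a (.p (nat_lit 561) (.a (.f (nat_lit 526) (nat_lit 525) (nat_lit 3597) (.f (nat_lit 562) (nat_lit 527) (nat_lit 3598) (.d (nat_lit 594) (nat_lit 593) (nat_lit 558) (nat_lit 595) (nat_lit 559)))) (.a (.f (nat_lit 526) (nat_lit 525) (nat_lit 3597) (.f (nat_lit 562) (nat_lit 527) (nat_lit 3598) (.d (nat_lit 590) (nat_lit 589) (nat_lit 1581) (nat_lit 591) (nat_lit 1582)))) (.a (.f (nat_lit 590) (nat_lit 589) (nat_lit 1581) (.f (nat_lit 591) (nat_lit 562) (nat_lit 1582) (.f (nat_lit 526) (nat_lit 525) (nat_lit 3597) (.d (nat_lit 494) (nat_lit 462) (nat_lit 4558) (nat_lit 623) (nat_lit 4590))))) (.a (.f (nat_lit 590) (nat_lit 589) (nat_lit 1581) (.f (nat_lit 562) (nat_lit 591) (nat_lit 1582) (.f (nat_lit 563) (nat_lit 527) (nat_lit 3599) (.d (nat_lit 531) (nat_lit 530) (nat_lit 2575) (nat_lit 532) (nat_lit 2576))))) s45135))))) (.p (nat_lit 591) (.a (.f (nat_lit 623) (nat_lit 655) (nat_lit 6671) (.d (nat_lit 496) (nat_lit 464) (nat_lit 5583) (nat_lit 527) (nat_lit 6639))) (.a (.p (nat_lit 526) (.a (.f (nat_lit 623) (nat_lit 655) (nat_lit 6671) (.d (nat_lit 494) (nat_lit 462) (nat_lit 4558) (nat_lit 590) (nat_lit 4590))) (.a (.f (nat_lit 561) (nat_lit 525) (nat_lit 3597) (.f (nat_lit 562) (nat_lit 590) (nat_lit 1582) (.d (nat_lit 594) (nat_lit 593) (nat_lit 558) (nat_lit 595) (nat_lit 559)))) (.f (nat_lit 525) (nat_lit 561) (nat_lit 3597) (.d (nat_lit 524) (nat_lit 523) (nat_lit 523) (nat_lit 557) (nat_lit 3596)))))) (.p (nat_lit 561) (.a (.f (nat_lit 562) (nat_lit 590) (nat_lit 1582) (.d (nat_lit 594) (nat_lit 593) (nat_lit 558) (nat_lit 595) (nat_lit 559))) (.a (.f (nat_lit 562) (nat_lit 590) (nat_lit 1582) (.d (nat_lit 526) (nat_lit 525) (nat_lit 3597) (nat_lit 527) (nat_lit 3598))) (.a (.f (nat_lit 525) (nat_lit 526) (nat_lit 3597) (.f (nat_lit 557) (nat_lit 524) (nat_lit 3596) (.f (nat_lit 556) (nat_lit 527) (nat_lit 2572) (.f (nat_lit 555) (nat_lit 590) (nat_lit 555) (.d (nat_lit 587) (nat_lit 586) (nat_lit 1578) (nat_lit 588) (nat_lit 1579)))))) (.f (nat_lit 526) (nat_lit 525) (nat_lit 3597) (.f (nat_lit 562) (nat_lit 527) (nat_lit 3598) (.d (nat_lit 594) (nat_lit 593) (nat_lit 558) (nat_lit 595) (nat_lit 559))))))))))))))))))) (.a (.p (nat_lit 558) (.a (.p (nat_lit 557) (.a (.f (nat_lit 556) (nat_lit 527) (nat_lit 2572) (.d (nat_lit 588) (nat_lit 587) (nat_lit 1579) (nat_lit 589) (nat_lit 1580))) (.a (.f (nat_lit 525) (nat_lit 524) (nat_lit 3596) (.f (nat_lit 589) (nat_lit 588) (nat_lit 1580) (.f (nat_lit 526) (nat_lit 561) (nat_lit 3597) (.d (nat_lit 494) (nat_lit 462) (nat_lit 5581) (nat_lit 621) (nat_lit 6637))))) (.f (nat_lit 556) (nat_lit 527) (nat_lit 2572) (.d (nat_lit 524) (nat_lit 523) (nat_lit 3595) (nat_lit 525) (nat_lit 3596)))))) (.a s45475 (.a (.p (nat_lit 525) (.a (.f (nat_lit 557) (nat_lit 524) (nat_lit 3596) (.f (nat_lit 589) (nat_lit 588) (nat_lit 1580) (.f (nat_lit 526) (nat_lit 561) (nat_lit 3597) (.d (nat_lit 494) (nat_lit 462) (nat_lit 5581) (nat_lit 621) (nat_lit 6637))))) (.a (.f (nat_lit 557) (nat_lit 524) (nat_lit 3596) (.f (nat_lit 588) (nat_lit 589) (nat_lit 1580) (.f (nat_lit 556) (nat_lit 587) (nat_lit 1579) (.f (nat_lit 591) (nat_lit 592) (nat_lit 556) (.f (nat_lit 555) (nat_lit 590) (nat_lit 555) (.f (nat_lit 554) (nat_lit 526) (nat_lit 2570) (.d (nat_lit 522) (nat_lit 521) (nat_lit 3593) (nat_lit 523) (nat_lit 3594)))))))) (.a (.f (nat_lit 557) (nat_lit 524) (nat_lit 3596) (.f (nat_lit 589) (nat_lit 588) (nat_lit 1580) (.f (nat_lit 590) (nat_lit 561) (nat_lit 1581) (.d (nat_lit 493) (nat_lit 461) (nat_lit 4557) (nat_lit 622) (nat_lit 4589))))) (.a (.f (nat_lit 561) (nat_lit 526) (nat_lit 3597) (.f (nat_lit 590) (nat_lit 589) (nat_lit 1581) (.f (nat_lit 591) (nat_lit 562) (nat_lit 1582) (.f (nat_lit 623) (nat_lit 655) (nat_lit 6671) (.d (nat_lit 496) (nat_lit 464) (nat_lit 5583) (nat_lit 592) (nat_lit 5615)))))) (.f (nat_lit 526) (nat_lit 561) (nat_lit 3597) (.d (nat_lit 524) (nat_lit 523) (nat_lit 523) (nat_lit 557) (nat_lit 3596)))))))) (.a (.p (nat_lit 557) (.a (.f (nat_lit 556) (nat_lit 527) (nat_lit 2572) (.d (nat_lit 588) (nat_lit 587) (nat_lit 1579) (nat_lit 589) (nat_lit 1580))) (.a (.f (nat_lit 589) (nat_lit 588) (nat_lit 1580) (.f (nat_lit 590) (nat_lit 561) (nat_lit 1581) (.f (nat_lit 525) (nat_lit 524) (nat_lit 3596) (.d (nat_lit 493) (nat_lit 461) (nat_lit 4557) (nat_lit 622) (nat_lit 4589))))) (.f (nat_lit 556) (nat_lit 527) (nat_lit 2572) (.d (nat_lit 524) (nat_lit 523) (nat_lit 3595) (nat_lit 525) (nat_lit 3596)))))) (.a (.p (nat_lit 557) (.a (.f (nat_lit 556) (nat_lit 527) (nat_lit 2572) (.d (nat_lit 588) (nat_lit 587) (nat_lit 1579) (nat_lit 589) (nat_lit 1580))) (.a (.f (nat_lit 588) (nat_lit 589) (nat_lit 1580) (.f (nat_lit 556) (nat_lit 587) (nat_lit 1579) (.f (nat_lit 591) (nat_lit 592) (nat_lit 556) (.f (nat_lit 555) (nat_lit 590) (nat_lit 555) (.d (nat_lit 523) (nat_lit 522) (nat_lit 3594) (nat_lit 524) (nat_lit 3595)))))) (.a (.f (nat_lit 556) (nat_lit 527) (nat_lit 2572) (.f (nat_lit 591) (nat_lit 592) (nat_lit 556) (.f (nat_lit 555) (nat_lit 590) (nat_lit 555) (.d (nat_lit 587) (nat_lit 586) (nat_lit 1578) (nat_lit 588) (nat_lit 1579))))) (.a (.f (nat_lit 556) (nat_lit 527) (nat_lit 2572) (.f (nat_lit 591) (nat_lit 592) (nat_lit 556) (.f (nat_lit 590) (nat_lit 555) (nat_lit 555) (.d (nat_lit 561) (nat_lit 562) (nat_lit 1582) (nat_lit 589) (nat_lit 1581))))) (.p (nat_lit 592) (.a (.p (nat_lit 624) (.a (.f (nat_lit 589) (nat_lit 588) (nat_lit 1580) (.f (nat_lit 590) (nat_lit 561) (nat_lit 1581) (.d (nat_lit 625) (nat_lit 591) (nat_lit 589) (nat_lit 657) (nat_lit 4624)))) (.f (nat_lit 656) (nat_lit 527) (nat_lit 7695) (.d (nat_lit 655) (nat_lit 623) (nat_lit 5647) (nat_lit 687) (nat_lit 5679))))) (.a (.p (nat_lit 624) (.a (.f (nat_lit 656) (nat_lit 527) (nat_lit 7695) (.d (nat_lit 655) (nat_lit 623) (nat_lit 5647) (nat_lit 687) (nat_lit 5679))) (.a (.f (nat_lit 623) (nat_lit 655) (nat_lit 5647) (.f (nat_lit 591) (nat_lit 496) (nat_lit 5615) (.f (nat_lit 589) (nat_lit 588) (nat_lit 1580) (.d (nat_lit 625) (nat_lit 590) (nat_lit 589) (nat_lit 657) (nat_lit 4624))))) (.f (nat_lit 656) (nat_lit 527) (nat_lit 7695) (.d (nat_lit 657) (nat_lit 625) (nat_lit 4624) (nat_lit 689) (nat_lit 4656)))))) (.a (.p (nat_lit 624) (.a (.f (nat_lit 589) (nat_lit 588) (nat_lit 1580) (.f (nat_lit 590) (nat_lit 561) (nat_lit 1581) (.d (nat_lit 625) (nat_lit 591) (nat_lit 589) (nat_lit 657) (nat_lit 4624)))) (.a (.f (nat_lit 623) (nat_lit 655) (nat_lit 5647) (.f (nat_lit 591) (nat_lit 496) (nat_lit 5615) (.f (nat_lit 589) (nat_lit 588) (nat_lit 1580) (.d (nat_lit 625) (nat_lit 590) (nat_lit 589) (nat_lit 657) (nat_lit 4624))))) (.a (.f (nat_lit 589) (nat_lit 588) (nat_lit 1580) (.f (nat_lit 623) (nat_lit 655) (nat_lit 5647) (.f (nat_lit 591) (nat_lit 496) (nat_lit 5615) (.f (nat_lit 590) (nat_lit 561) (nat_lit 1581) (.f (nat_lit 621) (nat_lit 620) (nat_lit 1612) (.d (nat_lit 653) (nat_lit 526) (nat_lit 6669) (nat_lit 685) (nat_lit 6701))))))) (.f (nat_lit 655) (nat_lit 623) (nat_lit 5647) (.f (nat_lit 656) (nat_lit 687) (nat_lit 5679) (.d (nat_lit 657) (nat_lit 625) (nat_lit 4624) (nat_lit 689) (nat_lit 4656)))))))) (.a (.p (nat_lit 496) (.a (.d (nat_lit 591) (nat_lit 464) (nat_lit 5583) (nat_lit 623) (nat_lit 5615)) (.a (.f (nat_lit 464) (nat_lit 591) (nat_lit 5583) (.d (nat_lit 465) (nat_lit 433) (nat_lit 6576) (nat_lit 497) (nat_lit 6608))) (.a (.f (nat_lit 591) (nat_lit 623) (nat_lit 5615) (.f (nat_lit 589) (nat_lit 588) (nat_lit 1580) (.f (nat_lit 590) (nat_lit 561) (nat_lit 1581) (.f (nat_lit 621) (nat_lit 620) (nat_lit 1612) (.d (nat_lit 526) (nat_lit 494) (nat_lit 5613) (nat_lit 653) (nat_lit 6669)))))) (.f (nat_lit 465) (nat_lit 497) (nat_lit 6608) (.f (nat_lit 464) (nat_lit 433) (nat_lit 6576) (.f (nat_lit 432) (nat_lit 527) (nat_lit 5551) (.d (nat_lit 431) (nat_lit 399) (nat_lit 7567) (nat_lit 463) (nat_lit 7599))))))))) (.a (.p (nat_lit 624) (.a (.f (nat_lit 589) (nat_lit 588) (nat_lit 1580) (.f (nat_lit 590) (nat_lit 561) (nat_lit 1581) (.d (nat_lit 625) (nat_lit 591) (nat_lit 589) (nat_lit 657) (nat_lit 4624)))) (.a (.f (nat_lit 656) (nat_lit 527) (nat_lit 7695) (.d (nat_lit 657) (nat_lit 625) (nat_lit 4624) (nat_lit 689) (nat_lit 4656))) (.f (nat_lit 656) (nat_lit 527) (nat_lit 7695) (.f (nat_lit 589) (nat_lit 588) (nat_lit 1580) (.f (nat_lit 591) (nat_lit 688) (nat_lit 7727) (.f (nat_lit 590) (nat_lit 561) (nat_lit 1581) (.f (nat_lit 621) (nat_lit 620) (nat_lit 1612) (.d (nat_lit 526) (nat_lit 494) (nat_lit 5613) (nat_lit 653) (nat_lit 6669)))))))))) (.a (.p (nat_lit 624) (.a (.f (nat_lit 656) (nat_lit 527) (nat_lit 7695) (.d (nat_lit 655) (nat_lit 623) (nat_lit 5647) (nat_lit 687) (nat_lit 5679))) (.a (.f (nat_lit 655) (nat_lit 623) (nat_lit 5647) (.f (nat_lit 656) (nat_lit 687) (nat_lit 5679) (.d (nat_lit 657) (nat_lit 625) (nat_lit 4624) (nat_lit 689) (nat_lit 4656)))) (.a (.f (nat_lit 656) (nat_lit 527) (nat_lit 7695) (.d (nat_lit 657) (nat_lit 625) (nat_lit 4624) (nat_lit 689) (nat_lit 4656))) (.f (nat_lit 589) (nat_lit 588) (nat_lit 1580) (.f (nat_lit 590) (nat_lit 561) (nat_lit 1581) (.f (nat_lit 623) (nat_lit 655) (nat_lit 5647) (.d (nat_lit 625) (nat_lit 622) (nat_lit 3661) (nat_lit 657) (nat_lit 4624))))))))) (.p (nat_lit 624) (.a (.f (nat_lit 656) (nat_lit 527) (nat_lit 7695) (.d (nat_lit 655) (nat_lit 623) (nat_lit 5647) (nat_lit 687) (nat_lit 5679))) (.a (.f (nat_lit 655) (nat_lit 623) (nat_lit 5647) (.f (nat_lit 656) (nat_lit 687) (nat_lit 5679) (.d (nat_lit 657) (nat_lit 625) (nat_lit 4624) (nat_lit 689) (nat_lit 4656)))) (.a (.f (nat_lit 656) (nat_lit 527) (nat_lit 7695) (.d (nat_lit 657) (nat_lit 625) (nat_lit 4624) (nat_lit 689) (nat_lit 4656))) (.f (nat_lit 623) (nat_lit 655) (nat_lit 5647) (.f (nat_lit 496) (nat_lit 591) (nat_lit 5615) (.f (nat_lit 465) (nat_lit 497) (nat_lit 6608) (.f (nat_lit 464) (nat_lit 433) (nat_lit 6576) (.f (nat_lit 432) (nat_lit 527) (nat_lit 5551) (.d (nat_lit 431) (nat_lit 399) (nat_lit 7567) (nat_lit 463) (nat_lit 7599))))))))))))))))))))))) (.a (.p (nat_lit 561) (.a (.f (nat_lit 526) (nat_lit 525) (nat_lit 3597) (.f (nat_lit 562) (nat_lit 527) (nat_lit 3598) (.d (nat_lit 590) (nat_lit 589) (nat_lit 1581) (nat_lit 591) (nat_lit 1582)))) (.a (.f (nat_lit 590) (nat_lit 589) (nat_lit 1581) (.f (nat_lit 591) (nat_lit 562) (nat_lit 1582) (.f (nat_lit 526) (nat_lit 525) (nat_lit 3597) (.d (nat_lit 494) (nat_lit 462) (nat_lit 4558) (nat_lit 623) (nat_lit 4590))))) (.a (.f (nat_lit 590) (nat_lit 589) (nat_lit 1581) (.f (nat_lit 562) (nat_lit 591) (nat_lit 1582) (.f (nat_lit 563) (nat_lit 527) (nat_lit 3599) (.d (nat_lit 531) (nat_lit 530) (nat_lit 2575) (nat_lit 532) (nat_lit 2576))))) (.a s45135 (.f (nat_lit 526) (nat_lit 525) (nat_lit 3597) (.f (nat_lit 562) (nat_lit 527) (nat_lit 3598) (.f (nat_lit 531) (nat_lit 530) (nat_lit 2575) (.f (nat_lit 563) (nat_lit 532) (nat_lit 2576) (.d (nat_lit 595) (nat_lit 594) (nat_lit 559) (nat_lit 596) (nat_lit 560))))))))))) (.p (nat_lit 561) (.a (.f (nat_lit 526) (nat_lit 525) (nat_lit 3597) (.f (nat_lit 562) (nat_lit 527) (nat_lit 3598) (.f (nat_lit 531) (nat_lit 530) (nat_lit 2575) (.f (nat_lit 563) (nat_lit 532) (nat_lit 2576) (.d (nat_lit 595) (nat_lit 594) (nat_lit 559) (nat_lit 596) (nat_lit 560)))))) (.a (.p (nat_lit 562) (.a (.f (nat_lit 595) (nat_lit 594) (nat_lit 559) (.f (nat_lit 563) (nat_lit 596) (nat_lit 560) (.d (nat_lit 531) (nat_lit 530) (nat_lit 2575) (nat_lit 532) (nat_lit 2576)))) (.f (nat_lit 591) (nat_lit 590) (nat_lit 1582) (.f (nat_lit 623) (nat_lit 655) (nat_lit 6671) (.d (nat_lit 496) (nat_lit 464) (nat_lit 5583) (nat_lit 592) (nat_lit 5615)))))) (.f (nat_lit 525) (nat_lit 526) (nat_lit 3597) (.f (nat_lit 557) (nat_lit 524) (nat_lit 3596) (.f (nat_lit 556) (nat_lit 527) (nat_lit 2572) (.f (nat_lit 591) (nat_lit 592) (nat_lit 556) (.f (nat_lit 555) (nat_lit 590) (nat_lit 555) (.d (nat_lit 587) (nat_lit 586) (nat_lit 1578) (nat_lit 588) (nat_lit 1579))))))))))))))))) (.a (.p (nat_lit 592) (.a (.p (nat_lit 624) (.a (.f (nat_lit 656) (nat_lit 527) (nat_lit 7695) (.d (nat_lit 655) (nat_lit 623) (nat_lit 5647) (nat_lit 687) (nat_lit 5679))) (.a (.f (nat_lit 623) (nat_lit 655) (nat_lit 5647) (.f (nat_lit 591) (nat_lit 496) (nat_lit 5615) (.f (nat_lit 625) (nat_lit 657) (nat_lit 4624) (.d (nat_lit 626) (nat_lit 590) (nat_lit 3662) (nat_lit 627) (nat_lit 3663))))) (.f (nat_lit 656) (nat_lit 527) (nat_lit 7695) (.d (nat_lit 657) (nat_lit 625) (nat_lit 4624) (nat_lit 689) (nat_lit 4656)))))) (.a s45079 (.a (.p (nat_lit 561) (.a s45110 (.a s45098 (.a (.p (nat_lit 558) (.a (.f (nat_lit 525) (nat_lit 526) (nat_lit 3597) (.f (nat_lit 557) (nat_lit 524) (nat_lit 3596) (.d (nat_lit 556) (nat_lit 527) (nat_lit 2572) (nat_lit 591) (nat_lit 556)))) (.a (.f (nat_lit 590) (nat_lit 589) (nat_lit 1581) (.f (nat_lit 591) (nat_lit 562) (nat_lit 1582) (.f (nat_lit 557) (nat_lit 556) (nat_lit 556) (.d (nat_lit 525) (nat_lit 524) (nat_lit 3596) (nat_lit 526) (nat_lit 3597))))) (.a (.f (nat_lit 589) (nat_lit 590) (nat_lit 1581) (.f (nat_lit 557) (nat_lit 588) (nat_lit 1580) (.d (nat_lit 556) (nat_lit 527) (nat_lit 2572) (nat_lit 591) (nat_lit 556)))) (.a (.f (nat_lit 525) (nat_lit 526) (nat_lit 3597) (.f (nat_lit 557) (nat_lit 524) (nat_lit 3596) (.d (nat_lit 589) (nat_lit 588) (nat_lit 1580) (nat_lit 590) (nat_lit 1581)))) (.f (nat_lit 526) (nat_lit 525) (nat_lit 3597) (.f (nat_lit 562) (nat_lit 527) (nat_lit 3598) (.f (nat_lit 531) (nat_lit 530) (nat_lit 2575) (.f (nat_lit 563) (nat_lit 532) (nat_lit 2576) (.f (nat_lit 593) (nat_lit 564) (nat_lit 1584) (.d (nat_lit 496) (nat_lit 464) (nat_lit 4560) (nat_lit 625) (nat_lit 4592)))))))))))) (.a (.p (nat_lit 496) (.a (.d (nat_lit 464) (nat_lit 591) (nat_lit 5583) (nat_lit 593) (nat_lit 4560)) (.a (.d (nat_lit 591) (nat_lit 464) (nat_lit 5583) (nat_lit 623) (nat_lit 5615)) (.a (.f (nat_lit 591) (nat_lit 623) (nat_lit 5615) (.d (nat_lit 590) (nat_lit 562) (nat_lit 1582) (nat_lit 589) (nat_lit 2605))) (.f (nat_lit 464) (nat_lit 593) (nat_lit 4560) (.d (nat_lit 465) (nat_lit 433) (nat_lit 6576) (nat_lit 497) (nat_lit 6608))))))) (.a (.p (nat_lit 496) (.a (.d (nat_lit 464) (nat_lit 591) (nat_lit 5583) (nat_lit 593) (nat_lit 4560)) (.a (.d (nat_lit 591) (nat_lit 464) (nat_lit 5583) (nat_lit 623) (nat_lit 5615)) (.a (.f (nat_lit 591) (nat_lit 623) (nat_lit 5615) (.f (nat_lit 590) (nat_lit 589) (nat_lit 2605) (.f (nat_lit 593) (nat_lit 625) (nat_lit 4592) (.f (nat_lit 558) (nat_lit 557) (nat_lit 3629) (.f (nat_lit 622) (nat_lit 621) (nat_lit 1613) (.d (nat_lit 654) (nat_lit 527) (nat_lit 6670) (nat_lit 686) (nat_lit 6702))))))) (.f (nat_lit 464) (nat_lit 593) (nat_lit 4560) (.d (nat_lit 465) (nat_lit 433) (nat_lit 6576) (nat_lit 497) (nat_lit 6608))))))) (.a (.p (nat_lit 558) (.a (.f (nat_lit 525) (nat_lit 526) (nat_lit 3597) (.f (nat_lit 557) (nat_lit 524) (nat_lit 3596) (.d (nat_lit 589) (nat_lit 588) (nat_lit 1580) (nat_lit 590) (nat_lit 1581)))) (.a (.f (nat_lit 557) (nat_lit 593) (nat_lit 557) (.d (nat_lit 589) (nat_lit 588) (nat_lit 1580) (nat_lit 590) (nat_lit 1581))) (.f (nat_lit 526) (nat_lit 525) (nat_lit 3597) (.f (nat_lit 562) (nat_lit 527) (nat_lit 3598) (.f (nat_lit 531) (nat_lit 530) (nat_lit 2575) (.f (nat_lit 563) (nat_lit 532) (nat_lit 2576) (.f (nat_lit 593) (nat_lit 564) (nat_lit 1584) (.d (nat_lit 496) (nat_lit 464) (nat_lit 4560) (nat_lit 625) (nat_lit 4592)))))))))) (.p (nat_lit 558) (.a (.f (nat_lit 525) (nat_lit 526) (nat_lit 3597) (.f (nat_lit 557) (nat_lit 524) (nat_lit 3596) (.d (nat_lit 556) (nat_lit 527) (nat_lit 2572) (nat_lit 591) (nat_lit 556)))) (.a (.f (nat_lit 525) (nat_lit 526) (nat_lit 3597) (.f (nat_lit 557) (nat_lit 524) (nat_lit 3596) (.f (nat_lit 591) (nat_lit 556) (nat_lit 556) (.d (nat_lit 496) (nat_lit 464) (nat_lit 5583) (nat_lit 623) (nat_lit 5615))))) (.a (.f (nat_lit 557) (nat_lit 593) (nat_lit 557) (.d (nat_lit 556) (nat_lit 527) (nat_lit 2572) (nat_lit 591) (nat_lit 556))) (.f (nat_lit 526) (nat_lit 525) (nat_lit 3597) (.f (nat_lit 562) (nat_lit 527) (nat_lit 3598) (.f (nat_lit 531) (nat_lit 530) (nat_lit 2575) (.f (nat_lit 563) (nat_lit 532) (nat_lit 2576) (.f (nat_lit 593) (nat_lit 564) (nat_lit 1584) (.d (nat_lit 496) (nat_lit 464) (nat_lit 4560) (nat_lit 625) (nat_lit 4592)))))))))))))))))) (.a (.p (nat_lit 590) (.a (.p (nat_lit 624) (.a (.f (nat_lit 623) (nat_lit 655) (nat_lit 5647) (.f (nat_lit 625) (nat_lit 657) (nat_lit 4624) (.d (nat_lit 591) (nat_lit 589) (nat_lit 589) (nat_lit 626) (nat_lit 3662)))) (.a (.f (nat_lit 656) (nat_lit 527) (nat_lit 7695) (.d (nat_lit 657) (nat_lit 625) (nat_lit 4624) (nat_lit 689) (nat_lit 4656))) (.f (nat_lit 656) (nat_lit 527) (nat_lit 7695) (.d (nat_lit 655) (nat_lit 623) (nat_lit 5647) (nat_lit 687) (nat_lit 5679)))))) (.a (.p (nat_lit 624) (.a (.f (nat_lit 655) (nat_lit 623) (nat_lit 5647) (.f (nat_lit 656) (nat_lit 687) (nat_lit 5679) (.f (nat_lit 591) (nat_lit 688) (nat_lit 7727) (.d (nat_lit 589) (nat_lit 561) (nat_lit 2605) (nat_lit 625) (nat_lit 589))))) (.a (.f (nat_lit 623) (nat_lit 655) (nat_lit 5647) (.f (nat_lit 625) (nat_lit 657) (nat_lit 4624) (.d (nat_lit 591) (nat_lit 589) (nat_lit 589) (nat_lit 626) (nat_lit 3662)))) (.a (.f (nat_lit 625) (nat_lit 657) (nat_lit 4624) (.f (nat_lit 589) (nat_lit 591) (nat_lit 589) (.f (nat_lit 558) (nat_lit 561) (nat_lit 1581) (.d (nat_lit 588) (nat_lit 557) (nat_lit 1580) (nat_lit 587) (nat_lit 2603))))) (.a (.f (nat_lit 655) (nat_lit 623) (nat_lit 5647) (.f (nat_lit 656) (nat_lit 687) (nat_lit 5679) (.f (nat_lit 591) (nat_lit 688) (nat_lit 7727) (.d (nat_lit 561) (nat_lit 562) (nat_lit 1582) (nat_lit 589) (nat_lit 2605))))) (.f (nat_lit 655) (nat_lit 623) (nat_lit 5647) (.f (nat_lit 656) (nat_lit 687) (nat_lit 5679) (.d (nat_lit 657) (nat_lit 625) (nat_lit 4624) (nat_lit 689) (nat_lit 4656))))))))) (.a (.p (nat_lit 561) (.a (.d (nat_lit 589) (nat_lit 558) (nat_lit 1581) (nat_lit 591) (nat_lit 2605)) (.a (.d (nat_lit 591) (nat_lit 562) (nat_lit 1582) (nat_lit 589) (nat_lit 2605)) (.a (.f (nat_lit 558) (nat_lit 589) (nat_lit 1581) (.f (nat_lit 526) (nat_lit 525) (nat_lit 3597) (.f (nat_lit 527) (nat_lit 562) (nat_lit 3598) (.d (nat_lit 557) (nat_lit 556) (nat_lit 2572) (nat_lit 593) (nat_lit 557))))) (.f (nat_lit 562) (nat_lit 591) (nat_lit 1582) (.d (nat_lit 527) (nat_lit 526) (nat_lit 3598) (nat_lit 563) (nat_lit 3599))))))) (.a (.p (nat_lit 624) (.a (.f (nat_lit 656) (nat_lit 527) (nat_lit 7695) (.d (nat_lit 657) (nat_lit 625) (nat_lit 4624) (nat_lit 689) (nat_lit 4656))) (.a (.f (nat_lit 655) (nat_lit 623) (nat_lit 5647) (.f (nat_lit 656) (nat_lit 687) (nat_lit 5679) (.d (nat_lit 657) (nat_lit 625) (nat_lit 4624) (nat_lit 689) (nat_lit 4656)))) (.a (.f (nat_lit 656) (nat_lit 527) (nat_lit 7695) (.d (nat_lit 655) (nat_lit 623) (nat_lit 5647) (nat_lit 687) (nat_lit 5679))) (.f (nat_lit 625) (nat_lit 657) (nat_lit 4624) (.f (nat_lit 623) (nat_lit 655) (nat_lit 5647) (.f (nat_lit 622) (nat_lit 589) (nat_lit 3661) (.f (nat_lit 654) (nat_lit 653) (nat_lit 1645) (.f (nat_lit 558) (nat_lit 527) (nat_lit 6670) (.f (nat_lit 525) (nat_lit 557) (nat_lit 7693) (.d (nat_lit 526) (nat_lit 493) (nat_lit 7661) (nat_lit 561) (nat_lit 3597)))))))))))) (.p (nat_lit 624) (.a (.f (nat_lit 656) (nat_lit 527) (nat_lit 7695) (.d (nat_lit 657) (nat_lit 625) (nat_lit 4624) (nat_lit 689) (nat_lit 4656))) (.a (.f (nat_lit 655) (nat_lit 623) (nat_lit 5647) (.f (nat_lit 656) (nat_lit 687) (nat_lit 5679) (.d (nat_lit 657) (nat_lit 625) (nat_lit 4624) (nat_lit 689) (nat_lit 4656)))) (.a (.f (nat_lit 656) (nat_lit 527) (nat_lit 7695) (.d (nat_lit 655) (nat_lit 623) (nat_lit 5647) (nat_lit 687) (nat_lit 5679))) (.f (nat_lit 623) (nat_lit 655) (nat_lit 5647) (.f (nat_lit 625) (nat_lit 657) (nat_lit 4624) (.f (nat_lit 626) (nat_lit 591) (nat_lit 3662) (.f (nat_lit 659) (nat_lit 658) (nat_lit 623) (.f (nat_lit 627) (nat_lit 660) (nat_lit 624) (.f (nat_lit 596) (nat_lit 595) (nat_lit 2640) (.d (nat_lit 628) (nat_lit 593) (nat_lit 3664) (nat_lit 597) (nat_lit 2641))))))))))))))))) (.a (.p (nat_lit 624) (.a (.f (nat_lit 656) (nat_lit 527) (nat_lit 7695) (.d (nat_lit 657) (nat_lit 625) (nat_lit 4624) (nat_lit 689) (nat_lit 4656))) (.a (.f (nat_lit 657) (nat_lit 625) (nat_lit 4624) (.f (nat_lit 656) (nat_lit 689) (nat_lit 4656) (.f (nat_lit 687) (nat_lit 655) (nat_lit 5679) (.d (nat_lit 688) (nat_lit 591) (nat_lit 7727) (nat_lit 719) (nat_lit 5711))))) (.a (.f (nat_lit 656) (nat_lit 527) (nat_lit 7695) (.f (nat_lit 688) (nat_lit 591) (nat_lit 7727) (.d (nat_lit 687) (nat_lit 655) (nat_lit 5679) (nat_lit 719) (nat_lit 5711)))) (.f (nat_lit 625) (nat_lit 657) (nat_lit 4624) (.f (nat_lit 496) (nat_lit 593) (nat_lit 4592) (.f (nat_lit 464) (nat_lit 591) (nat_lit 5583) (.d (nat_lit 465) (nat_lit 433) (nat_lit 6576) (nat_lit 497) (nat_lit 6608))))))))) (.a s45144 (.a (.p (nat_lit 624) (.a (.f (nat_lit 656) (nat_lit 527) (nat_lit 7695) (.d (nat_lit 655) (nat_lit 623) (nat_lit 5647) (nat_lit 687) (nat_lit 5679))) (.a (.f (nat_lit 655) (nat_lit 623) (nat_lit 5647) (.f (nat_lit 656) (nat_lit 687) (nat_lit 5679) (.d (nat_lit 657) (nat_lit 625) (nat_lit 4624) (nat_lit 689) (nat_lit 4656)))) (.a (.f (nat_lit 656) (nat_lit 527) (nat_lit 7695) (.d (nat_lit 657) (nat_lit 625) (nat_lit 4624) (nat_lit 689) (nat_lit 4656))) (.f (nat_lit 625) (nat_lit 657) (nat_lit 4624) (.f (nat_lit 496) (nat_lit 593) (nat_lit 4592) (.f (nat_lit 465) (nat_lit 497) (nat_lit 6608) (.f (nat_lit 464) (nat_lit 433) (nat_lit 6576) (.f (nat_lit 432) (nat_lit 527) (nat_lit 5551) (.d (nat_lit 431) (nat_lit 399) (nat_lit 7567) (nat_lit 463) (nat_lit 7599))))))))))) (.p (nat_lit 624) (.a (.f (nat_lit 656) (nat_lit 527) (nat_lit 7695) (.d (nat_lit 657) (nat_lit 625) (nat_lit 4624) (nat_lit 689) (nat_lit 4656))) (.a (.f (nat_lit 657) (nat_lit 625) (nat_lit 4624) (.f (nat_lit 656) (nat_lit 689) (nat_lit 4656) (.f (nat_lit 591) (nat_lit 688) (nat_lit 7727) (.d (nat_lit 496) (nat_lit 464) (nat_lit 5583) (nat_lit 623) (nat_lit 5615))))) (.a (.f (nat_lit 656) (nat_lit 527) (nat_lit 7695) (.f (nat_lit 591) (nat_lit 688) (nat_lit 7727) (.d (nat_lit 496) (nat_lit 464) (nat_lit 5583) (nat_lit 623) (nat_lit 5615)))) (.f (nat_lit 625) (nat_lit 657) (nat_lit 4624) (.f (nat_lit 496) (nat_lit 593) (nat_lit 4592) (.f (nat_lit 464) (nat_lit 591) (nat_lit 5583) (.d (nat_lit 465) (nat_lit 433) (nat_lit 6576) (nat_lit 497) (nat_lit 6608))))))))))))))))) (.a (.p (nat_lit 561) (.a (.p (nat_lit 558) (.a (.f (nat_lit 593) (nat_lit 594) (nat_lit 558) (.f (nat_lit 592) (nat_lit 557) (nat_lit 557) (.d (nat_lit 496) (nat_lit 464) (nat_lit 4560) (nat_lit 625) (nat_lit 4592)))) (.f (nat_lit 590) (nat_lit 589) (nat_lit 1581) (.f (nat_lit 591) (nat_lit 562) (nat_lit 1582) (.f (nat_lit 526) (nat_lit 525) (nat_lit 3597) (.d (nat_lit 494) (nat_lit 462) (nat_lit 4558) (nat_lit 623) (nat_lit 4590))))))) (.a (.p (nat_lit 558) (.a (.f (nat_lit 526) (nat_lit 525) (nat_lit 3597) (.f (nat_lit 562) (nat_lit 527) (nat_lit 3598) (.d (nat_lit 590) (nat_lit 589) (nat_lit 1581) (nat_lit 591) (nat_lit 1582)))) (.a (.f (nat_lit 590) (nat_lit 589) (nat_lit 1581) (.f (nat_lit 591) (nat_lit 562) (nat_lit 1582) (.f (nat_lit 526) (nat_lit 525) (nat_lit 3597) (.d (nat_lit 494) (nat_lit 462) (nat_lit 4558) (nat_lit 623) (nat_lit 4590))))) (.a (.f (nat_lit 590) (nat_lit 589) (nat_lit 1581) (.f (nat_lit 562) (nat_lit 591) (nat_lit 1582) (.f (nat_lit 563) (nat_lit 527) (nat_lit 3599) (.d (nat_lit 531) (nat_lit 530) (nat_lit 2575) (nat_lit 532) (nat_lit 2576))))) (.a (.f (nat_lit 525) (nat_lit 526) (nat_lit 3597) (.f (nat_lit 557) (nat_lit 524) (nat_lit 3596) (.d (nat_lit 589) (nat_lit 588) (nat_lit 1580) (nat_lit 590) (nat_lit 1581)))) (.a (.f (nat_lit 525) (nat_lit 526) (nat_lit 3597) (.f (nat_lit 557) (nat_lit 524) (nat_lit 3596) (.f (nat_lit 556) (nat_lit 527) (nat_lit 2572) (.d (nat_lit 588) (nat_lit 587) (nat_lit 1579) (nat_lit 589) (nat_lit 1580))))) (.f (nat_lit 525) (nat_lit 526) (nat_lit 3597) (.f (nat_lit 557) (nat_lit 524) (nat_lit 3596) (.f (nat_lit 527) (nat_lit 556) (nat_lit 2572) (.f (nat_lit 562) (nat_lit 563) (nat_lit 3599) (.f (nat_lit 591) (nat_lit 590) (nat_lit 1582) (.d (nat_lit 496) (nat_lit 464) (nat_lit 5583) (nat_lit 623) (nat_lit 6639))))))))))))) (.a s45006 (.a (.p (nat_lit 558) (.a (.f (nat_lit 593) (nat_lit 594) (nat_lit 558) (.f (nat_lit 592) (nat_lit 557) (nat_lit 557) (.d (nat_lit 496) (nat_lit 464) (nat_lit 4560) (nat_lit 625) (nat_lit 4592)))) (.f (nat_lit 590) (nat_lit 589) (nat_lit 1581) (.f (nat_lit 562) (nat_lit 591) (nat_lit 1582) (.f (nat_lit 563) (nat_lit 527) (nat_lit 3599) (.d (nat_lit 531) (nat_lit 530) (nat_lit 2575) (nat_lit 532) (nat_lit 2576))))))) (.a (.p (nat_lit 562) (.a (.d (nat_lit 527) (nat_lit 526) (nat_lit 3598) (nat_lit 563) (nat_lit 3599)) (.a (.f (nat_lit 591) (nat_lit 590) (nat_lit 1582) (.f (nat_lit 592) (nat_lit 563) (nat_lit 1583) (.d (nat_lit 496) (nat_lit 464) (nat_lit 5583) (nat_lit 623) (nat_lit 5615)))) (.f (nat_lit 591) (nat_lit 590) (nat_lit 1582) (.f (nat_lit 496) (nat_lit 464) (nat_lit 5583) (.d (nat_lit 527) (nat_lit 526) (nat_lit 3598) (nat_lit 623) (nat_lit 6639))))))) (.a (.p (nat_lit 558) (.a (.f (nat_lit 593) (nat_lit 594) (nat_lit 558) (.f (nat_lit 592) (nat_lit 557) (nat_lit 557) (.d (nat_lit 496) (nat_lit 464) (nat_lit 4560) (nat_lit 625) (nat_lit 4592)))) (.a (.f (nat_lit 525) (nat_lit 526) (nat_lit 3597) (.f (nat_lit 557) (nat_lit 524) (nat_lit 3596) (.d (nat_lit 589) (nat_lit 588) (nat_lit 1580) (nat_lit 590) (nat_lit 1581)))) (.f (nat_lit 593) (nat_lit 594) (nat_lit 558) (.f (nat_lit 496) (nat_lit 464) (nat_lit 4560) (.d (nat_lit 625) (nat_lit 592) (nat_lit 4592) (nat_lit 657) (nat_lit 7696))))))) (.p (nat_lit 558) (.a (.f (nat_lit 593) (nat_lit 594) (nat_lit 558) (.f (nat_lit 592) (nat_lit 557) (nat_lit 557) (.d (nat_lit 496) (nat_lit 464) (nat_lit 4560) (nat_lit 625) (nat_lit 4592)))) (.a (.f (nat_lit 525) (nat_lit 526) (nat_lit 3597) (.f (nat_lit 557) (nat_lit 524) (nat_lit 3596) (.f (nat_lit 556) (nat_lit 527) (nat_lit 2572) (.d (nat_lit 588) (nat_lit 587) (nat_lit 1579) (nat_lit 589) (nat_lit 1580))))) (.f (nat_lit 593) (nat_lit 594) (nat_lit 558) (.f (nat_lit 496) (nat_lit 464) (nat_lit 4560) (.d (nat_lit 625) (nat_lit 592) (nat_lit 4592) (nat_lit 657) (nat_lit 7696)))))))))))))) (.p (nat_lit 561) (.a (.p (nat_lit 558) (.a (.f (nat_lit 593) (nat_lit 594) (nat_lit 558) (.f (nat_lit 592) (nat_lit 557) (nat_lit 557) (.d (nat_lit 496) (nat_lit 464) (nat_lit 4560) (nat_lit 625) (nat_lit 4592)))) (.a (.f (nat_lit 526) (nat_lit 525) (nat_lit 3597) (.f (nat_lit 562) (nat_lit 527) (nat_lit 3598) (.d (nat_lit 594) (nat_lit 593) (nat_lit 558) (nat_lit 595) (nat_lit 559)))) (.f (nat_lit 526) (nat_lit 525) (nat_lit 3597) (.f (nat_lit 562) (nat_lit 527) (nat_lit 3598) (.d (nat_lit 590) (nat_lit 589) (nat_lit 1581) (nat_lit 591) (nat_lit 1582))))))) (.a s45001 (.a (.p (nat_lit 558) (.a (.f (nat_lit 526) (nat_lit 525) (nat_lit 3597) (.f (nat_lit 562) (nat_lit 527) (nat_lit 3598) (.d (nat_lit 590) (nat_lit 589) (nat_lit 1581) (nat_lit 591) (nat_lit 1582)))) (.a (.f (nat_lit 525) (nat_lit 526) (nat_lit 3597) (.f (nat_lit 557) (nat_lit 524) (nat_lit 3596) (.d (nat_lit 589) (nat_lit 588) (nat_lit 1580) (nat_lit 590) (nat_lit 1581)))) (.a (.f (nat_lit 590) (nat_lit 589) (nat_lit 1581) (.f (nat_lit 562) (nat_lit 591) (nat_lit 1582) (.f (nat_lit 563) (nat_lit 527) (nat_lit 3599) (.d (nat_lit 531) (nat_lit 530) (nat_lit 2575) (nat_lit 532) (nat_lit 2576))))) (.f (nat_lit 526) (nat_lit 525) (nat_lit 3597) (.f (nat_lit 562) (nat_lit 527) (nat_lit 3598) (.f (nat_lit 531) (nat_lit 530) (nat_lit 2575) (.f (nat_lit 563) (nat_lit 532) (nat_lit 2576) (.d (nat_lit 595) (nat_lit 594) (nat_lit 559) (nat_lit 596) (nat_lit 560)))))))))) (.a (.p (nat_lit 558) (.a (.f (nat_lit 593) (nat_lit 594) (nat_lit 558) (.f (nat_lit 592) (nat_lit 557) (nat_lit 557) (.d (nat_lit 496) (nat_lit 464) (nat_lit 4560) (nat_lit 625) (nat_lit 4592)))) (.a (.f (nat_lit 525) (nat_lit 526) (nat_lit 3597) (.f (nat_lit 557) (nat_lit 524) (nat_lit 3596) (.d (nat_lit 589) (nat_lit 588) (nat_lit 1580) (nat_lit 590) (nat_lit 1581)))) (.f (nat_lit 593) (nat_lit 594) (nat_lit 558) (.f (nat_lit 496) (nat_lit 464) (nat_lit 4560) (.d (nat_lit 625) (nat_lit 592) (nat_lit 4592) (nat_lit 657) (nat_lit 7696))))))) (.a (.p (nat_lit 562) (.a (.d (nat_lit 527) (nat_lit 526) (nat_lit 3598) (nat_lit 563) (nat_lit 3599)) (.a (.f (nat_lit 591) (nat_lit 590) (nat_lit 1582) (.f (nat_lit 563) (nat_lit 592) (nat_lit 1583) (.d (nat_lit 595) (nat_lit 594) (nat_lit 559) (nat_lit 596) (nat_lit 560)))) (.p (nat_lit 593) (.a (.f (nat_lit 625) (nat_lit 657) (nat_lit 7696) (.d (nat_lit 496) (nat_lit 464) (nat_lit 4560) (nat_lit 592) (nat_lit 4592))) (.a (.f (nat_lit 530) (nat_lit 531) (nat_lit 2575) (.f (nat_lit 625) (nat_lit 657) (nat_lit 7696) (.d (nat_lit 594) (nat_lit 498) (nat_lit 5617) (nat_lit 595) (nat_lit 559)))) (.f (nat_lit 594) (nat_lit 595) (nat_lit 559) (.f (nat_lit 496) (nat_lit 464) (nat_lit 4560) (.f (nat_lit 530) (nat_lit 531) (nat_lit 2575) (.f (nat_lit 498) (nat_lit 466) (nat_lit 5585) (.f (nat_lit 497) (nat_lit 465) (nat_lit 7633) (.d (nat_lit 499) (nat_lit 467) (nat_lit 6610) (nat_lit 527) (nat_lit 1519))))))))))))) (.a (.p (nat_lit 558) (.a (.f (nat_lit 593) (nat_lit 594) (nat_lit 558) (.f (nat_lit 592) (nat_lit 557) (nat_lit 557) (.d (nat_lit 496) (nat_lit 464) (nat_lit 4560) (nat_lit 625) (nat_lit 4592)))) (.f (nat_lit 590) (nat_lit 589) (nat_lit 1581) (.f (nat_lit 562) (nat_lit 591) (nat_lit 1582) (.f (nat_lit 563) (nat_lit 527) (nat_lit 3599) (.d (nat_lit 531) (nat_lit 530) (nat_lit 2575) (nat_lit 532) (nat_lit 2576))))))) (.a (.p (nat_lit 562) (.a (.d (nat_lit 527) (nat_lit 526) (nat_lit 3598) (nat_lit 563) (nat_lit 3599)) (.f (nat_lit 594) (nat_lit 595) (nat_lit 559) (.f (nat_lit 593) (nat_lit 558) (nat_lit 558) (.f (nat_lit 530) (nat_lit 531) (nat_lit 2575) (.d (nat_lit 498) (nat_lit 466) (nat_lit 5585) (nat_lit 625) (nat_lit 5617))))))) (.p (nat_lit 558) (.a (.f (nat_lit 526) (nat_lit 525) (nat_lit 3597) (.f (nat_lit 562) (nat_lit 527) (nat_lit 3598) (.d (nat_lit 590) (nat_lit 589) (nat_lit 1581) (nat_lit 591) (nat_lit 1582)))) (.a (.f (nat_lit 525) (nat_lit 526) (nat_lit 3597) (.f (nat_lit 557) (nat_lit 524) (nat_lit 3596) (.d (nat_lit 589) (nat_lit 588) (nat_lit 1580) (nat_lit 590) (nat_lit 1581)))) (.a (.f (nat_lit 590) (nat_lit 589) (nat_lit 1581) (.f (nat_lit 562) (nat_lit 591) (nat_lit 1582) (.f (nat_lit 563) (nat_lit 527) (nat_lit 3599) (.d (nat_lit 531) (nat_lit 530) (nat_lit 2575) (nat_lit 532) (nat_lit 2576))))) (.a (.f (nat_lit 525) (nat_lit 526) (nat_lit 3597) (.f (nat_lit 557) (nat_lit 524) (nat_lit 3596) (.f (nat_lit 556) (nat_lit 527) (nat_lit 2572) (.d (nat_lit 588) (nat_lit 587) (nat_lit 1579) (nat_lit 589) (nat_lit 1580))))) (.f (nat_lit 526) (nat_lit 525) (nat_lit 3597) (.f (nat_lit 562) (nat_lit 527) (nat_lit 3598) (.f (nat_lit 591) (nat_lit 590) (nat_lit 1582) (.f (nat_lit 592) (nat_lit 563) (nat_lit 1583) (.d (nat_lit 557) (nat_lit 556) (nat_lit 556) (nat_lit 593) (nat_lit 557))))))))))))))))))))))))))))))))))))))))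
end Vale.Agent.Lib.P062.Part4
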