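import Vale.Agent.Lib.P062.Part4.K_0

set_option maxRecDepth 100000
set_option linter.all false

namespace Vale.Agent.Lib.P062.Part4
open Vale.Agent.Lib.P062 Vale.Agent.Lib.P062.V2

noncomputable def s385 : Cert := .r (nat_lit 3773962425700235453096299722244592710232032175317446804068244616434075696517633372946541333831107680986492224416003539946258365535128289863158302094148386530119930347520) (.p (nat_lit 526) (.a (.f (nat_lit 525) (nat_lit 497) (nat_lit 1517) (.d (nat_lit 524) (nat_lit 493) (nat_lit 1516) (nat_lit 523) (nat_lit 2539))) (.a (.p (nat_lit 462) (.a (.f (nat_lit 461) (nat_lit 497) (nat_lit 3533) (.d (nat_lit 460) (nat_lit 459) (nat_lit 459) (nat_lit 493) (nat_lit 3532))) (.a (.p (nat_lit 558) (.a (.f (nat_lit 461) (nat_lit 429) (nat_lit 7597) (.d (nat_lit 460) (nat_lit 459) (nat_lit 459) (nat_lit 493) (nat_lit 3532))) (.f (nat_lit 589) (nat_lit 557) (nat_lit 5581) (.f (nat_lit 590) (nat_lit 621)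 (nat_lit 5613) (.d (nat_lit 559) (nat_lit 561) (nat_lit 1581) (nat_lit 591) (nat_lit 4558)))))) (.p (nat_lit 430) (.a (.f (nat_lit 431) (nat_lit 399) (nat_lit 6542) (.f (nat_lit 463) (nat_lit 558) (nat_lit 6574) (.f (nat_lit 398) (nat_lit 366) (nat_lit 4462) (.d (nat_lit 397) (nat_lit 365) (nat_lit 7533) (nat_lit 429) (nat_lit 7565))))) (.a (.f (nat_lit 399) (nat_lit 431) (nat_lit 6542) (.f (nat_lit 398) (nat_lit 367) (nat_lit 6510) (.d (nat_lit 397) (nat_lit 365) (nat_lit 7533) (nat_lit 429) (nat_lit 7565)))) (.a (.f (nat_lit 397) (nat_lit 429) (nat_lit 7565) (.f (nat_lit 398) (nat_lit 365) (nat_lit 7533) (.f (nat_lit 367) (nat_lit 399) (nat_lit 6510) (.d (nat_lit 366) (nat_lit 335) (nat_lit 6478) (nat_lit 463) (nat_lit 4462))))) (.a (.f (nat_lit 397) (nat_lit 429) (nat_lit 7565) (.f (nat_lit 398) (nat_lit 365) (nat_lit 7533) (.f (nat_lit 463) (nat_lit 366) (nat_lit 4462) (.d (nat_lit 558) (nat_lit 431) (nat_lit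 6574) (nat_lit 590) (nat_lit 6606))))) (.a (.f (nat_lit 431) (nat_lit 399) (nat_lit 6542) (.f (nat_lit 463) (nat_lit 558) (nat_lit 6574) (.f (nat_lit 398) (nat_lit 366) (nat_lit 4462) (.f (nat_lit 397) (nat_lit 365) (nat_lit 7533) (.f (nat_lit 433) (nat_lit 432) (nat_lit 3469) (.f (nat_lit 497) (nat_lit 498) (nat_lit 3534) (.d (nat_lit 465) (nat_lit 401) (nat_lit 5520) (nat_lit 466) (nat_lit 2510)))))))) (.f (nat_lit 431) (nat_lit 399) (nat_lit 6542) (.f (nat_lit 558) (nat_lit 463) (nat_lit 6574) (.f (nat_lit 589) (nat_lit 557) (nat_lit 5581) (.f (nat_lit 590) (nat_lit 621) (nat_lit 5613) (.d (nat_lit 559) (nat_lit 561) (nat_lit 1581) (nat_lit 591) (nat_lit 4558))))))))))))))) (.a (.p (nat_lit 558) (.a (.f (nat_lit 463) (nat_lit 590) (nat_lit 6606) (.d (nat_lit 431) (nat_lit 399) (nat_lit 4495) (nat_lit 462) (nat_lit 6574))) (.a (.p (nat_lit 559) (.a (.f (nat_lit 462) (nat_lit 591) (nat_lit 4558) (.f (nat_lit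 589) (nat_lit 557) (nat_lit 5581) (.d (nat_lit 590) (nat_lit 561) (nat_lit 1581) (nat_lit 621) (nat_lit 5613)))) (.a (.f (nat_lit 462) (nat_lit 591) (nat_lit 4558) (.f (nat_lit 557) (nat_lit 589) (nat_lit 5581) (.d (nat_lit 525) (nat_lit 430) (nat_lit 5549) (nat_lit 524) (nat_lit 3596)))) (.f (nat_lit 525) (nat_lit 561) (nat_lit 3597) (.d (nat_lit 524) (nat_lit 493) (nat_lit 1516) (nat_lit 523) (nat_lit 2539)))))) (.a (.p (nat_lit 559) (.a (.f (nat_lit 525) (nat_lit 561) (nat_lit 3597) (.d (nat_lit 524) (nat_lit 523) (nat_lit 523) (nat_lit 557) (nat_lit 3596))) (.a (.f (nat_lit 462) (nat_lit 591) (nat_lit 4558) (.f (nat_lit 557) (nat_lit 589) (nat_lit 5581) (.d (nat_lit 525) (nat_lit 430) (nat_lit 5549) (nat_lit 524) (nat_lit 3596)))) (.f (nat_lit 462) (nat_lit 591) (nat_lit 4558) (.f (nat_lit 463) (nat_lit 431) (nat_lit 6574) (.d (nat_lit 461) (nat_lit 429) (nat_lit 7597) (nat_lit 460) (nat_lit 460)))))))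 (.f (nat_lit 590) (nat_lit 463) (nat_lit 6606) (.f (nat_lit 493) (nat_lit 461) (nat_lit 7629) (.d (nat_lit 525) (nat_lit 524) (nat_lit 1516) (nat_lit 622) (nat_lit 7661)))))))) (.f (nat_lit 497) (nat_lit 525) (nat_lit 1517) (.f (nat_lit 462) (nat_lit 461) (nat_lit 3533) (.f (nat_lit 463) (nat_lit 498) (nat_lit 3534) (.d (nat_lit 431) (nat_lit 399) (nat_lit 4495) (nat_lit 558) (nat_lit 6574)))))))))
noncomputable def s652 : Cert := .r (nat_lit 3773962425700235452738272624505952193199339552226928146794549392648115485167898379561026699849346401546134558067857772757880134458676407096525164659442171664912122642432) (.p (nat_lit 496) (.a (.p (nat_lit 592) (.a (.f (nat_lit 593) (nat_lit 625) (nat_lit 4592) (.f (nat_lit 464) (nat_lit 561) (nat_lit 4560) (.d (nat_lit 465) (nat_lit 433) (nat_lit 6576) (nat_lit 497) (nat_lit 6608)))) (.a (.f (nat_lit 495) (nat_lit 463) (nat_lit 7631) (.f (nat_lit 527) (nat_lit 624) (nat_lit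 7663) (.f (nat_lit 497) (nat_lit 465) (nat_lit 6608) (.d (nat_lit 526) (nat_lit 498) (nat_lit 1518) (nat_lit 525) (nat_lit 2541))))) (.f (nat_lit 593) (nat_lit 625) (nat_lit 4592) (.f (nat_lit 464) (nat_lit 561) (nat_lit 4560) (.d (nat_lit 463) (nat_lit 431) (nat_lit 7599) (nat_lit 495) (nat_lit 7631))))))) (.a (.p (nat_lit 592) (.a (.f (nat_lit 593) (nat_lit 625) (nat_lit 4592) (.f (nat_lit 464) (nat_lit 561) (nat_lit 4560) (.d (nat_lit 465) (nat_lit 433) (nat_lit 6576) (nat_lit 497) (nat_lit 6608)))) (.a (.f (nat_lit 495) (nat_lit 463) (nat_lit 7631) (.f (nat_lit 527) (nat_lit 624) (nat_lit 7663) (.f (nat_lit 497) (nat_lit 465) (nat_lit 6608) (.d (nat_lit 526) (nat_lit 498) (nat_lit 1518) (nat_lit 525) (nat_lit 2541))))) (.f (nat_lit 593) (nat_lit 625) (nat_lit 4592) (.f (nat_lit 561) (nat_lit 464) (nat_lit 4560) (.f (nat_lit 495) (nat_lit 463) (nat_lit 7631) (.f (nat_lit 527) (nat_lit 624) (nat_lit 7663)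 (.f (nat_lit 562) (nat_lit 563) (nat_lit 3599) (.d (nat_lit 526) (nat_lit 525) (nat_lit 525) (nat_lit 559) (nat_lit 3598)))))))))) (.a (.p (nat_lit 592) (.a (.f (nat_lit 495) (nat_lit 463) (nat_lit 7631) (.f (nat_lit 527) (nat_lit 624) (nat_lit 7663) (.f (nat_lit 497) (nat_lit 465) (nat_lit 6608) (.d (nat_lit 526) (nat_lit 498) (nat_lit 1518) (nat_lit 525) (nat_lit 2541))))) (.a (.f (nat_lit 593) (nat_lit 625) (nat_lit 4592) (.f (nat_lit 464) (nat_lit 561) (nat_lit 4560) (.d (nat_lit 463) (nat_lit 431) (nat_lit 7599) (nat_lit 495) (nat_lit 7631)))) (.a (.f (nat_lit 593) (nat_lit 625) (nat_lit 4592) (.f (nat_lit 464) (nat_lit 561) (nat_lit 4560) (.f (nat_lit 559) (nat_lit 591) (nat_lit 5583) (.f (nat_lit 432) (nat_lit 527) (nat_lit 5551) (.d (nat_lit 431) (nat_lit 399) (nat_lit 7567) (nat_lit 463) (nat_lit 7599)))))) (.f (nat_lit 593) (nat_lit 625) (nat_lit 4592) (.f (nat_lit 464) (nat_lit 561) (nat_lit 4560)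 (.f (nat_lit 559) (nat_lit 591) (nat_lit 5583) (.f (nat_lit 527) (nat_lit 432) (nat_lit 5551) (.d (nat_lit 624) (nat_lit 495) (nat_lit 7663) (nat_lit 656) (nat_lit 7695)))))))))) (.a (.p (nat_lit 464) (.a (.f (nat_lit 465) (nat_lit 433) (nat_lit 6576) (.f (nat_lit 497) (nat_lit 592) (nat_lit 6608) (.f (nat_lit 559) (nat_lit 591) (nat_lit 5583) (.f (nat_lit 527) (nat_lit 432) (nat_lit 5551) (.f (nat_lit 526) (nat_lit 525) (nat_lit 2541) (.d (nat_lit 498) (nat_lit 495) (nat_lit 1518) (nat_lit 499) (nat_lit 1519))))))) (.a (.f (nat_lit 465) (nat_lit 433) (nat_lit 6576) (.f (nat_lit 593) (nat_lit 561) (nat_lit 4560) (.d (nat_lit 592) (nat_lit 497) (nat_lit 6608) (nat_lit 625) (nat_lit 4592)))) (.a (.f (nat_lit 433) (nat_lit 465) (nat_lit 6576) (.f (nat_lit 432) (nat_lit 401) (nat_lit 6544) (.d (nat_lit 559) (nat_lit 527) (nat_lit 5551) (nat_lit 591) (nat_lit 5583)))) (.f (nat_lit 593) (nat_lit 561) (nat_lit 4560)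 (.f (nat_lit 559) (nat_lit 591) (nat_lit 5583) (.f (nat_lit 592) (nat_lit 625) (nat_lit 4592) (.f (nat_lit 527) (nat_lit 432) (nat_lit 5551) (.d (nat_lit 624) (nat_lit 495) (nat_lit 7663) (nat_lit 656) (nat_lit 7695)))))))))) (.a (.p (nat_lit 495) (.a (.f (nat_lit 592) (nat_lit 463) (nat_lit 7631) (.f (nat_lit 497) (nat_lit 465) (nat_lit 6608) (.f (nat_lit 527) (nat_lit 624) (nat_lit 7663) (.d (nat_lit 526) (nat_lit 498) (nat_lit 1518) (nat_lit 525) (nat_lit 2541))))) (.a (.p (nat_lit 497) (.a (.f (nat_lit 592) (nat_lit 465) (nat_lit 6608) (.f (nat_lit 527) (nat_lit 624) (nat_lit 7663) (.d (nat_lit 526) (nat_lit 498) (nat_lit 1518) (nat_lit 525) (nat_lit 2541)))) (.a (.f (nat_lit 465) (nat_lit 592) (nat_lit 6608) (.f (nat_lit 494) (nat_lit 466) (nat_lit 2510) (.f (nat_lit 525) (nat_lit 526) (nat_lit 1517) (.f (nat_lit 493) (nat_lit 524) (nat_lit 1516) (.d (nat_lit 461) (nat_lit 460) (nat_lit 3532) (nat_lit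 462) (nat_lit 3533)))))) (.a s282 (.a (.f (nat_lit 592) (nat_lit 465) (nat_lit 6608) (.f (nat_lit 624) (nat_lit 527) (nat_lit 7663) (.d (nat_lit 625) (nat_lit 593) (nat_lit 4592) (nat_lit 657) (nat_lit 4624)))) s300))))) (.a (.f (nat_lit 463) (nat_lit 592) (nat_lit 7631) (.d (nat_lit 431) (nat_lit 399) (nat_lit 4495) (nat_lit 527) (nat_lit 4527))) (.a (.p (nat_lit 494) (.a s320 (.a s385 (.a (.p (nat_lit 493) (.a (.f (nat_lit 461) (nat_lit 460) (nat_lit 3532) (.f (nat_lit 525) (nat_lit 524) (nat_lit 1516) (.f (nat_lit 462) (nat_lit 497) (nat_lit 3533) (.d (nat_lit 430) (nat_lit 398) (nat_lit 5517) (nat_lit 557) (nat_lit 6573))))) (.a (.f (nat_lit 461) (nat_lit 460) (nat_lit 3532) (.f (nat_lit 497) (nat_lit 462) (nat_lit 3533) (.d (nat_lit 465) (nat_lit 466) (nat_lit 2510) (nat_lit 592) (nat_lit 6608)))) (.a (.f (nat_lit 460) (nat_lit 461) (nat_lit 3532) (.f (nat_lit 492) (nat_lit 459) (nat_lit 3531) (.d (nat_lit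 524) (nat_lit 523) (nat_lit 1515) (nat_lit 525) (nat_lit 1516)))) (.a (.f (nat_lit 463) (nat_lit 592) (nat_lit 7631) (.f (nat_lit 524) (nat_lit 525) (nat_lit 1516) (.f (nat_lit 492) (nat_lit 523) (nat_lit 1515) (.f (nat_lit 491) (nat_lit 462) (nat_lit 2507) (.d (nat_lit 459) (nat_lit 458) (nat_lit 3530) (nat_lit 460) (nat_lit 3531)))))) (.f (nat_lit 463) (nat_lit 592) (nat_lit 7631) (.f (nat_lit 524) (nat_lit 525) (nat_lit 1516) (.f (nat_lit 492) (nat_lit 523) (nat_lit 1515) (.f (nat_lit 462) (nat_lit 491) (nat_lit 2507) (.d (nat_lit 497) (nat_lit 461) (nat_lit 3533) (nat_lit 498) (nat_lit 3534))))))))))) (.a (.p (nat_lit 497) (.a (.d (nat_lit 592) (nat_lit 463) (nat_lit 7631) (nat_lit 465) (nat_lit 6608)) (.a (.f (nat_lit 462) (nat_lit 461) (nat_lit 3533) (.f (nat_lit 498) (nat_lit 463) (nat_lit 3534) (.d (nat_lit 466) (nat_lit 465) (nat_lit 2510) (nat_lit 467) (nat_lit 2511)))) (.a (.d (nat_lit 465) (nat_lit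 466) (nat_lit 2510) (nat_lit 592) (nat_lit 6608)) (.f (nat_lit 463) (nat_lit 592) (nat_lit 7631) (.d (nat_lit 462) (nat_lit 461) (nat_lit 3533) (nat_lit 498) (nat_lit 3534))))))) (.a (.p (nat_lit 526) (.a (.f (nat_lit 525) (nat_lit 497) (nat_lit 1517) (.d (nat_lit 524) (nat_lit 493) (nat_lit 1516) (nat_lit 523) (nat_lit 2539))) (.f (nat_lit 463) (nat_lit 592) (nat_lit 7631) (.f (nat_lit 431) (nat_lit 399) (nat_lit 4495) (.d (nat_lit 558) (nat_lit 462) (nat_lit 6574) (nat_lit 590) (nat_lit 6606)))))) (.a (.p (nat_lit 493) (.a (.f (nat_lit 460) (nat_lit 461) (nat_lit 3532) (.f (nat_lit 492) (nat_lit 459) (nat_lit 3531) (.d (nat_lit 524) (nat_lit 523) (nat_lit 1515) (nat_lit 525) (nat_lit 1516)))) (.a (.f (nat_lit 463) (nat_lit 592) (nat_lit 7631) (.f (nat_lit 460) (nat_lit 461) (nat_lit 3532) (.f (nat_lit 492) (nat_lit 459) (nat_lit 3531) (.f (nat_lit 523) (nat_lit 524) (nat_lit 1515) (.d (nat_lit 491) (nat_lit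 462) (nat_lit 2507) (nat_lit 522) (nat_lit 1514)))))) (.a (.f (nat_lit 463) (nat_lit 592) (nat_lit 7631) (.f (nat_lit 524) (nat_lit 525) (nat_lit 1516) (.f (nat_lit 492) (nat_lit 523) (nat_lit 1515) (.f (nat_lit 491) (nat_lit 462) (nat_lit 2507) (.d (nat_lit 459) (nat_lit 458) (nat_lit 3530) (nat_lit 460) (nat_lit 3531)))))) (.a (.p (nat_lit 558) (.a (.f (nat_lit 463) (nat_lit 592) (nat_lit 7631) (.f (nat_lit 526) (nat_lit 590) (nat_lit 6606) (.d (nat_lit 431) (nat_lit 399) (nat_lit 4495) (nat_lit 462) (nat_lit 6574)))) (.a (.f (nat_lit 461) (nat_lit 460) (nat_lit 3532) (.f (nat_lit 526) (nat_lit 590) (nat_lit 7629) (.d (nat_lit 429) (nat_lit 397) (nat_lit 4493) (nat_lit 462) (nat_lit 7597)))) (.f (nat_lit 592) (nat_lit 463) (nat_lit 7631) (.f (nat_lit 593) (nat_lit 625) (nat_lit 4592) (.f (nat_lit 559) (nat_lit 557) (nat_lit 557) (.d (nat_lit 594) (nat_lit 561) (nat_lit 558) (nat_lit 591) (nat_lit 3630))))))))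 (.p (nat_lit 557) (.a (.f (nat_lit 525) (nat_lit 524) (nat_lit 1516) (.f (nat_lit 589) (nat_lit 462) (nat_lit 6605) (.f (nat_lit 590) (nat_lit 622) (nat_lit 4589) (.f (nat_lit 558) (nat_lit 461) (nat_lit 4557) (.d (nat_lit 559) (nat_lit 561) (nat_lit 1581) (nat_lit 588) (nat_lit 1580)))))) (.a (.f (nat_lit 525) (nat_lit 524) (nat_lit 1516) (.f (nat_lit 589) (nat_lit 462) (nat_lit 6605) (.f (nat_lit 590) (nat_lit 622) (nat_lit 4589) (.f (nat_lit 558) (nat_lit 461) (nat_lit 4557) (.d (nat_lit 526) (nat_lit 463) (nat_lit 6606) (nat_lit 621) (nat_lit 6637)))))) (.a (.f (nat_lit 525) (nat_lit 524) (nat_lit 1516) (.f (nat_lit 589) (nat_lit 462) (nat_lit 6605) (.f (nat_lit 621) (nat_lit 526) (nat_lit 6637) (.d (nat_lit 620) (nat_lit 588) (nat_lit 5612) (nat_lit 652) (nat_lit 5644))))) (.a (.f (nat_lit 592) (nat_lit 463) (nat_lit 7631) (.f (nat_lit 593) (nat_lit 625) (nat_lit 4592) (.f (nat_lit 558) (nat_lit 559)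 (nat_lit 557) (.f (nat_lit 590) (nat_lit 591) (nat_lit 3629) (.f (nat_lit 526) (nat_lit 461) (nat_lit 7629) (.d (nat_lit 589) (nat_lit 462) (nat_lit 5581) (nat_lit 621) (nat_lit 5613))))))) (.f (nat_lit 525) (nat_lit 524) (nat_lit 1516) (.f (nat_lit 592) (nat_lit 463) (nat_lit 7631) (.f (nat_lit 593) (nat_lit 625) (nat_lit 4592) (.f (nat_lit 558) (nat_lit 559) (nat_lit 557) (.d (nat_lit 590) (nat_lit 461) (nat_lit 4557) (nat_lit 591) (nat_lit 3629)))))))))))))))) (.p (nat_lit 558) (.a (.f (nat_lit 592) (nat_lit 463) (nat_lit 7631) (.f (nat_lit 593) (nat_lit 625) (nat_lit 4592) (.f (nat_lit 559) (nat_lit 557) (nat_lit 557) (.d (nat_lit 594) (nat_lit 561) (nat_lit 558) (nat_lit 591) (nat_lit 3630))))) (.a (.p (nat_lit 526) (.a (.f (nat_lit 525) (nat_lit 497) (nat_lit 1517) (.d (nat_lit 524) (nat_lit 493) (nat_lit 1516) (nat_lit 523) (nat_lit 2539))) (.f (nat_lit 590) (nat_lit 463) (nat_lit 6606) (.f (nat_lit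 589) (nat_lit 621) (nat_lit 5613) (.f (nat_lit 559) (nat_lit 561) (nat_lit 1581) (.d (nat_lit 588) (nat_lit 557) (nat_lit 1580) (nat_lit 587) (nat_lit 2603))))))) (.a (.f (nat_lit 463) (nat_lit 592) (nat_lit 7631) (.f (nat_lit 526) (nat_lit 590) (nat_lit 6606) (.f (nat_lit 525) (nat_lit 497) (nat_lit 1517) (.d (nat_lit 524) (nat_lit 493) (nat_lit 1516) (nat_lit 523) (nat_lit 2539))))) (.p (nat_lit 525) (.a (.f (nat_lit 526) (nat_lit 497) (nat_lit 1517) (.d (nat_lit 524) (nat_lit 493) (nat_lit 1516) (nat_lit 523) (nat_lit 2539))) (.a (.f (nat_lit 493) (nat_lit 524) (nat_lit 1516) (.f (nat_lit 461) (nat_lit 460) (nat_lit 3532) (.f (nat_lit 557) (nat_lit 590) (nat_lit 4557) (.f (nat_lit 588) (nat_lit 556) (nat_lit 5580) (.d (nat_lit 589) (nat_lit 559) (nat_lit 1580) (nat_lit 620) (nat_lit 5612)))))) (.f (nat_lit 497) (nat_lit 526) (nat_lit 1517) (.d (nat_lit 465) (nat_lit 466) (nat_lit 2510) (nat_lit 592) (nat_lit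 6608))))))))))))))))) (.p (nat_lit 494) (.a (.p (nat_lit 493) (.a (.f (nat_lit 525) (nat_lit 524) (nat_lit 1516) (.f (nat_lit 461) (nat_lit 460) (nat_lit 3532) (.d (nat_lit 497) (nat_lit 462) (nat_lit 3533) (nat_lit 526) (nat_lit 1517)))) (.a (.f (nat_lit 461) (nat_lit 460) (nat_lit 3532) (.f (nat_lit 525) (nat_lit 524) (nat_lit 1516) (.f (nat_lit 462) (nat_lit 497) (nat_lit 3533) (.d (nat_lit 430) (nat_lit 398) (nat_lit 5517) (nat_lit 557) (nat_lit 6573))))) (.a (.f (nat_lit 492) (nat_lit 527) (nat_lit 492) (.d (nat_lit 460) (nat_lit 459) (nat_lit 3531) (nat_lit 461) (nat_lit 3532))) (.f (nat_lit 525) (nat_lit 524) (nat_lit 1516) (.f (nat_lit 526) (nat_lit 497) (nat_lit 1517) (.d (nat_lit 527) (nat_lit 492) (nat_lit 492) (nat_lit 561) (nat_lit 525)))))))) (.a s385 (.a (.p (nat_lit 493) (.a (.f (nat_lit 525) (nat_lit 524) (nat_lit 1516) (.f (nat_lit 461) (nat_lit 460) (nat_lit 3532) (.d (nat_lit 497) (nat_lit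 462) (nat_lit 3533) (nat_lit 526) (nat_lit 1517)))) (.a (.f (nat_lit 461) (nat_lit 460) (nat_lit 3532) (.f (nat_lit 525) (nat_lit 524) (nat_lit 1516) (.f (nat_lit 462) (nat_lit 497) (nat_lit 3533) (.d (nat_lit 430) (nat_lit 398) (nat_lit 5517) (nat_lit 557) (nat_lit 6573))))) (.a (.f (nat_lit 492) (nat_lit 527) (nat_lit 492) (.d (nat_lit 460) (nat_lit 459) (nat_lit 3531) (nat_lit 461) (nat_lit 3532))) (.f (nat_lit 492) (nat_lit 527) (nat_lit 492) (.d (nat_lit 524) (nat_lit 523) (nat_lit 1515) (nat_lit 525) (nat_lit 1516))))))) (.a (.p (nat_lit 493) (.a (.f (nat_lit 461) (nat_lit 460) (nat_lit 3532) (.f (nat_lit 525) (nat_lit 524) (nat_lit 1516) (.f (nat_lit 462) (nat_lit 497) (nat_lit 3533) (.d (nat_lit 430) (nat_lit 398) (nat_lit 5517) (nat_lit 557) (nat_lit 6573))))) (.a (.f (nat_lit 492) (nat_lit 527) (nat_lit 492) (.d (nat_lit 460) (nat_lit 459) (nat_lit 3531) (nat_lit 461) (nat_lit 3532))) (.f (nat_lit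 492) (nat_lit 527) (nat_lit 492) (.d (nat_lit 524) (nat_lit 523) (nat_lit 1515) (nat_lit 525) (nat_lit 1516)))))) (.a s506 (.a (.p (nat_lit 527) (.a (.f (nat_lit 493) (nat_lit 492) (nat_lit 492) (.f (nat_lit 525) (nat_lit 524) (nat_lit 1516) (.f (nat_lit 526) (nat_lit 561) (nat_lit 525) (.f (nat_lit 557) (nat_lit 556) (nat_lit 1548) (.d (nat_lit 462) (nat_lit 430) (nat_lit 5549) (nat_lit 589) (nat_lit 6605)))))) (.a (.p (nat_lit 462) (.a (.f (nat_lit 463) (nat_lit 431) (nat_lit 4527) (.d (nat_lit 430) (nat_lit 398) (nat_lit 4494) (nat_lit 559) (nat_lit 7598))) (.a (.f (nat_lit 431) (nat_lit 463) (nat_lit 4527) (.f (nat_lit 430) (nat_lit 398) (nat_lit 4494) (.f (nat_lit 526) (nat_lit 399) (nat_lit 6542) (.f (nat_lit 429) (nat_lit 397) (nat_lit 7565) (.f (nat_lit 461) (nat_lit 558) (nat_lit 7597) (.d (nat_lit 493) (nat_lit 460) (nat_lit 3532) (nat_lit 492) (nat_lit 492))))))) (.a (.f (nat_lit 430) (nat_lit 398)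 (nat_lit 4494) (.d (nat_lit 559) (nat_lit 526) (nat_lit 4526) (nat_lit 591) (nat_lit 7630))) (.f (nat_lit 463) (nat_lit 431) (nat_lit 4527) (.f (nat_lit 461) (nat_lit 460) (nat_lit 460) (.f (nat_lit 559) (nat_lit 591) (nat_lit 7630) (.f (nat_lit 558) (nat_lit 590) (nat_lit 5582) (.f (nat_lit 526) (nat_lit 429) (nat_lit 7597) (.d (nat_lit 557) (nat_lit 556) (nat_lit 2572) (nat_lit 589) (nat_lit 5581))))))))))) (.a (.p (nat_lit 462) (.a (.f (nat_lit 463) (nat_lit 431) (nat_lit 4527) (.d (nat_lit 430) (nat_lit 398) (nat_lit 4494) (nat_lit 559) (nat_lit 7598))) (.a (.f (nat_lit 463) (nat_lit 431) (nat_lit 4527) (.f (nat_lit 493) (nat_lit 492) (nat_lit 492) (.f (nat_lit 461) (nat_lit 460) (nat_lit 460) (.f (nat_lit 430) (nat_lit 398) (nat_lit 4494) (.d (nat_lit 525) (nat_lit 524) (nat_lit 1516) (nat_lit 557) (nat_lit 6573)))))) (.a (.f (nat_lit 493) (nat_lit 492) (nat_lit 492) (.f (nat_lit 525) (nat_lit 524) (nat_lit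 1516) (.f (nat_lit 430) (nat_lit 398) (nat_lit 4494) (.d (nat_lit 557) (nat_lit 461) (nat_lit 6573) (nat_lit 589) (nat_lit 6605))))) (.f (nat_lit 463) (nat_lit 431) (nat_lit 4527) (.f (nat_lit 493) (nat_lit 492) (nat_lit 492) (.f (nat_lit 461) (nat_lit 460) (nat_lit 460) (.f (nat_lit 525) (nat_lit 524) (nat_lit 1516) (.f (nat_lit 557) (nat_lit 589) (nat_lit 6605) (.f (nat_lit 559) (nat_lit 591) (nat_lit 7630) (.d (nat_lit 556) (nat_lit 558) (nat_lit 2572) (nat_lit 588) (nat_lit 5580)))))))))))) (.a (.f (nat_lit 463) (nat_lit 431) (nat_lit 4527) (.f (nat_lit 493) (nat_lit 492) (nat_lit 492) (.f (nat_lit 525) (nat_lit 524) (nat_lit 1516) (.f (nat_lit 526) (nat_lit 561) (nat_lit 525) (.f (nat_lit 558) (nat_lit 590) (nat_lit 6606) (.d (nat_lit 461) (nat_lit 429) (nat_lit 4525) (nat_lit 460) (nat_lit 3532))))))) (.p (nat_lit 559) (.a (.f (nat_lit 463) (nat_lit 431) (nat_lit 4527) (.d (nat_lit 462) (nat_lit 430)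 (nat_lit 7598) (nat_lit 591) (nat_lit 7630))) (.a (.f (nat_lit 462) (nat_lit 591) (nat_lit 7630) (.d (nat_lit 430) (nat_lit 398) (nat_lit 4494) (nat_lit 526) (nat_lit 4526))) (.a (.f (nat_lit 463) (nat_lit 431) (nat_lit 4527) (.f (nat_lit 462) (nat_lit 430) (nat_lit 7598) (.f (nat_lit 558) (nat_lit 590) (nat_lit 5582) (.f (nat_lit 461) (nat_lit 460) (nat_lit 460) (.f (nat_lit 526) (nat_lit 429) (nat_lit 7597) (.d (nat_lit 557) (nat_lit 556) (nat_lit 2572) (nat_lit 589) (nat_lit 5581))))))) (.f (nat_lit 463) (nat_lit 431) (nat_lit 4527) (.f (nat_lit 558) (nat_lit 590) (nat_lit 5582) (.f (nat_lit 557) (nat_lit 556) (nat_lit 2572) (.f (nat_lit 525) (nat_lit 524) (nat_lit 3596) (.f (nat_lit 561) (nat_lit 526) (nat_lit 525) (.f (nat_lit 562) (nat_lit 563) (nat_lit 3599) (.d (nat_lit 594) (nat_lit 593) (nat_lit 558) (nat_lit 595) (nat_lit 559))))))))))))))))) (.a (.p (nat_lit 493) (.a (.f (nat_lit 460) (nat_lit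 461) (nat_lit 3532) (.f (nat_lit 492) (nat_lit 459) (nat_lit 3531) (.d (nat_lit 524) (nat_lit 523) (nat_lit 1515) (nat_lit 525) (nat_lit 1516)))) (.a (.f (nat_lit 492) (nat_lit 527) (nat_lit 492) (.d (nat_lit 460) (nat_lit 459) (nat_lit 3531) (nat_lit 461) (nat_lit 3532))) (.a (.f (nat_lit 525) (nat_lit 524) (nat_lit 1516) (.f (nat_lit 526) (nat_lit 497) (nat_lit 1517) (.d (nat_lit 527) (nat_lit 492) (nat_lit 492) (nat_lit 561) (nat_lit 525)))) (.f (nat_lit 525) (nat_lit 524) (nat_lit 1516) (.f (nat_lit 526) (nat_lit 497) (nat_lit 1517) (.f (nat_lit 461) (nat_lit 460) (nat_lit 3532) (.d (nat_lit 429) (nat_lit 397) (nat_lit 4493) (nat_lit 558) (nat_lit 4525))))))))) (.a (.p (nat_lit 463) (.a (.d (nat_lit 431) (nat_lit 399) (nat_lit 4495) (nat_lit 527) (nat_lit 4527)) (.a (.p (nat_lit 526) (.a (.f (nat_lit 431) (nat_lit 399) (nat_lit 4495) (.d (nat_lit 558) (nat_lit 462) (nat_lit 6574) (nat_lit 590) (nat_lit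 6606))) (.a (.f (nat_lit 497) (nat_lit 525) (nat_lit 1517) (.f (nat_lit 498) (nat_lit 462) (nat_lit 3534) (.d (nat_lit 466) (nat_lit 465) (nat_lit 2510) (nat_lit 467) (nat_lit 2511)))) (.f (nat_lit 525) (nat_lit 497) (nat_lit 1517) (.d (nat_lit 524) (nat_lit 493) (nat_lit 1516) (nat_lit 523) (nat_lit 2539)))))) (.p (nat_lit 493) (.a (.f (nat_lit 492) (nat_lit 527) (nat_lit 492) (.d (nat_lit 524) (nat_lit 523) (nat_lit 1515) (nat_lit 525) (nat_lit 1516))) (.a (.f (nat_lit 525) (nat_lit 524) (nat_lit 1516) (.f (nat_lit 497) (nat_lit 526) (nat_lit 1517) (.f (nat_lit 498) (nat_lit 462) (nat_lit 3534) (.d (nat_lit 466) (nat_lit 465) (nat_lit 2510) (nat_lit 467) (nat_lit 2511))))) (.a (.f (nat_lit 492) (nat_lit 527) (nat_lit 492) (.f (nat_lit 491) (nat_lit 462) (nat_lit 2507) (.d (nat_lit 523) (nat_lit 522) (nat_lit 1514) (nat_lit 524) (nat_lit 1515)))) (.f (nat_lit 492) (nat_lit 527) (nat_lit 492) (.f (nat_lit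 491) (nat_lit 462) (nat_lit 2507) (.d (nat_lit 459) (nat_lit 458) (nat_lit 3530) (nat_lit 460) (nat_lit 3531))))))))))) (.a (.p (nat_lit 462) (.a (.f (nat_lit 497) (nat_lit 461) (nat_lit 3533) (.f (nat_lit 526) (nat_lit 525) (nat_lit 1517) (.d (nat_lit 498) (nat_lit 463) (nat_lit 3534) (nat_lit 527) (nat_lit 1518)))) (.a (.f (nat_lit 497) (nat_lit 461) (nat_lit 3533) (.f (nat_lit 526) (nat_lit 525) (nat_lit 1517) (.f (nat_lit 463) (nat_lit 498) (nat_lit 3534) (.d (nat_lit 431) (nat_lit 399) (nat_lit 4495) (nat_lit 558) (nat_lit 6574))))) (.a (.f (nat_lit 497) (nat_lit 461) (nat_lit 3533) (.f (nat_lit 498) (nat_lit 463) (nat_lit 3534) (.d (nat_lit 466) (nat_lit 465) (nat_lit 2510) (nat_lit 467) (nat_lit 2511)))) (.a (.f (nat_lit 497) (nat_lit 461) (nat_lit 3533) (.f (nat_lit 526) (nat_lit 525) (nat_lit 1517) (.f (nat_lit 527) (nat_lit 498) (nat_lit 1518) (.d (nat_lit 430) (nat_lit 398) (nat_lit 4494) (nat_lit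 559) (nat_lit 4526))))) (.a (.p (nat_lit 527) (.a (.f (nat_lit 463) (nat_lit 431) (nat_lit 4527) (.d (nat_lit 430) (nat_lit 398) (nat_lit 4494) (nat_lit 559) (nat_lit 7598))) (.a (.f (nat_lit 431) (nat_lit 463) (nat_lit 4527) (.f (nat_lit 430) (nat_lit 398) (nat_lit 4494) (.f (nat_lit 526) (nat_lit 399) (nat_lit 6542) (.d (nat_lit 525) (nat_lit 557) (nat_lit 5549) (nat_lit 561) (nat_lit 525))))) (.a (.f (nat_lit 430) (nat_lit 398) (nat_lit 4494) (.d (nat_lit 559) (nat_lit 526) (nat_lit 4526) (nat_lit 591) (nat_lit 7630))) (.f (nat_lit 463) (nat_lit 431) (nat_lit 4527) (.f (nat_lit 461) (nat_lit 460) (nat_lit 460) (.f (nat_lit 559) (nat_lit 591) (nat_lit 7630) (.f (nat_lit 558) (nat_lit 590) (nat_lit 5582) (.f (nat_lit 526) (nat_lit 429) (nat_lit 7597) (.d (nat_lit 557) (nat_lit 556) (nat_lit 2572) (nat_lit 589) (nat_lit 5581))))))))))) (.p (nat_lit 527) (.a (.f (nat_lit 463) (nat_lit 431) (nat_lit 4527) (.d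 (nat_lit 430) (nat_lit 398) (nat_lit 4494) (nat_lit 559) (nat_lit 7598))) (.a (.f (nat_lit 431) (nat_lit 463) (nat_lit 4527) (.f (nat_lit 430) (nat_lit 398) (nat_lit 4494) (.f (nat_lit 526) (nat_lit 399) (nat_lit 6542) (.d (nat_lit 525) (nat_lit 557) (nat_lit 5549) (nat_lit 561) (nat_lit 525))))) (.a (.f (nat_lit 430) (nat_lit 398) (nat_lit 4494) (.d (nat_lit 559) (nat_lit 526) (nat_lit 4526) (nat_lit 591) (nat_lit 7630))) (.f (nat_lit 463) (nat_lit 431) (nat_lit 4527) (.f (nat_lit 497) (nat_lit 498) (nat_lit 3534) (.f (nat_lit 526) (nat_lit 525) (nat_lit 1517) (.f (nat_lit 558) (nat_lit 590) (nat_lit 6606) (.f (nat_lit 559) (nat_lit 591) (nat_lit 7630) (.d (nat_lit 557) (nat_lit 556) (nat_lit 2572) (nat_lit 589) (nat_lit 5581))))))))))))))))) (.p (nat_lit 497) (.a (.f (nat_lit 526) (nat_lit 525) (nat_lit 1517) (.f (nat_lit 527) (nat_lit 498) (nat_lit 1518) (.f (nat_lit 462) (nat_lit 461) (nat_lit 3533) (.d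 (nat_lit 430) (nat_lit 398) (nat_lit 4494) (nat_lit 559) (nat_lit 4526))))) (.a (.f (nat_lit 462) (nat_lit 461) (nat_lit 3533) (.f (nat_lit 498) (nat_lit 463) (nat_lit 3534) (.d (nat_lit 466) (nat_lit 465) (nat_lit 2510) (nat_lit 467) (nat_lit 2511)))) (.a (.f (nat_lit 526) (nat_lit 525) (nat_lit 1517) (.f (nat_lit 498) (nat_lit 527) (nat_lit 1518) (.d (nat_lit 466) (nat_lit 465) (nat_lit 2510) (nat_lit 467) (nat_lit 2511)))) (.f (nat_lit 525) (nat_lit 526) (nat_lit 1517) (.f (nat_lit 493) (nat_lit 524) (nat_lit 1516) (.f (nat_lit 462) (nat_lit 461) (nat_lit 3533) (.f (nat_lit 527) (nat_lit 492) (nat_lit 492) (.f (nat_lit 430) (nat_lit 398) (nat_lit 5517) (.d (nat_lit 559) (nat_lit 463) (nat_lit 7598) (nat_lit 591) (nat_lit 7630)))))))))))))))))))))))))) (.a (.p (nat_lit 464) (.a (.f (nat_lit 593) (nat_lit 561) (nat_lit 4560) (.f (nat_lit 559) (nat_lit 591) (nat_lit 5583) (.f (nat_lit 592) (nat_lit 625) (nat_lit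 4592) (.f (nat_lit 527) (nat_lit 432) (nat_lit 5551) (.d (nat_lit 624) (nat_lit 495) (nat_lit 7663) (nat_lit 656) (nat_lit 7695)))))) (.a (.f (nat_lit 463) (nat_lit 431) (nat_lit 7599) (.f (nat_lit 593) (nat_lit 561) (nat_lit 4560) (.d (nat_lit 592) (nat_lit 495) (nat_lit 7631) (nat_lit 625) (nat_lit 4592)))) (.f (nat_lit 431) (nat_lit 463) (nat_lit 7599) (.f (nat_lit 432) (nat_lit 399) (nat_lit 7567) (.d (nat_lit 559) (nat_lit 527) (nat_lit 5551) (nat_lit 591) (nat_lit 5583))))))) (.a (.p (nat_lit 464) (.a (.f (nat_lit 465) (nat_lit 433) (nat_lit 6576) (.f (nat_lit 593) (nat_lit 561) (nat_lit 4560) (.d (nat_lit 592) (nat_lit 497) (nat_lit 6608) (nat_lit 625) (nat_lit 4592)))) (.a (.f (nat_lit 433) (nat_lit 465) (nat_lit 6576) (.f (nat_lit 432) (nat_lit 401) (nat_lit 6544) (.d (nat_lit 559) (nat_lit 527) (nat_lit 5551) (nat_lit 591) (nat_lit 5583)))) (.f (nat_lit 431) (nat_lit 463) (nat_lit 7599) (.f (nat_lit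 432) (nat_lit 399) (nat_lit 7567) (.d (nat_lit 559) (nat_lit 527) (nat_lit 5551) (nat_lit 591) (nat_lit 5583))))))) (.a (.p (nat_lit 464) (.a (.f (nat_lit 465) (nat_lit 433) (nat_lit 6576) (.f (nat_lit 593) (nat_lit 561) (nat_lit 4560) (.d (nat_lit 592) (nat_lit 497) (nat_lit 6608) (nat_lit 625) (nat_lit 4592)))) (.a (.f (nat_lit 433) (nat_lit 465) (nat_lit 6576) (.f (nat_lit 432) (nat_lit 401) (nat_lit 6544) (.d (nat_lit 431) (nat_lit 399) (nat_lit 7567) (nat_lit 463) (nat_lit 7599)))) (.f (nat_lit 463) (nat_lit 431) (nat_lit 7599) (.f (nat_lit 593) (nat_lit 561) (nat_lit 4560) (.d (nat_lit 592) (nat_lit 495) (nat_lit 7631) (nat_lit 625) (nat_lit 4592))))))) (.a (.p (nat_lit 592) (.a (.f (nat_lit 495) (nat_lit 463) (nat_lit 7631) (.f (nat_lit 527) (nat_lit 624) (nat_lit 7663) (.f (nat_lit 497) (nat_lit 465) (nat_lit 6608) (.d (nat_lit 526) (nat_lit 498) (nat_lit 1518) (nat_lit 525) (nat_lit 2541))))) (.a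 (.f (nat_lit 463) (nat_lit 495) (nat_lit 7631) (.f (nat_lit 464) (nat_lit 431) (nat_lit 7599) (.d (nat_lit 465) (nat_lit 433) (nat_lit 6576) (nat_lit 497) (nat_lit 6608)))) (.a (.f (nat_lit 625) (nat_lit 593) (nat_lit 4592) (.f (nat_lit 624) (nat_lit 657) (nat_lit 4624) (.f (nat_lit 465) (nat_lit 497) (nat_lit 6608) (.f (nat_lit 464) (nat_lit 433) (nat_lit 6576) (.f (nat_lit 559) (nat_lit 591) (nat_lit 5583) (.d (nat_lit 527) (nat_lit 432) (nat_lit 5551) (nat_lit 656) (nat_lit 7695))))))) (.f (nat_lit 625) (nat_lit 593) (nat_lit 4592) (.f (nat_lit 624) (nat_lit 657) (nat_lit 4624) (.f (nat_lit 527) (nat_lit 495) (nat_lit 7663) (.f (nat_lit 559) (nat_lit 656) (nat_lit 7695) (.d (nat_lit 464) (nat_lit 432) (nat_lit 5551) (nat_lit 591) (nat_lit 5583)))))))))) (.a (.p (nat_lit 464) (.a (.f (nat_lit 433) (nat_lit 465) (nat_lit 6576) (.f (nat_lit 432) (nat_lit 401) (nat_lit 6544) (.d (nat_lit 559) (nat_lit 527)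 (nat_lit 5551) (nat_lit 591) (nat_lit 5583)))) (.a (.f (nat_lit 433) (nat_lit 465) (nat_lit 6576) (.f (nat_lit 432) (nat_lit 401) (nat_lit 6544) (.d (nat_lit 431) (nat_lit 399) (nat_lit 7567) (nat_lit 463) (nat_lit 7599)))) (.a (.f (nat_lit 431) (nat_lit 463) (nat_lit 7599) (.f (nat_lit 432) (nat_lit 399) (nat_lit 7567) (.d (nat_lit 559) (nat_lit 527) (nat_lit 5551) (nat_lit 591) (nat_lit 5583)))) s40)))) (.p (nat_lit 464) (.a (.f (nat_lit 465) (nat_lit 433) (nat_lit 6576) (.f (nat_lit 497) (nat_lit 592) (nat_lit 6608) (.f (nat_lit 559) (nat_lit 591) (nat_lit 5583) (.f (nat_lit 527) (nat_lit 432) (nat_lit 5551) (.f (nat_lit 526) (nat_lit 525) (nat_lit 2541) (.d (nat_lit 498) (nat_lit 495) (nat_lit 1518) (nat_lit 499) (nat_lit 1519))))))) (.a (.f (nat_lit 433) (nat_lit 465) (nat_lit 6576) (.f (nat_lit 432) (nat_lit 401) (nat_lit 6544) (.d (nat_lit 431) (nat_lit 399) (nat_lit 7567) (nat_lit 463) (nat_lit 7599))))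 (.a (.f (nat_lit 431) (nat_lit 463) (nat_lit 7599) (.f (nat_lit 432) (nat_lit 399) (nat_lit 7567) (.d (nat_lit 559) (nat_lit 527) (nat_lit 5551) (nat_lit 591) (nat_lit 5583)))) (.f (nat_lit 463) (nat_lit 431) (nat_lit 7599) (.f (nat_lit 465) (nat_lit 433) (nat_lit 6576) (.d (nat_lit 592) (nat_lit 495) (nat_lit 7631) (nat_lit 497) (nat_lit 6608)))))))))))))))))))
end Vale.Agent.Lib.P062.Part4
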