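import Vale.Agent.Lib.P062.Part4.K_0

set_option maxRecDepth 100000
set_option linter.all false

namespace Vale.Agent.Lib.P062.Part4
open Vale.Agent.Lib.P062 Vale.Agent.Lib.P062.V2

noncomputable def s46663 : Cert := .r (nat_lit 4717453032125294316178574421874326325093954885348316367260111900657258793138255112583793827655798201532923673547783478224763190270811139418251553991950010913431444520960) (.p (nat_lit 590) (.a (.f (nat_lit 495) (nat_lit 463) (nat_lit 6606) (.f (nat_lit 525) (nat_lit 497) (nat_lit 1517) (.d (nat_lit 493) (nat_lit 461) (nat_lit 7629) (nat_lit 524) (nat_lit 1516)))) (.a (.f (nat_lit 589) (nat_lit 621) (nat_lit 5613) (.f (nat_lit 462) (nat_lit 557) (nat_lit 5581) (.d (nat_lit 461) (nat_lit 429) (nat_lit 7597) (nat_lit 493) (nat_lit 7629)))) (.a (.f (nat_lit 495) (nat_lit 463) (nat_lit 6606) (.f (nat_lit 497) (nat_lit 525) (nat_lit 1517) (.f (nat_lit 462) (nat_lit 461) (nat_lit 3533) (.d (nat_lit 589)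 (nat_lit 557) (nat_lit 5581) (nat_lit 621) (nat_lit 5613))))) (.f (nat_lit 495) (nat_lit 463) (nat_lit 6606) (.f (nat_lit 525) (nat_lit 497) (nat_lit 1517) (.d (nat_lit 524) (nat_lit 493) (nat_lit 1516) (nat_lit 523) (nat_lit 2539))))))))
noncomputable def s46665 : Cert := .r (nat_lit 4717453032125294316178574421874326325093954885348316367260111900657258793138255112583793827655798201532923673547783478224763190270811139418251553991950010913431444520960) (.p (nat_lit 590) (.a (.f (nat_lit 589) (nat_lit 621) (nat_lit 5613) (.f (nat_lit 462) (nat_lit 557) (nat_lit 5581) (.d (nat_lit 461) (nat_lit 429) (nat_lit 7597) (nat_lit 493) (nat_lit 7629)))) (.a (.f (nat_lit 591) (nat_lit 623) (nat_lit 4590) (.f (nat_lit 559) (nat_lit 462) (nat_lit 4558) (.d (nat_lit 589) (nat_lit 588) (nat_lit 2604) (nat_lit 621) (nat_lit 5613)))) (.a (.f (nat_lit 591) (nat_lit 623) (nat_lit 4590) (.f (nat_lit 462) (nat_lit 559) (nat_lit 4558) (.d (nat_lit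 463) (nat_lit 431) (nat_lit 6574) (nat_lit 495) (nat_lit 6606)))) (.f (nat_lit 589) (nat_lit 621) (nat_lit 5613) (.f (nat_lit 559) (nat_lit 561) (nat_lit 1581) (.d (nat_lit 588) (nat_lit 557) (nat_lit 1580) (nat_lit 587) (nat_lit 2603))))))))
noncomputable def s46693 : Cert := .r (nat_lit 4717453032125294316178574421874326325093954885348316367260111900657258793138255112583793827655798201532923673547783478224763190270811139418251553991950010913431444520960) (.p (nat_lit 590) (.a (.f (nat_lit 589) (nat_lit 621) (nat_lit 5613) (.f (nat_lit 462) (nat_lit 557) (nat_lit 5581) (.d (nat_lit 461) (nat_lit 429) (nat_lit 7597) (nat_lit 493) (nat_lit 7629)))) (.a (.f (nat_lit 495) (nat_lit 463) (nat_lit 6606) (.f (nat_lit 461) (nat_lit 493) (nat_lit 7629) (.d (nat_lit 462) (nat_lit 429) (nat_lit 7597) (nat_lit 497) (nat_lit 3533)))) (.a (.f (nat_lit 495) (nat_lit 463) (nat_lit 6606) (.f (nat_lit 493) (nat_lit 461) (nat_lit 7629) (.d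 (nat_lit 527) (nat_lit 492) (nat_lit 492) (nat_lit 622) (nat_lit 6638)))) (.a (.f (nat_lit 589) (nat_lit 621) (nat_lit 5613) (.f (nat_lit 462) (nat_lit 557) (nat_lit 5581) (.f (nat_lit 429) (nat_lit 461) (nat_lit 7597) (.f (nat_lit 430) (nat_lit 397) (nat_lit 7565) (.d (nat_lit 431) (nat_lit 399) (nat_lit 6542) (nat_lit 463) (nat_lit 6574)))))) (.f (nat_lit 495) (nat_lit 463) (nat_lit 6606) (.f (nat_lit 622) (nat_lit 527) (nat_lit 6638) (.d (nat_lit 621) (nat_lit 589) (nat_lit 5613) (nat_lit 653) (nat_lit 5645)))))))))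
noncomputable def s46700 : Cert := .r (nat_lit 4717453032125294316178574421874326325093954885348316367260111900657258793138255112583793827655798201532923673547783478224763190270811139418251553991950010913431444520960) (.p (nat_lit 590) (.a (.f (nat_lit 495) (nat_lit 463) (nat_lit 6606) (.f (nat_lit 525) (nat_lit 497) (nat_lit 1517) (.d (nat_lit 493) (nat_lit 461) (nat_lit 7629) (nat_lit 524) (nat_lit 1516)))) (.a (.f (nat_lit 493) (nat_lit 461) (nat_lit 7629) (.f (nat_lit 525) (nat_lit 622) (nat_lit 7661) (.d (nat_lit 527) (nat_lit 492) (nat_lit 3564) (nat_lit 561) (nat_lit 525)))) (.a (.f (nat_lit 495) (nat_lit 463) (nat_lit 6606) (.f (nat_lit 461) (nat_lit 493) (nat_lit 7629) (.d (nat_lit 462) (nat_lit 429) (nat_lit 7597) (nat_lit 497) (nat_lit 3533)))) (.f (nat_lit 495) (nat_lit 463) (nat_lit 6606) (.f (nat_lit 622) (nat_lit 527) (nat_lit 6638) (.d (nat_lit 621) (nat_lit 589) (nat_lit 5613) (nat_lit 653) (nat_lit 5645))))))))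
noncomputable def s46710 : Cert := .r (nat_lit 4717453032125294316178574421874326325093954885348316367260111900657258793138255112583793827655798201532923673547783478224763190270811139418251553991950010913431444520960) (.p (nat_lit 590) (.a (.f (nat_lit 495) (nat_lit 463) (nat_lit 6606) (.f (nat_lit 525) (nat_lit 497) (nat_lit 1517) (.d (nat_lit 524) (nat_lit 493) (nat_lit 1516) (nat_lit 523) (nat_lit 2539)))) (.a (.f (nat_lit 589) (nat_lit 621) (nat_lit 5613) (.f (nat_lit 557) (nat_lit 462) (nat_lit 5581) (.f (nat_lit 591) (nat_lit 623) (nat_lit 4590) (.f (nat_lit 556) (nat_lit 555) (nat_lit 555) (.f (nat_lit 525) (nat_lit 527) (nat_lit 1548) (.d (nat_lit 622) (nat_lit 493) (nat_lit 7661) (nat_lit 654) (nat_lit 7693))))))) (.f (nat_lit 495) (nat_lit 463) (nat_lit 6606) (.f (nat_lit 622) (nat_lit 527) (nat_lit 6638) (.d (nat_lit 621) (nat_lit 589) (nat_lit 5613) (nat_lit 653) (nat_lit 5645)))))))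
noncomputable def s46726 : Cert := .r (nat_lit 4717453032125294316178574421874326325093954885348316367260111900657258793138255112583793827655798201532923673547783478224763190270811139418251553991950010913431444520960) (.p (nat_lit 590) (.a (.f (nat_lit 495) (nat_lit 463) (nat_lit 6606) (.f (nat_lit 525) (nat_lit 497) (nat_lit 1517) (.d (nat_lit 493) (nat_lit 461) (nat_lit 7629) (nat_lit 524) (nat_lit 1516)))) (.a (.f (nat_lit 493) (nat_lit 461) (nat_lit 7629) (.f (nat_lit 525) (nat_lit 622) (nat_lit 7661) (.d (nat_lit 527) (nat_lit 492) (nat_lit 3564) (nat_lit 497) (nat_lit 2541)))) (.a (.f (nat_lit 495) (nat_lit 463) (nat_lit 6606) (.f (nat_lit 493) (nat_lit 461) (nat_lit 7629) (.d (nat_lit 527) (nat_lit 492) (nat_lit 492) (nat_lit 622) (nat_lit 6638)))) (.f (nat_lit 495) (nat_lit 463) (nat_lit 6606) (.f (nat_lit 622) (nat_lit 527) (nat_lit 6638) (.d (nat_lit 621) (nat_lit 589) (nat_lit 5613) (nat_lit 653) (nat_lit 5645))))))))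
noncomputable def s46777 : Cert := .r (nat_lit 6604434244316391467124025473240662728262854823590983415090244245710025156304715729131630106007882636882440220111299666254638490689092506009022318882134530763482202112000) (.p (nat_lit 561) (.a (.f (nat_lit 593) (nat_lit 594) (nat_lit 558) (.f (nat_lit 592) (nat_lit 557) (nat_lit 557) (.f (nat_lit 591) (nat_lit 623) (nat_lit 5615) (.d (nat_lit 590) (nat_lit 562) (nat_lit 2606) (nat_lit 589) (nat_lit 1581))))) (.a (.f (nat_lit 590) (nat_lit 589) (nat_lit 1581) (.f (nat_lit 526) (nat_lit 525) (nat_lit 3597) (.f (nat_lit 591) (nat_lit 562) (nat_lit 1582) (.d (nat_lit 494) (nat_lit 462) (nat_lit 4558) (nat_lit 623) (nat_lit 4590))))) (.f (nat_lit 525) (nat_lit 526) (nat_lit 3597) (.f (nat_lit 557) (nat_lit 524) (nat_lit 3596) (.d (nat_lit 593) (nat_lit 592) (nat_lit 557) (nat_lit 594) (nat_lit 558)))))))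
noncomputable def s46797 : Cert := .r (nat_lit 4052261304339778930583338296634104545655675577507714191695614455720858154956066098717117025987761148785372794027455192806505912941247689970388685830202669147282585023682170585088) (.p (nat_lit 622) (.a (.f (nat_lit 623) (nat_lit 655) (nat_lit 4622) (.f (nat_lit 591) (nat_lit 494) (nat_lit 4590) (.f (nat_lit 654) (nat_lit 686) (nat_lit 6702) (.d (nat_lit 653) (nat_lit 621) (nat_lit 5645) (nat_lit 685) (nat_lit 5677))))) (.a (.f (nat_lit 655) (nat_lit 623) (nat_lit 4622) (.f (nat_lit 654) (nat_lit 687) (nat_lit 4654) (.d (nat_lit 653) (nat_lit 621) (nat_lit 5645) (nat_lit 685) (nat_lit 5677)))) (.a (.f (nat_lit 653) (nat_lit 621) (nat_lit 5645) (.f (nat_lit 654) (nat_lit 685) (nat_lit 5677) (.f (nat_lit 687) (nat_lit 655) (nat_lit 4654) (.d (nat_lit 686) (nat_lit 591) (nat_lit 6702) (nat_lit 719) (nat_lit 4686))))) (.a (.f (nat_lit 653) (nat_lit 621) (nat_lit 5645) (.f (nat_lit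 654) (nat_lit 685) (nat_lit 5677) (.f (nat_lit 591) (nat_lit 686) (nat_lit 6702) (.d (nat_lit 494) (nat_lit 462) (nat_lit 4558) (nat_lit 623) (nat_lit 4590))))) (.f (nat_lit 623) (nat_lit 655) (nat_lit 4622) (.f (nat_lit 494) (nat_lit 591) (nat_lit 4590) (.f (nat_lit 461) (nat_lit 493) (nat_lit 7629) (.f (nat_lit 462) (nat_lit 429) (nat_lit 7597) (.d (nat_lit 463) (nat_lit 431) (nat_lit 6574) (nat_lit 495) (nat_lit 6606)))))))))))
noncomputable def s46805 : Cert := .r (nat_lit 6604434244316391467124025473240662728262854823590983415090244245710025156304715729131630106007882636882440220111299666254638490689092506009022318882134530763482202112000) (.p (nat_lit 557) (.a (.f (nat_lit 592) (nat_lit 593) (nat_lit 557) (.d (nat_lit 591) (nat_lit 556) (nat_lit 556) (nat_lit 623) (nat_lit 5615))) (.a (.f (nat_lit 588) (nat_lit 589) (nat_lit 1580) (.f (nat_lit 556) (nat_lit 587) (nat_lit 1579) (.d (nat_lit 524) (nat_lit 523) (nat_lit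 3595) (nat_lit 525) (nat_lit 3596)))) (.f (nat_lit 592) (nat_lit 593) (nat_lit 557) (.f (nat_lit 589) (nat_lit 588) (nat_lit 1580) (.f (nat_lit 525) (nat_lit 524) (nat_lit 3596) (.f (nat_lit 495) (nat_lit 463) (nat_lit 7631) (.f (nat_lit 497) (nat_lit 465) (nat_lit 6608) (.f (nat_lit 494) (nat_lit 526) (nat_lit 1517) (.d (nat_lit 462) (nat_lit 461) (nat_lit 3533) (nat_lit 493) (nat_lit 6605)))))))))))
noncomputable def s46806 : Cert := .r (nat_lit 6604434244316391467124025473240662728262854823590983415090244245710025156304715729131630106007882636882440220111299666254638490689092506009022318882134530763482202112000) (.p (nat_lit 557) (.a (.f (nat_lit 588) (nat_lit 589) (nat_lit 1580) (.f (nat_lit 556) (nat_lit 587) (nat_lit 1579) (.d (nat_lit 524) (nat_lit 523) (nat_lit 3595) (nat_lit 525) (nat_lit 3596)))) (.a (.f (nat_lit 589) (nat_lit 588) (nat_lit 1580) (.f (nat_lit 561) (nat_lit 590) (nat_lit 1581) (.d (nat_lit 593)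 (nat_lit 592) (nat_lit 557) (nat_lit 594) (nat_lit 558)))) (.f (nat_lit 592) (nat_lit 593) (nat_lit 557) (.f (nat_lit 525) (nat_lit 524) (nat_lit 3596) (.f (nat_lit 526) (nat_lit 561) (nat_lit 3597) (.f (nat_lit 495) (nat_lit 463) (nat_lit 7631) (.d (nat_lit 497) (nat_lit 465) (nat_lit 6608) (nat_lit 494) (nat_lit 1517)))))))))
noncomputable def s46807 : Cert := .r (nat_lit 6604434244316391467124025473240662728262854823590983415090244245710025156304715729131630106007882636882440220111299666254638490689092506009022318882134530763482202112000) (.p (nat_lit 561) (.a (.f (nat_lit 593) (nat_lit 594) (nat_lit 558) (.f (nat_lit 592) (nat_lit 557) (nat_lit 557) (.f (nat_lit 591) (nat_lit 623) (nat_lit 5615) (.d (nat_lit 590) (nat_lit 562) (nat_lit 2606) (nat_lit 589) (nat_lit 1581))))) (.a (.f (nat_lit 590) (nat_lit 589) (nat_lit 1581) (.f (nat_lit 562) (nat_lit 591) (nat_lit 1582) (.d (nat_lit 594) (nat_lit 593) (nat_lit 558)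 (nat_lit 595) (nat_lit 559)))) (.a (.f (nat_lit 593) (nat_lit 594) (nat_lit 558) (.f (nat_lit 557) (nat_lit 592) (nat_lit 557) (.d (nat_lit 589) (nat_lit 588) (nat_lit 1580) (nat_lit 590) (nat_lit 1581)))) (.a (.f (nat_lit 593) (nat_lit 594) (nat_lit 558) (.f (nat_lit 557) (nat_lit 592) (nat_lit 557) (.f (nat_lit 588) (nat_lit 589) (nat_lit 1580) (.f (nat_lit 556) (nat_lit 587) (nat_lit 1579) (.d (nat_lit 524) (nat_lit 523) (nat_lit 3595) (nat_lit 525) (nat_lit 3596)))))) (.a (.f (nat_lit 593) (nat_lit 594) (nat_lit 558) (.f (nat_lit 592) (nat_lit 557) (nat_lit 557) (.f (nat_lit 591) (nat_lit 623) (nat_lit 5615) (.d (nat_lit 562) (nat_lit 563) (nat_lit 1583) (nat_lit 590) (nat_lit 2606))))) (.f (nat_lit 590) (nat_lit 589) (nat_lit 1581) (.f (nat_lit 591) (nat_lit 562) (nat_lit 1582) (.d (nat_lit 623) (nat_lit 592) (nat_lit 5615) (nat_lit 655) (nat_lit 6671))))))))))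
noncomputable def s46809 : Cert := .r (nat_lit 6604434244316391467124025473240662728262854823590983415090244245710025156304715729131630106007882636882440220111299666254638490689092506009022318882134530763482202112000) (.p (nat_lit 561) (.a (.f (nat_lit 593) (nat_lit 594) (nat_lit 558) (.f (nat_lit 592) (nat_lit 557) (nat_lit 557) (.f (nat_lit 591) (nat_lit 623) (nat_lit 5615) (.d (nat_lit 590) (nat_lit 562) (nat_lit 2606) (nat_lit 589) (nat_lit 1581))))) (.a (.f (nat_lit 590) (nat_lit 589) (nat_lit 1581) (.f (nat_lit 562) (nat_lit 591) (nat_lit 1582) (.d (nat_lit 594) (nat_lit 593) (nat_lit 558) (nat_lit 595) (nat_lit 559)))) (.a (.f (nat_lit 593) (nat_lit 594) (nat_lit 558) (.f (nat_lit 557) (nat_lit 592) (nat_lit 557) (.d (nat_lit 589) (nat_lit 588) (nat_lit 1580) (nat_lit 590) (nat_lit 1581)))) (.a (.p (nat_lit 562) (.a (.d (nat_lit 594) (nat_lit 593) (nat_lit 558) (nat_lit 595) (nat_lit 559)) (.a (.f (nat_lit 531)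 (nat_lit 530) (nat_lit 2575) (.f (nat_lit 563) (nat_lit 532) (nat_lit 2576) (.d (nat_lit 595) (nat_lit 594) (nat_lit 559) (nat_lit 596) (nat_lit 560)))) (.f (nat_lit 531) (nat_lit 530) (nat_lit 2575) (.f (nat_lit 563) (nat_lit 532) (nat_lit 2576) (.f (nat_lit 592) (nat_lit 591) (nat_lit 1583) (.d (nat_lit 593) (nat_lit 557) (nat_lit 557) (nat_lit 564) (nat_lit 1584)))))))) (.f (nat_lit 590) (nat_lit 589) (nat_lit 1581) (.f (nat_lit 591) (nat_lit 562) (nat_lit 1582) (.d (nat_lit 623) (nat_lit 592) (nat_lit 5615) (nat_lit 655) (nat_lit 6671)))))))))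
noncomputable def s46810 : Cert := .r (nat_lit 6604434244536064992299351712368460770552415495556536581448215050780070874334329538626857190244627585303657861063165400674648482585773535734532271117666358935256142184448) (.p (nat_lit 590) (.a (.f (nat_lit 495) (nat_lit 463) (nat_lit 6606) (.f (nat_lit 525) (nat_lit 497) (nat_lit 1517) (.d (nat_lit 493) (nat_lit 461) (nat_lit 7629) (nat_lit 524) (nat_lit 1516)))) (.a (.f (nat_lit 493) (nat_lit 461) (nat_lit 7629) (.f (nat_lit 622) (nat_lit 525) (nat_lit 7661) (.d (nat_lit 621) (nat_lit 589) (nat_lit 5613) (nat_lit 653) (nat_lit 5645)))) (.a (.f (nat_lit 461) (nat_lit 493) (nat_lit 7629) (.f (nat_lit 462) (nat_lit 429) (nat_lit 7597) (.d (nat_lit 463) (nat_lit 431) (nat_lit 6574) (nat_lit 495) (nat_lit 6606)))) (.f (nat_lit 495) (nat_lit 463) (nat_lit 6606) (.f (nat_lit 497) (nat_lit 525) (nat_lit 1517) (.d (nat_lit 465) (nat_lit 466) (nat_lit 2510) (nat_lit 592) (nat_lit 6608))))))))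
noncomputable def s46857 : Cert := .r (nat_lit 4717453031905620791156688367491659932961262480421556911162296191495481737115670585968073015125522372871859318173694501171201011692609488021298660657006560541032279179264) (.p (nat_lit 493) (.a (.f (nat_lit 492) (nat_lit 527) (nat_lit 492) (.d (nat_lit 460) (nat_lit 459) (nat_lit 3531) (nat_lit 461) (nat_lit 3532))) (.a (.f (nat_lit 461) (nat_lit 460) (nat_lit 3532) (.f (nat_lit 526) (nat_lit 590) (nat_lit 7629) (.d (nat_lit 462) (nat_lit 429) (nat_lit 7597) (nat_lit 497) (nat_lit 3533)))) (.a (.f (nat_lit 492) (nat_lit 527) (nat_lit 492) (.f (nat_lit 523) (nat_lit 524) (nat_lit 1515) (.f (nat_lit 491) (nat_lit 522) (nat_lit 1514) (.d (nat_lit 459) (nat_lit 458) (nat_lit 3530) (nat_lit 460) (nat_lit 3531))))) (.f (nat_lit 492) (nat_lit 527) (nat_lit 492) (.f (nat_lit 523) (nat_lit 524) (nat_lit 1515) (.f (nat_lit 491) (nat_lit 522) (nat_lit 1514) (.f (nat_lit 462) (nat_lit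 463) (nat_lit 2507) (.d (nat_lit 461) (nat_lit 490) (nat_lit 2506) (nat_lit 497) (nat_lit 3533))))))))))
noncomputable def s46911 : Cert := .r (nat_lit 4717453031905620791156688367491659932961262480421556911162296191495481737115670585968073015125522372871859318173694501171201011692609488021298660657006560541032279179264) (.p (nat_lit 525) (.a (.f (nat_lit 493) (nat_lit 524) (nat_lit 1516) (.f (nat_lit 461) (nat_lit 460) (nat_lit 3532) (.f (nat_lit 462) (nat_lit 497) (nat_lit 3533) (.d (nat_lit 557) (nat_lit 430) (nat_lit 6573) (nat_lit 590) (nat_lit 4557))))) (.a (.f (nat_lit 497) (nat_lit 526) (nat_lit 1517) (.f (nat_lit 493) (nat_lit 524) (nat_lit 1516) (.d (nat_lit 461) (nat_lit 460) (nat_lit 3532) (nat_lit 462) (nat_lit 3533)))) (.a (.f (nat_lit 493) (nat_lit 524) (nat_lit 1516) (.f (nat_lit 461) (nat_lit 460) (nat_lit 3532) (.f (nat_lit 557) (nat_lit 590) (nat_lit 4557) (.d (nat_lit 462) (nat_lit 430) (nat_lit 6573)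 (nat_lit 589) (nat_lit 6605))))) (.a (.f (nat_lit 493) (nat_lit 524) (nat_lit 1516) (.f (nat_lit 461) (nat_lit 460) (nat_lit 3532) (.d (nat_lit 526) (nat_lit 429) (nat_lit 4525) (nat_lit 497) (nat_lit 1517)))) (.f (nat_lit 497) (nat_lit 526) (nat_lit 1517) (.d (nat_lit 465) (nat_lit 466) (nat_lit 2510) (nat_lit 592) (nat_lit 6608))))))))
noncomputable def s46981 : Cert := .r (nat_lit 4717453031905620791156688367491659932961262480421556911162296191495481737115670585968073015125522372871859318173694501171201011692609488021298660657006560541032279179264) (.p (nat_lit 493) (.a (.f (nat_lit 492) (nat_lit 527) (nat_lit 492) (.d (nat_lit 524) (nat_lit 523) (nat_lit 1515) (nat_lit 525) (nat_lit 1516))) (.a (.f (nat_lit 525) (nat_lit 524) (nat_lit 1516) (.f (nat_lit 497) (nat_lit 526) (nat_lit 1517) (.d (nat_lit 465) (nat_lit 466) (nat_lit 2510) (nat_lit 592) (nat_lit 6608)))) (.a (.f (nat_lit 492) (nat_lit 527) (nat_lit 492) (.f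 (nat_lit 523) (nat_lit 524) (nat_lit 1515) (.f (nat_lit 491) (nat_lit 522) (nat_lit 1514) (.d (nat_lit 459) (nat_lit 458) (nat_lit 3530) (nat_lit 460) (nat_lit 3531))))) (.f (nat_lit 527) (nat_lit 492) (nat_lit 492) (.f (nat_lit 592) (nat_lit 624) (nat_lit 7663) (.f (nat_lit 497) (nat_lit 465) (nat_lit 6608) (.d (nat_lit 526) (nat_lit 498) (nat_lit 1518) (nat_lit 525) (nat_lit 2541)))))))))
noncomputable def s47018 : Cert := .r (nat_lit 6604434244316391467124025473240662728262854823590983415090244245710025156304715729131630106007882636882440220111299666254638490689092506009022318882134530763482202112000) (.p (nat_lit 561) (.a (.f (nat_lit 525) (nat_lit 526) (nat_lit 3597) (.f (nat_lit 557) (nat_lit 524) (nat_lit 3596) (.d (nat_lit 593) (nat_lit 592) (nat_lit 557) (nat_lit 594) (nat_lit 558)))) (.a (.f (nat_lit 525) (nat_lit 526) (nat_lit 3597) (.f (nat_lit 557) (nat_lit 524) (nat_lit 3596) (.d (nat_lit 589) (nat_lit 588)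 (nat_lit 1580) (nat_lit 590) (nat_lit 1581)))) (.a (.f (nat_lit 593) (nat_lit 594) (nat_lit 558) (.f (nat_lit 557) (nat_lit 592) (nat_lit 557) (.d (nat_lit 589) (nat_lit 588) (nat_lit 1580) (nat_lit 590) (nat_lit 1581)))) (.f (nat_lit 526) (nat_lit 525) (nat_lit 3597) (.f (nat_lit 562) (nat_lit 527) (nat_lit 3598) (.d (nat_lit 594) (nat_lit 593) (nat_lit 558) (nat_lit 595) (nat_lit 559))))))))
noncomputable def s47032 : Cert := .r (nat_lit 4717453032125294316178574421874326325093954885348316367260111900657258793138255112583793827655798201532923673547783478224763190270811139418251553991950010913431444520960) (.p (nat_lit 590) (.a (.f (nat_lit 495) (nat_lit 463) (nat_lit 6606) (.f (nat_lit 497) (nat_lit 525) (nat_lit 1517) (.f (nat_lit 462) (nat_lit 461) (nat_lit 3533) (.d (nat_lit 589) (nat_lit 557) (nat_lit 5581) (nat_lit 621) (nat_lit 5613))))) (.a (.f (nat_lit 589) (nat_lit 621) (nat_lit 5613) (.f (nat_lit 559) (nat_lit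 561) (nat_lit 1581) (.d (nat_lit 588) (nat_lit 557) (nat_lit 1580) (nat_lit 587) (nat_lit 2603)))) (.a (.f (nat_lit 495) (nat_lit 463) (nat_lit 6606) (.f (nat_lit 622) (nat_lit 527) (nat_lit 6638) (.d (nat_lit 621) (nat_lit 589) (nat_lit 5613) (nat_lit 653) (nat_lit 5645)))) (.f (nat_lit 495) (nat_lit 463) (nat_lit 6606) (.f (nat_lit 527) (nat_lit 622) (nat_lit 6638) (.d (nat_lit 525) (nat_lit 497) (nat_lit 1517) (nat_lit 561) (nat_lit 525))))))))
noncomputable def s47035 : Cert := .r (nat_lit 4717453032125294316178574421874326325093954885348316367260111900657258793138255112583793827655798201532923673547783478224763190270811139418251553991950010913431444520960) (.p (nat_lit 590) (.a (.f (nat_lit 589) (nat_lit 621) (nat_lit 5613) (.f (nat_lit 462) (nat_lit 557) (nat_lit 5581) (.d (nat_lit 461) (nat_lit 429) (nat_lit 7597) (nat_lit 493) (nat_lit 7629)))) (.a (.f (nat_lit 493) (nat_lit 461) (nat_lit 7629) (.f (nat_lit 622)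 (nat_lit 525) (nat_lit 7661) (.d (nat_lit 621) (nat_lit 589) (nat_lit 5613) (nat_lit 653) (nat_lit 5645)))) (.a (.f (nat_lit 493) (nat_lit 461) (nat_lit 7629) (.f (nat_lit 525) (nat_lit 622) (nat_lit 7661) (.f (nat_lit 559) (nat_lit 561) (nat_lit 3597) (.d (nat_lit 524) (nat_lit 523) (nat_lit 523) (nat_lit 557) (nat_lit 3596))))) (.f (nat_lit 589) (nat_lit 621) (nat_lit 5613) (.f (nat_lit 559) (nat_lit 561) (nat_lit 1581) (.d (nat_lit 588) (nat_lit 557) (nat_lit 1580) (nat_lit 587) (nat_lit 2603))))))))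
noncomputable def s47051 : Cert := .r (nat_lit 4717453032125294316178574421874326325093954885348316367260111900657258793138255112583793827655798201532923673547783478224763190270811139418251553991950010913431444520960) (.p (nat_lit 590) (.a (.f (nat_lit 589) (nat_lit 621) (nat_lit 5613) (.f (nat_lit 462) (nat_lit 557) (nat_lit 5581) (.d (nat_lit 461) (nat_lit 429) (nat_lit 7597) (nat_lit 493) (nat_lit 7629)))) (.a (.f (nat_lit 493) (nat_lit 461) (nat_lit 7629) (.f (nat_lit 525) (nat_lit 622) (nat_lit 7661) (.d (nat_lit 527) (nat_lit 492) (nat_lit 3564) (nat_lit 561) (nat_lit 525)))) (.a (.f (nat_lit 589) (nat_lit 621) (nat_lit 5613) (.f (nat_lit 462) (nat_lit 557) (nat_lit 5581) (.f (nat_lit 429) (nat_lit 461) (nat_lit 7597) (.f (nat_lit 430) (nat_lit 397) (nat_lit 7565) (.d (nat_lit 431) (nat_lit 399) (nat_lit 6542) (nat_lit 463) (nat_lit 6574)))))) (.f (nat_lit 589) (nat_lit 621) (nat_lit 5613) (.f (nat_lit 462) (nat_lit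 557) (nat_lit 5581) (.f (nat_lit 431) (nat_lit 463) (nat_lit 6574) (.f (nat_lit 430) (nat_lit 399) (nat_lit 6542) (.f (nat_lit 397) (nat_lit 429) (nat_lit 7565) (.f (nat_lit 398) (nat_lit 365) (nat_lit 7533) (.f (nat_lit 525) (nat_lit 493) (nat_lit 5517) (.d (nat_lit 527) (nat_lit 497) (nat_lit 2541) (nat_lit 561) (nat_lit 525)))))))))))))
noncomputable def s47053 : Cert := .r (nat_lit 4717453032125294316178574421874326325093954885348316367260111900657258793138255112583793827655798201532923673547783478224763190270811139418251553991950010913431444520960) (.p (nat_lit 590) (.a (.f (nat_lit 495) (nat_lit 463) (nat_lit 6606) (.f (nat_lit 497) (nat_lit 525) (nat_lit 1517) (.f (nat_lit 462) (nat_lit 461) (nat_lit 3533) (.d (nat_lit 589) (nat_lit 557) (nat_lit 5581) (nat_lit 621) (nat_lit 5613))))) (.a (.f (nat_lit 589) (nat_lit 621) (nat_lit 5613) (.f (nat_lit 462) (nat_lit 557) (nat_lit 5581) (.f (nat_lit 429) (nat_lit 461)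 (nat_lit 7597) (.f (nat_lit 430) (nat_lit 397) (nat_lit 7565) (.d (nat_lit 431) (nat_lit 399) (nat_lit 6542) (nat_lit 463) (nat_lit 6574)))))) (.a (.f (nat_lit 589) (nat_lit 621) (nat_lit 5613) (.f (nat_lit 462) (nat_lit 557) (nat_lit 5581) (.f (nat_lit 461) (nat_lit 429) (nat_lit 7597) (.f (nat_lit 495) (nat_lit 497) (nat_lit 3533) (.f (nat_lit 527) (nat_lit 622) (nat_lit 6638) (.d (nat_lit 525) (nat_lit 524) (nat_lit 2540) (nat_lit 561) (nat_lit 525))))))) (.a (.f (nat_lit 495) (nat_lit 463) (nat_lit 6606) (.f (nat_lit 622) (nat_lit 527) (nat_lit 6638) (.d (nat_lit 621) (nat_lit 589) (nat_lit 5613) (nat_lit 653) (nat_lit 5645)))) (.f (nat_lit 495) (nat_lit 463) (nat_lit 6606) (.f (nat_lit 527) (nat_lit 622) (nat_lit 6638) (.d (nat_lit 525) (nat_lit 497) (nat_lit 1517) (nat_lit 561) (nat_lit 525)))))))))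
noncomputable def s47060 : Cert := .r (nat_lit 4717453032125294316178574421874326325093954885348316367260111900657258793138255112583793827655798201532923673547783478224763190270811139418251553991950010913431444520960) (.p (nat_lit 590) (.a (.f (nat_lit 589) (nat_lit 621) (nat_lit 5613) (.f (nat_lit 462) (nat_lit 557) (nat_lit 5581) (.d (nat_lit 461) (nat_lit 429) (nat_lit 7597) (nat_lit 493) (nat_lit 7629)))) (.a (.f (nat_lit 493) (nat_lit 461) (nat_lit 7629) (.f (nat_lit 525) (nat_lit 622) (nat_lit 7661) (.d (nat_lit 527) (nat_lit 492) (nat_lit 3564) (nat_lit 497) (nat_lit 2541)))) (.a (.f (nat_lit 589) (nat_lit 621) (nat_lit 5613) (.f (nat_lit 462) (nat_lit 557) (nat_lit 5581) (.f (nat_lit 429) (nat_lit 461) (nat_lit 7597) (.f (nat_lit 430) (nat_lit 397) (nat_lit 7565) (.d (nat_lit 431) (nat_lit 399) (nat_lit 6542) (nat_lit 463) (nat_lit 6574)))))) (.f (nat_lit 589) (nat_lit 621) (nat_lit 5613) (.f (nat_lit 557) (nat_lit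 462) (nat_lit 5581) (.f (nat_lit 559) (nat_lit 588) (nat_lit 1580) (.f (nat_lit 525) (nat_lit 524) (nat_lit 3596) (.d (nat_lit 527) (nat_lit 497) (nat_lit 2541) (nat_lit 556) (nat_lit 2572))))))))))
noncomputable def s47063 : Cert := .r (nat_lit 4717453032125294316178574421874326325093954885348316367260111900657258793138255112583793827655798201532923673547783478224763190270811139418251553991950010913431444520960) (.p (nat_lit 590) (.a (.f (nat_lit 495) (nat_lit 463) (nat_lit 6606) (.f (nat_lit 497) (nat_lit 525) (nat_lit 1517) (.f (nat_lit 462) (nat_lit 461) (nat_lit 3533) (.d (nat_lit 589) (nat_lit 557) (nat_lit 5581) (nat_lit 621) (nat_lit 5613))))) (.a (.f (nat_lit 589) (nat_lit 621) (nat_lit 5613) (.f (nat_lit 462) (nat_lit 557) (nat_lit 5581) (.f (nat_lit 429) (nat_lit 461) (nat_lit 7597) (.f (nat_lit 430) (nat_lit 397) (nat_lit 7565) (.d (nat_lit 431) (nat_lit 399) (nat_lit 6542) (nat_lit 463) (nat_lit 6574))))))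 (.a (.f (nat_lit 589) (nat_lit 621) (nat_lit 5613) (.f (nat_lit 557) (nat_lit 462) (nat_lit 5581) (.f (nat_lit 559) (nat_lit 588) (nat_lit 1580) (.f (nat_lit 525) (nat_lit 524) (nat_lit 3596) (.d (nat_lit 527) (nat_lit 497) (nat_lit 2541) (nat_lit 556) (nat_lit 2572)))))) (.a (.f (nat_lit 495) (nat_lit 463) (nat_lit 6606) (.f (nat_lit 622) (nat_lit 527) (nat_lit 6638) (.d (nat_lit 621) (nat_lit 589) (nat_lit 5613) (nat_lit 653) (nat_lit 5645)))) (.f (nat_lit 495) (nat_lit 463) (nat_lit 6606) (.f (nat_lit 497) (nat_lit 525) (nat_lit 1517) (.d (nat_lit 465) (nat_lit 466) (nat_lit 2510) (nat_lit 592) (nat_lit 6608)))))))))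
noncomputable def s47079 : Cert := .r (nat_lit 4717453032125294316178574421874326325093954885348316367260111900657258793138255112583793827655798201532923673547783478224763190270811139418251553991950010913431444520960) (.p (nat_lit 462) (.a (.f (nat_lit 589) (nat_lit 557) (nat_lit 5581) (.f (nat_lit 590) (nat_lit 621) (nat_lit 5613) (.d (nat_lit 461) (nat_lit 429) (nat_lit 7597) (nat_lit 493) (nat_lit 7629)))) (.a (.f (nat_lit 461) (nat_lit 429) (nat_lit 7597) (.f (nat_lit 431) (nat_lit 463) (nat_lit 6574) (.f (nat_lit 430) (nat_lit 399) (nat_lit 6542) (.f (nat_lit 590) (nat_lit 493) (nat_lit 7629) (.f (nat_lit 559) (nat_lit 527) (nat_lit 4526) (.d (nat_lit 589) (nat_lit 561) (nat_lit 1581) (nat_lit 621) (nat_lit 5613))))))) (.a (.f (nat_lit 429) (nat_lit 461) (nat_lit 7597) (.f (nat_lit 430) (nat_lit 397) (nat_lit 7565) (.d (nat_lit 431) (nat_lit 399) (nat_lit 6542) (nat_lit 463) (nat_lit 6574)))) (.f (nat_lit 589) (nat_lit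 557) (nat_lit 5581) (.f (nat_lit 590) (nat_lit 621) (nat_lit 5613) (.f (nat_lit 559) (nat_lit 561) (nat_lit 1581) (.f (nat_lit 430) (nat_lit 527) (nat_lit 4526) (.d (nat_lit 431) (nat_lit 399) (nat_lit 6542) (nat_lit 463) (nat_lit 6574))))))))))
noncomputable def s47086 : Cert := .r (nat_lit 4717453032125294316178574421874326325093954885348316367260111900657258793138255112583793827655798201532923673547783478224763190270811139418251553991950010913431444520960) (.p (nat_lit 590) (.a (.f (nat_lit 493) (nat_lit 461) (nat_lit 7629) (.f (nat_lit 525) (nat_lit 622) (nat_lit 7661) (.d (nat_lit 527) (nat_lit 492) (nat_lit 3564) (nat_lit 561) (nat_lit 525)))) (.a (.f (nat_lit 493) (nat_lit 461) (nat_lit 7629) (.f (nat_lit 622) (nat_lit 525) (nat_lit 7661) (.d (nat_lit 621) (nat_lit 589) (nat_lit 5613) (nat_lit 653) (nat_lit 5645)))) (.a (.f (nat_lit 589) (nat_lit 621) (nat_lit 5613) (.f (nat_lit 559) (nat_lit 561) (nat_lit 1581)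 (.f (nat_lit 461) (nat_lit 493) (nat_lit 7629) (.f (nat_lit 462) (nat_lit 429) (nat_lit 7597) (.f (nat_lit 431) (nat_lit 463) (nat_lit 6574) (.d (nat_lit 430) (nat_lit 399) (nat_lit 6542) (nat_lit 527) (nat_lit 4526))))))) (.f (nat_lit 621) (nat_lit 589) (nat_lit 5613) (.f (nat_lit 622) (nat_lit 653) (nat_lit 5645) (.f (nat_lit 655) (nat_lit 623) (nat_lit 4622) (.f (nat_lit 654) (nat_lit 687) (nat_lit 4654) (.f (nat_lit 527) (nat_lit 559) (nat_lit 6670) (.d (nat_lit 525) (nat_lit 497) (nat_lit 2541) (nat_lit 561) (nat_lit 525)))))))))))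
noncomputable def s47108 : Cert := .r (nat_lit 4717453032125294316178574421874326325093954885348316367260111900657258793138255112583793827655798201532923673547783478224763190270811139418251553991950010913431444520960) (.p (nat_lit 590) (.a (.f (nat_lit 495) (nat_lit 463) (nat_lit 6606) (.f (nat_lit 461) (nat_lit 493) (nat_lit 7629) (.d (nat_lit 462) (nat_lit 429) (nat_lit 7597) (nat_lit 497) (nat_lit 3533)))) (.a (.f (nat_lit 589) (nat_lit 621) (nat_lit 5613) (.f (nat_lit 559) (nat_lit 561) (nat_lit 1581) (.f (nat_lit 461) (nat_lit 493) (nat_lit 7629) (.f (nat_lit 462) (nat_lit 429) (nat_lit 7597) (.f (nat_lit 431) (nat_lit 463) (nat_lit 6574) (.d (nat_lit 430) (nat_lit 399) (nat_lit 6542) (nat_lit 527) (nat_lit 4526))))))) (.a (.f (nat_lit 461) (nat_lit 493) (nat_lit 7629) (.f (nat_lit 462) (nat_lit 429) (nat_lit 7597) (.f (nat_lit 495) (nat_lit 497) (nat_lit 3533) (.f (nat_lit 527) (nat_lit 622) (nat_lit 6638) (.d (nat_lit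 430) (nat_lit 398) (nat_lit 4494) (nat_lit 559) (nat_lit 4526)))))) (.a (.f (nat_lit 495) (nat_lit 463) (nat_lit 6606) (.f (nat_lit 493) (nat_lit 461) (nat_lit 7629) (.d (nat_lit 527) (nat_lit 492) (nat_lit 492) (nat_lit 622) (nat_lit 6638)))) (.f (nat_lit 495) (nat_lit 463) (nat_lit 6606) (.f (nat_lit 622) (nat_lit 527) (nat_lit 6638) (.d (nat_lit 621) (nat_lit 589) (nat_lit 5613) (nat_lit 653) (nat_lit 5645)))))))))
noncomputable def s47114 : Cert := .r (nat_lit 4717453032125294316178574421874326325093954885348316367260111900657258793138255112583793827655798201532923673547783478224763190270811139418251553991950010913431444520960) (.p (nat_lit 462) (.a (.f (nat_lit 461) (nat_lit 429) (nat_lit 7597) (.f (nat_lit 495) (nat_lit 497) (nat_lit 3533) (.d (nat_lit 460) (nat_lit 459) (nat_lit 459) (nat_lit 493) (nat_lit 3532)))) (.a (.f (nat_lit 429) (nat_lit 461) (nat_lit 7597) (.f (nat_lit 430) (nat_lit 397) (nat_lit 7565)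 (.d (nat_lit 431) (nat_lit 399) (nat_lit 6542) (nat_lit 463) (nat_lit 6574)))) (.f (nat_lit 463) (nat_lit 431) (nat_lit 6574) (.f (nat_lit 592) (nat_lit 495) (nat_lit 7631) (.f (nat_lit 557) (nat_lit 589) (nat_lit 5581) (.f (nat_lit 559) (nat_lit 593) (nat_lit 557) (.d (nat_lit 527) (nat_lit 430) (nat_lit 4526) (nat_lit 556) (nat_lit 2572)))))))))
noncomputable def s47116 : Cert := .r (nat_lit 4717453032125294316178574421874326325093954885348316367260111900657258793138255112583793827655798201532923673547783478224763190270811139418251553991950010913431444520960) (.p (nat_lit 590) (.a (.f (nat_lit 589) (nat_lit 621) (nat_lit 5613) (.f (nat_lit 559) (nat_lit 561) (nat_lit 1581) (.d (nat_lit 588) (nat_lit 557) (nat_lit 1580) (nat_lit 587) (nat_lit 2603)))) (.a (.f (nat_lit 589) (nat_lit 621) (nat_lit 5613) (.f (nat_lit 462) (nat_lit 557) (nat_lit 5581) (.f (nat_lit 429) (nat_lit 461) (nat_lit 7597) (.f (nat_lit 430) (nat_lit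 397) (nat_lit 7565) (.d (nat_lit 431) (nat_lit 399) (nat_lit 6542) (nat_lit 463) (nat_lit 6574)))))) (.a (.f (nat_lit 495) (nat_lit 463) (nat_lit 6606) (.f (nat_lit 622) (nat_lit 527) (nat_lit 6638) (.d (nat_lit 621) (nat_lit 589) (nat_lit 5613) (nat_lit 653) (nat_lit 5645)))) (.f (nat_lit 495) (nat_lit 463) (nat_lit 6606) (.f (nat_lit 527) (nat_lit 622) (nat_lit 6638) (.f (nat_lit 497) (nat_lit 498) (nat_lit 1518) (.d (nat_lit 592) (nat_lit 465) (nat_lit 6608) (nat_lit 624) (nat_lit 7663)))))))))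
noncomputable def s47160 : Cert := .r (nat_lit 6604434244316391467175172201489039944981810912603914651843629277679448043640392156758132196576705676802491315303891918710121095128585632118541338515663990029940460355584) (.p (nat_lit 561) (.a (.f (nat_lit 594) (nat_lit 593) (nat_lit 558) (.f (nat_lit 562) (nat_lit 595) (nat_lit 559) (.f (nat_lit 527) (nat_lit 563) (nat_lit 3599) (.f (nat_lit 557) (nat_lit 556) (nat_lit 2572) (.d (nat_lit 589) (nat_lit 588) (nat_lit 1580) (nat_lit 590) (nat_lit 1581)))))) (.a (.f (nat_lit 589) (nat_lit 590) (nat_lit 1581) (.f (nat_lit 557) (nat_lit 588) (nat_lit 1580) (.f (nat_lit 525) (nat_lit 524) (nat_lit 3596) (.f (nat_lit 493) (nat_lit 462) (nat_lit 6605) (.f (nat_lit 460) (nat_lit 492) (nat_lit 7628) (.d (nat_lit 461) (nat_lit 428) (nat_lit 7596) (nat_lit 495) (nat_lit 3532))))))) (.f (nat_lit 594) (nat_lit 593) (nat_lit 558) (.f (nat_lit 562) (nat_lit 595) (nat_lit 559) (.f (nat_lit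 531) (nat_lit 530) (nat_lit 2575) (.d (nat_lit 563) (nat_lit 527) (nat_lit 3599) (nat_lit 532) (nat_lit 2576))))))))
noncomputable def s47165 : Cert := .r (nat_lit 6604434244316391467175172201489039944981810912603914651843629277679448043640392156758132196576705676802491315303891918710121095128585632118541338515663990029940460355584) (.p (nat_lit 561) (.a (.f (nat_lit 594) (nat_lit 593) (nat_lit 558) (.f (nat_lit 562) (nat_lit 595) (nat_lit 559) (.f (nat_lit 527) (nat_lit 563) (nat_lit 3599) (.f (nat_lit 557) (nat_lit 556) (nat_lit 2572) (.d (nat_lit 589) (nat_lit 588) (nat_lit 1580) (nat_lit 590) (nat_lit 1581)))))) (.a (.f (nat_lit 589) (nat_lit 590) (nat_lit 1581) (.f (nat_lit 557) (nat_lit 588) (nat_lit 1580) (.d (nat_lit 593) (nat_lit 592) (nat_lit 557) (nat_lit 594) (nat_lit 558)))) (.a (.f (nat_lit 594) (nat_lit 593) (nat_lit 558) (.f (nat_lit 562) (nat_lit 595) (nat_lit 559) (.f (nat_lit 531) (nat_lit 530) (nat_lit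 2575) (.d (nat_lit 563) (nat_lit 527) (nat_lit 3599) (nat_lit 532) (nat_lit 2576))))) (.f (nat_lit 589) (nat_lit 590) (nat_lit 1581) (.f (nat_lit 557) (nat_lit 588) (nat_lit 1580) (.f (nat_lit 527) (nat_lit 556) (nat_lit 2572) (.d (nat_lit 526) (nat_lit 462) (nat_lit 5581) (nat_lit 562) (nat_lit 3598)))))))))
noncomputable def s47182 : Cert := .r (nat_lit 6604434244316391467175172201489039944981810912603914651843629277679448043640392156758132196576705676802491315303891918710121095128585632118541338515663990029940460355584) (.p (nat_lit 561) (.a (.f (nat_lit 526) (nat_lit 525) (nat_lit 3597) (.f (nat_lit 527) (nat_lit 562) (nat_lit 3598) (.f (nat_lit 462) (nat_lit 430) (nat_lit 4526) (.d (nat_lit 557) (nat_lit 556) (nat_lit 2572) (nat_lit 589) (nat_lit 5581))))) (.a (.f (nat_lit 525) (nat_lit 526) (nat_lit 3597) (.f (nat_lit 557) (nat_lit 524) (nat_lit 3596) (.d (nat_lit 593) (nat_lit 592) (nat_lit 557) (nat_lit 594) (nat_lit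 558)))) (.f (nat_lit 594) (nat_lit 593) (nat_lit 558) (.f (nat_lit 562) (nat_lit 595) (nat_lit 559) (.f (nat_lit 531) (nat_lit 530) (nat_lit 2575) (.d (nat_lit 563) (nat_lit 527) (nat_lit 3599) (nat_lit 532) (nat_lit 2576))))))))
noncomputable def s47197 : Cert := .r (nat_lit 6604434244316391467175172201489039944981810912603914651843629277679448043640392156758132196576705676802491315303891918710121095128585632118541338515663990029940460355584) (.p (nat_lit 561) (.a (.f (nat_lit 594) (nat_lit 593) (nat_lit 558) (.f (nat_lit 562) (nat_lit 595) (nat_lit 559) (.f (nat_lit 527) (nat_lit 563) (nat_lit 3599) (.f (nat_lit 557) (nat_lit 556) (nat_lit 2572) (.d (nat_lit 589) (nat_lit 588) (nat_lit 1580) (nat_lit 590) (nat_lit 1581)))))) (.a (.f (nat_lit 589) (nat_lit 590) (nat_lit 1581) (.f (nat_lit 557) (nat_lit 588) (nat_lit 1580) (.d (nat_lit 593) (nat_lit 592) (nat_lit 557) (nat_lit 594) (nat_lit 558)))) (.a (.f (nat_lit 594)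 (nat_lit 593) (nat_lit 558) (.f (nat_lit 562) (nat_lit 595) (nat_lit 559) (.f (nat_lit 531) (nat_lit 530) (nat_lit 2575) (.d (nat_lit 563) (nat_lit 527) (nat_lit 3599) (nat_lit 532) (nat_lit 2576))))) (.f (nat_lit 589) (nat_lit 590) (nat_lit 1581) (.f (nat_lit 557) (nat_lit 588) (nat_lit 1580) (.f (nat_lit 556) (nat_lit 527) (nat_lit 2572) (.d (nat_lit 524) (nat_lit 523) (nat_lit 3595) (nat_lit 525) (nat_lit 3596)))))))))
noncomputable def s47200 : Cert := .r (nat_lit 4717453032125294316178574421874326325093954885348316367260111900657258793138255112583793827655798201532923673547783478224763190270811139418251553991950010913431444520960) (.p (nat_lit 590) (.a (.f (nat_lit 495) (nat_lit 463) (nat_lit 6606) (.f (nat_lit 622) (nat_lit 527) (nat_lit 6638) (.d (nat_lit 621) (nat_lit 589) (nat_lit 5613) (nat_lit 653) (nat_lit 5645)))) (.a (.f (nat_lit 495) (nat_lit 463) (nat_lit 6606) (.f (nat_lit 497) (nat_lit 525) (nat_lit 1517)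 (.d (nat_lit 465) (nat_lit 466) (nat_lit 2510) (nat_lit 592) (nat_lit 6608)))) (.f (nat_lit 621) (nat_lit 589) (nat_lit 5613) (.f (nat_lit 622) (nat_lit 653) (nat_lit 5645) (.f (nat_lit 655) (nat_lit 623) (nat_lit 4622) (.f (nat_lit 654) (nat_lit 687) (nat_lit 4654) (.f (nat_lit 527) (nat_lit 559) (nat_lit 6670) (.d (nat_lit 525) (nat_lit 497) (nat_lit 2541) (nat_lit 561) (nat_lit 525))))))))))
noncomputable def s47260 : Cert := .r (nat_lit 4717453032125294316178574421874326325093954885348316367260111900657258793138255112583793827655798201532923673547783478224763190270811139418251553991950010913431444520960) (.p (nat_lit 592) (.a (.f (nat_lit 495) (nat_lit 463) (nat_lit 7631) (.d (nat_lit 497) (nat_lit 465) (nat_lit 6608) (nat_lit 525) (nat_lit 1517))) (.a (.f (nat_lit 497) (nat_lit 465) (nat_lit 6608) (.f (nat_lit 525) (nat_lit 527) (nat_lit 2541) (.f (nat_lit 559) (nat_lit 561) (nat_lit 3597) (.d (nat_lit 524) (nat_lit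 523) (nat_lit 523) (nat_lit 557) (nat_lit 3596))))) (.a (.f (nat_lit 495) (nat_lit 463) (nat_lit 7631) (.f (nat_lit 527) (nat_lit 624) (nat_lit 7663) (.d (nat_lit 525) (nat_lit 524) (nat_lit 2540) (nat_lit 561) (nat_lit 525)))) (.f (nat_lit 495) (nat_lit 463) (nat_lit 7631) (.f (nat_lit 527) (nat_lit 624) (nat_lit 7663) (.d (nat_lit 497) (nat_lit 465) (nat_lit 6608) (nat_lit 498) (nat_lit 1518))))))))
noncomputable def s47272 : Cert := .r (nat_lit 6604434244316391467124025473240662728262854823590983415090244245710025156304715729131630106007882636882440220111299666254638490689092506009022318882134530763482202112000) (.p (nat_lit 561) (.a (.f (nat_lit 590) (nat_lit 589) (nat_lit 1581) (.f (nat_lit 562) (nat_lit 591) (nat_lit 1582) (.d (nat_lit 594) (nat_lit 593) (nat_lit 558) (nat_lit 595) (nat_lit 559)))) (.a (.f (nat_lit 594) (nat_lit 593) (nat_lit 558) (.f (nat_lit 562) (nat_lit 595) (nat_lit 559) (.f (nat_lit 531) (nat_lit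 530) (nat_lit 2575) (.d (nat_lit 563) (nat_lit 527) (nat_lit 3599) (nat_lit 532) (nat_lit 2576))))) (.f (nat_lit 589) (nat_lit 590) (nat_lit 1581) (.f (nat_lit 557) (nat_lit 588) (nat_lit 1580) (.f (nat_lit 556) (nat_lit 527) (nat_lit 2572) (.d (nat_lit 524) (nat_lit 523) (nat_lit 3595) (nat_lit 525) (nat_lit 3596))))))))
noncomputable def s47381 : Cert := .r (nat_lit 6604434244316391467124025473240662728262854823590983415090244245710025156304715729131630106007882636882440220111299666254638490689092506009022318882134530763482202112000) (.p (nat_lit 561) (.a (.f (nat_lit 525) (nat_lit 526) (nat_lit 3597) (.f (nat_lit 557) (nat_lit 524) (nat_lit 3596) (.d (nat_lit 593) (nat_lit 592) (nat_lit 557) (nat_lit 594) (nat_lit 558)))) (.a (.f (nat_lit 526) (nat_lit 525) (nat_lit 3597) (.f (nat_lit 562) (nat_lit 527) (nat_lit 3598) (.d (nat_lit 594) (nat_lit 593) (nat_lit 558) (nat_lit 595) (nat_lit 559)))) (.a (.f (nat_lit 594)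 (nat_lit 593) (nat_lit 558) (.f (nat_lit 562) (nat_lit 595) (nat_lit 559) (.f (nat_lit 531) (nat_lit 530) (nat_lit 2575) (.d (nat_lit 563) (nat_lit 527) (nat_lit 3599) (nat_lit 532) (nat_lit 2576))))) (.a (.f (nat_lit 526) (nat_lit 525) (nat_lit 3597) (.f (nat_lit 562) (nat_lit 527) (nat_lit 3598) (.f (nat_lit 531) (nat_lit 530) (nat_lit 2575) (.f (nat_lit 563) (nat_lit 532) (nat_lit 2576) (.d (nat_lit 595) (nat_lit 594) (nat_lit 559) (nat_lit 596) (nat_lit 560)))))) (.f (nat_lit 526) (nat_lit 525) (nat_lit 3597) (.f (nat_lit 527) (nat_lit 562) (nat_lit 3598) (.f (nat_lit 557) (nat_lit 556) (nat_lit 2572) (.f (nat_lit 592) (nat_lit 593) (nat_lit 557) (.d (nat_lit 495) (nat_lit 463) (nat_lit 4559) (nat_lit 624) (nat_lit 7663)))))))))))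
noncomputable def s47429 : Cert := .r (nat_lit 4717453031905620791156688367491659932961262480421556911162296191495481737115670585968073015125522372871859318173694501171201011692609488021298660657006560541032279179264) (.p (nat_lit 525) (.a (.f (nat_lit 497) (nat_lit 526) (nat_lit 1517) (.f (nat_lit 493) (nat_lit 524) (nat_lit 1516) (.d (nat_lit 461) (nat_lit 460) (nat_lit 3532) (nat_lit 462) (nat_lit 3533)))) (.a (.f (nat_lit 493) (nat_lit 524) (nat_lit 1516) (.f (nat_lit 461) (nat_lit 460) (nat_lit 3532) (.f (nat_lit 497) (nat_lit 462) (nat_lit 3533) (.d (nat_lit 465) (nat_lit 466) (nat_lit 2510) (nat_lit 592) (nat_lit 6608))))) (.a (.f (nat_lit 493) (nat_lit 524) (nat_lit 1516) (.f (nat_lit 461) (nat_lit 460) (nat_lit 3532) (.d (nat_lit 526) (nat_lit 429) (nat_lit 4525) (nat_lit 590) (nat_lit 7629)))) (.f (nat_lit 497) (nat_lit 526) (nat_lit 1517) (.d (nat_lit 465) (nat_lit 466) (nat_lit 2510) (nat_lit 592) (nat_lit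 6608)))))))
noncomputable def s47612 : Cert := .r (nat_lit 3773962425700235452942859537499461060075163908278653093808089520525807034510604090067035062124638561226338938838226782579810552216648911534601243193560008730745155616768) (.p (nat_lit 558) (.a (.p (nat_lit 561) (.a (.p (nat_lit 559) (.a (.f (nat_lit 526) (nat_lit 525) (nat_lit 3597) (.f (nat_lit 527) (nat_lit 562) (nat_lit 3598) (.f (nat_lit 590) (nat_lit 589) (nat_lit 1581) (.d (nat_lit 622) (nat_lit 495) (nat_lit 6638) (nat_lit 654) (nat_lit 6670))))) (.a (.f (nat_lit 593) (nat_lit 594) (nat_lit 558) (.f (nat_lit 592) (nat_lit 557) (nat_lit 557) (.f (nat_lit 591) (nat_lit 623) (nat_lit 5615) (.d (nat_lit 590) (nat_lit 562) (nat_lit 2606) (nat_lit 589) (nat_lit 1581))))) (.f (nat_lit 525) (nat_lit 526) (nat_lit 3597) (.f (nat_lit 557) (nat_lit 524) (nat_lit 3596) (.d (nat_lit 593) (nat_lit 592) (nat_lit 557) (nat_lit 594) (nat_lit 558))))))) (.a (.p (nat_lit 559) (.a (.f (nat_lit 526) (nat_lit 525) (nat_lit 3597) (.f (nat_lit 527) (nat_lit 562) (nat_lit 3598) (.f (nat_lit 590) (nat_lit 589) (nat_lit 1581) (.d (nat_lit 622) (nat_lit 495) (nat_lit 6638) (nat_lit 654) (nat_lit 6670))))) (.a (.f (nat_lit 590) (nat_lit 589) (nat_lit 1581) (.f (nat_lit 526) (nat_lit 525) (nat_lit 3597) (.f (nat_lit 591) (nat_lit 562) (nat_lit 1582) (.d (nat_lit 494) (nat_lit 462) (nat_lit 4558) (nat_lit 623) (nat_lit 4590))))) (.a (.f (nat_lit 590) (nat_lit 589) (nat_lit 1581) (.f (nat_lit 562) (nat_lit 591) (nat_lit 1582) (.d (nat_lit 594) (nat_lit 593) (nat_lit 558) (nat_lit 595) (nat_lit 559)))) (.a (.f (nat_lit 525) (nat_lit 526) (nat_lit 3597) (.f (nat_lit 557) (nat_lit 524) (nat_lit 3596) (.d (nat_lit 589) (nat_lit 588) (nat_lit 1580) (nat_lit 590) (nat_lit 1581)))) (.f (nat_lit 526) (nat_lit 525) (nat_lit 3597) (.f (nat_lit 562) (nat_lit 527) (nat_lit 3598) (.d (nat_lit 594) (nat_lit 593) (nat_lit 558) (nat_lit 595) (nat_lit 559))))))))) (.a (.p (nat_lit 559) (.a (.f (nat_lit 593) (nat_lit 594) (nat_lit 558) (.f (nat_lit 592) (nat_lit 557) (nat_lit 557) (.f (nat_lit 591) (nat_lit 623) (nat_lit 5615) (.d (nat_lit 590) (nat_lit 562) (nat_lit 2606) (nat_lit 589) (nat_lit 1581))))) (.a (.f (nat_lit 590) (nat_lit 589) (nat_lit 1581) (.f (nat_lit 526) (nat_lit 525) (nat_lit 3597) (.f (nat_lit 591) (nat_lit 562) (nat_lit 1582) (.d (nat_lit 494) (nat_lit 462) (nat_lit 4558) (nat_lit 623) (nat_lit 4590))))) (.f (nat_lit 525) (nat_lit 526) (nat_lit 3597) (.f (nat_lit 557) (nat_lit 524) (nat_lit 3596) (.d (nat_lit 593) (nat_lit 592) (nat_lit 557) (nat_lit 594) (nat_lit 558))))))) (.a (.p (nat_lit 592) (.a (.f (nat_lit 591) (nat_lit 623) (nat_lit 5615) (.f (nat_lit 590) (nat_lit 589) (nat_lit 2605) (.d (nat_lit 562) (nat_lit 563) (nat_lit 1583) (nat_lit 593) (nat_lit 2606)))) (.f (nat_lit 495) (nat_lit 463) (nat_lit 7631) (.f (nat_lit 527) (nat_lit 624) (nat_lit 7663) (.f (nat_lit 526) (nat_lit 525) (nat_lit 525) (.d (nat_lit 497) (nat_lit 465) (nat_lit 6608) (nat_lit 498) (nat_lit 1518))))))) (.a (.p (nat_lit 559) (.a (.f (nat_lit 526) (nat_lit 525) (nat_lit 3597) (.f (nat_lit 527) (nat_lit 562) (nat_lit 3598) (.f (nat_lit 590) (nat_lit 589) (nat_lit 1581) (.d (nat_lit 622) (nat_lit 495) (nat_lit 6638) (nat_lit 654) (nat_lit 6670))))) (.a (.f (nat_lit 525) (nat_lit 526) (nat_lit 3597) (.f (nat_lit 557) (nat_lit 524) (nat_lit 3596) (.d (nat_lit 593) (nat_lit 592) (nat_lit 557) (nat_lit 594) (nat_lit 558)))) (.f (nat_lit 593) (nat_lit 594) (nat_lit 558) (.f (nat_lit 592) (nat_lit 557) (nat_lit 557) (.f (nat_lit 495) (nat_lit 463) (nat_lit 7631) (.f (nat_lit 624) (nat_lit 527) (nat_lit 7663) (.f (nat_lit 656) (nat_lit 688) (nat_lit 6704) (.d (nat_lit 655) (nat_lit 623) (nat_lit 5647) (nat_lit 687) (nat_lit 5679)))))))))) (.a (.p (nat_lit 559) (.a (.f (nat_lit 593) (nat_lit 594) (nat_lit 558) (.f (nat_lit 592) (nat_lit 557) (nat_lit 557) (.f (nat_lit 591) (nat_lit 623) (nat_lit 5615) (.d (nat_lit 590) (nat_lit 562) (nat_lit 2606) (nat_lit 589) (nat_lit 1581))))) (.a (.f (nat_lit 590) (nat_lit 589) (nat_lit 1581) (.f (nat_lit 562) (nat_lit 591) (nat_lit 1582) (.d (nat_lit 594) (nat_lit 593) (nat_lit 558) (nat_lit 595) (nat_lit 559)))) (.a (.f (nat_lit 593) (nat_lit 594) (nat_lit 558) (.f (nat_lit 592) (nat_lit 557) (nat_lit 557) (.f (nat_lit 495) (nat_lit 463) (nat_lit 7631) (.f (nat_lit 624) (nat_lit 527) (nat_lit 7663) (.f (nat_lit 656) (nat_lit 688) (nat_lit 6704) (.d (nat_lit 655) (nat_lit 623) (nat_lit 5647) (nat_lit 687) (nat_lit 5679))))))) (.f (nat_lit 590) (nat_lit 589) (nat_lit 1581) (.f (nat_lit 591) (nat_lit 562) (nat_lit 1582) (.d (nat_lit 623) (nat_lit 527) (nat_lit 6639) (nat_lit 592) (nat_lit 5615)))))))) (.a (.p (nat_lit 559) (.a (.f (nat_lit 526) (nat_lit 525) (nat_lit 3597) (.f (nat_lit 527) (nat_lit 562) (nat_lit 3598) (.f (nat_lit 590) (nat_lit 589) (nat_lit 1581) (.d (nat_lit 622) (nat_lit 495) (nat_lit 6638) (nat_lit 654) (nat_lit 6670))))) (.a (.f (nat_lit 525) (nat_lit 526) (nat_lit 3597) (.f (nat_lit 557) (nat_lit 524) (nat_lit 3596) (.d (nat_lit 593) (nat_lit 592) (nat_lit 557) (nat_lit 594) (nat_lit 558)))) (.f (nat_lit 590) (nat_lit 589) (nat_lit 1581) (.f (nat_lit 562) (nat_lit 591) (nat_lit 1582) (.d (nat_lit 594) (nat_lit 593) (nat_lit 558) (nat_lit 595) (nat_lit 559))))))) (.a (.p (nat_lit 592) (.a (.f (nat_lit 495) (nat_lit 463) (nat_lit 7631) (.f (nat_lit 527) (nat_lit 624) (nat_lit 7663) (.f (nat_lit 526) (nat_lit 525) (nat_lit 525) (.d (nat_lit 497) (nat_lit 465) (nat_lit 6608) (nat_lit 498) (nat_lit 1518))))) (.f (nat_lit 591) (nat_lit 623) (nat_lit 5615) (.f (nat_lit 590) (nat_lit 589) (nat_lit 2605) (.f (nat_lit 593) (nat_lit 557) (nat_lit 3629) (.f (nat_lit 594) (nat_lit 559) (nat_lit 3630) (.f (nat_lit 595) (nat_lit 596) (nat_lit 3632) (.d (nat_lit 627) (nat_lit 626) (nat_lit 591) (nat_lit 628) (nat_lit 592))))))))) (.a (.p (nat_lit 559) (.a (.f (nat_lit 525) (nat_lit 526) (nat_lit 3597) (.f (nat_lit 557) (nat_lit 524) (nat_lit 3596) (.d (nat_lit 593) (nat_lit 592) (nat_lit 557) (nat_lit 594) (nat_lit 558)))) (.a (.f (nat_lit 526) (nat_lit 525) (nat_lit 3597) (.f (nat_lit 562) (nat_lit 527) (nat_lit 3598) (.d (nat_lit 594) (nat_lit 593) (nat_lit 558) (nat_lit 595) (nat_lit 559)))) (.a (.f (nat_lit 593) (nat_lit 594) (nat_lit 558) (.f (nat_lit 592) (nat_lit 557) (nat_lit 557) (.f (nat_lit 495) (nat_lit 463) (nat_lit 7631) (.f (nat_lit 624) (nat_lit 527) (nat_lit 7663) (.f (nat_lit 656) (nat_lit 688) (nat_lit 6704) (.d (nat_lit 655) (nat_lit 623) (nat_lit 5647) (nat_lit 687) (nat_lit 5679))))))) (.a (.f (nat_lit 526) (nat_lit 525) (nat_lit 3597) (.f (nat_lit 562) (nat_lit 527) (nat_lit 3598) (.f (nat_lit 531) (nat_lit 530) (nat_lit 2575) (.f (nat_lit 563) (nat_lit 532) (nat_lit 2576) (.d (nat_lit 595) (nat_lit 594) (nat_lit 559) (nat_lit 596) (nat_lit 560)))))) (.f (nat_lit 526) (nat_lit 525) (nat_lit 3597) (.f (nat_lit 527) (nat_lit 562) (nat_lit 3598) (.f (nat_lit 591) (nat_lit 623) (nat_lit 6639) (.f (nat_lit 557) (nat_lit 556) (nat_lit 2572) (.f (nat_lit 592) (nat_lit 593) (nat_lit 557) (.d (nat_lit 495) (nat_lit 463) (nat_lit 4559) (nat_lit 624) (nat_lit 4591)))))))))))) (.p (nat_lit 559) (.a (.f (nat_lit 526) (nat_lit 525) (nat_lit 3597) (.f (nat_lit 527) (nat_lit 562) (nat_lit 3598) (.f (nat_lit 590) (nat_lit 589) (nat_lit 1581) (.d (nat_lit 622) (nat_lit 495) (nat_lit 6638) (nat_lit 654) (nat_lit 6670))))) (.a (.f (nat_lit 590) (nat_lit 589) (nat_lit 1581) (.f (nat_lit 526) (nat_lit 525) (nat_lit 3597) (.f (nat_lit 591) (nat_lit 562) (nat_lit 1582) (.d (nat_lit 494) (nat_lit 462) (nat_lit 4558) (nat_lit 623) (nat_lit 4590))))) (.a (.f (nat_lit 590) (nat_lit 589) (nat_lit 1581) (.f (nat_lit 591) (nat_lit 562) (nat_lit 1582) (.d (nat_lit 623) (nat_lit 527) (nat_lit 6639) (nat_lit 592) (nat_lit 5615)))) (.a (.f (nat_lit 525) (nat_lit 526) (nat_lit 3597) (.f (nat_lit 557) (nat_lit 524) (nat_lit 3596) (.d (nat_lit 589) (nat_lit 588) (nat_lit 1580) (nat_lit 590) (nat_lit 1581)))) (.f (nat_lit 526) (nat_lit 525) (nat_lit 3597) (.f (nat_lit 562) (nat_lit 527) (nat_lit 3598) (.f (nat_lit 531) (nat_lit 530) (nat_lit 2575) (.f (nat_lit 563) (nat_lit 532) (nat_lit 2576) (.d (nat_lit 595) (nat_lit 594) (nat_lit 559) (nat_lit 596) (nat_lit 560))))))))))))))))))))) (.a (.p (nat_lit 526) (.a (.p (nat_lit 525) (.a (.d (nat_lit 527) (nat_lit 497) (nat_lit 2541) (nat_lit 561) (nat_lit 525)) (.a (.f (nat_lit 559) (nat_lit 561) (nat_lit 3597) (.d (nat_lit 524) (nat_lit 523) (nat_lit 523) (nat_lit 557) (nat_lit 3596))) (.f (nat_lit 527) (nat_lit 497) (nat_lit 2541) (.d (nat_lit 524) (nat_lit 495) (nat_lit 2540) (nat_lit 559) (nat_lit 524)))))) (.a (.p (nat_lit 494) (.a (.p (nat_lit 559) (.a (.f (nat_lit 525) (nat_lit 561) (nat_lit 3597) (.d (nat_lit 524) (nat_lit 523) (nat_lit 523) (nat_lit 557) (nat_lit 3596))) (.a (.f (nat_lit 462) (nat_lit 591) (nat_lit 4558) (.f (nat_lit 557) (nat_lit 589) (nat_lit 5581) (.d (nat_lit 525) (nat_lit 430) (nat_lit 5549) (nat_lit 524) (nat_lit 3596)))) (.a (.f (nat_lit 462) (nat_lit 591) (nat_lit 4558) (.f (nat_lit 589) (nat_lit 557) (nat_lit 5581) (.d (nat_lit 590) (nat_lit 561) (nat_lit 1581) (nat_lit 621) (nat_lit 5613)))) (.f (nat_lit 591) (nat_lit 462) (nat_lit 4558) (.d (nat_lit 623) (nat_lit 590) (nat_lit 4590) (nat_lit 655) (nat_lit 6671))))))) (.a s46663 (.a s46665 (.a (.p (nat_lit 559) (.a (.f (nat_lit 591) (nat_lit 462) (nat_lit 4558) (.d (nat_lit 623) (nat_lit 590) (nat_lit 4590) (nat_lit 655) (nat_lit 6671))) (.f (nat_lit 525) (nat_lit 561) (nat_lit 3597) (.f (nat_lit 495) (nat_lit 497) (nat_lit 1517) (.d (nat_lit 524) (nat_lit 493) (nat_lit 1516) (nat_lit 523) (nat_lit 523)))))) (.a (.p (nat_lit 559) (.a (.f (nat_lit 525) (nat_lit 561) (nat_lit 3597) (.d (nat_lit 524) (nat_lit 523) (nat_lit 523) (nat_lit 557) (nat_lit 3596))) (.a (.f (nat_lit 462) (nat_lit 591) (nat_lit 4558) (.f (nat_lit 557) (nat_lit 589) (nat_lit 5581) (.d (nat_lit 525) (nat_lit 430) (nat_lit 5549) (nat_lit 524) (nat_lit 3596)))) (.f (nat_lit 462) (nat_lit 591) (nat_lit 4558) (.f (nat_lit 461) (nat_lit 429) (nat_lit 7597) (.f (nat_lit 495) (nat_lit 497) (nat_lit 3533) (.d (nat_lit 460) (nat_lit 459) (nat_lit 459) (nat_lit 493) (nat_lit 3532)))))))) (.p (nat_lit 590) (.a (.f (nat_lit 495) (nat_lit 463) (nat_lit 6606) (.f (nat_lit 525) (nat_lit 497) (nat_lit 1517) (.d (nat_lit 493) (nat_lit 461) (nat_lit 7629) (nat_lit 524) (nat_lit 1516)))) (.f (nat_lit 589) (nat_lit 621) (nat_lit 5613) (.f (nat_lit 559) (nat_lit 561) (nat_lit 1581) (.d (nat_lit 588) (nat_lit 557) (nat_lit 1580) (nat_lit 587) (nat_lit 2603)))))))))))) (.a (.p (nat_lit 494) (.a s46663 (.a (.p (nat_lit 590) (.a (.f (nat_lit 589) (nat_lit 621) (nat_lit 5613) (.f (nat_lit 462) (nat_lit 557) (nat_lit 5581) (.d (nat_lit 461) (nat_lit 429) (nat_lit 7597) (nat_lit 493) (nat_lit 7629)))) (.a (.f (nat_lit 493) (nat_lit 461) (nat_lit 7629) (.f (nat_lit 525) (nat_lit 622) (nat_lit 7661) (.d (nat_lit 527) (nat_lit 492) (nat_lit 3564) (nat_lit 561) (nat_lit 525)))) (.a (.f (nat_lit 589) (nat_lit 621) (nat_lit 5613) (.f (nat_lit 462) (nat_lit 557) (nat_lit 5581) (.f (nat_lit 429) (nat_lit 461) (nat_lit 7597) (.f (nat_lit 430) (nat_lit 397) (nat_lit 7565) (.d (nat_lit 431) (nat_lit 399) (nat_lit 6542) (nat_lit 463) (nat_lit 6574)))))) (.f (nat_lit 589) (nat_lit 621) (nat_lit 5613) (.f (nat_lit 557) (nat_lit 462) (nat_lit 5581) (.f (nat_lit 591) (nat_lit 623) (nat_lit 4590) (.f (nat_lit 556) (nat_lit 555) (nat_lit 555) (.f (nat_lit 525) (nat_lit 527) (nat_lit 1548) (.d (nat_lit 622) (nat_lit 493) (nat_lit 7661) (nat_lit 654) (nat_lit 7693))))))))))) (.a s46693 (.a (.p (nat_lit 590) (.a (.f (nat_lit 589) (nat_lit 621) (nat_lit 5613) (.f (nat_lit 462) (nat_lit 557) (nat_lit 5581) (.d (nat_lit 461) (nat_lit 429) (nat_lit 7597) (nat_lit 493) (nat_lit 7629)))) (.a (.f (nat_lit 493) (nat_lit 461) (nat_lit 7629) (.f (nat_lit 525) (nat_lit 622) (nat_lit 7661) (.d (nat_lit 527) (nat_lit 492) (nat_lit 3564) (nat_lit 561) (nat_lit 525)))) (.f (nat_lit 589) (nat_lit 621) (nat_lit 5613) (.f (nat_lit 557) (nat_lit 462) (nat_lit 5581) (.f (nat_lit 623) (nat_lit 591) (nat_lit 4590) (.f (nat_lit 622) (nat_lit 655) (nat_lit 4622) (.d (nat_lit 654) (nat_lit 525) (nat_lit 7693) (nat_lit 686) (nat_lit 7725))))))))) (.a s46700 (.a (.p (nat_lit 525) (.a (.d (nat_lit 527) (nat_lit 497) (nat_lit 2541) (nat_lit 561) (nat_lit 525)) (.a (.f (nat_lit 495) (nat_lit 497) (nat_lit 1517) (.d (nat_lit 524) (nat_lit 493) (nat_lit 1516) (nat_lit 523) (nat_lit 2539))) (.f (nat_lit 527) (nat_lit 561) (nat_lit 525) (.f (nat_lit 495) (nat_lit 524) (nat_lit 2540) (.f (nat_lit 493) (nat_lit 492) (nat_lit 3564) (.d (nat_lit 461) (nat_lit 429) (nat_lit 4525) (nat_lit 460) (nat_lit 3532)))))))) (.a (.p (nat_lit 590) (.a (.f (nat_lit 495) (nat_lit 463) (nat_lit 6606) (.f (nat_lit 497) (nat_lit 525) (nat_lit 1517) (.f (nat_lit 462) (nat_lit 461) (nat_lit 3533) (.d (nat_lit 589) (nat_lit 557) (nat_lit 5581) (nat_lit 621) (nat_lit 5613))))) (.a (.f (nat_lit 589) (nat_lit 621) (nat_lit 5613) (.f (nat_lit 462) (nat_lit 557) (nat_lit 5581) (.f (nat_lit 429) (nat_lit 461) (nat_lit 7597) (.f (nat_lit 430) (nat_lit 397) (nat_lit 7565) (.d (nat_lit 431) (nat_lit 399) (nat_lit 6542) (nat_lit 463) (nat_lit 6574)))))) (.a (.f (nat_lit 589) (nat_lit 621) (nat_lit 5613) (.f (nat_lit 557) (nat_lit 462) (nat_lit 5581) (.f (nat_lit 623) (nat_lit 591) (nat_lit 4590) (.f (nat_lit 622) (nat_lit 655) (nat_lit 4622) (.d (nat_lit 654) (nat_lit 525) (nat_lit 7693) (nat_lit 686) (nat_lit 7725)))))) (.a (.f (nat_lit 495) (nat_lit 463) (nat_lit 6606) (.f (nat_lit 622) (nat_lit 527) (nat_lit 6638) (.d (nat_lit 621) (nat_lit 589) (nat_lit 5613) (nat_lit 653) (nat_lit 5645)))) (.f (nat_lit 495) (nat_lit 463) (nat_lit 6606) (.f (nat_lit 527) (nat_lit 622) (nat_lit 6638) (.d (nat_lit 525) (nat_lit 497) (nat_lit 1517) (nat_lit 561) (nat_lit 525))))))))) s46710)))))))) (.a (.p (nat_lit 494) (.a s46663 (.a (.p (nat_lit 590) (.a (.f (nat_lit 589) (nat_lit 621) (nat_lit 5613) (.f (nat_lit 462) (nat_lit 557) (nat_lit 5581) (.d (nat_lit 461) (nat_lit 429) (nat_lit 7597) (nat_lit 493) (nat_lit 7629)))) (.a (.f (nat_lit 591) (nat_lit 623) (nat_lit 4590) (.f (nat_lit 559) (nat_lit 462) (nat_lit 4558) (.d (nat_lit 589) (nat_lit 588) (nat_lit 2604) (nat_lit 621) (nat_lit 5613)))) (.a (.f (nat_lit 591) (nat_lit 623) (nat_lit 4590) (.f (nat_lit 462) (nat_lit 559) (nat_lit 4558) (.d (nat_lit 461) (nat_lit 429) (nat_lit 7597) (nat_lit 493) (nat_lit 7629)))) (.f (nat_lit 493) (nat_lit 461) (nat_lit 7629) (.f (nat_lit 525) (nat_lit 622) (nat_lit 7661) (.d (nat_lit 527) (nat_lit 492) (nat_lit 3564) (nat_lit 497) (nat_lit 2541)))))))) (.a s46693 (.a (.p (nat_lit 590) (.a (.f (nat_lit 495) (nat_lit 463) (nat_lit 6606) (.f (nat_lit 525) (nat_lit 497) (nat_lit 1517) (.d (nat_lit 493) (nat_lit 461) (nat_lit 7629) (nat_lit 524) (nat_lit 1516)))) (.f (nat_lit 591) (nat_lit 623) (nat_lit 4590) (.f (nat_lit 559) (nat_lit 462) (nat_lit 4558) (.d (nat_lit 589) (nat_lit 588) (nat_lit 2604) (nat_lit 621) (nat_lit 5613)))))) (.a (.p (nat_lit 462) (.a (.f (nat_lit 559) (nat_lit 591) (nat_lit 4558) (.f (nat_lit 527) (nat_lit 430) (nat_lit 4526) (.d (nat_lit 525) (nat_lit 497) (nat_lit 2541) (nat_lit 524) (nat_lit 524)))) (.a (.f (nat_lit 461) (nat_lit 429) (nat_lit 7597) (.f (nat_lit 495) (nat_lit 497) (nat_lit 3533) (.d (nat_lit 460) (nat_lit 459) (nat_lit 459) (nat_lit 493) (nat_lit 3532)))) (.f (nat_lit 559) (nat_lit 591) (nat_lit 4558) (.f (nat_lit 557) (nat_lit 589) (nat_lit 5581) (.d (nat_lit 430) (nat_lit 525) (nat_lit 5549) (nat_lit 527) (nat_lit 4526))))))) (.a (.p (nat_lit 590) (.a (.f (nat_lit 589) (nat_lit 621) (nat_lit 5613) (.f (nat_lit 462) (nat_lit 557) (nat_lit 5581) (.d (nat_lit 461) (nat_lit 429) (nat_lit 7597) (nat_lit 493) (nat_lit 7629)))) (.a (.f (nat_lit 591) (nat_lit 623) (nat_lit 4590) (.f (nat_lit 559) (nat_lit 462) (nat_lit 4558) (.d (nat_lit 589) (nat_lit 588) (nat_lit 2604) (nat_lit 621) (nat_lit 5613)))) (.a (.f (nat_lit 591) (nat_lit 623) (nat_lit 4590) (.f (nat_lit 462) (nat_lit 559) (nat_lit 4558) (.d (nat_lit 463) (nat_lit 431) (nat_lit 6574) (nat_lit 495) (nat_lit 6606)))) (.f (nat_lit 495) (nat_lit 463) (nat_lit 6606) (.f (nat_lit 493) (nat_lit 461) (nat_lit 7629) (.d (nat_lit 527) (nat_lit 492) (nat_lit 492) (nat_lit 622) (nat_lit 6638)))))))) (.a (.p (nat_lit 590) (.a (.f (nat_lit 495) (nat_lit 463) (nat_lit 6606) (.f (nat_lit 525) (nat_lit 497) (nat_lit 1517) (.d (nat_lit 493) (nat_lit 461) (nat_lit 7629) (nat_lit 524) (nat_lit 1516)))) (.a (.f (nat_lit 591) (nat_lit 623) (nat_lit 4590) (.f (nat_lit 462) (nat_lit 559) (nat_lit 4558) (.d (nat_lit 461) (nat_lit 429) (nat_lit 7597) (nat_lit 493) (nat_lit 7629)))) (.f (nat_lit 591) (nat_lit 623) (nat_lit 4590) (.f (nat_lit 462) (nat_lit 559) (nat_lit 4558) (.d (nat_lit 463) (nat_lit 431) (nat_lit 6574) (nat_lit 495) (nat_lit 6606))))))) (.a s46726 (.a (.p (nat_lit 590) (.a (.f (nat_lit 495) (nat_lit 463) (nat_lit 6606) (.f (nat_lit 497) (nat_lit 525) (nat_lit 1517) (.f (nat_lit 462) (nat_lit 461) (nat_lit 3533) (.d (nat_lit 589) (nat_lit 557) (nat_lit 5581) (nat_lit 621) (nat_lit 5613))))) (.a (.f (nat_lit 591) (nat_lit 623) (nat_lit 4590) (.f (nat_lit 559) (nat_lit 462) (nat_lit 4558) (.d (nat_lit 589) (nat_lit 588) (nat_lit 2604) (nat_lit 621) (nat_lit 5613)))) (.a (.f (nat_lit 591) (nat_lit 623) (nat_lit 4590) (.f (nat_lit 462) (nat_lit 559) (nat_lit 4558) (.d (nat_lit 463) (nat_lit 431) (nat_lit 6574) (nat_lit 495) (nat_lit 6606)))) (.f (nat_lit 495) (nat_lit 463) (nat_lit 6606) (.f (nat_lit 622) (nat_lit 527) (nat_lit 6638) (.d (nat_lit 621) (nat_lit 589) (nat_lit 5613) (nat_lit 653) (nat_lit 5645)))))))) s46710)))))))))) (.a (.p (nat_lit 525) (.a (.d (nat_lit 527) (nat_lit 497) (nat_lit 2541) (nat_lit 561) (nat_lit 525)) (.a (.f (nat_lit 559) (nat_lit 561) (nat_lit 3597) (.d (nat_lit 524) (nat_lit 523) (nat_lit 523) (nat_lit 557) (nat_lit 3596))) (.f (nat_lit 527) (nat_lit 497) (nat_lit 2541) (.f (nat_lit 559) (nat_lit 524) (nat_lit 524) (.f (nat_lit 557) (nat_lit 556) (nat_lit 1548) (.f (nat_lit 589) (nat_lit 588) (nat_lit 1580) (.d (nat_lit 494) (nat_lit 462) (nat_lit 5581) (nat_lit 621) (nat_lit 6637))))))))) (.a (.p (nat_lit 494) (.a s46665 (.a s46693 (.a (.p (nat_lit 590) (.a (.f (nat_lit 589) (nat_lit 621) (nat_lit 5613) (.f (nat_lit 462) (nat_lit 557) (nat_lit 5581) (.d (nat_lit 461) (nat_lit 429) (nat_lit 7597) (nat_lit 493) (nat_lit 7629)))) (.a (.f (nat_lit 591) (nat_lit 623) (nat_lit 4590) (.f (nat_lit 559) (nat_lit 462) (nat_lit 4558) (.d (nat_lit 589) (nat_lit 588) (nat_lit 2604) (nat_lit 621) (nat_lit 5613)))) (.a (.f (nat_lit 591) (nat_lit 623) (nat_lit 4590) (.f (nat_lit 462) (nat_lit 559) (nat_lit 4558) (.d (nat_lit 461) (nat_lit 429) (nat_lit 7597) (nat_lit 493) (nat_lit 7629)))) (.f (nat_lit 589) (nat_lit 621) (nat_lit 5613) (.f (nat_lit 559) (nat_lit 561) (nat_lit 1581) (.d (nat_lit 588) (nat_lit 557) (nat_lit 1580) (nat_lit 587) (nat_lit 2603)))))))) (.a (.p (nat_lit 590) (.a (.f (nat_lit 591) (nat_lit 623) (nat_lit 4590) (.f (nat_lit 559) (nat_lit 462) (nat_lit 4558) (.d (nat_lit 589) (nat_lit 588) (nat_lit 2604) (nat_lit 621) (nat_lit 5613)))) (.a (.f (nat_lit 495) (nat_lit 463) (nat_lit 6606) (.f (nat_lit 461) (nat_lit 493) (nat_lit 7629) (.d (nat_lit 462) (nat_lit 429) (nat_lit 7597) (nat_lit 497) (nat_lit 3533)))) (.f (nat_lit 495) (nat_lit 463) (nat_lit 6606) (.f (nat_lit 493) (nat_lit 461) (nat_lit 7629) (.d (nat_lit 527) (nat_lit 492) (nat_lit 492) (nat_lit 622) (nat_lit 6638))))))) (.a (.p (nat_lit 462) (.a (.f (nat_lit 461) (nat_lit 429) (nat_lit 7597) (.f (nat_lit 495) (nat_lit 497) (nat_lit 3533) (.d (nat_lit 460) (nat_lit 459) (nat_lit 459) (nat_lit 493) (nat_lit 3532)))) (.f (nat_lit 559) (nat_lit 591) (nat_lit 4558) (.f (nat_lit 527) (nat_lit 430) (nat_lit 4526) (.d (nat_lit 557) (nat_lit 556) (nat_lit 2572) (nat_lit 589) (nat_lit 5581)))))) (.a (.p (nat_lit 590) (.a (.f (nat_lit 591) (nat_lit 623) (nat_lit 4590) (.f (nat_lit 462) (nat_lit 559) (nat_lit 4558) (.d (nat_lit 463) (nat_lit 431) (nat_lit 6574) (nat_lit 495) (nat_lit 6606)))) (.a (.f (nat_lit 495) (nat_lit 463) (nat_lit 6606) (.f (nat_lit 461) (nat_lit 493) (nat_lit 7629) (.d (nat_lit 462) (nat_lit 429) (nat_lit 7597) (nat_lit 497) (nat_lit 3533)))) (.a (.f (nat_lit 591) (nat_lit 623) (nat_lit 4590) (.f (nat_lit 462) (nat_lit 559) (nat_lit 4558) (.d (nat_lit 461) (nat_lit 429) (nat_lit 7597) (nat_lit 493) (nat_lit 7629)))) (.f (nat_lit 495) (nat_lit 463) (nat_lit 6606) (.f (nat_lit 493) (nat_lit 461) (nat_lit 7629) (.d (nat_lit 527) (nat_lit 492) (nat_lit 492) (nat_lit 622) (nat_lit 6638)))))))) (.a (.p (nat_lit 590) (.a (.f (nat_lit 589) (nat_lit 621) (nat_lit 5613) (.f (nat_lit 559) (nat_lit 561) (nat_lit 1581) (.d (nat_lit 588) (nat_lit 557) (nat_lit 1580) (nat_lit 587) (nat_lit 2603)))) (.f (nat_lit 495) (nat_lit 463) (nat_lit 6606) (.f (nat_lit 493) (nat_lit 461) (nat_lit 7629) (.d (nat_lit 527) (nat_lit 492) (nat_lit 492) (nat_lit 622) (nat_lit 6638)))))) (.a (.p (nat_lit 590) (.a (.f (nat_lit 591) (nat_lit 623) (nat_lit 4590) (.f (nat_lit 559) (nat_lit 462) (nat_lit 4558) (.d (nat_lit 589) (nat_lit 588) (nat_lit 2604) (nat_lit 621) (nat_lit 5613)))) (.a (.f (nat_lit 589) (nat_lit 621) (nat_lit 5613) (.f (nat_lit 462) (nat_lit 557) (nat_lit 5581) (.f (nat_lit 429) (nat_lit 461) (nat_lit 7597) (.f (nat_lit 430) (nat_lit 397) (nat_lit 7565) (.d (nat_lit 431) (nat_lit 399) (nat_lit 6542) (nat_lit 463) (nat_lit 6574)))))) (.a (.f (nat_lit 591) (nat_lit 623) (nat_lit 4590) (.f (nat_lit 462) (nat_lit 559) (nat_lit 4558) (.d (nat_lit 463) (nat_lit 431) (nat_lit 6574) (nat_lit 495) (nat_lit 6606)))) (.f (nat_lit 589) (nat_lit 621) (nat_lit 5613) (.f (nat_lit 559) (nat_lit 561) (nat_lit 1581) (.d (nat_lit 588) (nat_lit 557) (nat_lit 1580) (nat_lit 587) (nat_lit 2603)))))))) (.p (nat_lit 590) (.a (.f (nat_lit 591) (nat_lit 623) (nat_lit 4590) (.f (nat_lit 559) (nat_lit 462) (nat_lit 4558) (.d (nat_lit 589) (nat_lit 588) (nat_lit 2604) (nat_lit 621) (nat_lit 5613)))) (.a (.f (nat_lit 495) (nat_lit 463) (nat_lit 6606) (.f (nat_lit 622) (nat_lit 527) (nat_lit 6638) (.d (nat_lit 621) (nat_lit 589) (nat_lit 5613) (nat_lit 653) (nat_lit 5645)))) (.f (nat_lit 591) (nat_lit 623) (nat_lit 4590) (.f (nat_lit 462) (nat_lit 559) (nat_lit 4558) (.d (nat_lit 463) (nat_lit 431) (nat_lit 6574) (nat_lit 495) (nat_lit 6606)))))))))))))))) (.a (.p (nat_lit 494) (.a (.p (nat_lit 559) (.a (.f (nat_lit 591) (nat_lit 462) (nat_lit 4558) (.d (nat_lit 623) (nat_lit 590) (nat_lit 4590) (nat_lit 655) (nat_lit 6671))) (.f (nat_lit 525) (nat_lit 561) (nat_lit 3597) (.f (nat_lit 495) (nat_lit 497) (nat_lit 1517) (.d (nat_lit 524) (nat_lit 493) (nat_lit 1516) (nat_lit 523) (nat_lit 523)))))) (.a s46700 (.a (.p (nat_lit 590) (.a (.f (nat_lit 495) (nat_lit 463) (nat_lit 6606) (.f (nat_lit 525) (nat_lit 497) (nat_lit 1517) (.d (nat_lit 493) (nat_lit 461) (nat_lit 7629) (nat_lit 524) (nat_lit 1516)))) (.f (nat_lit 591) (nat_lit 623) (nat_lit 4590) (.f (nat_lit 559) (nat_lit 462) (nat_lit 4558) (.d (nat_lit 589) (nat_lit 588) (nat_lit 2604) (nat_lit 621) (nat_lit 5613)))))) (.a (.p (nat_lit 559) (.a (.f (nat_lit 462) (nat_lit 591) (nat_lit 4558) (.f (nat_lit 527) (nat_lit 430) (nat_lit 4526) (.d (nat_lit 525) (nat_lit 497) (nat_lit 2541) (nat_lit 524) (nat_lit 524)))) (.a (.f (nat_lit 591) (nat_lit 462) (nat_lit 4558) (.d (nat_lit 623) (nat_lit 590) (nat_lit 4590) (nat_lit 655) (nat_lit 6671))) (.f (nat_lit 525) (nat_lit 561) (nat_lit 3597) (.d (nat_lit 524) (nat_lit 523) (nat_lit 523) (nat_lit 527) (nat_lit 524)))))) (.a (.p (nat_lit 590) (.a (.f (nat_lit 591) (nat_lit 623) (nat_lit 4590) (.f (nat_lit 559) (nat_lit 462) (nat_lit 4558) (.d (nat_lit 589) (nat_lit 588) (nat_lit 2604) (nat_lit 621) (nat_lit 5613)))) (.a (.f (nat_lit 495) (nat_lit 463) (nat_lit 6606) (.f (nat_lit 461) (nat_lit 493) (nat_lit 7629) (.d (nat_lit 462) (nat_lit 429) (nat_lit 7597) (nat_lit 497) (nat_lit 3533)))) (.f (nat_lit 495) (nat_lit 463) (nat_lit 6606) (.f (nat_lit 493) (nat_lit 461) (nat_lit 7629) (.d (nat_lit 527) (nat_lit 492) (nat_lit 492) (nat_lit 622) (nat_lit 6638))))))) (.a (.p (nat_lit 525) (.a (.d (nat_lit 527) (nat_lit 497) (nat_lit 2541) (nat_lit 561) (nat_lit 525)) (.a (.f (nat_lit 495) (nat_lit 497) (nat_lit 1517) (.d (nat_lit 524) (nat_lit 493) (nat_lit 1516) (nat_lit 523) (nat_lit 2539))) (.f (nat_lit 527) (nat_lit 561) (nat_lit 525) (.f (nat_lit 495) (nat_lit 524) (nat_lit 2540) (.f (nat_lit 493) (nat_lit 492) (nat_lit 3564) (.d (nat_lit 461) (nat_lit 429) (nat_lit 4525) (nat_lit 460) (nat_lit 3532)))))))) (.p (nat_lit 590) (.a (.f (nat_lit 591) (nat_lit 623) (nat_lit 4590) (.f (nat_lit 559) (nat_lit 462) (nat_lit 4558) (.d (nat_lit 589) (nat_lit 588) (nat_lit 2604) (nat_lit 621) (nat_lit 5613)))) (.a (.f (nat_lit 495) (nat_lit 463) (nat_lit 6606) (.f (nat_lit 622) (nat_lit 527) (nat_lit 6638) (.d (nat_lit 621) (nat_lit 589) (nat_lit 5613) (nat_lit 653) (nat_lit 5645)))) (.f (nat_lit 591) (nat_lit 623) (nat_lit 4590) (.f (nat_lit 462) (nat_lit 559) (nat_lit 4558) (.d (nat_lit 463) (nat_lit 431) (nat_lit 6574) (nat_lit 495) (nat_lit 6606)))))))))))))) (.p (nat_lit 559) (.a (.f (nat_lit 525) (nat_lit 561) (nat_lit 3597) (.d (nat_lit 524) (nat_lit 523) (nat_lit 523) (nat_lit 557) (nat_lit 3596))) (.a (.p (nat_lit 557) (.a (.f (nat_lit 527) (nat_lit 556) (nat_lit 2572) (.f (nat_lit 591) (nat_lit 623) (nat_lit 6639) (.f (nat_lit 494) (nat_lit 462) (nat_lit 4558) (.f (nat_lit 589) (nat_lit 588) (nat_lit 1580) (.d (nat_lit 621) (nat_lit 590) (nat_lit 5613) (nat_lit 653) (nat_lit 6669)))))) (.a (.f (nat_lit 589) (nat_lit 588) (nat_lit 1580) (.f (nat_lit 525) (nat_lit 524) (nat_lit 3596) (.d (nat_lit 494) (nat_lit 462) (nat_lit 5581) (nat_lit 621) (nat_lit 6637)))) (.a (.f (nat_lit 556) (nat_lit 527) (nat_lit 2572) (.d (nat_lit 588) (nat_lit 587) (nat_lit 1579) (nat_lit 589) (nat_lit 1580))) (.a (.f (nat_lit 556) (nat_lit 527) (nat_lit 2572) (.f (nat_lit 523) (nat_lit 524) (nat_lit 3595) (.f (nat_lit 555) (nat_lit 522) (nat_lit 3594) (.d (nat_lit 587) (nat_lit 586) (nat_lit 1578) (nat_lit 588) (nat_lit 1579))))) (.f (nat_lit 527) (nat_lit 556) (nat_lit 2572) (.f (nat_lit 525) (nat_lit 524) (nat_lit 3596) (.f (nat_lit 493) (nat_lit 492) (nat_lit 3564) (.d (nat_lit 461) (nat_lit 429) (nat_lit 4525) (nat_lit 590) (nat_lit 4557)))))))))) (.a (.p (nat_lit 557) (.a (.f (nat_lit 527) (nat_lit 556) (nat_lit 2572) (.f (nat_lit 589) (nat_lit 588) (nat_lit 1580) (.d (nat_lit 561) (nat_lit 562) (nat_lit 3598) (nat_lit 590) (nat_lit 1581)))) (.a (.f (nat_lit 589) (nat_lit 588) (nat_lit 1580) (.f (nat_lit 590) (nat_lit 561) (nat_lit 1581) (.d (nat_lit 494) (nat_lit 462) (nat_lit 5581) (nat_lit 621) (nat_lit 5613)))) (.a (.f (nat_lit 527) (nat_lit 556) (nat_lit 2572) (.f (nat_lit 591) (nat_lit 623) (nat_lit 6639) (.f (nat_lit 494) (nat_lit 462) (nat_lit 4558) (.f (nat_lit 589) (nat_lit 588) (nat_lit 1580) (.d (nat_lit 621) (nat_lit 590) (nat_lit 5613) (nat_lit 653) (nat_lit 6669)))))) (.a (.f (nat_lit 556) (nat_lit 527) (nat_lit 2572) (.d (nat_lit 588) (nat_lit 587) (nat_lit 1579) (nat_lit 589) (nat_lit 1580))) (.a (.f (nat_lit 556) (nat_lit 527) (nat_lit 2572) (.f (nat_lit 523) (nat_lit 524) (nat_lit 3595) (.f (nat_lit 555) (nat_lit 522) (nat_lit 3594) (.d (nat_lit 587) (nat_lit 586) (nat_lit 1578) (nat_lit 588) (nat_lit 1579))))) (.f (nat_lit 527) (nat_lit 556) (nat_lit 2572) (.f (nat_lit 591) (nat_lit 623) (nat_lit 6639) (.f (nat_lit 561) (nat_lit 562) (nat_lit 3598) (.f (nat_lit 590) (nat_lit 589) (nat_lit 1581) (.d (nat_lit 495) (nat_lit 463) (nat_lit 5582) (nat_lit 622) (nat_lit 5614)))))))))))) (.a (.f (nat_lit 525) (nat_lit 561) (nat_lit 3597) (.d (nat_lit 524) (nat_lit 523) (nat_lit 523) (nat_lit 527) (nat_lit 524))) (.f (nat_lit 561) (nat_lit 525) (nat_lit 3597) (.f (nat_lit 590) (nat_lit 589) (nat_lit 1581) (.f (nat_lit 591) (nat_lit 562) (nat_lit 1582) (.d (nat_lit 494) (nat_lit 462) (nat_lit 4558) (nat_lit 623) (nat_lit 4590)))))))))))))))))) (.a (.p (nat_lit 559) (.a s46777 (.a (.p (nat_lit 526) (.a (.f (nat_lit 525) (nat_lit 561) (nat_lit 3597) (.d (nat_lit 524) (nat_lit 523) (nat_lit 523) (nat_lit 557) (nat_lit 3596))) (.a (.p (nat_lit 494) (.a (.f (nat_lit 462) (nat_lit 591) (nat_lit 4558) (.f (nat_lit 557) (nat_lit 589) (nat_lit 5581) (.d (nat_lit 525) (nat_lit 430) (nat_lit 5549) (nat_lit 524) (nat_lit 3596)))) (.a (.p (nat_lit 590) (.a (.f (nat_lit 589) (nat_lit 621) (nat_lit 5613) (.d (nat_lit 557) (nat_lit 462) (nat_lit 5581) (nat_lit 588) (nat_lit 1580))) (.f (nat_lit 495) (nat_lit 463) (nat_lit 6606) (.f (nat_lit 525) (nat_lit 497) (nat_lit 1517) (.d (nat_lit 493) (nat_lit 461) (nat_lit 7629) (nat_lit 524) (nat_lit 1516)))))) (.a (.f (nat_lit 591) (nat_lit 462) (nat_lit 4558) (.d (nat_lit 623) (nat_lit 590) (nat_lit 4590) (nat_lit 655) (nat_lit 6671))) (.p (nat_lit 590) (.a (.f (nat_lit 495) (nat_lit 463) (nat_lit 6606) (.f (nat_lit 525) (nat_lit 497) (nat_lit 1517) (.d (nat_lit 493) (nat_lit 461) (nat_lit 7629) (nat_lit 524) (nat_lit 1516)))) (.f (nat_lit 591) (nat_lit 623) (nat_lit 4590) (.d (nat_lit 589) (nat_lit 588) (nat_lit 2604) (nat_lit 621) (nat_lit 5613))))))))) (.a (.p (nat_lit 590) (.a (.f (nat_lit 589) (nat_lit 561) (nat_lit 1581) (.d (nat_lit 588) (nat_lit 557) (nat_lit 1580) (nat_lit 587) (nat_lit 2603))) (.a (.p (nat_lit 494) (.a (.f (nat_lit 589) (nat_lit 621) (nat_lit 5613) (.d (nat_lit 557) (nat_lit 462) (nat_lit 5581) (nat_lit 588) (nat_lit 1580))) (.a (.f (nat_lit 591) (nat_lit 623) (nat_lit 4590) (.d (nat_lit 589) (nat_lit 588) (nat_lit 2604) (nat_lit 621) (nat_lit 5613))) (.f (nat_lit 461) (nat_lit 493) (nat_lit 7629) (.f (nat_lit 462) (nat_lit 429) (nat_lit 7597) (.d (nat_lit 463) (nat_lit 431) (nat_lit 6574) (nat_lit 495) (nat_lit 6606))))))) (.a (.f (nat_lit 589) (nat_lit 561) (nat_lit 1581) (.d (nat_lit 588) (nat_lit 587) (nat_lit 2603) (nat_lit 591) (nat_lit 2604))) s46797)))) (.f (nat_lit 561) (nat_lit 525) (nat_lit 3597) (.f (nat_lit 590) (nat_lit 589) (nat_lit 1581) (.f (nat_lit 591) (nat_lit 562) (nat_lit 1582) (.d (nat_lit 494) (nat_lit 462) (nat_lit 4558) (nat_lit 623) (nat_lit 4590))))))))) (.a s46805 (.a s46806 (.a s46807 (.a s46809 (.a (.p (nat_lit 526) (.a (.f (nat_lit 561) (nat_lit 525) (nat_lit 3597) (.f (nat_lit 590) (nat_lit 589) (nat_lit 1581) (.f (nat_lit 591) (nat_lit 562) (nat_lit 1582) (.d (nat_lit 494) (nat_lit 462) (nat_lit 4558) (nat_lit 623) (nat_lit 4590))))) (.a (.p (nat_lit 494) (.a (.f (nat_lit 591) (nat_lit 462) (nat_lit 4558) (.d (nat_lit 623) (nat_lit 590) (nat_lit 4590) (nat_lit 655) (nat_lit 6671))) (.a s46810 (.a (.f (nat_lit 462) (nat_lit 591) (nat_lit 4558) (.f (nat_lit 461) (nat_lit 429) (nat_lit 7597) (.f (nat_lit 495) (nat_lit 497) (nat_lit 3533) (.d (nat_lit 460) (nat_lit 459) (nat_lit 459) (nat_lit 493) (nat_lit 3532))))) (.p (nat_lit 590) (.a (.f (nat_lit 495) (nat_lit 463) (nat_lit 6606) (.f (nat_lit 525) (nat_lit 497) (nat_lit 1517) (.d (nat_lit 493) (nat_lit 461) (nat_lit 7629) (nat_lit 524) (nat_lit 1516)))) (.f (nat_lit 591) (nat_lit 623) (nat_lit 4590) (.d (nat_lit 589) (nat_lit 588) (nat_lit 2604) (nat_lit 621) (nat_lit 5613))))))))) (.a (.p (nat_lit 494) (.a (.f (nat_lit 525) (nat_lit 561) (nat_lit 3597) (.f (nat_lit 495) (nat_lit 497) (nat_lit 1517) (.d (nat_lit 524) (nat_lit 493) (nat_lit 1516) (nat_lit 523) (nat_lit 523)))) (.a s46810 (.a (.p (nat_lit 590) (.a (.d (nat_lit 589) (nat_lit 561) (nat_lit 1581) (nat_lit 621) (nat_lit 5613)) (.a (.f (nat_lit 493) (nat_lit 461) (nat_lit 7629) (.f (nat_lit 622) (nat_lit 525) (nat_lit 7661) (.d (nat_lit 621) (nat_lit 589) (nat_lit 5613) (nat_lit 653) (nat_lit 5645)))) (.f (nat_lit 525) (nat_lit 561) (nat_lit 3597) (.d (nat_lit 493) (nat_lit 461) (nat_lit 7629) (nat_lit 622) (nat_lit 7661)))))) (.a (.p (nat_lit 590) (.a (.d (nat_lit 589) (nat_lit 561) (nat_lit 1581) (nat_lit 621) (nat_lit 5613)) (.f (nat_lit 461) (nat_lit 493) (nat_lit 7629) (.f (nat_lit 462) (nat_lit 429) (nat_lit 7597) (.d (nat_lit 463) (nat_lit 431) (nat_lit 6574) (nat_lit 495) (nat_lit 6606)))))) (.f (nat_lit 525) (nat_lit 561) (nat_lit 3597) (.f (nat_lit 495) (nat_lit 497) (nat_lit 1517) (.d (nat_lit 463) (nat_lit 590) (nat_lit 6606) (nat_lit 592) (nat_lit 7631))))))))) (.a (.p (nat_lit 590) (.a (.f (nat_lit 589) (nat_lit 561) (nat_lit 1581) (.d (nat_lit 588) (nat_lit 587) (nat_lit 2603) (nat_lit 591) (nat_lit 2604))) (.a s46797 (.f (nat_lit 589) (nat_lit 561) (nat_lit 1581) (.f (nat_lit 494) (nat_lit 621) (nat_lit 5613) (.f (nat_lit 495) (nat_lit 463) (nat_lit 6606) (.f (nat_lit 461) (nat_lit 493) (nat_lit 7629) (.d (nat_lit 462) (nat_lit 429) (nat_lit 7597) (nat_lit 497) (nat_lit 3533))))))))) (.a (.p (nat_lit 494) (.a (.f (nat_lit 525) (nat_lit 561) (nat_lit 3597) (.f (nat_lit 495) (nat_lit 497) (nat_lit 1517) (.d (nat_lit 524) (nat_lit 493) (nat_lit 1516) (nat_lit 523) (nat_lit 523)))) (.a (.f (nat_lit 462) (nat_lit 591) (nat_lit 4558) (.f (nat_lit 461) (nat_lit 429) (nat_lit 7597) (.f (nat_lit 495) (nat_lit 497) (nat_lit 3533) (.d (nat_lit 460) (nat_lit 459) (nat_lit 459) (nat_lit 493) (nat_lit 3532))))) (.f (nat_lit 591) (nat_lit 462) (nat_lit 4558) (.d (nat_lit 623) (nat_lit 592) (nat_lit 5615) (nat_lit 655) (nat_lit 6671)))))) (.f (nat_lit 561) (nat_lit 525) (nat_lit 3597) (.f (nat_lit 590) (nat_lit 589) (nat_lit 1581) (.f (nat_lit 591) (nat_lit 562) (nat_lit 1582) (.d (nat_lit 623) (nat_lit 592) (nat_lit 5615) (nat_lit 655) (nat_lit 6671))))))))))) (.p (nat_lit 525) (.a (.f (nat_lit 557) (nat_lit 524) (nat_lit 3596) (.f (nat_lit 592) (nat_lit 593) (nat_lit 557) (.d (nat_lit 591) (nat_lit 556) (nat_lit 556) (nat_lit 623) (nat_lit 5615)))) (.a (.f (nat_lit 526) (nat_lit 561) (nat_lit 3597) (.d (nat_lit 524) (nat_lit 523) (nat_lit 523) (nat_lit 557) (nat_lit 3596))) (.f (nat_lit 561) (nat_lit 526) (nat_lit 3597) (.f (nat_lit 594) (nat_lit 593) (nat_lit 558) (.f (nat_lit 562) (nat_lit 595) (nat_lit 559) (.f (nat_lit 591) (nat_lit 590) (nat_lit 1582) (.d (nat_lit 592) (nat_lit 563) (nat_lit 1583) (nat_lit 623) (nat_lit 5615))))))))))))))))) (.a (.p (nat_lit 495) (.a (.f (nat_lit 592) (nat_lit 463) (nat_lit 7631) (.f (nat_lit 497) (nat_lit 465) (nat_lit 6608) (.f (nat_lit 527) (nat_lit 624) (nat_lit 7663) (.d (nat_lit 526) (nat_lit 498) (nat_lit 1518) (nat_lit 525) (nat_lit 2541))))) (.a (.p (nat_lit 494) (.a (.p (nat_lit 526) (.a (.f (nat_lit 525) (nat_lit 497) (nat_lit 1517) (.d (nat_lit 524) (nat_lit 493) (nat_lit 1516) (nat_lit 523) (nat_lit 2539))) (.f (nat_lit 463) (nat_lit 590) (nat_lit 6606) (.d (nat_lit 431) (nat_lit 399) (nat_lit 4495) (nat_lit 462) (nat_lit 6574))))) (.a (.p (nat_lit 493) (.a (.f (nat_lit 492) (nat_lit 527) (nat_lit 492) (.d (nat_lit 524) (nat_lit 523) (nat_lit 1515) (nat_lit 525) (nat_lit 1516))) (.a (.f (nat_lit 461) (nat_lit 460) (nat_lit 3532) (.f (nat_lit 525) (nat_lit 524) (nat_lit 1516) (.f (nat_lit 462) (nat_lit 497) (nat_lit 3533) (.d (nat_lit 557) (nat_lit 430) (nat_lit 6573) (nat_lit 590) (nat_lit 4557))))) (.f (nat_lit 492) (nat_lit 527) (nat_lit 492) (.d (nat_lit 460) (nat_lit 459) (nat_lit 3531) (nat_lit 461) (nat_lit 3532)))))) (.a s46857 (.a (.p (nat_lit 493) (.a (.f (nat_lit 492) (nat_lit 527) (nat_lit 492) (.d (nat_lit 524) (nat_lit 523) (nat_lit 1515) (nat_lit 525) (nat_lit 1516))) (.f (nat_lit 461) (nat_lit 460) (nat_lit 3532) (.f (nat_lit 526) (nat_lit 590) (nat_lit 7629) (.d (nat_lit 429) (nat_lit 397) (nat_lit 4493) (nat_lit 462) (nat_lit 7597)))))) (.a (.p (nat_lit 525) (.a (.f (nat_lit 493) (nat_lit 524) (nat_lit 1516) (.f (nat_lit 461) (nat_lit 460) (nat_lit 3532) (.f (nat_lit 462) (nat_lit 497) (nat_lit 3533) (.f (nat_lit 492) (nat_lit 527) (nat_lit 492) (.d (nat_lit 491) (nat_lit 463) (nat_lit 2507) (nat_lit 490) (nat_lit 2506)))))) (.a (.f (nat_lit 497) (nat_lit 526) (nat_lit 1517) (.f (nat_lit 493) (nat_lit 524) (nat_lit 1516) (.d (nat_lit 461) (nat_lit 460) (nat_lit 3532) (nat_lit 462) (nat_lit 3533)))) (.a (.f (nat_lit 493) (nat_lit 524) (nat_lit 1516) (.f (nat_lit 492) (nat_lit 527) (nat_lit 492) (.d (nat_lit 460) (nat_lit 459) (nat_lit 3531) (nat_lit 461) (nat_lit 3532)))) (.a (.f (nat_lit 526) (nat_lit 497) (nat_lit 1517) (.d (nat_lit 524) (nat_lit 523) (nat_lit 2539) (nat_lit 527) (nat_lit 2540))) (.f (nat_lit 526) (nat_lit 497) (nat_lit 1517) (.f (nat_lit 527) (nat_lit 561) (nat_lit 525) (.f (nat_lit 493) (nat_lit 492) (nat_lit 492) (.d (nat_lit 461) (nat_lit 429) (nat_lit 4525) (nat_lit 460) (nat_lit 3532)))))))))) (.a (.p (nat_lit 526) (.a (.f (nat_lit 525) (nat_lit 497) (nat_lit 1517) (.d (nat_lit 524) (nat_lit 493) (nat_lit 1516) (nat_lit 523) (nat_lit 2539))) (.a (.f (nat_lit 590) (nat_lit 463) (nat_lit 6606) (.f (nat_lit 527) (nat_lit 622) (nat_lit 6638) (.d (nat_lit 493) (nat_lit 461) (nat_lit 7629) (nat_lit 492) (nat_lit 492)))) (.f (nat_lit 525) (nat_lit 497) (nat_lit 1517) (.d (nat_lit 524) (nat_lit 523) (nat_lit 2539) (nat_lit 527) (nat_lit 2540)))))) (.a (.p (nat_lit 526) (.a (.f (nat_lit 463) (nat_lit 590) (nat_lit 6606) (.d (nat_lit 431) (nat_lit 399) (nat_lit 4495) (nat_lit 462) (nat_lit 6574))) (.f (nat_lit 525) (nat_lit 497) (nat_lit 1517) (.d (nat_lit 524) (nat_lit 523) (nat_lit 2539) (nat_lit 527) (nat_lit 2540))))) (.p (nat_lit 526) (.a (.f (nat_lit 463) (nat_lit 590) (nat_lit 6606) (.d (nat_lit 431) (nat_lit 399) (nat_lit 4495) (nat_lit 462) (nat_lit 6574))) (.a (.f (nat_lit 497) (nat_lit 525) (nat_lit 1517) (.f (nat_lit 527) (nat_lit 498) (nat_lit 1518) (.f (nat_lit 462) (nat_lit 461) (nat_lit 3533) (.f (nat_lit 590) (nat_lit 622) (nat_lit 6638) (.d (nat_lit 589) (nat_lit 557) (nat_lit 5581) (nat_lit 621) (nat_lit 5613)))))) (.a (.f (nat_lit 497) (nat_lit 525) (nat_lit 1517) (.f (nat_lit 462) (nat_lit 461) (nat_lit 3533) (.d (nat_lit 498) (nat_lit 463) (nat_lit 3534) (nat_lit 527) (nat_lit 1518)))) (.f (nat_lit 590) (nat_lit 463) (nat_lit 6606) (.f (nat_lit 527) (nat_lit 622) (nat_lit 6638) (.d (nat_lit 493) (nat_lit 461) (nat_lit 7629) (nat_lit 492) (nat_lit 492)))))))))))))))) (.a (.p (nat_lit 494) (.a (.p (nat_lit 526) (.a (.f (nat_lit 525) (nat_lit 497) (nat_lit 1517) (.d (nat_lit 524) (nat_lit 493) (nat_lit 1516) (nat_lit 523) (nat_lit 2539))) (.f (nat_lit 463) (nat_lit 590) (nat_lit 6606) (.d (nat_lit 431) (nat_lit 399) (nat_lit 4495) (nat_lit 462) (nat_lit 6574))))) (.a (.f (nat_lit 592) (nat_lit 463) (nat_lit 7631) (.f (nat_lit 497) (nat_lit 465) (nat_lit 6608) (.f (nat_lit 461) (nat_lit 462) (nat_lit 3533) (.f (nat_lit 493) (nat_lit 460) (nat_lit 3532) (.f (nat_lit 525) (nat_lit 524) (nat_lit 1516) (.f (nat_lit 591) (nat_lit 623) (nat_lit 5615) (.f (nat_lit 590) (nat_lit 557) (nat_lit 4557) (.f (nat_lit 561) (nat_lit 589) (nat_lit 2605) (.d (nat_lit 562) (nat_lit 563) (nat_lit 1583) (nat_lit 593) (nat_lit 2606)))))))))) (.a (.f (nat_lit 463) (nat_lit 592) (nat_lit 7631) (.f (nat_lit 526) (nat_lit 590) (nat_lit 6606) (.d (nat_lit 431) (nat_lit 399) (nat_lit 4495) (nat_lit 462) (nat_lit 6574)))) (.a s46911 (.a (.f (nat_lit 592) (nat_lit 463) (nat_lit 7631) (.f (nat_lit 497) (nat_lit 465) (nat_lit 6608) (.f (nat_lit 461) (nat_lit 462) (nat_lit 3533) (.f (nat_lit 493) (nat_lit 460) (nat_lit 3532) (.d (nat_lit 525) (nat_lit 524) (nat_lit 1516) (nat_lit 526) (nat_lit 1517)))))) (.f (nat_lit 592) (nat_lit 463) (nat_lit 7631) (.f (nat_lit 497) (nat_lit 465) (nat_lit 6608) (.f (nat_lit 591) (nat_lit 623) (nat_lit 5615) (.f (nat_lit 525) (nat_lit 526) (nat_lit 1517) (.f (nat_lit 493) (nat_lit 524) (nat_lit 1516) (.f (nat_lit 461) (nat_lit 460) (nat_lit 3532) (.f (nat_lit 590) (nat_lit 557) (nat_lit 4557) (.f (nat_lit 561) (nat_lit 589) (nat_lit 2605) (.d (nat_lit 562) (nat_lit 563) (nat_lit 1583) (nat_lit 593) (nat_lit 2606)))))))))))))))) (.a (.f (nat_lit 592) (nat_lit 463) (nat_lit 7631) (.f (nat_lit 624) (nat_lit 527) (nat_lit 7663) (.d (nat_lit 623) (nat_lit 591) (nat_lit 5615) (nat_lit 655) (nat_lit 5647)))) (.p (nat_lit 494) (.a (.p (nat_lit 493) (.a (.f (nat_lit 492) (nat_lit 527) (nat_lit 492) (.d (nat_lit 524) (nat_lit 523) (nat_lit 1515) (nat_lit 525) (nat_lit 1516))) (.a (.f (nat_lit 461) (nat_lit 460) (nat_lit 3532) (.f (nat_lit 525) (nat_lit 524) (nat_lit 1516) (.f (nat_lit 462) (nat_lit 497) (nat_lit 3533) (.d (nat_lit 557) (nat_lit 430) (nat_lit 6573) (nat_lit 590) (nat_lit 4557))))) (.f (nat_lit 492) (nat_lit 527) (nat_lit 492) (.d (nat_lit 460) (nat_lit 459) (nat_lit 3531) (nat_lit 461) (nat_lit 3532)))))) (.a s46911 (.a (.p (nat_lit 592) (.a (.f (nat_lit 497) (nat_lit 465) (nat_lit 6608) (.f (nat_lit 527) (nat_lit 624) (nat_lit 7663) (.d (nat_lit 498) (nat_lit 499) (nat_lit 1519) (nat_lit 526) (nat_lit 1518)))) (.a (.f (nat_lit 497) (nat_lit 465) (nat_lit 6608) (.f (nat_lit 461) (nat_lit 462) (nat_lit 3533) (.f (nat_lit 493) (nat_lit 460) (nat_lit 3532) (.f (nat_lit 591) (nat_lit 623) (nat_lit 5615) (.f (nat_lit 590) (nat_lit 526) (nat_lit 7629) (.f (nat_lit 589) (nat_lit 561) (nat_lit 2605) (.d (nat_lit 557) (nat_lit 556) (nat_lit 3628) (nat_lit 593) (nat_lit 3629)))))))) (.a (.f (nat_lit 497) (nat_lit 465) (nat_lit 6608) (.f (nat_lit 527) (nat_lit 624) (nat_lit 7663) (.f (nat_lit 493) (nat_lit 492) (nat_lit 492) (.d (nat_lit 461) (nat_lit 460) (nat_lit 3532) (nat_lit 462) (nat_lit 3533))))) (.a (.f (nat_lit 527) (nat_lit 624) (nat_lit 7663) (.f (nat_lit 493) (nat_lit 492) (nat_lit 492) (.f (nat_lit 461) (nat_lit 460) (nat_lit 3532) (.f (nat_lit 526) (nat_lit 590) (nat_lit 7629) (.d (nat_lit 462) (nat_lit 429) (nat_lit 7597) (nat_lit 497) (nat_lit 3533)))))) (.f (nat_lit 527) (nat_lit 624) (nat_lit 7663) (.f (nat_lit 493) (nat_lit 492) (nat_lit 492) (.f (nat_lit 461) (nat_lit 460) (nat_lit 3532) (.f (nat_lit 526) (nat_lit 590) (nat_lit 7629) (.d (nat_lit 429) (nat_lit 397) (nat_lit 4493) (nat_lit 462) (nat_lit 7597))))))))))) (.a (.p (nat_lit 493) (.a (.f (nat_lit 492) (nat_lit 527) (nat_lit 492) (.d (nat_lit 524) (nat_lit 523) (nat_lit 1515) (nat_lit 525) (nat_lit 1516))) (.f (nat_lit 461) (nat_lit 460) (nat_lit 3532) (.f (nat_lit 526) (nat_lit 590) (nat_lit 7629) (.d (nat_lit 429) (nat_lit 397) (nat_lit 4493) (nat_lit 462) (nat_lit 7597)))))) (.a (.p (nat_lit 592) (.a (.f (nat_lit 497) (nat_lit 465) (nat_lit 6608) (.f (nat_lit 461) (nat_lit 462) (nat_lit 3533) (.f (nat_lit 493) (nat_lit 460) (nat_lit 3532) (.d (nat_lit 525) (nat_lit 524) (nat_lit 1516) (nat_lit 526) (nat_lit 1517))))) (.a (.f (nat_lit 497) (nat_lit 465) (nat_lit 6608) (.f (nat_lit 527) (nat_lit 624) (nat_lit 7663) (.f (nat_lit 493) (nat_lit 492) (nat_lit 492) (.d (nat_lit 461) (nat_lit 460) (nat_lit 3532) (nat_lit 462) (nat_lit 3533))))) (.a (.f (nat_lit 527) (nat_lit 624) (nat_lit 7663) (.f (nat_lit 493) (nat_lit 492) (nat_lit 492) (.f (nat_lit 525) (nat_lit 524) (nat_lit 1516) (.d (nat_lit 526) (nat_lit 497) (nat_lit 1517) (nat_lit 561) (nat_lit 525))))) (.a (.f (nat_lit 527) (nat_lit 624) (nat_lit 7663) (.f (nat_lit 493) (nat_lit 492) (nat_lit 492) (.f (nat_lit 525) (nat_lit 524) (nat_lit 1516) (.f (nat_lit 526) (nat_lit 561) (nat_lit 525) (.d (nat_lit 461) (nat_lit 429) (nat_lit 4525) (nat_lit 460) (nat_lit 3532)))))) (.f (nat_lit 497) (nat_lit 465) (nat_lit 6608) (.f (nat_lit 527) (nat_lit 624) (nat_lit 7663) (.d (nat_lit 498) (nat_lit 499) (nat_lit 1519) (nat_lit 526) (nat_lit 1518))))))))) (.a (.p (nat_lit 592) (.a (.f (nat_lit 497) (nat_lit 465) (nat_lit 6608) (.f (nat_lit 527) (nat_lit 624) (nat_lit 7663) (.d (nat_lit 498) (nat_lit 499) (nat_lit 1519) (nat_lit 526) (nat_lit 1518)))) (.a (.f (nat_lit 497) (nat_lit 465) (nat_lit 6608) (.f (nat_lit 591) (nat_lit 623) (nat_lit 5615) (.f (nat_lit 525) (nat_lit 526) (nat_lit 1517) (.f (nat_lit 493) (nat_lit 524) (nat_lit 1516) (.f (nat_lit 461) (nat_lit 460) (nat_lit 3532) (.f (nat_lit 590) (nat_lit 557) (nat_lit 4557) (.f (nat_lit 561) (nat_lit 589) (nat_lit 2605) (.d (nat_lit 562) (nat_lit 563) (nat_lit 1583) (nat_lit 593) (nat_lit 2606))))))))) (.f (nat_lit 527) (nat_lit 624) (nat_lit 7663) (.f (nat_lit 493) (nat_lit 492) (nat_lit 492) (.f (nat_lit 591) (nat_lit 623) (nat_lit 5615) (.f (nat_lit 461) (nat_lit 460) (nat_lit 3532) (.f (nat_lit 525) (nat_lit 524) (nat_lit 1516) (.f (nat_lit 590) (nat_lit 557) (nat_lit 4557) (.f (nat_lit 561) (nat_lit 589) (nat_lit 2605) (.d (nat_lit 562) (nat_lit 563) (nat_lit 1583) (nat_lit 593) (nat_lit 2606)))))))))))) (.a (.p (nat_lit 592) (.a (.f (nat_lit 497) (nat_lit 465) (nat_lit 6608) (.f (nat_lit 527) (nat_lit 624) (nat_lit 7663) (.d (nat_lit 498) (nat_lit 499) (nat_lit 1519) (nat_lit 526) (nat_lit 1518)))) (.a (.f (nat_lit 497) (nat_lit 465) (nat_lit 6608) (.f (nat_lit 591) (nat_lit 623) (nat_lit 5615) (.f (nat_lit 526) (nat_lit 525) (nat_lit 1517) (.f (nat_lit 462) (nat_lit 461) (nat_lit 3533) (.f (nat_lit 589) (nat_lit 557) (nat_lit 5581) (.d (nat_lit 590) (nat_lit 561) (nat_lit 2605) (nat_lit 621) (nat_lit 5613))))))) (.f (nat_lit 624) (nat_lit 527) (nat_lit 7663) (.d (nat_lit 623) (nat_lit 591) (nat_lit 5615) (nat_lit 655) (nat_lit 5647)))))) s46981))))))))))))) (.a (.p (nat_lit 592) (.a (.f (nat_lit 495) (nat_lit 463) (nat_lit 7631) (.f (nat_lit 497) (nat_lit 465) (nat_lit 6608) (.f (nat_lit 527) (nat_lit 624) (nat_lit 7663) (.d (nat_lit 526) (nat_lit 498) (nat_lit 1518) (nat_lit 525) (nat_lit 2541))))) (.a (.p (nat_lit 557) (.a (.f (nat_lit 559) (nat_lit 593) (nat_lit 557) (.d (nat_lit 591) (nat_lit 556) (nat_lit 556) (nat_lit 623) (nat_lit 5615))) (.a (.f (nat_lit 591) (nat_lit 623) (nat_lit 5615) (.f (nat_lit 590) (nat_lit 593) (nat_lit 3629) (.d (nat_lit 556) (nat_lit 555) (nat_lit 555) (nat_lit 589) (nat_lit 3628)))) (.a (.f (nat_lit 559) (nat_lit 593) (nat_lit 557) (.f (nat_lit 588) (nat_lit 589) (nat_lit 1580) (.f (nat_lit 556) (nat_lit 587) (nat_lit 1579) (.d (nat_lit 524) (nat_lit 523) (nat_lit 3595) (nat_lit 525) (nat_lit 3596))))) (.a (.f (nat_lit 591) (nat_lit 623) (nat_lit 5615) (.f (nat_lit 559) (nat_lit 556) (nat_lit 556) (.f (nat_lit 589) (nat_lit 588) (nat_lit 1580) (.f (nat_lit 525) (nat_lit 524) (nat_lit 3596) (.f (nat_lit 497) (nat_lit 465) (nat_lit 6608) (.f (nat_lit 495) (nat_lit 463) (nat_lit 7631) (.f (nat_lit 494) (nat_lit 526) (nat_lit 1517) (.d (nat_lit 462) (nat_lit 461) (nat_lit 3533) (nat_lit 493) (nat_lit 6605))))))))) (.f (nat_lit 559) (nat_lit 593) (nat_lit 557) (.f (nat_lit 589) (nat_lit 588) (nat_lit 1580) (.f (nat_lit 525) (nat_lit 524) (nat_lit 3596) (.f (nat_lit 495) (nat_lit 463) (nat_lit 7631) (.f (nat_lit 497) (nat_lit 465) (nat_lit 6608) (.f (nat_lit 494) (nat_lit 526) (nat_lit 1517) (.d (nat_lit 462) (nat_lit 461) (nat_lit 3533) (nat_lit 493) (nat_lit 6605))))))))))))) (.a (.p (nat_lit 557) (.a (.f (nat_lit 559) (nat_lit 593) (nat_lit 557) (.d (nat_lit 591) (nat_lit 556) (nat_lit 556) (nat_lit 623) (nat_lit 5615))) (.a (.f (nat_lit 591) (nat_lit 623) (nat_lit 5615) (.f (nat_lit 590) (nat_lit 593) (nat_lit 3629) (.d (nat_lit 556) (nat_lit 555) (nat_lit 555) (nat_lit 589) (nat_lit 3628)))) (.a (.f (nat_lit 559) (nat_lit 593) (nat_lit 557) (.f (nat_lit 588) (nat_lit 589) (nat_lit 1580) (.f (nat_lit 556) (nat_lit 587) (nat_lit 1579) (.d (nat_lit 524) (nat_lit 523) (nat_lit 3595) (nat_lit 525) (nat_lit 3596))))) (.a (.f (nat_lit 591) (nat_lit 623) (nat_lit 5615) (.f (nat_lit 556) (nat_lit 559) (nat_lit 556) (.d (nat_lit 590) (nat_lit 555) (nat_lit 555) (nat_lit 589) (nat_lit 3628)))) (.f (nat_lit 559) (nat_lit 593) (nat_lit 557) (.f (nat_lit 591) (nat_lit 623) (nat_lit 5615) (.f (nat_lit 589) (nat_lit 588) (nat_lit 1580) (.f (nat_lit 525) (nat_lit 524) (nat_lit 3596) (.f (nat_lit 497) (nat_lit 465) (nat_lit 6608) (.f (nat_lit 526) (nat_lit 527) (nat_lit 2541) (.d (nat_lit 494) (nat_lit 462) (nat_lit 4558) (nat_lit 621) (nat_lit 6637))))))))))))) (.f (nat_lit 623) (nat_lit 591) (nat_lit 5615) (.f (nat_lit 624) (nat_lit 655) (nat_lit 5647) (.d (nat_lit 495) (nat_lit 463) (nat_lit 7631) (nat_lit 527) (nat_lit 7663)))))))) (.a (.p (nat_lit 559) (.a s46777 (.a (.p (nat_lit 561) (.a (.f (nat_lit 590) (nat_lit 589) (nat_lit 1581) (.f (nat_lit 526) (nat_lit 525) (nat_lit 3597) (.f (nat_lit 591) (nat_lit 562) (nat_lit 1582) (.d (nat_lit 494) (nat_lit 462) (nat_lit 4558) (nat_lit 623) (nat_lit 4590))))) (.a (.f (nat_lit 525) (nat_lit 526) (nat_lit 3597) (.f (nat_lit 557) (nat_lit 524) (nat_lit 3596) (.d (nat_lit 589) (nat_lit 588) (nat_lit 1580) (nat_lit 590) (nat_lit 1581)))) (.a (.f (nat_lit 590) (nat_lit 589) (nat_lit 1581) (.f (nat_lit 562) (nat_lit 591) (nat_lit 1582) (.d (nat_lit 594) (nat_lit 593) (nat_lit 558) (nat_lit 595) (nat_lit 559)))) (.f (nat_lit 526) (nat_lit 525) (nat_lit 3597) (.f (nat_lit 562) (nat_lit 527) (nat_lit 3598) (.d (nat_lit 594) (nat_lit 593) (nat_lit 558) (nat_lit 595) (nat_lit 559)))))))) (.a (.p (nat_lit 557) (.a (.f (nat_lit 592) (nat_lit 593) (nat_lit 557) (.d (nat_lit 591) (nat_lit 556) (nat_lit 556) (nat_lit 623) (nat_lit 5615))) (.a (.f (nat_lit 588) (nat_lit 589) (nat_lit 1580) (.f (nat_lit 556) (nat_lit 587) (nat_lit 1579) (.d (nat_lit 524) (nat_lit 523) (nat_lit 3595) (nat_lit 525) (nat_lit 3596)))) (.f (nat_lit 592) (nat_lit 593) (nat_lit 557) (.f (nat_lit 591) (nat_lit 623) (nat_lit 5615) (.f (nat_lit 589) (nat_lit 588) (nat_lit 1580) (.f (nat_lit 525) (nat_lit 524) (nat_lit 3596) (.f (nat_lit 497) (nat_lit 465) (nat_lit 6608) (.f (nat_lit 526) (nat_lit 527) (nat_lit 2541) (.d (nat_lit 494) (nat_lit 462) (nat_lit 4558) (nat_lit 621) (nat_lit 6637))))))))))) (.a s47018 (.a s46807 (.a s46809 (.a (.p (nat_lit 561) (.a (.f (nat_lit 590) (nat_lit 589) (nat_lit 1581) (.f (nat_lit 526) (nat_lit 525) (nat_lit 3597) (.f (nat_lit 591) (nat_lit 562) (nat_lit 1582) (.d (nat_lit 494) (nat_lit 462) (nat_lit 4558) (nat_lit 623) (nat_lit 4590))))) (.a (.f (nat_lit 526) (nat_lit 525) (nat_lit 3597) (.f (nat_lit 562) (nat_lit 527) (nat_lit 3598) (.d (nat_lit 594) (nat_lit 593) (nat_lit 558) (nat_lit 595) (nat_lit 559)))) (.a (.f (nat_lit 590) (nat_lit 589) (nat_lit 1581) (.f (nat_lit 562) (nat_lit 591) (nat_lit 1582) (.d (nat_lit 594) (nat_lit 593) (nat_lit 558) (nat_lit 595) (nat_lit 559)))) (.p (nat_lit 623) (.a (.d (nat_lit 591) (nat_lit 527) (nat_lit 6639) (nat_lit 592) (nat_lit 5615)) (.a (.d (nat_lit 591) (nat_lit 527) (nat_lit 6639) (nat_lit 655) (nat_lit 6671)) (.a (.d (nat_lit 591) (nat_lit 592) (nat_lit 5615) (nat_lit 655) (nat_lit 6671)) (.f (nat_lit 526) (nat_lit 525) (nat_lit 3597) (.f (nat_lit 590) (nat_lit 589) (nat_lit 1581) (.f (nat_lit 622) (nat_lit 655) (nat_lit 4622) (.f (nat_lit 653) (nat_lit 621) (nat_lit 5645) (.d (nat_lit 654) (nat_lit 527) (nat_lit 6670) (nat_lit 685) (nat_lit 5677)))))))))))))) (.a (.p (nat_lit 525) (.a (.f (nat_lit 557) (nat_lit 524) (nat_lit 3596) (.f (nat_lit 592) (nat_lit 593) (nat_lit 557) (.d (nat_lit 591) (nat_lit 556) (nat_lit 556) (nat_lit 623) (nat_lit 5615)))) (.a (.f (nat_lit 526) (nat_lit 561) (nat_lit 3597) (.d (nat_lit 524) (nat_lit 523) (nat_lit 523) (nat_lit 557) (nat_lit 3596))) (.f (nat_lit 561) (nat_lit 526) (nat_lit 3597) (.f (nat_lit 594) (nat_lit 593) (nat_lit 558) (.f (nat_lit 562) (nat_lit 595) (nat_lit 559) (.f (nat_lit 591) (nat_lit 590) (nat_lit 1582) (.d (nat_lit 592) (nat_lit 563) (nat_lit 1583) (nat_lit 623) (nat_lit 5615))))))))) (.p (nat_lit 561) (.a (.f (nat_lit 590) (nat_lit 589) (nat_lit 1581) (.f (nat_lit 526) (nat_lit 525) (nat_lit 3597) (.f (nat_lit 591) (nat_lit 562) (nat_lit 1582) (.d (nat_lit 494) (nat_lit 462) (nat_lit 4558) (nat_lit 623) (nat_lit 4590))))) (.a (.f (nat_lit 525) (nat_lit 526) (nat_lit 3597) (.f (nat_lit 557) (nat_lit 524) (nat_lit 3596) (.d (nat_lit 589) (nat_lit 588) (nat_lit 1580) (nat_lit 590) (nat_lit 1581)))) (.a (.f (nat_lit 590) (nat_lit 589) (nat_lit 1581) (.f (nat_lit 591) (nat_lit 562) (nat_lit 1582) (.d (nat_lit 623) (nat_lit 527) (nat_lit 6639) (nat_lit 592) (nat_lit 5615)))) (.f (nat_lit 526) (nat_lit 525) (nat_lit 3597) (.f (nat_lit 562) (nat_lit 527) (nat_lit 3598) (.f (nat_lit 531) (nat_lit 530) (nat_lit 2575) (.f (nat_lit 563) (nat_lit 532) (nat_lit 2576) (.d (nat_lit 595) (nat_lit 594) (nat_lit 559) (nat_lit 596) (nat_lit 560))))))))))))))))))) (.a (.p (nat_lit 494) (.a (.p (nat_lit 526) (.a s46663 (.a (.p (nat_lit 590) (.a (.f (nat_lit 589) (nat_lit 621) (nat_lit 5613) (.f (nat_lit 462) (nat_lit 557) (nat_lit 5581) (.d (nat_lit 461) (nat_lit 429) (nat_lit 7597) (nat_lit 493) (nat_lit 7629)))) (.a (.f (nat_lit 493) (nat_lit 461) (nat_lit 7629) (.f (nat_lit 525) (nat_lit 622) (nat_lit 7661) (.d (nat_lit 527) (nat_lit 492) (nat_lit 3564) (nat_lit 561) (nat_lit 525)))) (.f (nat_lit 589) (nat_lit 621) (nat_lit 5613) (.f (nat_lit 559) (nat_lit 561) (nat_lit 1581) (.d (nat_lit 588) (nat_lit 557) (nat_lit 1580) (nat_lit 587) (nat_lit 2603))))))) (.a s46693 (.a s46700 (.a (.p (nat_lit 525) (.a (.d (nat_lit 527) (nat_lit 497) (nat_lit 2541) (nat_lit 561) (nat_lit 525)) (.a (.f (nat_lit 495) (nat_lit 497) (nat_lit 1517) (.d (nat_lit 524) (nat_lit 493) (nat_lit 1516) (nat_lit 523) (nat_lit 2539))) (.f (nat_lit 527) (nat_lit 561) (nat_lit 525) (.f (nat_lit 495) (nat_lit 524) (nat_lit 2540) (.f (nat_lit 493) (nat_lit 492) (nat_lit 3564) (.d (nat_lit 461) (nat_lit 429) (nat_lit 4525) (nat_lit 460) (nat_lit 3532)))))))) (.a s47032 (.p (nat_lit 590) (.a (.f (nat_lit 495) (nat_lit 463) (nat_lit 6606) (.f (nat_lit 525) (nat_lit 497) (nat_lit 1517) (.d (nat_lit 524) (nat_lit 493) (nat_lit 1516) (nat_lit 523) (nat_lit 2539)))) (.f (nat_lit 589) (nat_lit 621) (nat_lit 5613) (.f (nat_lit 559) (nat_lit 561) (nat_lit 1581) (.d (nat_lit 588) (nat_lit 557) (nat_lit 1580) (nat_lit 587) (nat_lit 2603))))))))))))) (.a (.p (nat_lit 526) (.a s46663 (.a s47035 (.a (.p (nat_lit 590) (.a (.f (nat_lit 589) (nat_lit 621) (nat_lit 5613) (.f (nat_lit 462) (nat_lit 557) (nat_lit 5581) (.d (nat_lit 461) (nat_lit 429) (nat_lit 7597) (nat_lit 493) (nat_lit 7629)))) (.a (.f (nat_lit 495) (nat_lit 463) (nat_lit 6606) (.f (nat_lit 461) (nat_lit 493) (nat_lit 7629) (.d (nat_lit 462) (nat_lit 429) (nat_lit 7597) (nat_lit 497) (nat_lit 3533)))) (.f (nat_lit 589) (nat_lit 621) (nat_lit 5613) (.f (nat_lit 559) (nat_lit 561) (nat_lit 1581) (.d (nat_lit 588) (nat_lit 557) (nat_lit 1580) (nat_lit 587) (nat_lit 2603))))))) (.a (.p (nat_lit 495) (.a (.f (nat_lit 525) (nat_lit 497) (nat_lit 1517) (.d (nat_lit 524) (nat_lit 493) (nat_lit 1516) (nat_lit 523) (nat_lit 2539))) (.f (nat_lit 463) (nat_lit 592) (nat_lit 7631) (.d (nat_lit 431) (nat_lit 399) (nat_lit 4495) (nat_lit 462) (nat_lit 6574))))) (.a (.p (nat_lit 590) (.a (.f (nat_lit 495) (nat_lit 463) (nat_lit 6606) (.f (nat_lit 525) (nat_lit 497) (nat_lit 1517) (.d (nat_lit 493) (nat_lit 461) (nat_lit 7629) (nat_lit 524) (nat_lit 1516)))) (.f (nat_lit 589) (nat_lit 621) (nat_lit 5613) (.f (nat_lit 559) (nat_lit 561) (nat_lit 1581) (.d (nat_lit 588) (nat_lit 557) (nat_lit 1580) (nat_lit 587) (nat_lit 2603)))))) (.p (nat_lit 590) (.a (.f (nat_lit 495) (nat_lit 463) (nat_lit 6606) (.f (nat_lit 497) (nat_lit 525) (nat_lit 1517) (.f (nat_lit 462) (nat_lit 461) (nat_lit 3533) (.d (nat_lit 589) (nat_lit 557) (nat_lit 5581) (nat_lit 621) (nat_lit 5613))))) (.a (.f (nat_lit 589) (nat_lit 621) (nat_lit 5613) (.f (nat_lit 559) (nat_lit 561) (nat_lit 1581) (.d (nat_lit 588) (nat_lit 557) (nat_lit 1580) (nat_lit 587) (nat_lit 2603)))) (.f (nat_lit 495) (nat_lit 463) (nat_lit 6606) (.f (nat_lit 497) (nat_lit 525) (nat_lit 1517) (.d (nat_lit 465) (nat_lit 466) (nat_lit 2510) (nat_lit 592) (nat_lit 6608))))))))))))) (.a (.p (nat_lit 526) (.a s46663 (.a s47051 (.a s46693 (.a (.p (nat_lit 525) (.a (.d (nat_lit 527) (nat_lit 497) (nat_lit 2541) (nat_lit 561) (nat_lit 525)) (.a (.f (nat_lit 495) (nat_lit 497) (nat_lit 1517) (.d (nat_lit 524) (nat_lit 493) (nat_lit 1516) (nat_lit 523) (nat_lit 2539))) (.f (nat_lit 527) (nat_lit 561) (nat_lit 525) (.f (nat_lit 495) (nat_lit 524) (nat_lit 2540) (.f (nat_lit 493) (nat_lit 492) (nat_lit 3564) (.d (nat_lit 461) (nat_lit 429) (nat_lit 4525) (nat_lit 460) (nat_lit 3532)))))))) (.a (.p (nat_lit 590) (.a (.f (nat_lit 589) (nat_lit 621) (nat_lit 5613) (.f (nat_lit 462) (nat_lit 557) (nat_lit 5581) (.d (nat_lit 461) (nat_lit 429) (nat_lit 7597) (nat_lit 493) (nat_lit 7629)))) (.a (.f (nat_lit 493) (nat_lit 461) (nat_lit 7629) (.f (nat_lit 525) (nat_lit 622) (nat_lit 7661) (.d (nat_lit 527) (nat_lit 492) (nat_lit 3564) (nat_lit 561) (nat_lit 525)))) (.a (.f (nat_lit 589) (nat_lit 621) (nat_lit 5613) (.f (nat_lit 462) (nat_lit 557) (nat_lit 5581) (.f (nat_lit 429) (nat_lit 461) (nat_lit 7597) (.f (nat_lit 430) (nat_lit 397) (nat_lit 7565) (.d (nat_lit 431) (nat_lit 399) (nat_lit 6542) (nat_lit 463) (nat_lit 6574)))))) (.f (nat_lit 495) (nat_lit 463) (nat_lit 6606) (.f (nat_lit 622) (nat_lit 527) (nat_lit 6638) (.d (nat_lit 621) (nat_lit 589) (nat_lit 5613) (nat_lit 653) (nat_lit 5645)))))))) (.a s47053 (.p (nat_lit 495) (.a (.f (nat_lit 525) (nat_lit 497) (nat_lit 1517) (.d (nat_lit 524) (nat_lit 493) (nat_lit 1516) (nat_lit 523) (nat_lit 2539))) (.f (nat_lit 463) (nat_lit 592) (nat_lit 7631) (.d (nat_lit 431) (nat_lit 399) (nat_lit 4495) (nat_lit 462) (nat_lit 6574)))))))))))) (.a (.p (nat_lit 526) (.a s46663 (.a s47060 (.a s46693 (.a (.p (nat_lit 590) (.a (.f (nat_lit 589) (nat_lit 621) (nat_lit 5613) (.f (nat_lit 462) (nat_lit 557) (nat_lit 5581) (.d (nat_lit 461) (nat_lit 429) (nat_lit 7597) (nat_lit 493) (nat_lit 7629)))) (.a (.f (nat_lit 493) (nat_lit 461) (nat_lit 7629) (.f (nat_lit 525) (nat_lit 622) (nat_lit 7661) (.d (nat_lit 527) (nat_lit 492) (nat_lit 3564) (nat_lit 497) (nat_lit 2541)))) (.f (nat_lit 589) (nat_lit 621) (nat_lit 5613) (.f (nat_lit 557) (nat_lit 462) (nat_lit 5581) (.f (nat_lit 559) (nat_lit 588) (nat_lit 1580) (.f (nat_lit 525) (nat_lit 524) (nat_lit 3596) (.d (nat_lit 527) (nat_lit 497) (nat_lit 2541) (nat_lit 556) (nat_lit 2572))))))))) (.a s46726 (.a (.p (nat_lit 590) (.a (.f (nat_lit 589) (nat_lit 621) (nat_lit 5613) (.f (nat_lit 462) (nat_lit 557) (nat_lit 5581) (.d (nat_lit 461) (nat_lit 429) (nat_lit 7597) (nat_lit 493) (nat_lit 7629)))) (.a (.f (nat_lit 495) (nat_lit 463) (nat_lit 6606) (.f (nat_lit 493) (nat_lit 461) (nat_lit 7629) (.d (nat_lit 527) (nat_lit 492) (nat_lit 492) (nat_lit 622) (nat_lit 6638)))) (.a (.f (nat_lit 589) (nat_lit 621) (nat_lit 5613) (.f (nat_lit 462) (nat_lit 557) (nat_lit 5581) (.f (nat_lit 429) (nat_lit 461) (nat_lit 7597) (.f (nat_lit 430) (nat_lit 397) (nat_lit 7565) (.d (nat_lit 431) (nat_lit 399) (nat_lit 6542) (nat_lit 463) (nat_lit 6574)))))) (.f (nat_lit 495) (nat_lit 463) (nat_lit 6606) (.f (nat_lit 622) (nat_lit 527) (nat_lit 6638) (.d (nat_lit 621) (nat_lit 589) (nat_lit 5613) (nat_lit 653) (nat_lit 5645)))))))) (.a (.p (nat_lit 495) (.a (.f (nat_lit 525) (nat_lit 497) (nat_lit 1517) (.d (nat_lit 524) (nat_lit 493) (nat_lit 1516) (nat_lit 523) (nat_lit 2539))) (.f (nat_lit 463) (nat_lit 592) (nat_lit 7631) (.d (nat_lit 431) (nat_lit 399) (nat_lit 4495) (nat_lit 462) (nat_lit 6574))))) s47063)))))))) (.a (.p (nat_lit 526) (.a (.p (nat_lit 590) (.a (.f (nat_lit 589) (nat_lit 621) (nat_lit 5613) (.f (nat_lit 462) (nat_lit 557) (nat_lit 5581) (.d (nat_lit 461) (nat_lit 429) (nat_lit 7597) (nat_lit 493) (nat_lit 7629)))) (.a (.f (nat_lit 493) (nat_lit 461) (nat_lit 7629) (.f (nat_lit 525) (nat_lit 622) (nat_lit 7661) (.d (nat_lit 527) (nat_lit 492) (nat_lit 3564) (nat_lit 561) (nat_lit 525)))) (.f (nat_lit 589) (nat_lit 621) (nat_lit 5613) (.f (nat_lit 559) (nat_lit 561) (nat_lit 1581) (.d (nat_lit 588) (nat_lit 557) (nat_lit 1580) (nat_lit 587) (nat_lit 2603))))))) (.a s47035 (.a s47051 (.a s47060 (.a s47079 (.a s47086 (.a (.p (nat_lit 525) (.a (.d (nat_lit 527) (nat_lit 497) (nat_lit 2541) (nat_lit 561) (nat_lit 525)) (.a (.f (nat_lit 559) (nat_lit 561) (nat_lit 3597) (.d (nat_lit 524) (nat_lit 523) (nat_lit 523) (nat_lit 557) (nat_lit 3596))) (.f (nat_lit 527) (nat_lit 497) (nat_lit 2541) (.f (nat_lit 557) (nat_lit 556) (nat_lit 1548) (.d (nat_lit 589) (nat_lit 462) (nat_lit 5581) (nat_lit 621) (nat_lit 6637))))))) (.p (nat_lit 525) (.a (.d (nat_lit 527) (nat_lit 497) (nat_lit 2541) (nat_lit 561) (nat_lit 525)) (.a (.f (nat_lit 559) (nat_lit 561) (nat_lit 3597) (.d (nat_lit 524) (nat_lit 523) (nat_lit 523) (nat_lit 557) (nat_lit 3596))) (.f (nat_lit 527) (nat_lit 497) (nat_lit 2541) (.f (nat_lit 524) (nat_lit 559) (nat_lit 524) (.d (nat_lit 492) (nat_lit 491) (nat_lit 3563) (nat_lit 493) (nat_lit 3564))))))))))))))) (.a (.p (nat_lit 495) (.a (.p (nat_lit 493) (.a (.f (nat_lit 492) (nat_lit 527) (nat_lit 492) (.d (nat_lit 524) (nat_lit 523) (nat_lit 1515) (nat_lit 525) (nat_lit 1516))) (.a (.f (nat_lit 461) (nat_lit 460) (nat_lit 3532) (.f (nat_lit 525) (nat_lit 524) (nat_lit 1516) (.f (nat_lit 462) (nat_lit 497) (nat_lit 3533) (.d (nat_lit 557) (nat_lit 430) (nat_lit 6573) (nat_lit 590) (nat_lit 4557))))) (.f (nat_lit 492) (nat_lit 527) (nat_lit 492) (.d (nat_lit 460) (nat_lit 459) (nat_lit 3531) (nat_lit 461) (nat_lit 3532)))))) (.a (.f (nat_lit 592) (nat_lit 463) (nat_lit 7631) (.f (nat_lit 497) (nat_lit 465) (nat_lit 6608) (.f (nat_lit 461) (nat_lit 462) (nat_lit 3533) (.f (nat_lit 493) (nat_lit 460) (nat_lit 3532) (.f (nat_lit 525) (nat_lit 524) (nat_lit 1516) (.f (nat_lit 557) (nat_lit 590) (nat_lit 4557) (.f (nat_lit 588) (nat_lit 556) (nat_lit 5580) (.d (nat_lit 559) (nat_lit 589) (nat_lit 1580) (nat_lit 593) (nat_lit 557))))))))) (.f (nat_lit 463) (nat_lit 592) (nat_lit 7631) (.d (nat_lit 431) (nat_lit 399) (nat_lit 4495) (nat_lit 527) (nat_lit 4527)))))) (.a (.p (nat_lit 526) (.a s46693 (.a (.p (nat_lit 590) (.a (.f (nat_lit 589) (nat_lit 621) (nat_lit 5613) (.f (nat_lit 462) (nat_lit 557) (nat_lit 5581) (.d (nat_lit 461) (nat_lit 429) (nat_lit 7597) (nat_lit 493) (nat_lit 7629)))) (.a (.f (nat_lit 495) (nat_lit 463) (nat_lit 6606) (.f (nat_lit 461) (nat_lit 493) (nat_lit 7629) (.d (nat_lit 462) (nat_lit 429) (nat_lit 7597) (nat_lit 497) (nat_lit 3533)))) (.f (nat_lit 589) (nat_lit 621) (nat_lit 5613) (.f (nat_lit 559) (nat_lit 561) (nat_lit 1581) (.d (nat_lit 588) (nat_lit 557) (nat_lit 1580) (nat_lit 587) (nat_lit 2603))))))) (.a s47079 (.a (.p (nat_lit 590) (.a (.f (nat_lit 589) (nat_lit 621) (nat_lit 5613) (.f (nat_lit 462) (nat_lit 557) (nat_lit 5581) (.d (nat_lit 461) (nat_lit 429) (nat_lit 7597) (nat_lit 493) (nat_lit 7629)))) (.a (.f (nat_lit 461) (nat_lit 493) (nat_lit 7629) (.f (nat_lit 462) (nat_lit 429) (nat_lit 7597) (.f (nat_lit 495) (nat_lit 497) (nat_lit 3533) (.f (nat_lit 527) (nat_lit 622) (nat_lit 6638) (.d (nat_lit 430) (nat_lit 398) (nat_lit 4494) (nat_lit 559) (nat_lit 4526)))))) (.f (nat_lit 589) (nat_lit 621) (nat_lit 5613) (.f (nat_lit 559) (nat_lit 561) (nat_lit 1581) (.d (nat_lit 588) (nat_lit 557) (nat_lit 1580) (nat_lit 587) (nat_lit 2603))))))) (.a s47108 (.a s47114 (.a (.p (nat_lit 462) (.a (.f (nat_lit 461) (nat_lit 429) (nat_lit 7597) (.f (nat_lit 495) (nat_lit 497) (nat_lit 3533) (.d (nat_lit 460) (nat_lit 459) (nat_lit 459) (nat_lit 493) (nat_lit 3532)))) (.a (.f (nat_lit 429) (nat_lit 461) (nat_lit 7597) (.f (nat_lit 430) (nat_lit 397) (nat_lit 7565) (.d (nat_lit 431) (nat_lit 399) (nat_lit 6542) (nat_lit 463) (nat_lit 6574)))) (.f (nat_lit 463) (nat_lit 431) (nat_lit 6574) (.d (nat_lit 495) (nat_lit 590) (nat_lit 6606) (nat_lit 592) (nat_lit 7631)))))) (.a (.p (nat_lit 590) (.a (.f (nat_lit 589) (nat_lit 621) (nat_lit 5613) (.f (nat_lit 559) (nat_lit 561) (nat_lit 1581) (.d (nat_lit 588) (nat_lit 557) (nat_lit 1580) (nat_lit 587) (nat_lit 2603)))) (.f (nat_lit 495) (nat_lit 463) (nat_lit 6606) (.f (nat_lit 493) (nat_lit 461) (nat_lit 7629) (.d (nat_lit 527) (nat_lit 492) (nat_lit 492) (nat_lit 622) (nat_lit 6638)))))) (.a s47116 (.p (nat_lit 590) (.a (.f (nat_lit 589) (nat_lit 621) (nat_lit 5613) (.f (nat_lit 559) (nat_lit 561) (nat_lit 1581) (.d (nat_lit 588) (nat_lit 557) (nat_lit 1580) (nat_lit 587) (nat_lit 2603)))) (.a (.f (nat_lit 495) (nat_lit 463) (nat_lit 6606) (.f (nat_lit 622) (nat_lit 527) (nat_lit 6638) (.d (nat_lit 621) (nat_lit 589) (nat_lit 5613) (nat_lit 653) (nat_lit 5645)))) (.f (nat_lit 495) (nat_lit 463) (nat_lit 6606) (.f (nat_lit 527) (nat_lit 622) (nat_lit 6638) (.f (nat_lit 497) (nat_lit 498) (nat_lit 1518) (.d (nat_lit 592) (nat_lit 465) (nat_lit 6608) (nat_lit 624) (nat_lit 7663)))))))))))))))))) (.a (.p (nat_lit 559) (.a (.p (nat_lit 557) (.a (.f (nat_lit 589) (nat_lit 588) (nat_lit 1580) (.f (nat_lit 526) (nat_lit 462) (nat_lit 5581) (.d (nat_lit 621) (nat_lit 590) (nat_lit 5613) (nat_lit 653) (nat_lit 6669)))) (.a (.f (nat_lit 556) (nat_lit 527) (nat_lit 2572) (.d (nat_lit 588) (nat_lit 587) (nat_lit 1579) (nat_lit 589) (nat_lit 1580))) (.f (nat_lit 556) (nat_lit 527) (nat_lit 2572) (.d (nat_lit 524) (nat_lit 523) (nat_lit 3595) (nat_lit 525) (nat_lit 3596)))))) (.a (.p (nat_lit 561) (.a (.f (nat_lit 589) (nat_lit 590) (nat_lit 1581) (.f (nat_lit 557) (nat_lit 588) (nat_lit 1580) (.f (nat_lit 525) (nat_lit 524) (nat_lit 3596) (.f (nat_lit 493) (nat_lit 462) (nat_lit 6605) (.f (nat_lit 460) (nat_lit 492) (nat_lit 7628) (.d (nat_lit 461) (nat_lit 428) (nat_lit 7596) (nat_lit 495) (nat_lit 3532))))))) (.a (.f (nat_lit 589) (nat_lit 590) (nat_lit 1581) (.f (nat_lit 557) (nat_lit 588) (nat_lit 1580) (.d (nat_lit 525) (nat_lit 524) (nat_lit 3596) (nat_lit 526) (nat_lit 3597)))) (.a (.f (nat_lit 589) (nat_lit 590) (nat_lit 1581) (.f (nat_lit 557) (nat_lit 588) (nat_lit 1580) (.d (nat_lit 593) (nat_lit 592) (nat_lit 557) (nat_lit 594) (nat_lit 558)))) (.a (.f (nat_lit 594) (nat_lit 593) (nat_lit 558) (.f (nat_lit 562) (nat_lit 595) (nat_lit 559) (.f (nat_lit 526) (nat_lit 525) (nat_lit 3597) (.f (nat_lit 590) (nat_lit 589) (nat_lit 1581) (.f (nat_lit 461) (nat_lit 493) (nat_lit 7629) (.f (nat_lit 462) (nat_lit 429) (nat_lit 7597) (.f (nat_lit 497) (nat_lit 495) (nat_lit 3533) (.f (nat_lit 530) (nat_lit 531) (nat_lit 2575) (.d (nat_lit 465) (nat_lit 498) (nat_lit 7633) (nat_lit 592) (nat_lit 6608)))))))))) (.f (nat_lit 525) (nat_lit 526) (nat_lit 3597) (.f (nat_lit 557) (nat_lit 524) (nat_lit 3596) (.d (nat_lit 593) (nat_lit 592) (nat_lit 557) (nat_lit 594) (nat_lit 558))))))))) (.a s47160 (.a s47165 (.a (.p (nat_lit 561) (.a (.f (nat_lit 526) (nat_lit 525) (nat_lit 3597) (.f (nat_lit 527) (nat_lit 562) (nat_lit 3598) (.f (nat_lit 590) (nat_lit 589) (nat_lit 1581) (.f (nat_lit 462) (nat_lit 430) (nat_lit 4526) (.d (nat_lit 461) (nat_lit 429) (nat_lit 7597) (nat_lit 493) (nat_lit 7629)))))) (.a (.f (nat_lit 594) (nat_lit 593) (nat_lit 558) (.f (nat_lit 562) (nat_lit 595) (nat_lit 559) (.f (nat_lit 526) (nat_lit 525) (nat_lit 3597) (.f (nat_lit 590) (nat_lit 589) (nat_lit 1581) (.f (nat_lit 461) (nat_lit 493) (nat_lit 7629) (.f (nat_lit 462) (nat_lit 429) (nat_lit 7597) (.f (nat_lit 497) (nat_lit 495) (nat_lit 3533) (.f (nat_lit 530) (nat_lit 531) (nat_lit 2575) (.d (nat_lit 465) (nat_lit 498) (nat_lit 7633) (nat_lit 592) (nat_lit 6608)))))))))) (.a (.f (nat_lit 594) (nat_lit 593) (nat_lit 558) (.f (nat_lit 562) (nat_lit 595) (nat_lit 559) (.f (nat_lit 531) (nat_lit 530) (nat_lit 2575) (.d (nat_lit 563) (nat_lit 527) (nat_lit 3599) (nat_lit 532) (nat_lit 2576))))) (.f (nat_lit 526) (nat_lit 525) (nat_lit 3597) (.f (nat_lit 590) (nat_lit 589) (nat_lit 1581) (.f (nat_lit 461) (nat_lit 493) (nat_lit 7629) (.f (nat_lit 462) (nat_lit 429) (nat_lit 7597) (.f (nat_lit 527) (nat_lit 430) (nat_lit 4526) (.d (nat_lit 495) (nat_lit 497) (nat_lit 3533) (nat_lit 622) (nat_lit 6638))))))))))) (.a s47182 (.a (.p (nat_lit 561) (.a (.f (nat_lit 526) (nat_lit 525) (nat_lit 3597) (.f (nat_lit 562) (nat_lit 527) (nat_lit 3598) (.d (nat_lit 594) (nat_lit 593) (nat_lit 558) (nat_lit 595) (nat_lit 559)))) (.a (.f (nat_lit 525) (nat_lit 526) (nat_lit 3597) (.f (nat_lit 557) (nat_lit 524) (nat_lit 3596) (.d (nat_lit 593) (nat_lit 592) (nat_lit 557) (nat_lit 594) (nat_lit 558)))) (.a (.f (nat_lit 594) (nat_lit 593) (nat_lit 558) (.f (nat_lit 562) (nat_lit 595) (nat_lit 559) (.f (nat_lit 531) (nat_lit 530) (nat_lit 2575) (.d (nat_lit 563) (nat_lit 527) (nat_lit 3599) (nat_lit 532) (nat_lit 2576))))) (.f (nat_lit 526) (nat_lit 525) (nat_lit 3597) (.f (nat_lit 527) (nat_lit 562) (nat_lit 3598) (.f (nat_lit 462) (nat_lit 430) (nat_lit 4526) (.f (nat_lit 461) (nat_lit 429) (nat_lit 7597) (.f (nat_lit 495) (nat_lit 497) (nat_lit 3533) (.d (nat_lit 493) (nat_lit 460) (nat_lit 3532) (nat_lit 590) (nat_lit 7629))))))))))) s47197)))))))) (.a (.p (nat_lit 526) (.a s46700 (.a (.p (nat_lit 495) (.a (.f (nat_lit 525) (nat_lit 497) (nat_lit 1517) (.d (nat_lit 524) (nat_lit 493) (nat_lit 1516) (nat_lit 523) (nat_lit 2539))) (.f (nat_lit 463) (nat_lit 592) (nat_lit 7631) (.d (nat_lit 431) (nat_lit 399) (nat_lit 4495) (nat_lit 462) (nat_lit 6574))))) (.a s47086 (.a s47108 (.a (.p (nat_lit 525) (.a (.d (nat_lit 527) (nat_lit 497) (nat_lit 2541) (nat_lit 561) (nat_lit 525)) (.a (.f (nat_lit 495) (nat_lit 497) (nat_lit 1517) (.d (nat_lit 524) (nat_lit 493) (nat_lit 1516) (nat_lit 523) (nat_lit 2539))) (.f (nat_lit 527) (nat_lit 561) (nat_lit 525) (.f (nat_lit 495) (nat_lit 524) (nat_lit 2540) (.f (nat_lit 493) (nat_lit 492) (nat_lit 3564) (.d (nat_lit 461) (nat_lit 429) (nat_lit 4525) (nat_lit 460) (nat_lit 3532)))))))) (.a (.p (nat_lit 590) (.a (.f (nat_lit 493) (nat_lit 461) (nat_lit 7629) (.f (nat_lit 525) (nat_lit 622) (nat_lit 7661) (.d (nat_lit 527) (nat_lit 492) (nat_lit 3564) (nat_lit 561) (nat_lit 525)))) (.a (.f (nat_lit 493) (nat_lit 461) (nat_lit 7629) (.f (nat_lit 622) (nat_lit 525) (nat_lit 7661) (.d (nat_lit 621) (nat_lit 589) (nat_lit 5613) (nat_lit 653) (nat_lit 5645)))) (.a (.f (nat_lit 495) (nat_lit 463) (nat_lit 6606) (.f (nat_lit 493) (nat_lit 461) (nat_lit 7629) (.d (nat_lit 527) (nat_lit 492) (nat_lit 492) (nat_lit 622) (nat_lit 6638)))) (.a (.f (nat_lit 495) (nat_lit 463) (nat_lit 6606) (.f (nat_lit 622) (nat_lit 527) (nat_lit 6638) (.d (nat_lit 621) (nat_lit 589) (nat_lit 5613) (nat_lit 653) (nat_lit 5645)))) (.f (nat_lit 589) (nat_lit 621) (nat_lit 5613) (.f (nat_lit 559) (nat_lit 561) (nat_lit 1581) (.f (nat_lit 461) (nat_lit 493) (nat_lit 7629) (.f (nat_lit 462) (nat_lit 429) (nat_lit 7597) (.f (nat_lit 431) (nat_lit 463) (nat_lit 6574) (.d (nat_lit 430) (nat_lit 399) (nat_lit 6542) (nat_lit 527) (nat_lit 4526)))))))))))) s47200))))))) (.a (.p (nat_lit 559) (.a (.p (nat_lit 557) (.a (.f (nat_lit 589) (nat_lit 588) (nat_lit 1580) (.f (nat_lit 526) (nat_lit 462) (nat_lit 5581) (.d (nat_lit 621) (nat_lit 590) (nat_lit 5613) (nat_lit 653) (nat_lit 6669)))) (.a (.f (nat_lit 556) (nat_lit 527) (nat_lit 2572) (.d (nat_lit 588) (nat_lit 587) (nat_lit 1579) (nat_lit 589) (nat_lit 1580))) (.f (nat_lit 556) (nat_lit 527) (nat_lit 2572) (.d (nat_lit 524) (nat_lit 523) (nat_lit 3595) (nat_lit 525) (nat_lit 3596)))))) (.a (.p (nat_lit 557) (.a (.f (nat_lit 589) (nat_lit 588) (nat_lit 1580) (.f (nat_lit 526) (nat_lit 462) (nat_lit 5581) (.d (nat_lit 621) (nat_lit 590) (nat_lit 5613) (nat_lit 653) (nat_lit 6669)))) (.a (.f (nat_lit 589) (nat_lit 588) (nat_lit 1580) (.f (nat_lit 525) (nat_lit 524) (nat_lit 3596) (.f (nat_lit 590) (nat_lit 561) (nat_lit 1581) (.d (nat_lit 493) (nat_lit 461) (nat_lit 4557) (nat_lit 462) (nat_lit 6605))))) (.a (.f (nat_lit 525) (nat_lit 524) (nat_lit 3596) (.f (nat_lit 589) (nat_lit 588) (nat_lit 1580) (.d (nat_lit 526) (nat_lit 462) (nat_lit 5581) (nat_lit 561) (nat_lit 3597)))) (.a (.f (nat_lit 525) (nat_lit 524) (nat_lit 3596) (.f (nat_lit 526) (nat_lit 561) (nat_lit 3597) (.f (nat_lit 462) (nat_lit 430) (nat_lit 5549) (.f (nat_lit 461) (nat_lit 429) (nat_lit 7597) (.f (nat_lit 493) (nat_lit 590) (nat_lit 4557) (.f (nat_lit 460) (nat_lit 428) (nat_lit 7596) (.f (nat_lit 463) (nat_lit 431) (nat_lit 6574) (.f (nat_lit 491) (nat_lit 492) (nat_lit 2507) (.d (nat_lit 459) (nat_lit 458) (nat_lit 458) (nat_lit 490) (nat_lit 1482)))))))))) (.f (nat_lit 525) (nat_lit 524) (nat_lit 3596) (.f (nat_lit 589) (nat_lit 588) (nat_lit 1580) (.d (nat_lit 561) (nat_lit 526) (nat_lit 3597) (nat_lit 590) (nat_lit 1581))))))))) (.a s47160 (.a s47165 (.a (.p (nat_lit 561) (.a (.f (nat_lit 526) (nat_lit 525) (nat_lit 3597) (.f (nat_lit 527) (nat_lit 562) (nat_lit 3598) (.f (nat_lit 590) (nat_lit 589) (nat_lit 1581) (.d (nat_lit 495) (nat_lit 463) (nat_lit 5582) (nat_lit 622) (nat_lit 6638))))) (.a (.f (nat_lit 526) (nat_lit 525) (nat_lit 3597) (.f (nat_lit 590) (nat_lit 589) (nat_lit 1581) (.f (nat_lit 461) (nat_lit 493) (nat_lit 7629) (.f (nat_lit 462) (nat_lit 429) (nat_lit 7597) (.d (nat_lit 463) (nat_lit 431) (nat_lit 6574) (nat_lit 495) (nat_lit 6606)))))) (.a (.f (nat_lit 526) (nat_lit 525) (nat_lit 3597) (.f (nat_lit 527) (nat_lit 562) (nat_lit 3598) (.f (nat_lit 590) (nat_lit 589) (nat_lit 1581) (.f (nat_lit 462) (nat_lit 430) (nat_lit 4526) (.d (nat_lit 461) (nat_lit 429) (nat_lit 7597) (nat_lit 493) (nat_lit 7629)))))) (.f (nat_lit 594) (nat_lit 593) (nat_lit 558) (.f (nat_lit 562) (nat_lit 595) (nat_lit 559) (.f (nat_lit 531) (nat_lit 530) (nat_lit 2575) (.d (nat_lit 563) (nat_lit 527) (nat_lit 3599) (nat_lit 532) (nat_lit 2576))))))))) (.a s47182 (.a (.p (nat_lit 561) (.a (.f (nat_lit 526) (nat_lit 525) (nat_lit 3597) (.f (nat_lit 562) (nat_lit 527) (nat_lit 3598) (.d (nat_lit 594) (nat_lit 593) (nat_lit 558) (nat_lit 595) (nat_lit 559)))) (.a (.f (nat_lit 525) (nat_lit 526) (nat_lit 3597) (.f (nat_lit 557) (nat_lit 524) (nat_lit 3596) (.d (nat_lit 593) (nat_lit 592) (nat_lit 557) (nat_lit 594) (nat_lit 558)))) (.a (.f (nat_lit 594) (nat_lit 593) (nat_lit 558) (.f (nat_lit 562) (nat_lit 595) (nat_lit 559) (.f (nat_lit 531) (nat_lit 530) (nat_lit 2575) (.d (nat_lit 563) (nat_lit 527) (nat_lit 3599) (nat_lit 532) (nat_lit 2576))))) (.f (nat_lit 526) (nat_lit 525) (nat_lit 3597) (.f (nat_lit 527) (nat_lit 562) (nat_lit 3598) (.f (nat_lit 462) (nat_lit 430) (nat_lit 4526) (.f (nat_lit 463) (nat_lit 431) (nat_lit 6574) (.d (nat_lit 495) (nat_lit 590) (nat_lit 5582) (nat_lit 592) (nat_lit 7631)))))))))) s47197)))))))) (.a (.p (nat_lit 526) (.a (.p (nat_lit 525) (.a (.d (nat_lit 527) (nat_lit 497) (nat_lit 2541) (nat_lit 561) (nat_lit 525)) (.a (.f (nat_lit 495) (nat_lit 497) (nat_lit 1517) (.d (nat_lit 524) (nat_lit 493) (nat_lit 1516) (nat_lit 523) (nat_lit 2539))) (.f (nat_lit 527) (nat_lit 561) (nat_lit 525) (.f (nat_lit 495) (nat_lit 524) (nat_lit 2540) (.f (nat_lit 493) (nat_lit 492) (nat_lit 3564) (.d (nat_lit 461) (nat_lit 429) (nat_lit 4525) (nat_lit 460) (nat_lit 3532)))))))) (.a (.p (nat_lit 495) (.a (.f (nat_lit 525) (nat_lit 497) (nat_lit 1517) (.d (nat_lit 524) (nat_lit 493) (nat_lit 1516) (nat_lit 523) (nat_lit 2539))) (.f (nat_lit 463) (nat_lit 592) (nat_lit 7631) (.d (nat_lit 431) (nat_lit 399) (nat_lit 4495) (nat_lit 462) (nat_lit 6574))))) (.a (.p (nat_lit 525) (.a (.d (nat_lit 527) (nat_lit 497) (nat_lit 2541) (nat_lit 561) (nat_lit 525)) (.a (.f (nat_lit 559) (nat_lit 561) (nat_lit 3597) (.d (nat_lit 524) (nat_lit 523) (nat_lit 523) (nat_lit 557) (nat_lit 3596))) (.f (nat_lit 527) (nat_lit 497) (nat_lit 2541) (.f (nat_lit 557) (nat_lit 556) (nat_lit 1548) (.d (nat_lit 589) (nat_lit 462) (nat_lit 5581) (nat_lit 621) (nat_lit 6637))))))) (.a s47114 (.p (nat_lit 462) (.a (.f (nat_lit 429) (nat_lit 461) (nat_lit 7597) (.f (nat_lit 430) (nat_lit 397) (nat_lit 7565) (.d (nat_lit 431) (nat_lit 399) (nat_lit 6542) (nat_lit 463) (nat_lit 6574)))) (.a (.f (nat_lit 557) (nat_lit 589) (nat_lit 5581) (.f (nat_lit 525) (nat_lit 430) (nat_lit 5549) (.d (nat_lit 561) (nat_lit 527) (nat_lit 525) (nat_lit 559) (nat_lit 3597)))) (.f (nat_lit 463) (nat_lit 431) (nat_lit 6574) (.f (nat_lit 495) (nat_lit 592) (nat_lit 7631) (.d (nat_lit 461) (nat_lit 429) (nat_lit 7597) (nat_lit 460) (nat_lit 460)))))))))))) (.a (.p (nat_lit 526) (.a (.p (nat_lit 525) (.a (.d (nat_lit 527) (nat_lit 497) (nat_lit 2541) (nat_lit 561) (nat_lit 525)) (.a (.f (nat_lit 495) (nat_lit 497) (nat_lit 1517) (.d (nat_lit 524) (nat_lit 493) (nat_lit 1516) (nat_lit 523) (nat_lit 2539))) (.f (nat_lit 527) (nat_lit 561) (nat_lit 525) (.f (nat_lit 495) (nat_lit 524) (nat_lit 2540) (.f (nat_lit 493) (nat_lit 492) (nat_lit 3564) (.d (nat_lit 461) (nat_lit 429) (nat_lit 4525) (nat_lit 460) (nat_lit 3532)))))))) (.a (.p (nat_lit 495) (.a (.f (nat_lit 525) (nat_lit 497) (nat_lit 1517) (.d (nat_lit 524) (nat_lit 493) (nat_lit 1516) (nat_lit 523) (nat_lit 2539))) (.f (nat_lit 463) (nat_lit 592) (nat_lit 7631) (.d (nat_lit 431) (nat_lit 399) (nat_lit 4495) (nat_lit 462) (nat_lit 6574))))) (.a (.p (nat_lit 525) (.a (.d (nat_lit 527) (nat_lit 497) (nat_lit 2541) (nat_lit 561) (nat_lit 525)) (.a (.f (nat_lit 559) (nat_lit 561) (nat_lit 3597) (.d (nat_lit 524) (nat_lit 523) (nat_lit 523) (nat_lit 557) (nat_lit 3596))) (.f (nat_lit 527) (nat_lit 497) (nat_lit 2541) (.f (nat_lit 524) (nat_lit 559) (nat_lit 524) (.d (nat_lit 492) (nat_lit 491) (nat_lit 3563) (nat_lit 493) (nat_lit 3564))))))) (.a (.p (nat_lit 462) (.a (.f (nat_lit 461) (nat_lit 429) (nat_lit 7597) (.f (nat_lit 495) (nat_lit 497) (nat_lit 3533) (.d (nat_lit 460) (nat_lit 459) (nat_lit 459) (nat_lit 493) (nat_lit 3532)))) (.a (.f (nat_lit 429) (nat_lit 461) (nat_lit 7597) (.f (nat_lit 430) (nat_lit 397) (nat_lit 7565) (.d (nat_lit 431) (nat_lit 399) (nat_lit 6542) (nat_lit 463) (nat_lit 6574)))) (.f (nat_lit 463) (nat_lit 431) (nat_lit 6574) (.d (nat_lit 495) (nat_lit 590) (nat_lit 6606) (nat_lit 592) (nat_lit 7631)))))) (.a (.p (nat_lit 590) (.a (.f (nat_lit 493) (nat_lit 461) (nat_lit 7629) (.f (nat_lit 525) (nat_lit 622) (nat_lit 7661) (.d (nat_lit 527) (nat_lit 492) (nat_lit 3564) (nat_lit 561) (nat_lit 525)))) (.a (.f (nat_lit 493) (nat_lit 461) (nat_lit 7629) (.f (nat_lit 525) (nat_lit 622) (nat_lit 7661) (.f (nat_lit 559) (nat_lit 561) (nat_lit 3597) (.d (nat_lit 524) (nat_lit 523) (nat_lit 523) (nat_lit 557) (nat_lit 3596))))) (.a (.f (nat_lit 495) (nat_lit 463) (nat_lit 6606) (.f (nat_lit 493) (nat_lit 461) (nat_lit 7629) (.d (nat_lit 527) (nat_lit 492) (nat_lit 492) (nat_lit 622) (nat_lit 6638)))) (.a (.f (nat_lit 495) (nat_lit 463) (nat_lit 6606) (.f (nat_lit 527) (nat_lit 622) (nat_lit 6638) (.d (nat_lit 525) (nat_lit 524) (nat_lit 2540) (nat_lit 561) (nat_lit 525)))) (.f (nat_lit 495) (nat_lit 463) (nat_lit 6606) (.f (nat_lit 493) (nat_lit 461) (nat_lit 7629) (.f (nat_lit 525) (nat_lit 524) (nat_lit 1516) (.d (nat_lit 527) (nat_lit 492) (nat_lit 492) (nat_lit 561) (nat_lit 525)))))))))) s47260)))))) (.a (.p (nat_lit 526) (.a (.p (nat_lit 590) (.a (.f (nat_lit 495) (nat_lit 463) (nat_lit 6606) (.f (nat_lit 525) (nat_lit 497) (nat_lit 1517) (.d (nat_lit 493) (nat_lit 461) (nat_lit 7629) (nat_lit 524) (nat_lit 1516)))) (.f (nat_lit 589) (nat_lit 621) (nat_lit 5613) (.f (nat_lit 559) (nat_lit 561) (nat_lit 1581) (.d (nat_lit 588) (nat_lit 557) (nat_lit 1580) (nat_lit 587) (nat_lit 2603)))))) (.a (.p (nat_lit 525) (.a (.d (nat_lit 527) (nat_lit 497) (nat_lit 2541) (nat_lit 561) (nat_lit 525)) (.a (.f (nat_lit 495) (nat_lit 497) (nat_lit 1517) (.d (nat_lit 524) (nat_lit 493) (nat_lit 1516) (nat_lit 523) (nat_lit 2539))) (.f (nat_lit 527) (nat_lit 561) (nat_lit 525) (.f (nat_lit 495) (nat_lit 524) (nat_lit 2540) (.f (nat_lit 493) (nat_lit 492) (nat_lit 3564) (.d (nat_lit 461) (nat_lit 429) (nat_lit 4525) (nat_lit 460) (nat_lit 3532)))))))) (.a s46726 (.a (.p (nat_lit 525) (.a (.d (nat_lit 527) (nat_lit 497) (nat_lit 2541) (nat_lit 561) (nat_lit 525)) (.a (.f (nat_lit 559) (nat_lit 561) (nat_lit 3597) (.d (nat_lit 524) (nat_lit 523) (nat_lit 523) (nat_lit 557) (nat_lit 3596))) (.f (nat_lit 527) (nat_lit 497) (nat_lit 2541) (.f (nat_lit 524) (nat_lit 559) (nat_lit 524) (.d (nat_lit 492) (nat_lit 491) (nat_lit 3563) (nat_lit 493) (nat_lit 3564))))))) (.a (.p (nat_lit 590) (.a (.f (nat_lit 589) (nat_lit 621) (nat_lit 5613) (.f (nat_lit 559) (nat_lit 561) (nat_lit 1581) (.d (nat_lit 588) (nat_lit 557) (nat_lit 1580) (nat_lit 587) (nat_lit 2603)))) (.f (nat_lit 495) (nat_lit 463) (nat_lit 6606) (.f (nat_lit 493) (nat_lit 461) (nat_lit 7629) (.d (nat_lit 527) (nat_lit 492) (nat_lit 492) (nat_lit 622) (nat_lit 6638)))))) (.p (nat_lit 590) (.a (.f (nat_lit 589) (nat_lit 621) (nat_lit 5613) (.f (nat_lit 559) (nat_lit 561) (nat_lit 1581) (.d (nat_lit 588) (nat_lit 557) (nat_lit 1580) (nat_lit 587) (nat_lit 2603)))) (.a (.f (nat_lit 495) (nat_lit 463) (nat_lit 6606) (.f (nat_lit 622) (nat_lit 527) (nat_lit 6638) (.d (nat_lit 621) (nat_lit 589) (nat_lit 5613) (nat_lit 653) (nat_lit 5645)))) (.f (nat_lit 495) (nat_lit 463) (nat_lit 6606) (.f (nat_lit 527) (nat_lit 622) (nat_lit 6638) (.f (nat_lit 497) (nat_lit 498) (nat_lit 1518) (.d (nat_lit 592) (nat_lit 465) (nat_lit 6608) (nat_lit 624) (nat_lit 7663)))))))))))))) (.a (.p (nat_lit 526) (.a s47032 (.a (.p (nat_lit 590) (.a (.f (nat_lit 495) (nat_lit 463) (nat_lit 6606) (.f (nat_lit 497) (nat_lit 525) (nat_lit 1517) (.f (nat_lit 462) (nat_lit 461) (nat_lit 3533) (.d (nat_lit 589) (nat_lit 557) (nat_lit 5581) (nat_lit 621) (nat_lit 5613))))) (.a (.f (nat_lit 589) (nat_lit 621) (nat_lit 5613) (.f (nat_lit 559) (nat_lit 561) (nat_lit 1581) (.d (nat_lit 588) (nat_lit 557) (nat_lit 1580) (nat_lit 587) (nat_lit 2603)))) (.f (nat_lit 495) (nat_lit 463) (nat_lit 6606) (.f (nat_lit 497) (nat_lit 525) (nat_lit 1517) (.d (nat_lit 465) (nat_lit 466) (nat_lit 2510) (nat_lit 592) (nat_lit 6608))))))) (.a s47053 (.a s47063 (.a (.p (nat_lit 525) (.a (.d (nat_lit 527) (nat_lit 497) (nat_lit 2541) (nat_lit 561) (nat_lit 525)) (.a (.f (nat_lit 559) (nat_lit 561) (nat_lit 3597) (.d (nat_lit 524) (nat_lit 523) (nat_lit 523) (nat_lit 557) (nat_lit 3596))) (.f (nat_lit 527) (nat_lit 497) (nat_lit 2541) (.f (nat_lit 557) (nat_lit 556) (nat_lit 1548) (.d (nat_lit 589) (nat_lit 462) (nat_lit 5581) (nat_lit 621) (nat_lit 6637))))))) (.a s47116 (.a s47200 (.a (.p (nat_lit 462) (.a (.f (nat_lit 429) (nat_lit 461) (nat_lit 7597) (.f (nat_lit 430) (nat_lit 397) (nat_lit 7565) (.d (nat_lit 431) (nat_lit 399) (nat_lit 6542) (nat_lit 463) (nat_lit 6574)))) (.a (.f (nat_lit 557) (nat_lit 589) (nat_lit 5581) (.f (nat_lit 525) (nat_lit 430) (nat_lit 5549) (.d (nat_lit 561) (nat_lit 527) (nat_lit 525) (nat_lit 559) (nat_lit 3597)))) (.f (nat_lit 463) (nat_lit 431) (nat_lit 6574) (.f (nat_lit 495) (nat_lit 592) (nat_lit 7631) (.d (nat_lit 461) (nat_lit 429) (nat_lit 7597) (nat_lit 460) (nat_lit 460))))))) s47260))))))))) (.p (nat_lit 526) (.a (.p (nat_lit 590) (.a (.f (nat_lit 495) (nat_lit 463) (nat_lit 6606) (.f (nat_lit 525) (nat_lit 497) (nat_lit 1517) (.d (nat_lit 524) (nat_lit 493) (nat_lit 1516) (nat_lit 523) (nat_lit 2539)))) (.f (nat_lit 589) (nat_lit 621) (nat_lit 5613) (.f (nat_lit 559) (nat_lit 561) (nat_lit 1581) (.d (nat_lit 588) (nat_lit 557) (nat_lit 1580) (nat_lit 587) (nat_lit 2603)))))) (.a (.p (nat_lit 495) (.a (.f (nat_lit 525) (nat_lit 497) (nat_lit 1517) (.d (nat_lit 524) (nat_lit 493) (nat_lit 1516) (nat_lit 523) (nat_lit 2539))) (.f (nat_lit 463) (nat_lit 592) (nat_lit 7631) (.d (nat_lit 431) (nat_lit 399) (nat_lit 4495) (nat_lit 462) (nat_lit 6574))))) (.a (.p (nat_lit 525) (.a (.d (nat_lit 527) (nat_lit 497) (nat_lit 2541) (nat_lit 561) (nat_lit 525)) (.a (.f (nat_lit 559) (nat_lit 561) (nat_lit 3597) (.d (nat_lit 524) (nat_lit 523) (nat_lit 523) (nat_lit 557) (nat_lit 3596))) (.f (nat_lit 527) (nat_lit 497) (nat_lit 2541) (.f (nat_lit 557) (nat_lit 556) (nat_lit 1548) (.d (nat_lit 589) (nat_lit 462) (nat_lit 5581) (nat_lit 621) (nat_lit 6637))))))) (.a (.p (nat_lit 590) (.a (.f (nat_lit 589) (nat_lit 621) (nat_lit 5613) (.f (nat_lit 559) (nat_lit 561) (nat_lit 1581) (.d (nat_lit 588) (nat_lit 557) (nat_lit 1580) (nat_lit 587) (nat_lit 2603)))) (.a (.f (nat_lit 495) (nat_lit 463) (nat_lit 6606) (.f (nat_lit 622) (nat_lit 527) (nat_lit 6638) (.d (nat_lit 621) (nat_lit 589) (nat_lit 5613) (nat_lit 653) (nat_lit 5645)))) (.f (nat_lit 495) (nat_lit 463) (nat_lit 6606) (.f (nat_lit 527) (nat_lit 622) (nat_lit 6638) (.f (nat_lit 497) (nat_lit 498) (nat_lit 1518) (.d (nat_lit 592) (nat_lit 465) (nat_lit 6608) (nat_lit 624) (nat_lit 7663)))))))) (.p (nat_lit 590) (.a (.f (nat_lit 589) (nat_lit 621) (nat_lit 5613) (.f (nat_lit 559) (nat_lit 561) (nat_lit 1581) (.d (nat_lit 588) (nat_lit 557) (nat_lit 1580) (nat_lit 587) (nat_lit 2603)))) (.a (.f (nat_lit 495) (nat_lit 463) (nat_lit 6606) (.f (nat_lit 622) (nat_lit 527) (nat_lit 6638) (.d (nat_lit 621) (nat_lit 589) (nat_lit 5613) (nat_lit 653) (nat_lit 5645)))) (.f (nat_lit 495) (nat_lit 463) (nat_lit 6606) (.f (nat_lit 527) (nat_lit 622) (nat_lit 6638) (.d (nat_lit 525) (nat_lit 524) (nat_lit 2540) (nat_lit 561) (nat_lit 525))))))))))))))))))))))))))) (.a (.p (nat_lit 559) (.a (.p (nat_lit 561) (.a (.f (nat_lit 593) (nat_lit 594) (nat_lit 558) (.f (nat_lit 592) (nat_lit 557) (nat_lit 557) (.f (nat_lit 591) (nat_lit 623) (nat_lit 5615) (.d (nat_lit 590) (nat_lit 562) (nat_lit 2606) (nat_lit 589) (nat_lit 1581))))) (.a (.f (nat_lit 590) (nat_lit 589) (nat_lit 1581) (.f (nat_lit 562) (nat_lit 591) (nat_lit 1582) (.d (nat_lit 594) (nat_lit 593) (nat_lit 558) (nat_lit 595) (nat_lit 559)))) (.a (.f (nat_lit 593) (nat_lit 594) (nat_lit 558) (.f (nat_lit 592) (nat_lit 557) (nat_lit 557) (.f (nat_lit 495) (nat_lit 463) (nat_lit 7631) (.f (nat_lit 624) (nat_lit 527) (nat_lit 7663) (.f (nat_lit 656) (nat_lit 688) (nat_lit 6704) (.d (nat_lit 655) (nat_lit 623) (nat_lit 5647) (nat_lit 687) (nat_lit 5679))))))) (.f (nat_lit 590) (nat_lit 589) (nat_lit 1581) (.f (nat_lit 591) (nat_lit 562) (nat_lit 1582) (.d (nat_lit 623) (nat_lit 527) (nat_lit 6639) (nat_lit 592) (nat_lit 5615)))))))) (.a s47272 (.a s46807 (.a (.p (nat_lit 592) (.a (.f (nat_lit 591) (nat_lit 623) (nat_lit 5615) (.d (nat_lit 593) (nat_lit 557) (nat_lit 557) (nat_lit 594) (nat_lit 3630))) (.a (.f (nat_lit 557) (nat_lit 593) (nat_lit 557) (.f (nat_lit 527) (nat_lit 556) (nat_lit 2572) (.d (nat_lit 495) (nat_lit 463) (nat_lit 7631) (nat_lit 624) (nat_lit 7663)))) (.f (nat_lit 623) (nat_lit 591) (nat_lit 5615) (.f (nat_lit 624) (nat_lit 655) (nat_lit 5647) (.d (nat_lit 495) (nat_lit 463) (nat_lit 7631) (nat_lit 527) (nat_lit 7663))))))) (.a (.p (nat_lit 561) (.a (.f (nat_lit 593) (nat_lit 594) (nat_lit 558) (.f (nat_lit 592) (nat_lit 557) (nat_lit 557) (.f (nat_lit 495) (nat_lit 463) (nat_lit 7631) (.f (nat_lit 624) (nat_lit 527) (nat_lit 7663) (.f (nat_lit 656) (nat_lit 688) (nat_lit 6704) (.d (nat_lit 655) (nat_lit 623) (nat_lit 5647) (nat_lit 687) (nat_lit 5679))))))) (.a (.f (nat_lit 594) (nat_lit 593) (nat_lit 558) (.f (nat_lit 562) (nat_lit 595) (nat_lit 559) (.f (nat_lit 531) (nat_lit 530) (nat_lit 2575) (.d (nat_lit 563) (nat_lit 527) (nat_lit 3599) (nat_lit 532) (nat_lit 2576))))) (.a (.f (nat_lit 593) (nat_lit 594) (nat_lit 558) (.f (nat_lit 557) (nat_lit 592) (nat_lit 557) (.d (nat_lit 589) (nat_lit 588) (nat_lit 1580) (nat_lit 590) (nat_lit 1581)))) (.f (nat_lit 589) (nat_lit 590) (nat_lit 1581) (.f (nat_lit 557) (nat_lit 588) (nat_lit 1580) (.f (nat_lit 556) (nat_lit 527) (nat_lit 2572) (.d (nat_lit 524) (nat_lit 523) (nat_lit 3595) (nat_lit 525) (nat_lit 3596))))))))) (.a (.p (nat_lit 590) (.a (.f (nat_lit 561) (nat_lit 589) (nat_lit 1581) (.f (nat_lit 591) (nat_lit 562) (nat_lit 1582) (.d (nat_lit 623) (nat_lit 527) (nat_lit 6639) (nat_lit 592) (nat_lit 5615)))) (.a (.f (nat_lit 561) (nat_lit 589) (nat_lit 1581) (.f (nat_lit 562) (nat_lit 591) (nat_lit 1582) (.d (nat_lit 594) (nat_lit 593) (nat_lit 558) (nat_lit 595) (nat_lit 559)))) (.a (.p (nat_lit 622) (.a (.f (nat_lit 527) (nat_lit 654) (nat_lit 6670) (.d (nat_lit 495) (nat_lit 463) (nat_lit 5582) (nat_lit 591) (nat_lit 5614))) (.a (.p (nat_lit 654) (.a (.f (nat_lit 591) (nat_lit 686) (nat_lit 6702) (.d (nat_lit 655) (nat_lit 623) (nat_lit 6671) (nat_lit 687) (nat_lit 4654))) (.a (.f (nat_lit 685) (nat_lit 653) (nat_lit 5677) (.f (nat_lit 686) (nat_lit 717) (nat_lit 5709) (.d (nat_lit 687) (nat_lit 655) (nat_lit 4654) (nat_lit 719) (nat_lit 4686)))) (.a (.f (nat_lit 686) (nat_lit 591) (nat_lit 6702) (.d (nat_lit 685) (nat_lit 653) (nat_lit 5677) (nat_lit 717) (nat_lit 5709))) (.f (nat_lit 655) (nat_lit 687) (nat_lit 4654) (.f (nat_lit 623) (nat_lit 591) (nat_lit 6671) (.f (nat_lit 653) (nat_lit 685) (nat_lit 5677) (.d (nat_lit 624) (nat_lit 592) (nat_lit 5647) (nat_lit 652) (nat_lit 2668))))))))) (.a (.f (nat_lit 654) (nat_lit 527) (nat_lit 6670) (.f (nat_lit 685) (nat_lit 653) (nat_lit 5677) (.f (nat_lit 686) (nat_lit 717) (nat_lit 5709) (.d (nat_lit 687) (nat_lit 655) (nat_lit 4654) (nat_lit 719) (nat_lit 4686))))) (.p (nat_lit 592) (.a (.f (nat_lit 591) (nat_lit 623) (nat_lit 5615) (.d (nat_lit 593) (nat_lit 594) (nat_lit 3630) (nat_lit 621) (nat_lit 1613))) (.a (.f (nat_lit 495) (nat_lit 463) (nat_lit 7631) (.f (nat_lit 624) (nat_lit 527) (nat_lit 7663) (.f (nat_lit 623) (nat_lit 655) (nat_lit 5647) (.f (nat_lit 621) (nat_lit 593) (nat_lit 2637) (.f (nat_lit 589) (nat_lit 588) (nat_lit 3660) (.d (nat_lit 653) (nat_lit 652) (nat_lit 1644) (nat_lit 685) (nat_lit 6701))))))) (.f (nat_lit 495) (nat_lit 463) (nat_lit 7631) (.d (nat_lit 527) (nat_lit 591) (nat_lit 5614) (nat_lit 624) (nat_lit 7663)))))))))) (.a (.f (nat_lit 561) (nat_lit 589) (nat_lit 1581) (.f (nat_lit 594) (nat_lit 593) (nat_lit 558) (.f (nat_lit 562) (nat_lit 595) (nat_lit 559) (.f (nat_lit 531) (nat_lit 530) (nat_lit 2575) (.d (nat_lit 563) (nat_lit 527) (nat_lit 3599) (nat_lit 532) (nat_lit 2576)))))) (.p (nat_lit 591) (.a (.d (nat_lit 623) (nat_lit 527) (nat_lit 6639) (nat_lit 592) (nat_lit 5615)) (.a (.d (nat_lit 623) (nat_lit 527) (nat_lit 6639) (nat_lit 655) (nat_lit 6671)) (.a (.d (nat_lit 623) (nat_lit 592) (nat_lit 5615) (nat_lit 655) (nat_lit 6671)) (.p (nat_lit 622) (.a (.d (nat_lit 527) (nat_lit 495) (nat_lit 5614) (nat_lit 654) (nat_lit 6670)) (.a (.f (nat_lit 654) (nat_lit 686) (nat_lit 6702) (.f (nat_lit 561) (nat_lit 562) (nat_lit 1582) (.f (nat_lit 593) (nat_lit 594) (nat_lit 558) (.f (nat_lit 621) (nat_lit 592) (nat_lit 1613) (.f (nat_lit 655) (nat_lit 687) (nat_lit 4654) (.f (nat_lit 620) (nat_lit 619) (nat_lit 2635) (.d (nat_lit 656) (nat_lit 653) (nat_lit 3692) (nat_lit 657) (nat_lit 3693)))))))) (.f (nat_lit 495) (nat_lit 527) (nat_lit 5614) (.f (nat_lit 592) (nat_lit 463) (nat_lit 7631) (.d (nat_lit 593) (nat_lit 594) (nat_lit 3630) (nat_lit 621) (nat_lit 1613)))))))))))))))) (.p (nat_lit 592) (.a (.f (nat_lit 623) (nat_lit 591) (nat_lit 5615) (.f (nat_lit 624) (nat_lit 655) (nat_lit 5647) (.d (nat_lit 495) (nat_lit 463) (nat_lit 7631) (nat_lit 527) (nat_lit 7663)))) (.a (.f (nat_lit 591) (nat_lit 623) (nat_lit 5615) (.f (nat_lit 557) (nat_lit 556) (nat_lit 556) (.f (nat_lit 589) (nat_lit 588) (nat_lit 1580) (.f (nat_lit 590) (nat_lit 561) (nat_lit 1581) (.f (nat_lit 525) (nat_lit 524) (nat_lit 3596) (.d (nat_lit 493) (nat_lit 461) (nat_lit 4557) (nat_lit 622) (nat_lit 4589))))))) (.f (nat_lit 495) (nat_lit 463) (nat_lit 7631) (.f (nat_lit 527) (nat_lit 624) (nat_lit 7663) (.f (nat_lit 557) (nat_lit 556) (nat_lit 2572) (.f (nat_lit 589) (nat_lit 588) (nat_lit 1580) (.f (nat_lit 525) (nat_lit 524) (nat_lit 3596) (.f (nat_lit 590) (nat_lit 561) (nat_lit 1581) (.d (nat_lit 493) (nat_lit 461) (nat_lit 4557) (nat_lit 622) (nat_lit 4589)))))))))))))))))) (.a (.p (nat_lit 592) (.a (.f (nat_lit 623) (nat_lit 591) (nat_lit 5615) (.f (nat_lit 624) (nat_lit 655) (nat_lit 5647) (.d (nat_lit 495) (nat_lit 463) (nat_lit 7631) (nat_lit 527) (nat_lit 7663)))) (.a (.p (nat_lit 593) (.a (.f (nat_lit 591) (nat_lit 623) (nat_lit 5615) (.d (nat_lit 559) (nat_lit 557) (nat_lit 557) (nat_lit 594) (nat_lit 3630))) (.a (.f (nat_lit 591) (nat_lit 623) (nat_lit 5615) (.f (nat_lit 590) (nat_lit 557) (nat_lit 3629) (.d (nat_lit 561) (nat_lit 562) (nat_lit 2606) (nat_lit 589) (nat_lit 2605)))) (.a (.f (nat_lit 559) (nat_lit 557) (nat_lit 557) (.d (nat_lit 594) (nat_lit 561) (nat_lit 558) (nat_lit 595) (nat_lit 3631))) (.f (nat_lit 591) (nat_lit 623) (nat_lit 5615) (.f (nat_lit 594) (nat_lit 559) (nat_lit 3630) (.f (nat_lit 562) (nat_lit 563) (nat_lit 2607) (.f (nat_lit 561) (nat_lit 590) (nat_lit 2606) (.f (nat_lit 595) (nat_lit 596) (nat_lit 3632) (.d (nat_lit 627) (nat_lit 626) (nat_lit 591) (nat_lit 628) (nat_lit 592))))))))))) (.f (nat_lit 495) (nat_lit 463) (nat_lit 7631) (.f (nat_lit 497) (nat_lit 465) (nat_lit 6608) (.f (nat_lit 527) (nat_lit 624) (nat_lit 7663) (.d (nat_lit 498) (nat_lit 499) (nat_lit 1519) (nat_lit 526) (nat_lit 1518)))))))) (.a (.p (nat_lit 559) (.a (.p (nat_lit 561) (.a (.f (nat_lit 526) (nat_lit 525) (nat_lit 3597) (.f (nat_lit 527) (nat_lit 562) (nat_lit 3598) (.f (nat_lit 590) (nat_lit 589) (nat_lit 1581) (.d (nat_lit 622) (nat_lit 495) (nat_lit 6638) (nat_lit 654) (nat_lit 6670))))) (.a (.f (nat_lit 525) (nat_lit 526) (nat_lit 3597) (.f (nat_lit 557) (nat_lit 524) (nat_lit 3596) (.d (nat_lit 593) (nat_lit 592) (nat_lit 557) (nat_lit 594) (nat_lit 558)))) (.f (nat_lit 590) (nat_lit 589) (nat_lit 1581) (.f (nat_lit 562) (nat_lit 591) (nat_lit 1582) (.d (nat_lit 594) (nat_lit 593) (nat_lit 558) (nat_lit 595) (nat_lit 559))))))) (.a (.p (nat_lit 561) (.a (.f (nat_lit 526) (nat_lit 525) (nat_lit 3597) (.f (nat_lit 527) (nat_lit 562) (nat_lit 3598) (.f (nat_lit 590) (nat_lit 589) (nat_lit 1581) (.d (nat_lit 622) (nat_lit 495) (nat_lit 6638) (nat_lit 654) (nat_lit 6670))))) (.a (.f (nat_lit 525) (nat_lit 526) (nat_lit 3597) (.f (nat_lit 557) (nat_lit 524) (nat_lit 3596) (.d (nat_lit 589) (nat_lit 588) (nat_lit 1580) (nat_lit 590) (nat_lit 1581)))) (.f (nat_lit 594) (nat_lit 593) (nat_lit 558) (.f (nat_lit 562) (nat_lit 595) (nat_lit 559) (.f (nat_lit 531) (nat_lit 530) (nat_lit 2575) (.d (nat_lit 563) (nat_lit 527) (nat_lit 3599) (nat_lit 532) (nat_lit 2576)))))))) (.a s46806 (.a (.p (nat_lit 592) (.a (.f (nat_lit 557) (nat_lit 593) (nat_lit 557) (.f (nat_lit 527) (nat_lit 556) (nat_lit 2572) (.d (nat_lit 495) (nat_lit 463) (nat_lit 7631) (nat_lit 624) (nat_lit 7663)))) (.a (.f (nat_lit 557) (nat_lit 593) (nat_lit 557) (.f (nat_lit 588) (nat_lit 589) (nat_lit 1580) (.f (nat_lit 556) (nat_lit 587) (nat_lit 1579) (.d (nat_lit 524) (nat_lit 523) (nat_lit 3595) (nat_lit 525) (nat_lit 3596))))) (.f (nat_lit 495) (nat_lit 463) (nat_lit 7631) (.f (nat_lit 527) (nat_lit 624) (nat_lit 7663) (.f (nat_lit 497) (nat_lit 465) (nat_lit 6608) (.d (nat_lit 526) (nat_lit 498) (nat_lit 1518) (nat_lit 525) (nat_lit 2541)))))))) (.a s47018 (.a s47272 (.a (.p (nat_lit 561) (.a (.f (nat_lit 590) (nat_lit 589) (nat_lit 1581) (.f (nat_lit 562) (nat_lit 591) (nat_lit 1582) (.d (nat_lit 594) (nat_lit 593) (nat_lit 558) (nat_lit 595) (nat_lit 559)))) (.a (.f (nat_lit 593) (nat_lit 594) (nat_lit 558) (.f (nat_lit 557) (nat_lit 592) (nat_lit 557) (.d (nat_lit 589) (nat_lit 588) (nat_lit 1580) (nat_lit 590) (nat_lit 1581)))) (.a (.f (nat_lit 594) (nat_lit 593) (nat_lit 558) (.f (nat_lit 562) (nat_lit 595) (nat_lit 559) (.f (nat_lit 531) (nat_lit 530) (nat_lit 2575) (.d (nat_lit 563) (nat_lit 527) (nat_lit 3599) (nat_lit 532) (nat_lit 2576))))) (.f (nat_lit 589) (nat_lit 590) (nat_lit 1581) (.f (nat_lit 557) (nat_lit 588) (nat_lit 1580) (.f (nat_lit 527) (nat_lit 556) (nat_lit 2572) (.d (nat_lit 562) (nat_lit 526) (nat_lit 3598) (nat_lit 563) (nat_lit 3599))))))))) (.a (.p (nat_lit 561) (.a (.f (nat_lit 526) (nat_lit 525) (nat_lit 3597) (.f (nat_lit 527) (nat_lit 562) (nat_lit 3598) (.f (nat_lit 590) (nat_lit 589) (nat_lit 1581) (.d (nat_lit 622) (nat_lit 495) (nat_lit 6638) (nat_lit 654) (nat_lit 6670))))) (.a (.f (nat_lit 590) (nat_lit 589) (nat_lit 1581) (.f (nat_lit 562) (nat_lit 591) (nat_lit 1582) (.d (nat_lit 594) (nat_lit 593) (nat_lit 558) (nat_lit 595) (nat_lit 559)))) (.a (.p (nat_lit 495) (.a (.f (nat_lit 526) (nat_lit 525) (nat_lit 3597) (.f (nat_lit 590) (nat_lit 589) (nat_lit 1581) (.f (nat_lit 494) (nat_lit 463) (nat_lit 6606) (.f (nat_lit 461) (nat_lit 493) (nat_lit 7629) (.d (nat_lit 462) (nat_lit 429) (nat_lit 7597) (nat_lit 497) (nat_lit 3533)))))) (.a (.f (nat_lit 463) (nat_lit 592) (nat_lit 7631) (.d (nat_lit 590) (nat_lit 527) (nat_lit 5582) (nat_lit 589) (nat_lit 1581))) (.a (.f (nat_lit 526) (nat_lit 525) (nat_lit 3597) (.f (nat_lit 590) (nat_lit 589) (nat_lit 1581) (.f (nat_lit 527) (nat_lit 622) (nat_lit 6638) (.f (nat_lit 592) (nat_lit 624) (nat_lit 7663) (.d (nat_lit 497) (nat_lit 465) (nat_lit 6608) (nat_lit 498) (nat_lit 1518)))))) (.f (nat_lit 592) (nat_lit 463) (nat_lit 7631) (.f (nat_lit 527) (nat_lit 624) (nat_lit 7663) (.f (nat_lit 526) (nat_lit 525) (nat_lit 3597) (.d (nat_lit 497) (nat_lit 465) (nat_lit 6608) (nat_lit 498) (nat_lit 1518))))))))) (.f (nat_lit 526) (nat_lit 525) (nat_lit 3597) (.f (nat_lit 562) (nat_lit 527) (nat_lit 3598) (.d (nat_lit 594) (nat_lit 593) (nat_lit 558) (nat_lit 595) (nat_lit 559)))))))) (.a s47381 (.p (nat_lit 561) (.a (.f (nat_lit 526) (nat_lit 525) (nat_lit 3597) (.f (nat_lit 527) (nat_lit 562) (nat_lit 3598) (.f (nat_lit 590) (nat_lit 589) (nat_lit 1581) (.d (nat_lit 622) (nat_lit 495) (nat_lit 6638) (nat_lit 654) (nat_lit 6670))))) (.a (.f (nat_lit 525) (nat_lit 526) (nat_lit 3597) (.f (nat_lit 557) (nat_lit 524) (nat_lit 3596) (.d (nat_lit 589) (nat_lit 588) (nat_lit 1580) (nat_lit 590) (nat_lit 1581)))) (.a (.f (nat_lit 589) (nat_lit 590) (nat_lit 1581) (.f (nat_lit 557) (nat_lit 588) (nat_lit 1580) (.f (nat_lit 556) (nat_lit 527) (nat_lit 2572) (.d (nat_lit 524) (nat_lit 523) (nat_lit 3595) (nat_lit 525) (nat_lit 3596))))) (.a (.f (nat_lit 589) (nat_lit 590) (nat_lit 1581) (.f (nat_lit 557) (nat_lit 588) (nat_lit 1580) (.f (nat_lit 527) (nat_lit 556) (nat_lit 2572) (.d (nat_lit 562) (nat_lit 526) (nat_lit 3598) (nat_lit 563) (nat_lit 3599))))) (.f (nat_lit 526) (nat_lit 525) (nat_lit 3597) (.f (nat_lit 562) (nat_lit 527) (nat_lit 3598) (.f (nat_lit 531) (nat_lit 530) (nat_lit 2575) (.f (nat_lit 563) (nat_lit 532) (nat_lit 2576) (.d (nat_lit 595) (nat_lit 594) (nat_lit 559) (nat_lit 596) (nat_lit 560))))))))))))))))))))) (.a (.p (nat_lit 495) (.a (.f (nat_lit 592) (nat_lit 463) (nat_lit 7631) (.f (nat_lit 497) (nat_lit 465) (nat_lit 6608) (.f (nat_lit 527) (nat_lit 624) (nat_lit 7663) (.d (nat_lit 526) (nat_lit 498) (nat_lit 1518) (nat_lit 525) (nat_lit 2541))))) (.a (.p (nat_lit 494) (.a (.p (nat_lit 526) (.a (.f (nat_lit 525) (nat_lit 497) (nat_lit 1517) (.d (nat_lit 524) (nat_lit 493) (nat_lit 1516) (nat_lit 523) (nat_lit 2539))) (.f (nat_lit 463) (nat_lit 590) (nat_lit 6606) (.d (nat_lit 431) (nat_lit 399) (nat_lit 4495) (nat_lit 462) (nat_lit 6574))))) (.a (.p (nat_lit 493) (.a (.f (nat_lit 492) (nat_lit 527) (nat_lit 492) (.d (nat_lit 524) (nat_lit 523) (nat_lit 1515) (nat_lit 525) (nat_lit 1516))) (.a (.f (nat_lit 461) (nat_lit 460) (nat_lit 3532) (.f (nat_lit 524) (nat_lit 525) (nat_lit 1516) (.f (nat_lit 492) (nat_lit 523) (nat_lit 1515) (.f (nat_lit 462) (nat_lit 497) (nat_lit 3533) (.d (nat_lit 491) (nat_lit 463) (nat_lit 2507) (nat_lit 490) (nat_lit 2506)))))) (.a (.f (nat_lit 492) (nat_lit 527) (nat_lit 492) (.d (nat_lit 460) (nat_lit 459) (nat_lit 3531) (nat_lit 461) (nat_lit 3532))) (.f (nat_lit 461) (nat_lit 460) (nat_lit 3532) (.f (nat_lit 497) (nat_lit 462) (nat_lit 3533) (.f (nat_lit 466) (nat_lit 465) (nat_lit 2510) (.f (nat_lit 498) (nat_lit 467) (nat_lit 2511) (.f (nat_lit 499) (nat_lit 527) (nat_lit 1519) (.d (nat_lit 531) (nat_lit 530) (nat_lit 495) (nat_lit 532) (nat_lit 496))))))))))) (.a s46857 (.a (.p (nat_lit 493) (.a (.f (nat_lit 492) (nat_lit 527) (nat_lit 492) (.d (nat_lit 524) (nat_lit 523) (nat_lit 1515) (nat_lit 525) (nat_lit 1516))) (.f (nat_lit 461) (nat_lit 460) (nat_lit 3532) (.f (nat_lit 526) (nat_lit 590) (nat_lit 7629) (.d (nat_lit 429) (nat_lit 397) (nat_lit 4493) (nat_lit 462) (nat_lit 7597)))))) (.a (.p (nat_lit 526) (.a (.f (nat_lit 525) (nat_lit 497) (nat_lit 1517) (.d (nat_lit 524) (nat_lit 493) (nat_lit 1516) (nat_lit 523) (nat_lit 2539))) (.a (.f (nat_lit 590) (nat_lit 463) (nat_lit 6606) (.f (nat_lit 527) (nat_lit 622) (nat_lit 6638) (.d (nat_lit 493) (nat_lit 461) (nat_lit 7629) (nat_lit 492) (nat_lit 492)))) (.f (nat_lit 525) (nat_lit 497) (nat_lit 1517) (.d (nat_lit 524) (nat_lit 523) (nat_lit 2539) (nat_lit 527) (nat_lit 2540)))))) (.a (.p (nat_lit 526) (.a (.f (nat_lit 463) (nat_lit 590) (nat_lit 6606) (.d (nat_lit 431) (nat_lit 399) (nat_lit 4495) (nat_lit 462) (nat_lit 6574))) (.f (nat_lit 525) (nat_lit 497) (nat_lit 1517) (.d (nat_lit 524) (nat_lit 523) (nat_lit 2539) (nat_lit 527) (nat_lit 2540))))) (.p (nat_lit 526) (.a (.f (nat_lit 463) (nat_lit 590) (nat_lit 6606) (.d (nat_lit 431) (nat_lit 399) (nat_lit 4495) (nat_lit 462) (nat_lit 6574))) (.a (.f (nat_lit 497) (nat_lit 525) (nat_lit 1517) (.f (nat_lit 527) (nat_lit 498) (nat_lit 1518) (.f (nat_lit 462) (nat_lit 461) (nat_lit 3533) (.d (nat_lit 430) (nat_lit 398) (nat_lit 4494) (nat_lit 559) (nat_lit 4526))))) (.f (nat_lit 590) (nat_lit 463) (nat_lit 6606) (.f (nat_lit 527) (nat_lit 622) (nat_lit 6638) (.d (nat_lit 493) (nat_lit 461) (nat_lit 7629) (nat_lit 492) (nat_lit 492)))))))))))))) (.a (.p (nat_lit 494) (.a (.p (nat_lit 526) (.a (.f (nat_lit 525) (nat_lit 497) (nat_lit 1517) (.d (nat_lit 524) (nat_lit 493) (nat_lit 1516) (nat_lit 523) (nat_lit 2539))) (.f (nat_lit 463) (nat_lit 590) (nat_lit 6606) (.d (nat_lit 431) (nat_lit 399) (nat_lit 4495) (nat_lit 462) (nat_lit 6574))))) (.a (.p (nat_lit 493) (.a (.f (nat_lit 461) (nat_lit 460) (nat_lit 3532) (.f (nat_lit 524) (nat_lit 525) (nat_lit 1516) (.f (nat_lit 492) (nat_lit 523) (nat_lit 1515) (.f (nat_lit 462) (nat_lit 497) (nat_lit 3533) (.d (nat_lit 491) (nat_lit 463) (nat_lit 2507) (nat_lit 490) (nat_lit 2506)))))) (.a (.f (nat_lit 592) (nat_lit 463) (nat_lit 7631) (.f (nat_lit 497) (nat_lit 465) (nat_lit 6608) (.d (nat_lit 461) (nat_lit 460) (nat_lit 3532) (nat_lit 462) (nat_lit 3533)))) (.a (.f (nat_lit 461) (nat_lit 460) (nat_lit 3532) (.f (nat_lit 497) (nat_lit 462) (nat_lit 3533) (.d (nat_lit 465) (nat_lit 466) (nat_lit 2510) (nat_lit 592) (nat_lit 6608)))) (.a (.f (nat_lit 460) (nat_lit 461) (nat_lit 3532) (.f (nat_lit 492) (nat_lit 459) (nat_lit 3531) (.d (nat_lit 524) (nat_lit 523) (nat_lit 1515) (nat_lit 525) (nat_lit 1516)))) (.a (.f (nat_lit 463) (nat_lit 592) (nat_lit 7631) (.f (nat_lit 524) (nat_lit 525) (nat_lit 1516) (.f (nat_lit 492) (nat_lit 523) (nat_lit 1515) (.f (nat_lit 491) (nat_lit 462) (nat_lit 2507) (.d (nat_lit 459) (nat_lit 458) (nat_lit 3530) (nat_lit 460) (nat_lit 3531)))))) (.f (nat_lit 463) (nat_lit 592) (nat_lit 7631) (.f (nat_lit 524) (nat_lit 525) (nat_lit 1516) (.f (nat_lit 492) (nat_lit 523) (nat_lit 1515) (.f (nat_lit 462) (nat_lit 491) (nat_lit 2507) (.d (nat_lit 497) (nat_lit 461) (nat_lit 3533) (nat_lit 498) (nat_lit 3534)))))))))))) (.a (.f (nat_lit 463) (nat_lit 592) (nat_lit 7631) (.f (nat_lit 526) (nat_lit 590) (nat_lit 6606) (.d (nat_lit 431) (nat_lit 399) (nat_lit 4495) (nat_lit 462) (nat_lit 6574)))) (.a s47429 (.f (nat_lit 463) (nat_lit 592) (nat_lit 7631) (.f (nat_lit 526) (nat_lit 590) (nat_lit 6606) (.f (nat_lit 525) (nat_lit 497) (nat_lit 1517) (.d (nat_lit 524) (nat_lit 493) (nat_lit 1516) (nat_lit 523) (nat_lit 2539)))))))))) (.a (.f (nat_lit 592) (nat_lit 463) (nat_lit 7631) (.f (nat_lit 624) (nat_lit 527) (nat_lit 7663) (.d (nat_lit 623) (nat_lit 591) (nat_lit 5615) (nat_lit 655) (nat_lit 5647)))) (.p (nat_lit 494) (.a (.p (nat_lit 493) (.a (.f (nat_lit 492) (nat_lit 527) (nat_lit 492) (.d (nat_lit 524) (nat_lit 523) (nat_lit 1515) (nat_lit 525) (nat_lit 1516))) (.f (nat_lit 461) (nat_lit 460) (nat_lit 3532) (.f (nat_lit 526) (nat_lit 590) (nat_lit 7629) (.d (nat_lit 429) (nat_lit 397) (nat_lit 4493) (nat_lit 462) (nat_lit 7597)))))) (.a s47429 (.a (.p (nat_lit 493) (.a (.f (nat_lit 492) (nat_lit 527) (nat_lit 492) (.d (nat_lit 524) (nat_lit 523) (nat_lit 1515) (nat_lit 525) (nat_lit 1516))) (.f (nat_lit 461) (nat_lit 460) (nat_lit 3532) (.f (nat_lit 497) (nat_lit 462) (nat_lit 3533) (.d (nat_lit 465) (nat_lit 466) (nat_lit 2510) (nat_lit 592) (nat_lit 6608)))))) (.a (.p (nat_lit 592) (.a (.f (nat_lit 497) (nat_lit 465) (nat_lit 6608) (.f (nat_lit 527) (nat_lit 624) (nat_lit 7663) (.d (nat_lit 498) (nat_lit 499) (nat_lit 1519) (nat_lit 526) (nat_lit 1518)))) (.a (.f (nat_lit 497) (nat_lit 465) (nat_lit 6608) (.f (nat_lit 591) (nat_lit 623) (nat_lit 5615) (.f (nat_lit 461) (nat_lit 462) (nat_lit 3533) (.f (nat_lit 493) (nat_lit 460) (nat_lit 3532) (.f (nat_lit 590) (nat_lit 526) (nat_lit 7629) (.f (nat_lit 589) (nat_lit 561) (nat_lit 2605) (.f (nat_lit 588) (nat_lit 559) (nat_lit 2604) (.d (nat_lit 620) (nat_lit 619) (nat_lit 1611) (nat_lit 621) (nat_lit 1612))))))))) (.a (.f (nat_lit 497) (nat_lit 465) (nat_lit 6608) (.f (nat_lit 527) (nat_lit 624) (nat_lit 7663) (.f (nat_lit 493) (nat_lit 492) (nat_lit 492) (.d (nat_lit 461) (nat_lit 460) (nat_lit 3532) (nat_lit 462) (nat_lit 3533))))) (.a (.f (nat_lit 527) (nat_lit 624) (nat_lit 7663) (.f (nat_lit 493) (nat_lit 492) (nat_lit 492) (.f (nat_lit 461) (nat_lit 460) (nat_lit 3532) (.f (nat_lit 526) (nat_lit 590) (nat_lit 7629) (.d (nat_lit 462) (nat_lit 429) (nat_lit 7597) (nat_lit 497) (nat_lit 3533)))))) (.f (nat_lit 527) (nat_lit 624) (nat_lit 7663) (.f (nat_lit 493) (nat_lit 492) (nat_lit 492) (.f (nat_lit 461) (nat_lit 460) (nat_lit 3532) (.f (nat_lit 526) (nat_lit 590) (nat_lit 7629) (.d (nat_lit 429) (nat_lit 397) (nat_lit 4493) (nat_lit 462) (nat_lit 7597))))))))))) (.a s46981 (.p (nat_lit 592) (.a (.f (nat_lit 497) (nat_lit 465) (nat_lit 6608) (.f (nat_lit 527) (nat_lit 624) (nat_lit 7663) (.d (nat_lit 498) (nat_lit 499) (nat_lit 1519) (nat_lit 526) (nat_lit 1518)))) (.a (.f (nat_lit 497) (nat_lit 465) (nat_lit 6608) (.f (nat_lit 591) (nat_lit 623) (nat_lit 5615) (.f (nat_lit 526) (nat_lit 525) (nat_lit 1517) (.d (nat_lit 462) (nat_lit 461) (nat_lit 3533) (nat_lit 559) (nat_lit 4558))))) (.f (nat_lit 624) (nat_lit 527) (nat_lit 7663) (.d (nat_lit 623) (nat_lit 591) (nat_lit 5615) (nat_lit 655) (nat_lit 5647))))))))))))))))) (.a (.p (nat_lit 559) (.a (.p (nat_lit 592) (.a (.f (nat_lit 591) (nat_lit 623) (nat_lit 5615) (.d (nat_lit 593) (nat_lit 557) (nat_lit 557) (nat_lit 594) (nat_lit 3630))) (.a (.f (nat_lit 557) (nat_lit 593) (nat_lit 557) (.f (nat_lit 527) (nat_lit 556) (nat_lit 2572) (.d (nat_lit 495) (nat_lit 463) (nat_lit 7631) (nat_lit 624) (nat_lit 7663)))) (.f (nat_lit 591) (nat_lit 623) (nat_lit 5615) (.f (nat_lit 495) (nat_lit 463) (nat_lit 7631) (.f (nat_lit 527) (nat_lit 624) (nat_lit 4591) (.f (nat_lit 497) (nat_lit 465) (nat_lit 6608) (.d (nat_lit 526) (nat_lit 498) (nat_lit 1518) (nat_lit 525) (nat_lit 2541))))))))) (.a (.p (nat_lit 525) (.a (.f (nat_lit 526) (nat_lit 561) (nat_lit 3597) (.d (nat_lit 524) (nat_lit 523) (nat_lit 523) (nat_lit 557) (nat_lit 3596))) (.a (.f (nat_lit 557) (nat_lit 524) (nat_lit 3596) (.f (nat_lit 556) (nat_lit 527) (nat_lit 2572) (.d (nat_lit 588) (nat_lit 587) (nat_lit 1579) (nat_lit 589) (nat_lit 1580)))) (.a (.f (nat_lit 526) (nat_lit 561) (nat_lit 3597) (.d (nat_lit 524) (nat_lit 523) (nat_lit 523) (nat_lit 527) (nat_lit 524))) (.f (nat_lit 526) (nat_lit 561) (nat_lit 3597) (.f (nat_lit 527) (nat_lit 497) (nat_lit 2541) (.f (nat_lit 557) (nat_lit 556) (nat_lit 2572) (.f (nat_lit 589) (nat_lit 588) (nat_lit 1580) (.d (nat_lit 494) (nat_lit 462) (nat_lit 5581) (nat_lit 621) (nat_lit 6637)))))))))) (.a s46805 (.a (.p (nat_lit 592) (.a (.f (nat_lit 591) (nat_lit 623) (nat_lit 5615) (.d (nat_lit 593) (nat_lit 557) (nat_lit 557) (nat_lit 594) (nat_lit 3630))) (.a (.f (nat_lit 557) (nat_lit 593) (nat_lit 557) (.f (nat_lit 527) (nat_lit 556) (nat_lit 2572) (.d (nat_lit 495) (nat_lit 463) (nat_lit 7631) (nat_lit 624) (nat_lit 7663)))) (.f (nat_lit 623) (nat_lit 591) (nat_lit 5615) (.f (nat_lit 624) (nat_lit 655) (nat_lit 5647) (.d (nat_lit 495) (nat_lit 463) (nat_lit 7631) (nat_lit 527) (nat_lit 7663))))))) (.p (nat_lit 495) (.a (.f (nat_lit 463) (nat_lit 592) (nat_lit 7631) (.d (nat_lit 431) (nat_lit 399) (nat_lit 4495) (nat_lit 527) (nat_lit 4527))) (.a (.p (nat_lit 494) (.a (.p (nat_lit 493) (.a (.f (nat_lit 461) (nat_lit 460) (nat_lit 3532) (.f (nat_lit 524) (nat_lit 525) (nat_lit 1516) (.f (nat_lit 492) (nat_lit 523) (nat_lit 1515) (.f (nat_lit 462) (nat_lit 497) (nat_lit 3533) (.d (nat_lit 491) (nat_lit 463) (nat_lit 2507) (nat_lit 490) (nat_lit 2506)))))) (.a (.f (nat_lit 527) (nat_lit 492) (nat_lit 492) (.d (nat_lit 591) (nat_lit 462) (nat_lit 7630) (nat_lit 623) (nat_lit 6639))) (.a (.f (nat_lit 460) (nat_lit 461) (nat_lit 3532) (.f (nat_lit 492) (nat_lit 459) (nat_lit 3531) (.d (nat_lit 524) (nat_lit 523) (nat_lit 1515) (nat_lit 525) (nat_lit 1516)))) (.f (nat_lit 461) (nat_lit 460) (nat_lit 3532) (.f (nat_lit 462) (nat_lit 497) (nat_lit 3533) (.f (nat_lit 527) (nat_lit 591) (nat_lit 7630) (.d (nat_lit 430) (nat_lit 398) (nat_lit 4494) (nat_lit 463) (nat_lit 7598))))))))) (.a (.p (nat_lit 526) (.a (.f (nat_lit 525) (nat_lit 497) (nat_lit 1517) (.d (nat_lit 524) (nat_lit 493) (nat_lit 1516) (nat_lit 523) (nat_lit 523))) (.a (.f (nat_lit 462) (nat_lit 591) (nat_lit 4558) (.d (nat_lit 461) (nat_lit 429) (nat_lit 7597) (nat_lit 497) (nat_lit 3533))) (.f (nat_lit 462) (nat_lit 591) (nat_lit 4558) (.f (nat_lit 463) (nat_lit 431) (nat_lit 6574) (.d (nat_lit 461) (nat_lit 429) (nat_lit 7597) (nat_lit 460) (nat_lit 460))))))) (.a (.p (nat_lit 561) (.a (.f (nat_lit 526) (nat_lit 525) (nat_lit 3597) (.f (nat_lit 527) (nat_lit 562) (nat_lit 3598) (.f (nat_lit 463) (nat_lit 431) (nat_lit 5550) (.f (nat_lit 462) (nat_lit 430) (nat_lit 7598) (.d (nat_lit 461) (nat_lit 429) (nat_lit 7597) (nat_lit 460) (nat_lit 460)))))) (.a (.f (nat_lit 525) (nat_lit 526) (nat_lit 3597) (.f (nat_lit 493) (nat_lit 524) (nat_lit 1516) (.f (nat_lit 461) (nat_lit 460) (nat_lit 3532) (.f (nat_lit 497) (nat_lit 462) (nat_lit 3533) (.f (nat_lit 594) (nat_lit 593) (nat_lit 558) (.f (nat_lit 562) (nat_lit 595) (nat_lit 559) (.f (nat_lit 531) (nat_lit 530) (nat_lit 2575) (.f (nat_lit 563) (nat_lit 532) (nat_lit 2576) (.f (nat_lit 467) (nat_lit 499) (nat_lit 5586) (.d (nat_lit 466) (nat_lit 465) (nat_lit 2510) (nat_lit 498) (nat_lit 2511))))))))))) (.a (.f (nat_lit 594) (nat_lit 593) (nat_lit 558) (.f (nat_lit 562) (nat_lit 595) (nat_lit 559) (.f (nat_lit 527) (nat_lit 563) (nat_lit 3599) (.f (nat_lit 463) (nat_lit 431) (nat_lit 4527) (.f (nat_lit 462) (nat_lit 430) (nat_lit 7598) (.d (nat_lit 497) (nat_lit 461) (nat_lit 3533) (nat_lit 498) (nat_lit 3534))))))) (.a (.f (nat_lit 525) (nat_lit 526) (nat_lit 3597) (.f (nat_lit 493) (nat_lit 524) (nat_lit 1516) (.f (nat_lit 461) (nat_lit 460) (nat_lit 3532) (.f (nat_lit 462) (nat_lit 497) (nat_lit 3533) (.f (nat_lit 430) (nat_lit 398) (nat_lit 5517) (.d (nat_lit 527) (nat_lit 463) (nat_lit 7598) (nat_lit 492) (nat_lit 492))))))) (.f (nat_lit 526) (nat_lit 525) (nat_lit 3597) (.f (nat_lit 562) (nat_lit 527) (nat_lit 3598) (.d (nat_lit 594) (nat_lit 593) (nat_lit 558) (nat_lit 595) (nat_lit 559))))))))) (.a (.p (nat_lit 493) (.a (.f (nat_lit 527) (nat_lit 492) (nat_lit 492) (.d (nat_lit 591) (nat_lit 462) (nat_lit 7630) (nat_lit 623) (nat_lit 6639))) (.a (.f (nat_lit 461) (nat_lit 460) (nat_lit 3532) (.f (nat_lit 462) (nat_lit 497) (nat_lit 3533) (.d (nat_lit 526) (nat_lit 429) (nat_lit 7597) (nat_lit 591) (nat_lit 4558)))) (.a (.f (nat_lit 527) (nat_lit 492) (nat_lit 492) (.f (nat_lit 463) (nat_lit 431) (nat_lit 4527) (.f (nat_lit 462) (nat_lit 430) (nat_lit 7598) (.d (nat_lit 497) (nat_lit 461) (nat_lit 3533) (nat_lit 498) (nat_lit 3534))))) (.f (nat_lit 492) (nat_lit 527) (nat_lit 492) (.d (nat_lit 460) (nat_lit 459) (nat_lit 3531) (nat_lit 461) (nat_lit 3532))))))) (.a (.p (nat_lit 526) (.a (.f (nat_lit 525) (nat_lit 497) (nat_lit 1517) (.d (nat_lit 524) (nat_lit 493) (nat_lit 1516) (nat_lit 523) (nat_lit 523))) (.a (.f (nat_lit 462) (nat_lit 591) (nat_lit 4558) (.d (nat_lit 461) (nat_lit 429) (nat_lit 7597) (nat_lit 497) (nat_lit 3533))) (.f (nat_lit 525) (nat_lit 561) (nat_lit 3597) (.d (nat_lit 524) (nat_lit 523) (nat_lit 523) (nat_lit 527) (nat_lit 2540)))))) (.a (.p (nat_lit 526) (.a (.f (nat_lit 462) (nat_lit 591) (nat_lit 4558) (.f (nat_lit 463) (nat_lit 431) (nat_lit 6574) (.d (nat_lit 461) (nat_lit 429) (nat_lit 7597) (nat_lit 460) (nat_lit 460)))) (.f (nat_lit 525) (nat_lit 561) (nat_lit 3597) (.d (nat_lit 524) (nat_lit 523) (nat_lit 523) (nat_lit 527) (nat_lit 2540))))) (.a (.p (nat_lit 525) (.a (.d (nat_lit 526) (nat_lit 497) (nat_lit 1517) (nat_lit 561) (nat_lit 3597)) (.a (.f (nat_lit 526) (nat_lit 497) (nat_lit 1517) (.d (nat_lit 524) (nat_lit 493) (nat_lit 1516) (nat_lit 527) (nat_lit 524))) (.f (nat_lit 493) (nat_lit 524) (nat_lit 1516) (.f (nat_lit 492) (nat_lit 527) (nat_lit 492) (.d (nat_lit 460) (nat_lit 459) (nat_lit 3531) (nat_lit 461) (nat_lit 3532))))))) (.p (nat_lit 526) (.a (.f (nat_lit 525) (nat_lit 497) (nat_lit 1517) (.d (nat_lit 524) (nat_lit 493) (nat_lit 1516) (nat_lit 523) (nat_lit 523))) (.f (nat_lit 591) (nat_lit 462) (nat_lit 4558) (.d (nat_lit 623) (nat_lit 527) (nat_lit 6639) (nat_lit 655) (nat_lit 6671))))))))))))) (.a (.p (nat_lit 497) (.a (.d (nat_lit 592) (nat_lit 463) (nat_lit 7631) (nat_lit 465) (nat_lit 6608)) (.a (.p (nat_lit 498) (.a (.f (nat_lit 531) (nat_lit 530) (nat_lit 495) (.f (nat_lit 499) (nat_lit 532) (nat_lit 496) (.d (nat_lit 467) (nat_lit 466) (nat_lit 2511) (nat_lit 468) (nat_lit 2512)))) (.f (nat_lit 462) (nat_lit 463) (nat_lit 3534) (.f (nat_lit 494) (nat_lit 461) (nat_lit 3533) (.d (nat_lit 526) (nat_lit 525) (nat_lit 1517) (nat_lit 591) (nat_lit 4558)))))) (.f (nat_lit 465) (nat_lit 592) (nat_lit 6608) (.f (nat_lit 494) (nat_lit 466) (nat_lit 2510) (.f (nat_lit 526) (nat_lit 525) (nat_lit 1517) (.d (nat_lit 462) (nat_lit 461) (nat_lit 3533) (nat_lit 591) (nat_lit 4558)))))))) (.p (nat_lit 494) (.a (.p (nat_lit 493) (.a (.f (nat_lit 461) (nat_lit 460) (nat_lit 3532) (.f (nat_lit 497) (nat_lit 462) (nat_lit 3533) (.d (nat_lit 465) (nat_lit 466) (nat_lit 2510) (nat_lit 592) (nat_lit 6608)))) (.a (.f (nat_lit 460) (nat_lit 461) (nat_lit 3532) (.f (nat_lit 492) (nat_lit 459) (nat_lit 3531) (.d (nat_lit 524) (nat_lit 523) (nat_lit 1515) (nat_lit 525) (nat_lit 1516)))) (.f (nat_lit 527) (nat_lit 492) (nat_lit 492) (.d (nat_lit 591) (nat_lit 462) (nat_lit 7630) (nat_lit 623) (nat_lit 6639)))))) (.a (.p (nat_lit 526) (.a (.f (nat_lit 525) (nat_lit 497) (nat_lit 1517) (.d (nat_lit 524) (nat_lit 493) (nat_lit 1516) (nat_lit 523) (nat_lit 523))) (.a (.f (nat_lit 462) (nat_lit 591) (nat_lit 4558) (.d (nat_lit 461) (nat_lit 429) (nat_lit 7597) (nat_lit 497) (nat_lit 3533))) (.f (nat_lit 525) (nat_lit 561) (nat_lit 3597) (.d (nat_lit 524) (nat_lit 523) (nat_lit 523) (nat_lit 527) (nat_lit 2540)))))) (.a (.p (nat_lit 526) (.a (.f (nat_lit 525) (nat_lit 497) (nat_lit 1517) (.d (nat_lit 524) (nat_lit 493) (nat_lit 1516) (nat_lit 523) (nat_lit 523))) (.a (.f (nat_lit 462) (nat_lit 591) (nat_lit 4558) (.d (nat_lit 461) (nat_lit 429) (nat_lit 7597) (nat_lit 497) (nat_lit 3533))) (.f (nat_lit 591) (nat_lit 462) (nat_lit 4558) (.d (nat_lit 623) (nat_lit 592) (nat_lit 5615) (nat_lit 655) (nat_lit 6671)))))) (.a (.p (nat_lit 525) (.a (.d (nat_lit 526) (nat_lit 497) (nat_lit 1517) (nat_lit 561) (nat_lit 3597)) (.a (.f (nat_lit 526) (nat_lit 497) (nat_lit 1517) (.d (nat_lit 524) (nat_lit 493) (nat_lit 1516) (nat_lit 527) (nat_lit 524))) (.f (nat_lit 493) (nat_lit 524) (nat_lit 1516) (.f (nat_lit 492) (nat_lit 527) (nat_lit 492) (.d (nat_lit 460) (nat_lit 459) (nat_lit 3531) (nat_lit 461) (nat_lit 3532))))))) (.a (.p (nat_lit 592) (.a (.f (nat_lit 591) (nat_lit 623) (nat_lit 5615) (.d (nat_lit 527) (nat_lit 462) (nat_lit 7630) (nat_lit 624) (nat_lit 4591))) (.a (.f (nat_lit 591) (nat_lit 623) (nat_lit 5615) (.f (nat_lit 497) (nat_lit 465) (nat_lit 6608) (.d (nat_lit 462) (nat_lit 461) (nat_lit 3533) (nat_lit 526) (nat_lit 4558)))) (.f (nat_lit 527) (nat_lit 624) (nat_lit 7663) (.f (nat_lit 497) (nat_lit 465) (nat_lit 6608) (.d (nat_lit 498) (nat_lit 499) (nat_lit 1519) (nat_lit 526) (nat_lit 1518))))))) (.p (nat_lit 526) (.a (.f (nat_lit 525) (nat_lit 561) (nat_lit 3597) (.d (nat_lit 524) (nat_lit 523) (nat_lit 523) (nat_lit 527) (nat_lit 2540))) (.f (nat_lit 591) (nat_lit 462) (nat_lit 4558) (.d (nat_lit 623) (nat_lit 592) (nat_lit 5615) (nat_lit 655) (nat_lit 6671)))))))))))))))))))) (.p (nat_lit 559) (.a (.p (nat_lit 592) (.a (.f (nat_lit 591) (nat_lit 623) (nat_lit 5615) (.d (nat_lit 593) (nat_lit 557) (nat_lit 557) (nat_lit 594) (nat_lit 3630))) (.a (.f (nat_lit 557) (nat_lit 593) (nat_lit 557) (.f (nat_lit 527) (nat_lit 556) (nat_lit 2572) (.d (nat_lit 495) (nat_lit 463) (nat_lit 7631) (nat_lit 624) (nat_lit 7663)))) (.f (nat_lit 591) (nat_lit 623) (nat_lit 5615) (.f (nat_lit 495) (nat_lit 463) (nat_lit 7631) (.f (nat_lit 527) (nat_lit 624) (nat_lit 4591) (.f (nat_lit 497) (nat_lit 465) (nat_lit 6608) (.d (nat_lit 526) (nat_lit 498) (nat_lit 1518) (nat_lit 525) (nat_lit 2541))))))))) (.a (.p (nat_lit 591) (.a (.d (nat_lit 623) (nat_lit 527) (nat_lit 6639) (nat_lit 655) (nat_lit 6671)) (.a (.p (nat_lit 526) (.a (.f (nat_lit 623) (nat_lit 655) (nat_lit 6671) (.d (nat_lit 494) (nat_lit 462) (nat_lit 4558) (nat_lit 590) (nat_lit 4590))) (.f (nat_lit 525) (nat_lit 561) (nat_lit 3597) (.d (nat_lit 524) (nat_lit 523) (nat_lit 523) (nat_lit 557) (nat_lit 3596))))) (.p (nat_lit 561) (.a (.f (nat_lit 562) (nat_lit 590) (nat_lit 1582) (.d (nat_lit 594) (nat_lit 593) (nat_lit 558) (nat_lit 595) (nat_lit 559))) (.a (.f (nat_lit 525) (nat_lit 526) (nat_lit 3597) (.f (nat_lit 557) (nat_lit 524) (nat_lit 3596) (.f (nat_lit 556) (nat_lit 527) (nat_lit 2572) (.f (nat_lit 555) (nat_lit 590) (nat_lit 555) (.d (nat_lit 587) (nat_lit 586) (nat_lit 1578) (nat_lit 588) (nat_lit 1579)))))) (.f (nat_lit 526) (nat_lit 525) (nat_lit 3597) (.f (nat_lit 562) (nat_lit 527) (nat_lit 3598) (.d (nat_lit 594) (nat_lit 593) (nat_lit 558) (nat_lit 595) (nat_lit 559)))))))))) (.a (.p (nat_lit 525) (.a (.f (nat_lit 557) (nat_lit 524) (nat_lit 3596) (.f (nat_lit 592) (nat_lit 593) (nat_lit 557) (.d (nat_lit 591) (nat_lit 556) (nat_lit 556) (nat_lit 623) (nat_lit 5615)))) (.a (.f (nat_lit 526) (nat_lit 561) (nat_lit 3597) (.d (nat_lit 524) (nat_lit 523) (nat_lit 523) (nat_lit 557) (nat_lit 3596))) (.f (nat_lit 561) (nat_lit 526) (nat_lit 3597) (.f (nat_lit 594) (nat_lit 593) (nat_lit 558) (.f (nat_lit 562) (nat_lit 595) (nat_lit 559) (.f (nat_lit 591) (nat_lit 590) (nat_lit 1582) (.d (nat_lit 592) (nat_lit 563) (nat_lit 1583) (nat_lit 623) (nat_lit 5615))))))))) (.a s47381 (.a (.p (nat_lit 592) (.a (.f (nat_lit 591) (nat_lit 623) (nat_lit 5615) (.d (nat_lit 593) (nat_lit 557) (nat_lit 557) (nat_lit 594) (nat_lit 3630))) (.a (.f (nat_lit 557) (nat_lit 593) (nat_lit 557) (.f (nat_lit 527) (nat_lit 556) (nat_lit 2572) (.d (nat_lit 495) (nat_lit 463) (nat_lit 7631) (nat_lit 624) (nat_lit 7663)))) (.f (nat_lit 623) (nat_lit 591) (nat_lit 5615) (.f (nat_lit 624) (nat_lit 655) (nat_lit 5647) (.d (nat_lit 495) (nat_lit 463) (nat_lit 7631) (nat_lit 527) (nat_lit 7663))))))) (.a (.p (nat_lit 495) (.a (.f (nat_lit 463) (nat_lit 592) (nat_lit 7631) (.d (nat_lit 431) (nat_lit 399) (nat_lit 4495) (nat_lit 527) (nat_lit 4527))) (.a (.p (nat_lit 527) (.a (.d (nat_lit 463) (nat_lit 431) (nat_lit 4527) (nat_lit 590) (nat_lit 5582)) (.a (.f (nat_lit 591) (nat_lit 623) (nat_lit 6639) (.f (nat_lit 494) (nat_lit 462) (nat_lit 7630) (.f (nat_lit 590) (nat_lit 622) (nat_lit 5614) (.f (nat_lit 561) (nat_lit 562) (nat_lit 1582) (.f (nat_lit 526) (nat_lit 525) (nat_lit 525) (.d (nat_lit 493) (nat_lit 461) (nat_lit 7629) (nat_lit 492) (nat_lit 492))))))) (.f (nat_lit 463) (nat_lit 431) (nat_lit 4527) (.f (nat_lit 462) (nat_lit 430) (nat_lit 7598) (.d (nat_lit 591) (nat_lit 494) (nat_lit 7630) (nat_lit 623) (nat_lit 6639))))))) (.a (.p (nat_lit 526) (.a (.f (nat_lit 525) (nat_lit 561) (nat_lit 3597) (.f (nat_lit 494) (nat_lit 497) (nat_lit 1517) (.d (nat_lit 524) (nat_lit 493) (nat_lit 1516) (nat_lit 523) (nat_lit 523)))) (.a (.f (nat_lit 463) (nat_lit 592) (nat_lit 7631) (.f (nat_lit 494) (nat_lit 590) (nat_lit 6606) (.d (nat_lit 431) (nat_lit 399) (nat_lit 4495) (nat_lit 462) (nat_lit 6574)))) (.f (nat_lit 592) (nat_lit 463) (nat_lit 7631) (.f (nat_lit 591) (nat_lit 623) (nat_lit 5615) (.f (nat_lit 561) (nat_lit 525) (nat_lit 3597) (.d (nat_lit 562) (nat_lit 563) (nat_lit 1583) (nat_lit 590) (nat_lit 1582)))))))) (.p (nat_lit 527) (.a (.f (nat_lit 592) (nat_lit 624) (nat_lit 7663) (.f (nat_lit 497) (nat_lit 465) (nat_lit 6608) (.d (nat_lit 526) (nat_lit 498) (nat_lit 1518) (nat_lit 525) (nat_lit 2541)))) (.a (.f (nat_lit 591) (nat_lit 623) (nat_lit 6639) (.f (nat_lit 494) (nat_lit 462) (nat_lit 7630) (.f (nat_lit 590) (nat_lit 622) (nat_lit 5614) (.f (nat_lit 561) (nat_lit 562) (nat_lit 1582) (.f (nat_lit 526) (nat_lit 525) (nat_lit 525) (.d (nat_lit 493) (nat_lit 461) (nat_lit 7629) (nat_lit 492) (nat_lit 492))))))) (.f (nat_lit 591) (nat_lit 623) (nat_lit 6639) (.f (nat_lit 592) (nat_lit 624) (nat_lit 7663) (.f (nat_lit 594) (nat_lit 593) (nat_lit 3630) (.f (nat_lit 497) (nat_lit 465) (nat_lit 6608) (.f (nat_lit 498) (nat_lit 499) (nat_lit 1519) (.f (nat_lit 590) (nat_lit 622) (nat_lit 5614) (.f (nat_lit 562) (nat_lit 561) (nat_lit 1582) (.f (nat_lit 530) (nat_lit 531) (nat_lit 495) (.f (nat_lit 466) (nat_lit 467) (nat_lit 2511) (.d (nat_lit 595) (nat_lit 563) (nat_lit 4562) (nat_lit 627) (nat_lit 4594)))))))))))))))))) (.p (nat_lit 592) (.a (.f (nat_lit 591) (nat_lit 623) (nat_lit 5615) (.f (nat_lit 495) (nat_lit 463) (nat_lit 7631) (.f (nat_lit 527) (nat_lit 624) (nat_lit 4591) (.f (nat_lit 497) (nat_lit 465) (nat_lit 6608) (.d (nat_lit 526) (nat_lit 498) (nat_lit 1518) (nat_lit 525) (nat_lit 2541)))))) (.a (.f (nat_lit 591) (nat_lit 623) (nat_lit 5615) (.f (nat_lit 557) (nat_lit 556) (nat_lit 556) (.f (nat_lit 525) (nat_lit 524) (nat_lit 3596) (.f (nat_lit 561) (nat_lit 526) (nat_lit 3597) (.d (nat_lit 562) (nat_lit 563) (nat_lit 1583) (nat_lit 590) (nat_lit 1582)))))) (.a (.f (nat_lit 495) (nat_lit 463) (nat_lit 7631) (.f (nat_lit 527) (nat_lit 624) (nat_lit 7663) (.f (nat_lit 497) (nat_lit 465) (nat_lit 6608) (.d (nat_lit 526) (nat_lit 498) (nat_lit 1518) (nat_lit 525) (nat_lit 2541))))) (.f (nat_lit 623) (nat_lit 591) (nat_lit 5615) (.f (nat_lit 624) (nat_lit 655) (nat_lit 5647) (.d (nat_lit 495) (nat_lit 463) (nat_lit 7631) (nat_lit 527) (nat_lit 7663))))))))))))))))))))))))))))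
noncomputable def s47707 : Cert := .r (nat_lit 3773962425700235452738272624505952193199339552226928146794549392648115485167898379561026699849346401546134558067857772757880134458676407096525164659442171664912122642432) (.p (nat_lit 496) (.a (.p (nat_lit 464) (.a (.f (nat_lit 463) (nat_lit 431) (nat_lit 7599) (.f (nat_lit 465) (nat_lit 433) (nat_lit 6576) (.d (nat_lit 592) (nat_lit 495) (nat_lit 7631) (nat_lit 497) (nat_lit 6608)))) (.a (.f (nat_lit 559) (nat_lit 591) (nat_lit 5583) (.f (nat_lit 432) (nat_lit 527) (nat_lit 5551) (.d (nat_lit 433) (nat_lit 401) (nat_lit 6544) (nat_lit 465) (nat_lit 6576)))) (.f (nat_lit 463) (nat_lit 431) (nat_lit 7599) (.f (nat_lit 495) (nat_lit 592) (nat_lit 7631) (.f (nat_lit 559) (nat_lit 591) (nat_lit 5583) (.f (nat_lit 527) (nat_lit 432) (nat_lit 5551) (.f (nat_lit 462) (nat_lit 430) (nat_lit 7598) (.d (nat_lit 461) (nat_lit 460) (nat_lit 460) (nat_lit 497) (nat_lit 461)))))))))) (.a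 (.p (nat_lit 464) (.a (.f (nat_lit 559) (nat_lit 591) (nat_lit 5583) (.f (nat_lit 432) (nat_lit 527) (nat_lit 5551) (.d (nat_lit 433) (nat_lit 401) (nat_lit 6544) (nat_lit 465) (nat_lit 6576)))) (.a (.f (nat_lit 433) (nat_lit 465) (nat_lit 6576) (.f (nat_lit 432) (nat_lit 401) (nat_lit 6544) (.d (nat_lit 431) (nat_lit 399) (nat_lit 7567) (nat_lit 463) (nat_lit 7599)))) (.a (.f (nat_lit 559) (nat_lit 591) (nat_lit 5583) (.f (nat_lit 432) (nat_lit 527) (nat_lit 5551) (.d (nat_lit 431) (nat_lit 399) (nat_lit 7567) (nat_lit 463) (nat_lit 7599)))) (.p (nat_lit 526) (.a (.f (nat_lit 463) (nat_lit 431) (nat_lit 7599) (.f (nat_lit 559) (nat_lit 591) (nat_lit 5583) (.f (nat_lit 561) (nat_lit 593) (nat_lit 4560) (.f (nat_lit 558) (nat_lit 525) (nat_lit 3597) (.f (nat_lit 590) (nat_lit 589) (nat_lit 1581) (.f (nat_lit 494) (nat_lit 495) (nat_lit 6606) (.f (nat_lit 461) (nat_lit 493) (nat_lit 7629) (.d (nat_lit 462) (nat_lit 429)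 (nat_lit 7597) (nat_lit 497) (nat_lit 461))))))))) (.a (.p (nat_lit 495) (.a (.f (nat_lit 465) (nat_lit 433) (nat_lit 6576) (.f (nat_lit 494) (nat_lit 493) (nat_lit 2509) (.d (nat_lit 466) (nat_lit 463) (nat_lit 1486) (nat_lit 467) (nat_lit 1487)))) (.a (.f (nat_lit 561) (nat_lit 593) (nat_lit 4560) (.f (nat_lit 525) (nat_lit 527) (nat_lit 525) (.f (nat_lit 494) (nat_lit 497) (nat_lit 1517) (.d (nat_lit 524) (nat_lit 493) (nat_lit 1516) (nat_lit 523) (nat_lit 2539))))) (.f (nat_lit 465) (nat_lit 433) (nat_lit 6576) (.f (nat_lit 466) (nat_lit 467) (nat_lit 1487) (.f (nat_lit 561) (nat_lit 593) (nat_lit 4560) (.f (nat_lit 527) (nat_lit 525) (nat_lit 525) (.f (nat_lit 498) (nat_lit 497) (nat_lit 1518) (.f (nat_lit 499) (nat_lit 463) (nat_lit 463) (.f (nat_lit 563) (nat_lit 562) (nat_lit 3599) (.f (nat_lit 531) (nat_lit 595) (nat_lit 7634) (.d (nat_lit 434) (nat_lit 402) (nat_lit 4498) (nat_lit 530) (nat_lit 4530)))))))))))))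 (.a (.p (nat_lit 497) (.a (.f (nat_lit 527) (nat_lit 525) (nat_lit 2541) (.d (nat_lit 498) (nat_lit 495) (nat_lit 1518) (nat_lit 499) (nat_lit 1519))) (.a (.f (nat_lit 463) (nat_lit 431) (nat_lit 7599) (.f (nat_lit 498) (nat_lit 499) (nat_lit 3535) (.d (nat_lit 462) (nat_lit 461) (nat_lit 461) (nat_lit 495) (nat_lit 3534)))) (.a (.f (nat_lit 463) (nat_lit 431) (nat_lit 7599) (.f (nat_lit 498) (nat_lit 499) (nat_lit 3535) (.d (nat_lit 462) (nat_lit 461) (nat_lit 461) (nat_lit 465) (nat_lit 462)))) (.f (nat_lit 525) (nat_lit 527) (nat_lit 2541) (.f (nat_lit 494) (nat_lit 495) (nat_lit 1517) (.f (nat_lit 463) (nat_lit 431) (nat_lit 7599) (.f (nat_lit 462) (nat_lit 461) (nat_lit 461) (.f (nat_lit 493) (nat_lit 465) (nat_lit 1485) (.d (nat_lit 430) (nat_lit 398) (nat_lit 5517) (nat_lit 557) (nat_lit 5549))))))))))) (.a (.f (nat_lit 561) (nat_lit 593) (nat_lit 4560) (.f (nat_lit 527) (nat_lit 525) (nat_lit 525) (.d (nat_lit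 562) (nat_lit 559) (nat_lit 3598) (nat_lit 563) (nat_lit 3599)))) (.f (nat_lit 559) (nat_lit 591) (nat_lit 5583) (.f (nat_lit 561) (nat_lit 593) (nat_lit 4560) (.f (nat_lit 562) (nat_lit 527) (nat_lit 3598) (.f (nat_lit 531) (nat_lit 530) (nat_lit 2575) (.f (nat_lit 563) (nat_lit 532) (nat_lit 2576) (.d (nat_lit 595) (nat_lit 594) (nat_lit 559) (nat_lit 596) (nat_lit 560)))))))))))))))) (.a (.p (nat_lit 464) (.a (.f (nat_lit 463) (nat_lit 431) (nat_lit 7599) (.f (nat_lit 465) (nat_lit 433) (nat_lit 6576) (.d (nat_lit 592) (nat_lit 495) (nat_lit 7631) (nat_lit 497) (nat_lit 6608)))) (.a (.f (nat_lit 433) (nat_lit 465) (nat_lit 6576) (.f (nat_lit 432) (nat_lit 401) (nat_lit 6544) (.d (nat_lit 431) (nat_lit 399) (nat_lit 7567) (nat_lit 463) (nat_lit 7599)))) (.a (.f (nat_lit 463) (nat_lit 431) (nat_lit 7599) (.f (nat_lit 591) (nat_lit 559) (nat_lit 5583) (.d (nat_lit 592) (nat_lit 495) (nat_lit 7631) (nat_lit 623) (nat_lit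 5615)))) (.f (nat_lit 465) (nat_lit 433) (nat_lit 6576) (.f (nat_lit 591) (nat_lit 559) (nat_lit 5583) (.d (nat_lit 592) (nat_lit 497) (nat_lit 6608) (nat_lit 623) (nat_lit 5615)))))))) (.a (.p (nat_lit 465) (.a (.f (nat_lit 464) (nat_lit 433) (nat_lit 6576) (.f (nat_lit 463) (nat_lit 431) (nat_lit 7599) (.d (nat_lit 592) (nat_lit 495) (nat_lit 7631) (nat_lit 497) (nat_lit 6608)))) (.a (.f (nat_lit 464) (nat_lit 433) (nat_lit 6576) (.p (nat_lit 494) (.a (.f (nat_lit 495) (nat_lit 493) (nat_lit 2509) (.d (nat_lit 466) (nat_lit 463) (nat_lit 1486) (nat_lit 467) (nat_lit 1487))) (.a (.f (nat_lit 463) (nat_lit 431) (nat_lit 7599) (.f (nat_lit 462) (nat_lit 493) (nat_lit 1485) (.d (nat_lit 497) (nat_lit 461) (nat_lit 461) (nat_lit 498) (nat_lit 462)))) (.a (.f (nat_lit 495) (nat_lit 493) (nat_lit 2509) (.d (nat_lit 466) (nat_lit 467) (nat_lit 1487) (nat_lit 497) (nat_lit 2510))) (.f (nat_lit 463) (nat_lit 431) (nat_lit 7599)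 (.f (nat_lit 466) (nat_lit 495) (nat_lit 1486) (.f (nat_lit 498) (nat_lit 499) (nat_lit 463) (.f (nat_lit 497) (nat_lit 462) (nat_lit 462) (.f (nat_lit 467) (nat_lit 468) (nat_lit 1488) (.d (nat_lit 435) (nat_lit 434) (nat_lit 2479) (nat_lit 436) (nat_lit 2480)))))))))))) (.a (.f (nat_lit 592) (nat_lit 497) (nat_lit 6608) (.f (nat_lit 495) (nat_lit 463) (nat_lit 7631) (.f (nat_lit 624) (nat_lit 527) (nat_lit 7663) (.d (nat_lit 623) (nat_lit 591) (nat_lit 5615) (nat_lit 655) (nat_lit 5647))))) (.a (.f (nat_lit 464) (nat_lit 433) (nat_lit 6576) (.f (nat_lit 463) (nat_lit 431) (nat_lit 7599) (.f (nat_lit 497) (nat_lit 592) (nat_lit 6608) (.d (nat_lit 462) (nat_lit 461) (nat_lit 461) (nat_lit 498) (nat_lit 462))))) (.a (.f (nat_lit 497) (nat_lit 592) (nat_lit 6608) (.d (nat_lit 433) (nat_lit 401) (nat_lit 5520) (nat_lit 464) (nat_lit 6576))) (.f (nat_lit 464) (nat_lit 433) (nat_lit 6576) (.f (nat_lit 463) (nat_lit 431) (nat_lit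 7599) (.f (nat_lit 495) (nat_lit 592) (nat_lit 7631) (.d (nat_lit 494) (nat_lit 466) (nat_lit 1486) (nat_lit 493) (nat_lit 2509))))))))))) (.a s47612 (.a (.p (nat_lit 464) (.a (.f (nat_lit 559) (nat_lit 591) (nat_lit 5583) (.f (nat_lit 432) (nat_lit 527) (nat_lit 5551) (.d (nat_lit 433) (nat_lit 401) (nat_lit 6544) (nat_lit 465) (nat_lit 6576)))) (.a (.f (nat_lit 433) (nat_lit 465) (nat_lit 6576) (.f (nat_lit 432) (nat_lit 401) (nat_lit 6544) (.d (nat_lit 431) (nat_lit 399) (nat_lit 7567) (nat_lit 463) (nat_lit 7599)))) (.a (.f (nat_lit 559) (nat_lit 591) (nat_lit 5583) (.f (nat_lit 432) (nat_lit 527) (nat_lit 5551) (.d (nat_lit 431) (nat_lit 399) (nat_lit 7567) (nat_lit 463) (nat_lit 7599)))) (.f (nat_lit 465) (nat_lit 433) (nat_lit 6576) (.f (nat_lit 591) (nat_lit 559) (nat_lit 5583) (.d (nat_lit 592) (nat_lit 497) (nat_lit 6608) (nat_lit 623) (nat_lit 5615)))))))) (.a (.p (nat_lit 464) (.a (.f (nat_lit 463) (nat_lit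 431) (nat_lit 7599) (.f (nat_lit 465) (nat_lit 433) (nat_lit 6576) (.d (nat_lit 592) (nat_lit 495) (nat_lit 7631) (nat_lit 497) (nat_lit 6608)))) (.a (.f (nat_lit 433) (nat_lit 465) (nat_lit 6576) (.f (nat_lit 432) (nat_lit 401) (nat_lit 6544) (.d (nat_lit 431) (nat_lit 399) (nat_lit 7567) (nat_lit 463) (nat_lit 7599)))) (.a (.f (nat_lit 431) (nat_lit 463) (nat_lit 7599) (.f (nat_lit 432) (nat_lit 399) (nat_lit 7567) (.f (nat_lit 527) (nat_lit 559) (nat_lit 5551) (.f (nat_lit 401) (nat_lit 433) (nat_lit 6544) (.d (nat_lit 400) (nat_lit 369) (nat_lit 6512) (nat_lit 495) (nat_lit 5519)))))) (.a (.f (nat_lit 433) (nat_lit 465) (nat_lit 6576) (.f (nat_lit 432) (nat_lit 401) (nat_lit 6544) (.f (nat_lit 527) (nat_lit 559) (nat_lit 5551) (.f (nat_lit 400) (nat_lit 495) (nat_lit 5519) (.d (nat_lit 399) (nat_lit 367) (nat_lit 7535) (nat_lit 431) (nat_lit 7567)))))) (.a (.f (nat_lit 465) (nat_lit 433) (nat_lit 6576) (.f (nat_lit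 592) (nat_lit 497) (nat_lit 6608) (.f (nat_lit 495) (nat_lit 463) (nat_lit 7631) (.f (nat_lit 527) (nat_lit 624) (nat_lit 7663) (.d (nat_lit 432) (nat_lit 400) (nat_lit 5519) (nat_lit 559) (nat_lit 5551)))))) (.f (nat_lit 431) (nat_lit 463) (nat_lit 7599) (.f (nat_lit 432) (nat_lit 399) (nat_lit 7567) (.f (nat_lit 527) (nat_lit 559) (nat_lit 5551) (.f (nat_lit 495) (nat_lit 400) (nat_lit 5519) (.f (nat_lit 561) (nat_lit 593) (nat_lit 4560) (.f (nat_lit 526) (nat_lit 525) (nat_lit 525) (.f (nat_lit 497) (nat_lit 498) (nat_lit 1518) (.d (nat_lit 592) (nat_lit 465) (nat_lit 6608) (nat_lit 624) (nat_lit 7663))))))))))))))) (.a (.p (nat_lit 561) (.a (.f (nat_lit 464) (nat_lit 593) (nat_lit 4560) (.f (nat_lit 559) (nat_lit 591) (nat_lit 5583) (.f (nat_lit 527) (nat_lit 432) (nat_lit 5551) (.d (nat_lit 562) (nat_lit 526) (nat_lit 3598) (nat_lit 563) (nat_lit 3599))))) (.a (.f (nat_lit 464) (nat_lit 593) (nat_lit 4560) (.f (nat_lit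 591) (nat_lit 559) (nat_lit 5583) (.f (nat_lit 592) (nat_lit 623) (nat_lit 5615) (.d (nat_lit 463) (nat_lit 431) (nat_lit 7599) (nat_lit 495) (nat_lit 7631))))) (.a (.p (nat_lit 592) (.a (.f (nat_lit 591) (nat_lit 623) (nat_lit 5615) (.f (nat_lit 562) (nat_lit 563) (nat_lit 1583) (.d (nat_lit 590) (nat_lit 589) (nat_lit 2605) (nat_lit 593) (nat_lit 2606)))) (.a (.f (nat_lit 464) (nat_lit 593) (nat_lit 4560) (.d (nat_lit 463) (nat_lit 431) (nat_lit 7599) (nat_lit 495) (nat_lit 7631))) (.f (nat_lit 495) (nat_lit 463) (nat_lit 7631) (.f (nat_lit 624) (nat_lit 527) (nat_lit 7663) (.d (nat_lit 623) (nat_lit 591) (nat_lit 5615) (nat_lit 655) (nat_lit 5647))))))) (.a (.p (nat_lit 592) (.a (.f (nat_lit 591) (nat_lit 623) (nat_lit 5615) (.f (nat_lit 562) (nat_lit 563) (nat_lit 1583) (.d (nat_lit 590) (nat_lit 589) (nat_lit 2605) (nat_lit 593) (nat_lit 2606)))) (.a (.f (nat_lit 495) (nat_lit 463) (nat_lit 7631) (.f (nat_lit 527)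 (nat_lit 624) (nat_lit 7663) (.f (nat_lit 526) (nat_lit 525) (nat_lit 525) (.d (nat_lit 562) (nat_lit 559) (nat_lit 3598) (nat_lit 563) (nat_lit 3599))))) (.f (nat_lit 495) (nat_lit 463) (nat_lit 7631) (.f (nat_lit 624) (nat_lit 527) (nat_lit 7663) (.d (nat_lit 623) (nat_lit 591) (nat_lit 5615) (nat_lit 655) (nat_lit 5647))))))) (.a (.f (nat_lit 464) (nat_lit 593) (nat_lit 4560) (.f (nat_lit 431) (nat_lit 463) (nat_lit 7599) (.f (nat_lit 432) (nat_lit 399) (nat_lit 7567) (.f (nat_lit 527) (nat_lit 559) (nat_lit 5551) (.f (nat_lit 401) (nat_lit 433) (nat_lit 6544) (.d (nat_lit 400) (nat_lit 369) (nat_lit 6512) (nat_lit 495) (nat_lit 5519))))))) (.p (nat_lit 592) (.a (.f (nat_lit 495) (nat_lit 463) (nat_lit 7631) (.f (nat_lit 624) (nat_lit 527) (nat_lit 7663) (.d (nat_lit 623) (nat_lit 591) (nat_lit 5615) (nat_lit 655) (nat_lit 5647)))) (.a (.f (nat_lit 591) (nat_lit 623) (nat_lit 5615) (.f (nat_lit 559) (nat_lit 464) (nat_lit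 5583) (.d (nat_lit 562) (nat_lit 563) (nat_lit 1583) (nat_lit 590) (nat_lit 1582)))) (.f (nat_lit 495) (nat_lit 463) (nat_lit 7631) (.f (nat_lit 527) (nat_lit 624) (nat_lit 7663) (.f (nat_lit 526) (nat_lit 525) (nat_lit 525) (.d (nat_lit 562) (nat_lit 559) (nat_lit 3598) (nat_lit 563) (nat_lit 3599)))))))))))))) (.a (.p (nat_lit 561) (.a (.f (nat_lit 464) (nat_lit 593) (nat_lit 4560) (.f (nat_lit 559) (nat_lit 591) (nat_lit 5583) (.f (nat_lit 527) (nat_lit 432) (nat_lit 5551) (.d (nat_lit 562) (nat_lit 526) (nat_lit 3598) (nat_lit 563) (nat_lit 3599))))) (.a (.f (nat_lit 464) (nat_lit 593) (nat_lit 4560) (.f (nat_lit 591) (nat_lit 559) (nat_lit 5583) (.f (nat_lit 592) (nat_lit 623) (nat_lit 5615) (.d (nat_lit 465) (nat_lit 433) (nat_lit 6576) (nat_lit 497) (nat_lit 6608))))) (.a (.p (nat_lit 465) (.a (.d (nat_lit 464) (nat_lit 433) (nat_lit 6576) (nat_lit 593) (nat_lit 4560)) (.a (.f (nat_lit 592) (nat_lit 497) (nat_lit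 6608) (.f (nat_lit 591) (nat_lit 623) (nat_lit 5615) (.f (nat_lit 562) (nat_lit 563) (nat_lit 1583) (.d (nat_lit 590) (nat_lit 589) (nat_lit 2605) (nat_lit 593) (nat_lit 2606))))) (.f (nat_lit 497) (nat_lit 592) (nat_lit 6608) (.d (nat_lit 433) (nat_lit 401) (nat_lit 5520) (nat_lit 464) (nat_lit 6576)))))) (.a (.p (nat_lit 592) (.a (.f (nat_lit 591) (nat_lit 623) (nat_lit 5615) (.f (nat_lit 562) (nat_lit 563) (nat_lit 1583) (.d (nat_lit 590) (nat_lit 589) (nat_lit 2605) (nat_lit 593) (nat_lit 2606)))) (.a (.p (nat_lit 527) (.a (.f (nat_lit 526) (nat_lit 525) (nat_lit 525) (.d (nat_lit 562) (nat_lit 559) (nat_lit 3598) (nat_lit 563) (nat_lit 3599))) (.a (.f (nat_lit 497) (nat_lit 465) (nat_lit 6608) (.f (nat_lit 526) (nat_lit 525) (nat_lit 2541) (.d (nat_lit 495) (nat_lit 498) (nat_lit 1518) (nat_lit 624) (nat_lit 7663)))) (.f (nat_lit 624) (nat_lit 495) (nat_lit 7663) (.f (nat_lit 656) (nat_lit 559) (nat_lit 7695) (.d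 (nat_lit 655) (nat_lit 623) (nat_lit 5647) (nat_lit 687) (nat_lit 5679))))))) (.a (.p (nat_lit 527) (.a (.f (nat_lit 526) (nat_lit 525) (nat_lit 525) (.d (nat_lit 562) (nat_lit 559) (nat_lit 3598) (nat_lit 563) (nat_lit 3599))) (.a (.f (nat_lit 497) (nat_lit 465) (nat_lit 6608) (.f (nat_lit 526) (nat_lit 525) (nat_lit 2541) (.d (nat_lit 495) (nat_lit 498) (nat_lit 1518) (nat_lit 624) (nat_lit 7663)))) (.f (nat_lit 562) (nat_lit 563) (nat_lit 3599) (.f (nat_lit 624) (nat_lit 495) (nat_lit 7663) (.f (nat_lit 559) (nat_lit 656) (nat_lit 7695) (.f (nat_lit 590) (nat_lit 591) (nat_lit 1582) (.f (nat_lit 558) (nat_lit 589) (nat_lit 1581) (.d (nat_lit 594) (nat_lit 593) (nat_lit 558) (nat_lit 595) (nat_lit 559)))))))))) (.f (nat_lit 623) (nat_lit 591) (nat_lit 5615) (.f (nat_lit 624) (nat_lit 655) (nat_lit 5647) (.f (nat_lit 527) (nat_lit 495) (nat_lit 7663) (.f (nat_lit 656) (nat_lit 559) (nat_lit 7695) (.f (nat_lit 688) (nat_lit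 593) (nat_lit 6704) (.d (nat_lit 689) (nat_lit 657) (nat_lit 4656) (nat_lit 721) (nat_lit 4688))))))))))) (.a (.f (nat_lit 464) (nat_lit 593) (nat_lit 4560) (.f (nat_lit 433) (nat_lit 465) (nat_lit 6576) (.f (nat_lit 432) (nat_lit 401) (nat_lit 6544) (.f (nat_lit 527) (nat_lit 559) (nat_lit 5551) (.f (nat_lit 400) (nat_lit 495) (nat_lit 5519) (.d (nat_lit 399) (nat_lit 367) (nat_lit 7535) (nat_lit 431) (nat_lit 7567))))))) (.p (nat_lit 465) (.a (.f (nat_lit 497) (nat_lit 592) (nat_lit 6608) (.d (nat_lit 433) (nat_lit 401) (nat_lit 5520) (nat_lit 464) (nat_lit 6576))) (.a (.f (nat_lit 464) (nat_lit 433) (nat_lit 6576) (.f (nat_lit 559) (nat_lit 591) (nat_lit 5583) (.f (nat_lit 527) (nat_lit 432) (nat_lit 5551) (.d (nat_lit 562) (nat_lit 526) (nat_lit 3598) (nat_lit 563) (nat_lit 3599))))) (.f (nat_lit 592) (nat_lit 497) (nat_lit 6608) (.f (nat_lit 591) (nat_lit 623) (nat_lit 5615) (.f (nat_lit 562) (nat_lit 563) (nat_lit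 1583) (.d (nat_lit 590) (nat_lit 559) (nat_lit 1582) (nat_lit 589) (nat_lit 2605)))))))))))))) (.p (nat_lit 464) (.a (.f (nat_lit 559) (nat_lit 591) (nat_lit 5583) (.f (nat_lit 432) (nat_lit 527) (nat_lit 5551) (.d (nat_lit 433) (nat_lit 401) (nat_lit 6544) (nat_lit 465) (nat_lit 6576)))) (.a (.f (nat_lit 465) (nat_lit 433) (nat_lit 6576) (.f (nat_lit 591) (nat_lit 559) (nat_lit 5583) (.d (nat_lit 592) (nat_lit 497) (nat_lit 6608) (nat_lit 623) (nat_lit 5615)))) (.a (.f (nat_lit 465) (nat_lit 433) (nat_lit 6576) (.f (nat_lit 592) (nat_lit 497) (nat_lit 6608) (.f (nat_lit 495) (nat_lit 463) (nat_lit 7631) (.f (nat_lit 624) (nat_lit 527) (nat_lit 7663) (.d (nat_lit 623) (nat_lit 591) (nat_lit 5615) (nat_lit 655) (nat_lit 5647)))))) (.a (.f (nat_lit 465) (nat_lit 433) (nat_lit 6576) (.f (nat_lit 592) (nat_lit 497) (nat_lit 6608) (.f (nat_lit 495) (nat_lit 463) (nat_lit 7631) (.f (nat_lit 527) (nat_lit 624) (nat_lit 7663)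 (.d (nat_lit 432) (nat_lit 400) (nat_lit 5519) (nat_lit 559) (nat_lit 5551)))))) (.f (nat_lit 559) (nat_lit 591) (nat_lit 5583) (.f (nat_lit 527) (nat_lit 432) (nat_lit 5551) (.f (nat_lit 561) (nat_lit 593) (nat_lit 4560) (.d (nat_lit 562) (nat_lit 526) (nat_lit 3598) (nat_lit 563) (nat_lit 3599))))))))))))))))))))
end Vale.Agent.Lib.P062.Part4
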