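import Vale.Agent.Lib.P062.Part4.K_0

set_option maxRecDepth 100000
set_option linter.all false

namespace Vale.Agent.Lib.P062.Part4
open Vale.Agent.Lib.P062 Vale.Agent.Lib.P062.V2

noncomputable def s49105 : Cert := .r (nat_lit 3773962425700235452738272624505952193199339552226928146794549392648115485167898379561026699849346401546134558067857772757880134458676407096525164659442171664912122642432) (.p (nat_lit 592) (.a (.p (nat_lit 496) (.a (.f (nat_lit 591) (nat_lit 623) (nat_lit 5615) (.f (nat_lit 593) (nat_lit 625) (nat_lit 4592) (.d (nat_lit 464) (nat_lit 559) (nat_lit 5583) (nat_lit 561) (nat_lit 4560)))) (.a (.f (nat_lit 623) (nat_lit 591) (nat_lit 5615) (.f (nat_lit 624) (nat_lit 655) (nat_lit 5647) (.d (nat_lit 625) (nat_lit 593) (nat_lit 4592) (nat_lit 657) (nat_lit 4624)))) (.a (.f (nat_lit 593) (nat_lit 625) (nat_lit 4592) (.f (nat_lit 464) (nat_lit 561) (nat_lit 4560) (.d (nat_lit 465) (nat_lit 433)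 (nat_lit 6576) (nat_lit 497) (nat_lit 6608)))) (.f (nat_lit 591) (nat_lit 623) (nat_lit 5615) (.f (nat_lit 464) (nat_lit 559) (nat_lit 5583) (.d (nat_lit 465) (nat_lit 433) (nat_lit 6576) (nat_lit 497) (nat_lit 6608)))))))) (.a (.p (nat_lit 624) (.a (.f (nat_lit 625) (nat_lit 657) (nat_lit 4624) (.f (nat_lit 623) (nat_lit 655) (nat_lit 5647) (.d (nat_lit 496) (nat_lit 591) (nat_lit 5615) (nat_lit 593) (nat_lit 4592)))) (.a (.f (nat_lit 657) (nat_lit 625) (nat_lit 4624) (.f (nat_lit 656) (nat_lit 689) (nat_lit 4656) (.d (nat_lit 655) (nat_lit 623) (nat_lit 5647) (nat_lit 687) (nat_lit 5679)))) (.a (.f (nat_lit 625) (nat_lit 657) (nat_lit 4624) (.f (nat_lit 593) (nat_lit 496) (nat_lit 4592) (.f (nat_lit 527) (nat_lit 495) (nat_lit 7663) (.f (nat_lit 656) (nat_lit 559) (nat_lit 7695) (.d (nat_lit 688) (nat_lit 561) (nat_lit 6704) (nat_lit 720) (nat_lit 6736)))))) (.f (nat_lit 623) (nat_lit 655) (nat_lit 5647)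 (.f (nat_lit 591) (nat_lit 496) (nat_lit 5615) (.f (nat_lit 527) (nat_lit 495) (nat_lit 7663) (.f (nat_lit 559) (nat_lit 656) (nat_lit 4623) (.f (nat_lit 526) (nat_lit 494) (nat_lit 7662) (.d (nat_lit 525) (nat_lit 524) (nat_lit 524) (nat_lit 561) (nat_lit 525))))))))))) (.a (.p (nat_lit 624) (.a (.f (nat_lit 657) (nat_lit 625) (nat_lit 4624) (.f (nat_lit 656) (nat_lit 689) (nat_lit 4656) (.d (nat_lit 655) (nat_lit 623) (nat_lit 5647) (nat_lit 687) (nat_lit 5679)))) (.a (.f (nat_lit 657) (nat_lit 625) (nat_lit 4624) (.f (nat_lit 656) (nat_lit 689) (nat_lit 4656) (.d (nat_lit 527) (nat_lit 495) (nat_lit 7663) (nat_lit 559) (nat_lit 7695)))) (.a (.f (nat_lit 527) (nat_lit 495) (nat_lit 7663) (.f (nat_lit 656) (nat_lit 559) (nat_lit 7695) (.d (nat_lit 655) (nat_lit 623) (nat_lit 5647) (nat_lit 687) (nat_lit 5679)))) (.f (nat_lit 623) (nat_lit 655) (nat_lit 5647) (.p (nat_lit 622) (.a (.f (nat_lit 625) (nat_lit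 657) (nat_lit 4624) (.d (nat_lit 593) (nat_lit 594) (nat_lit 2638) (nat_lit 621) (nat_lit 2637))) (.a (.f (nat_lit 625) (nat_lit 657) (nat_lit 4624) (.f (nat_lit 590) (nat_lit 589) (nat_lit 3661) (.f (nat_lit 591) (nat_lit 626) (nat_lit 3662) (.f (nat_lit 654) (nat_lit 653) (nat_lit 1645) (.d (nat_lit 527) (nat_lit 495) (nat_lit 7663) (nat_lit 559) (nat_lit 5646)))))) (.f (nat_lit 621) (nat_lit 593) (nat_lit 2637) (.f (nat_lit 620) (nat_lit 591) (nat_lit 2636) (.d (nat_lit 652) (nat_lit 651) (nat_lit 1643) (nat_lit 653) (nat_lit 1644)))))))))))) (.a (.p (nat_lit 496) (.a (.f (nat_lit 591) (nat_lit 623) (nat_lit 5615) (.f (nat_lit 593) (nat_lit 625) (nat_lit 4592) (.d (nat_lit 464) (nat_lit 559) (nat_lit 5583) (nat_lit 561) (nat_lit 4560)))) (.a (.p (nat_lit 561) (.a (.f (nat_lit 591) (nat_lit 623) (nat_lit 5615) (.f (nat_lit 593) (nat_lit 625) (nat_lit 4592) (.d (nat_lit 590) (nat_lit 562) (nat_lit 2606) (nat_lit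 589) (nat_lit 2605)))) (.a (.p (nat_lit 527) (.a (.f (nat_lit 562) (nat_lit 563) (nat_lit 3599) (.d (nat_lit 526) (nat_lit 525) (nat_lit 525) (nat_lit 559) (nat_lit 3598))) (.a (.f (nat_lit 497) (nat_lit 465) (nat_lit 6608) (.f (nat_lit 526) (nat_lit 525) (nat_lit 2541) (.d (nat_lit 498) (nat_lit 495) (nat_lit 1518) (nat_lit 499) (nat_lit 1519)))) (.f (nat_lit 593) (nat_lit 625) (nat_lit 4592) (.f (nat_lit 562) (nat_lit 563) (nat_lit 3599) (.f (nat_lit 497) (nat_lit 465) (nat_lit 6608) (.f (nat_lit 498) (nat_lit 499) (nat_lit 1519) (.f (nat_lit 530) (nat_lit 466) (nat_lit 5585) (.d (nat_lit 531) (nat_lit 495) (nat_lit 495) (nat_lit 559) (nat_lit 2575)))))))))) (.a (.f (nat_lit 591) (nat_lit 623) (nat_lit 5615) (.f (nat_lit 562) (nat_lit 563) (nat_lit 1583) (.d (nat_lit 590) (nat_lit 559) (nat_lit 1582) (nat_lit 589) (nat_lit 2605)))) (.f (nat_lit 593) (nat_lit 625) (nat_lit 4592) (.f (nat_lit 591) (nat_lit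 623) (nat_lit 5615) (.f (nat_lit 590) (nat_lit 589) (nat_lit 2605) (.f (nat_lit 558) (nat_lit 557) (nat_lit 3629) (.f (nat_lit 594) (nat_lit 559) (nat_lit 558) (.f (nat_lit 595) (nat_lit 596) (nat_lit 3632) (.d (nat_lit 627) (nat_lit 626) (nat_lit 591) (nat_lit 628) (nat_lit 592)))))))))))) (.a (.f (nat_lit 591) (nat_lit 623) (nat_lit 5615) (.f (nat_lit 464) (nat_lit 559) (nat_lit 5583) (.d (nat_lit 465) (nat_lit 433) (nat_lit 6576) (nat_lit 497) (nat_lit 6608)))) (.f (nat_lit 593) (nat_lit 625) (nat_lit 4592) (.f (nat_lit 464) (nat_lit 561) (nat_lit 4560) (.d (nat_lit 465) (nat_lit 433) (nat_lit 6576) (nat_lit 497) (nat_lit 6608)))))))) (.a (.p (nat_lit 623) (.a (.f (nat_lit 624) (nat_lit 655) (nat_lit 5647) (.f (nat_lit 625) (nat_lit 657) (nat_lit 4624) (.d (nat_lit 496) (nat_lit 591) (nat_lit 5615) (nat_lit 593) (nat_lit 4592)))) (.a (.f (nat_lit 624) (nat_lit 655) (nat_lit 5647) (.p (nat_lit 593) (.a (.f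 (nat_lit 625) (nat_lit 657) (nat_lit 4624) (.d (nat_lit 594) (nat_lit 595) (nat_lit 1615) (nat_lit 622) (nat_lit 2638))) (.a (.f (nat_lit 594) (nat_lit 595) (nat_lit 1615) (.d (nat_lit 622) (nat_lit 591) (nat_lit 1614) (nat_lit 621) (nat_lit 2637))) (.a (.f (nat_lit 625) (nat_lit 657) (nat_lit 4624) (.f (nat_lit 622) (nat_lit 621) (nat_lit 2637) (.f (nat_lit 590) (nat_lit 589) (nat_lit 3661) (.f (nat_lit 591) (nat_lit 626) (nat_lit 590) (.f (nat_lit 561) (nat_lit 562) (nat_lit 2606) (.f (nat_lit 558) (nat_lit 557) (nat_lit 3629) (.f (nat_lit 526) (nat_lit 494) (nat_lit 4590) (.d (nat_lit 527) (nat_lit 495) (nat_lit 7663) (nat_lit 525) (nat_lit 525))))))))) (.f (nat_lit 657) (nat_lit 625) (nat_lit 4624) (.f (nat_lit 656) (nat_lit 689) (nat_lit 4656) (.f (nat_lit 688) (nat_lit 561) (nat_lit 6704) (.f (nat_lit 720) (nat_lit 591) (nat_lit 7759) (.d (nat_lit 719) (nat_lit 687) (nat_lit 5711) (nat_lit 751) (nat_lit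 5743))))))))))) (.a (.f (nat_lit 496) (nat_lit 591) (nat_lit 5615) (.f (nat_lit 593) (nat_lit 625) (nat_lit 4592) (.f (nat_lit 464) (nat_lit 561) (nat_lit 4560) (.d (nat_lit 465) (nat_lit 433) (nat_lit 6576) (nat_lit 497) (nat_lit 6608))))) (.a (.f (nat_lit 624) (nat_lit 655) (nat_lit 5647) (.f (nat_lit 625) (nat_lit 657) (nat_lit 4624) (.f (nat_lit 593) (nat_lit 496) (nat_lit 4592) (.d (nat_lit 594) (nat_lit 595) (nat_lit 1615) (nat_lit 622) (nat_lit 2638))))) (.a (.f (nat_lit 624) (nat_lit 655) (nat_lit 5647) (.f (nat_lit 625) (nat_lit 657) (nat_lit 4624) (.f (nat_lit 591) (nat_lit 496) (nat_lit 5615) (.d (nat_lit 626) (nat_lit 590) (nat_lit 3662) (nat_lit 627) (nat_lit 3663))))) (.f (nat_lit 591) (nat_lit 496) (nat_lit 5615) (.d (nat_lit 655) (nat_lit 624) (nat_lit 5647) (nat_lit 687) (nat_lit 6703))))))))) (.a (.p (nat_lit 496) (.a (.f (nat_lit 593) (nat_lit 625) (nat_lit 4592) (.f (nat_lit 464) (nat_lit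 561) (nat_lit 4560) (.d (nat_lit 465) (nat_lit 433) (nat_lit 6576) (nat_lit 497) (nat_lit 6608)))) (.a (.p (nat_lit 624) (.a (.d (nat_lit 625) (nat_lit 593) (nat_lit 4592) (nat_lit 657) (nat_lit 4624)) (.a (.f (nat_lit 527) (nat_lit 495) (nat_lit 7663) (.f (nat_lit 656) (nat_lit 559) (nat_lit 7695) (.d (nat_lit 657) (nat_lit 625) (nat_lit 4624) (nat_lit 689) (nat_lit 4656)))) (.a (.f (nat_lit 527) (nat_lit 495) (nat_lit 7663) (.f (nat_lit 656) (nat_lit 559) (nat_lit 7695) (.f (nat_lit 687) (nat_lit 655) (nat_lit 5679) (.f (nat_lit 688) (nat_lit 719) (nat_lit 5711) (.d (nat_lit 689) (nat_lit 657) (nat_lit 4656) (nat_lit 721) (nat_lit 4688)))))) (.f (nat_lit 527) (nat_lit 495) (nat_lit 7663) (.f (nat_lit 497) (nat_lit 465) (nat_lit 6608) (.f (nat_lit 526) (nat_lit 525) (nat_lit 2541) (.f (nat_lit 559) (nat_lit 656) (nat_lit 7695) (.f (nat_lit 561) (nat_lit 562) (nat_lit 3598) (.f (nat_lit 593) (nat_lit 625)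 (nat_lit 4592) (.d (nat_lit 558) (nat_lit 557) (nat_lit 557) (nat_lit 594) (nat_lit 558)))))))))))) (.a (.f (nat_lit 465) (nat_lit 497) (nat_lit 6608) (.f (nat_lit 464) (nat_lit 433) (nat_lit 6576) (.f (nat_lit 559) (nat_lit 591) (nat_lit 5583) (.f (nat_lit 527) (nat_lit 432) (nat_lit 5551) (.d (nat_lit 624) (nat_lit 495) (nat_lit 7663) (nat_lit 656) (nat_lit 7695)))))) (.f (nat_lit 593) (nat_lit 625) (nat_lit 4592) (.f (nat_lit 464) (nat_lit 561) (nat_lit 4560) (.f (nat_lit 559) (nat_lit 591) (nat_lit 5583) (.f (nat_lit 527) (nat_lit 432) (nat_lit 5551) (.d (nat_lit 624) (nat_lit 495) (nat_lit 7663) (nat_lit 656) (nat_lit 7695)))))))))) (.a (.p (nat_lit 624) (.a (.f (nat_lit 657) (nat_lit 625) (nat_lit 4624) (.f (nat_lit 656) (nat_lit 689) (nat_lit 4656) (.d (nat_lit 655) (nat_lit 623) (nat_lit 5647) (nat_lit 687) (nat_lit 5679)))) (.a (.f (nat_lit 625) (nat_lit 657) (nat_lit 4624) (.f (nat_lit 593) (nat_lit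 496) (nat_lit 4592) (.f (nat_lit 527) (nat_lit 495) (nat_lit 7663) (.f (nat_lit 656) (nat_lit 559) (nat_lit 7695) (.d (nat_lit 688) (nat_lit 561) (nat_lit 6704) (nat_lit 720) (nat_lit 6736)))))) (.a (.f (nat_lit 527) (nat_lit 495) (nat_lit 7663) (.f (nat_lit 656) (nat_lit 559) (nat_lit 7695) (.d (nat_lit 655) (nat_lit 623) (nat_lit 5647) (nat_lit 687) (nat_lit 5679)))) (.f (nat_lit 625) (nat_lit 657) (nat_lit 4624) (.f (nat_lit 623) (nat_lit 655) (nat_lit 5647) (.f (nat_lit 593) (nat_lit 496) (nat_lit 4592) (.d (nat_lit 594) (nat_lit 595) (nat_lit 1615) (nat_lit 622) (nat_lit 2638))))))))) (.a (.p (nat_lit 624) (.a (.f (nat_lit 657) (nat_lit 625) (nat_lit 4624) (.f (nat_lit 656) (nat_lit 689) (nat_lit 4656) (.d (nat_lit 655) (nat_lit 623) (nat_lit 5647) (nat_lit 687) (nat_lit 5679)))) (.a (.f (nat_lit 657) (nat_lit 625) (nat_lit 4624) (.f (nat_lit 656) (nat_lit 689) (nat_lit 4656) (.d (nat_lit 527) (nat_lit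 495) (nat_lit 7663) (nat_lit 559) (nat_lit 7695)))) (.a (.f (nat_lit 623) (nat_lit 655) (nat_lit 5647) (.f (nat_lit 591) (nat_lit 496) (nat_lit 5615) (.f (nat_lit 527) (nat_lit 495) (nat_lit 7663) (.f (nat_lit 559) (nat_lit 656) (nat_lit 4623) (.f (nat_lit 526) (nat_lit 494) (nat_lit 7662) (.d (nat_lit 525) (nat_lit 524) (nat_lit 524) (nat_lit 561) (nat_lit 525))))))) (.f (nat_lit 623) (nat_lit 655) (nat_lit 5647) (.f (nat_lit 591) (nat_lit 496) (nat_lit 5615) (.f (nat_lit 625) (nat_lit 657) (nat_lit 4624) (.d (nat_lit 626) (nat_lit 590) (nat_lit 3662) (nat_lit 627) (nat_lit 3663))))))))) (.p (nat_lit 561) (.a (.p (nat_lit 496) (.a (.f (nat_lit 591) (nat_lit 623) (nat_lit 5615) (.f (nat_lit 562) (nat_lit 563) (nat_lit 1583) (.d (nat_lit 590) (nat_lit 559) (nat_lit 1582) (nat_lit 589) (nat_lit 2605)))) (.a (.f (nat_lit 591) (nat_lit 623) (nat_lit 5615) (.f (nat_lit 593) (nat_lit 464) (nat_lit 4560) (.d (nat_lit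 590) (nat_lit 562) (nat_lit 2606) (nat_lit 589) (nat_lit 2605)))) (.f (nat_lit 464) (nat_lit 593) (nat_lit 4560) (.d (nat_lit 465) (nat_lit 433) (nat_lit 6576) (nat_lit 497) (nat_lit 6608)))))) (.a (.p (nat_lit 624) (.a (.f (nat_lit 623) (nat_lit 655) (nat_lit 5647) (.f (nat_lit 591) (nat_lit 496) (nat_lit 5615) (.f (nat_lit 590) (nat_lit 589) (nat_lit 2605) (.d (nat_lit 562) (nat_lit 563) (nat_lit 1583) (nat_lit 593) (nat_lit 2606))))) (.a (.f (nat_lit 655) (nat_lit 623) (nat_lit 5647) (.f (nat_lit 656) (nat_lit 687) (nat_lit 5679) (.f (nat_lit 689) (nat_lit 657) (nat_lit 4656) (.d (nat_lit 688) (nat_lit 593) (nat_lit 6704) (nat_lit 721) (nat_lit 4688))))) (.f (nat_lit 527) (nat_lit 495) (nat_lit 7663) (.f (nat_lit 559) (nat_lit 656) (nat_lit 7695) (.d (nat_lit 562) (nat_lit 526) (nat_lit 3598) (nat_lit 563) (nat_lit 3599))))))) (.a (.p (nat_lit 624) (.a (.f (nat_lit 655) (nat_lit 623) (nat_lit 5647) (.f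 (nat_lit 656) (nat_lit 687) (nat_lit 5679) (.f (nat_lit 689) (nat_lit 657) (nat_lit 4656) (.d (nat_lit 688) (nat_lit 593) (nat_lit 6704) (nat_lit 721) (nat_lit 4688))))) (.a (.f (nat_lit 527) (nat_lit 495) (nat_lit 7663) (.f (nat_lit 559) (nat_lit 656) (nat_lit 7695) (.d (nat_lit 562) (nat_lit 526) (nat_lit 3598) (nat_lit 563) (nat_lit 3599)))) (.f (nat_lit 527) (nat_lit 495) (nat_lit 7663) (.f (nat_lit 562) (nat_lit 563) (nat_lit 3599) (.d (nat_lit 526) (nat_lit 525) (nat_lit 525) (nat_lit 559) (nat_lit 3598))))))) (.a (.p (nat_lit 591) (.a (.f (nat_lit 562) (nat_lit 563) (nat_lit 1583) (.d (nat_lit 590) (nat_lit 589) (nat_lit 2605) (nat_lit 593) (nat_lit 2606))) (.f (nat_lit 623) (nat_lit 496) (nat_lit 5615) (.d (nat_lit 655) (nat_lit 624) (nat_lit 5647) (nat_lit 687) (nat_lit 6703))))) (.a (.p (nat_lit 496) (.a (.f (nat_lit 464) (nat_lit 593) (nat_lit 4560) (.d (nat_lit 465) (nat_lit 433) (nat_lit 6576)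 (nat_lit 497) (nat_lit 6608))) (.a (.p (nat_lit 527) (.a (.f (nat_lit 562) (nat_lit 563) (nat_lit 3599) (.d (nat_lit 526) (nat_lit 525) (nat_lit 525) (nat_lit 559) (nat_lit 3598))) (.a (.f (nat_lit 497) (nat_lit 465) (nat_lit 6608) (.f (nat_lit 526) (nat_lit 525) (nat_lit 2541) (.d (nat_lit 498) (nat_lit 495) (nat_lit 1518) (nat_lit 499) (nat_lit 1519)))) (.f (nat_lit 562) (nat_lit 563) (nat_lit 3599) (.f (nat_lit 624) (nat_lit 495) (nat_lit 7663) (.f (nat_lit 559) (nat_lit 656) (nat_lit 7695) (.f (nat_lit 590) (nat_lit 591) (nat_lit 1582) (.f (nat_lit 558) (nat_lit 589) (nat_lit 1581) (.d (nat_lit 594) (nat_lit 593) (nat_lit 558) (nat_lit 595) (nat_lit 559)))))))))) (.a (.f (nat_lit 464) (nat_lit 593) (nat_lit 4560) (.f (nat_lit 559) (nat_lit 591) (nat_lit 5583) (.f (nat_lit 527) (nat_lit 432) (nat_lit 5551) (.d (nat_lit 562) (nat_lit 526) (nat_lit 3598) (nat_lit 563) (nat_lit 3599))))) (.f (nat_lit 465)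 (nat_lit 497) (nat_lit 6608) (.f (nat_lit 464) (nat_lit 433) (nat_lit 6576) (.f (nat_lit 559) (nat_lit 591) (nat_lit 5583) (.f (nat_lit 527) (nat_lit 432) (nat_lit 5551) (.d (nat_lit 562) (nat_lit 526) (nat_lit 3598) (nat_lit 563) (nat_lit 3599)))))))))) (.a (.p (nat_lit 623) (.a (.f (nat_lit 591) (nat_lit 496) (nat_lit 5615) (.d (nat_lit 655) (nat_lit 624) (nat_lit 5647) (nat_lit 687) (nat_lit 6703))) (.a (.f (nat_lit 655) (nat_lit 624) (nat_lit 5647) (.d (nat_lit 591) (nat_lit 559) (nat_lit 6671) (nat_lit 687) (nat_lit 6703))) (.a (.f (nat_lit 591) (nat_lit 496) (nat_lit 5615) (.d (nat_lit 655) (nat_lit 559) (nat_lit 6671) (nat_lit 687) (nat_lit 6703))) (.a (.f (nat_lit 624) (nat_lit 655) (nat_lit 5647) (.f (nat_lit 527) (nat_lit 495) (nat_lit 7663) (.f (nat_lit 559) (nat_lit 656) (nat_lit 7695) (.d (nat_lit 562) (nat_lit 526) (nat_lit 3598) (nat_lit 563) (nat_lit 3599))))) (.f (nat_lit 591) (nat_lit 496)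 (nat_lit 5615) (.f (nat_lit 562) (nat_lit 563) (nat_lit 1583) (.d (nat_lit 590) (nat_lit 559) (nat_lit 1582) (nat_lit 589) (nat_lit 2605))))))))) (.p (nat_lit 496) (.a (.f (nat_lit 464) (nat_lit 593) (nat_lit 4560) (.d (nat_lit 465) (nat_lit 433) (nat_lit 6576) (nat_lit 497) (nat_lit 6608))) (.a (.f (nat_lit 623) (nat_lit 591) (nat_lit 5615) (.f (nat_lit 624) (nat_lit 655) (nat_lit 5647) (.f (nat_lit 527) (nat_lit 495) (nat_lit 7663) (.f (nat_lit 656) (nat_lit 559) (nat_lit 7695) (.f (nat_lit 688) (nat_lit 593) (nat_lit 6704) (.d (nat_lit 689) (nat_lit 657) (nat_lit 4656) (nat_lit 721) (nat_lit 4688))))))) (.f (nat_lit 591) (nat_lit 623) (nat_lit 5615) (.f (nat_lit 464) (nat_lit 559) (nat_lit 5583) (.d (nat_lit 465) (nat_lit 433) (nat_lit 6576) (nat_lit 497) (nat_lit 6608)))))))))))))))))))))))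
end Vale.Agent.Lib.P062.Part4
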