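import Vale.Agent.Lib.P062.Part4.K_0

set_option maxRecDepth 100000
set_option linter.all false

namespace Vale.Agent.Lib.P062.Part4
open Vale.Agent.Lib.P062 Vale.Agent.Lib.P062.V2

noncomputable def s29623 : Cert := .r (nat_lit 3773962425700235452738272624505952193199339552226928146794549392648115485167898379561026699849346401546134558067857772757880134458676407096525164659442171664912122642432) (.p (nat_lit 592) (.a (.p (nat_lit 496) (.a (.f (nat_lit 591) (nat_lit 623) (nat_lit 5615) (.f (nat_lit 593) (nat_lit 625) (nat_lit 4592) (.d (nat_lit 464) (nat_lit 559) (nat_lit 5583) (nat_lit 561) (nat_lit 4560)))) (.a (.f (nat_lit 623) (nat_lit 591) (nat_lit 5615) (.f (nat_lit 624) (nat_lit 655) (nat_lit 5647) (.d (nat_lit 625) (nat_lit 593) (nat_lit 4592) (nat_lit 657) (nat_lit 4624)))) (.a (.f (nat_lit 593) (nat_lit 625) (nat_lit 4592) (.f (nat_lit 464) (nat_lit 561) (nat_lit 4560) (.d (nat_lit 463) (nat_lit 431)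 (nat_lit 7599) (nat_lit 495) (nat_lit 7631)))) (.f (nat_lit 591) (nat_lit 623) (nat_lit 5615) (.f (nat_lit 559) (nat_lit 464) (nat_lit 5583) (.f (nat_lit 495) (nat_lit 463) (nat_lit 7631) (.f (nat_lit 527) (nat_lit 624) (nat_lit 4591) (.f (nat_lit 590) (nat_lit 622) (nat_lit 5614) (.d (nat_lit 561) (nat_lit 562) (nat_lit 1582) (nat_lit 589) (nat_lit 2605))))))))))) (.a (.p (nat_lit 624) (.a (.f (nat_lit 625) (nat_lit 657) (nat_lit 4624) (.f (nat_lit 623) (nat_lit 655) (nat_lit 5647) (.d (nat_lit 496) (nat_lit 591) (nat_lit 5615) (nat_lit 593) (nat_lit 4592)))) (.a (.f (nat_lit 527) (nat_lit 495) (nat_lit 7663) (.f (nat_lit 656) (nat_lit 559) (nat_lit 7695) (.d (nat_lit 655) (nat_lit 623) (nat_lit 5647) (nat_lit 687) (nat_lit 5679)))) (.f (nat_lit 625) (nat_lit 657) (nat_lit 4624) (.f (nat_lit 527) (nat_lit 495) (nat_lit 7663) (.f (nat_lit 656) (nat_lit 559) (nat_lit 7695) (.f (nat_lit 593) (nat_lit 496) (nat_lit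 4592) (.d (nat_lit 688) (nat_lit 561) (nat_lit 6704) (nat_lit 720) (nat_lit 6736))))))))) (.a (.p (nat_lit 496) (.a (.f (nat_lit 591) (nat_lit 623) (nat_lit 5615) (.f (nat_lit 593) (nat_lit 625) (nat_lit 4592) (.d (nat_lit 464) (nat_lit 559) (nat_lit 5583) (nat_lit 561) (nat_lit 4560)))) (.a (.f (nat_lit 623) (nat_lit 591) (nat_lit 5615) (.f (nat_lit 624) (nat_lit 655) (nat_lit 5647) (.d (nat_lit 625) (nat_lit 593) (nat_lit 4592) (nat_lit 657) (nat_lit 4624)))) (.a (.f (nat_lit 593) (nat_lit 625) (nat_lit 4592) (.f (nat_lit 464) (nat_lit 561) (nat_lit 4560) (.d (nat_lit 463) (nat_lit 431) (nat_lit 7599) (nat_lit 495) (nat_lit 7631)))) (.f (nat_lit 591) (nat_lit 623) (nat_lit 5615) (.f (nat_lit 464) (nat_lit 559) (nat_lit 5583) (.d (nat_lit 463) (nat_lit 431) (nat_lit 7599) (nat_lit 495) (nat_lit 7631)))))))) (.a (.p (nat_lit 624) (.a (.f (nat_lit 527) (nat_lit 495) (nat_lit 7663) (.f (nat_lit 656) (nat_lit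 559) (nat_lit 7695) (.d (nat_lit 655) (nat_lit 623) (nat_lit 5647) (nat_lit 687) (nat_lit 5679)))) (.a (.f (nat_lit 657) (nat_lit 625) (nat_lit 4624) (.f (nat_lit 656) (nat_lit 689) (nat_lit 4656) (.d (nat_lit 655) (nat_lit 623) (nat_lit 5647) (nat_lit 687) (nat_lit 5679)))) (.a (.f (nat_lit 527) (nat_lit 495) (nat_lit 7663) (.f (nat_lit 656) (nat_lit 559) (nat_lit 7695) (.d (nat_lit 657) (nat_lit 625) (nat_lit 4624) (nat_lit 689) (nat_lit 4656)))) (.p (nat_lit 561) (.a (.f (nat_lit 527) (nat_lit 495) (nat_lit 7663) (.f (nat_lit 562) (nat_lit 563) (nat_lit 3599) (.d (nat_lit 526) (nat_lit 525) (nat_lit 525) (nat_lit 559) (nat_lit 3598)))) (.a (.p (nat_lit 591) (.a (.f (nat_lit 590) (nat_lit 589) (nat_lit 2605) (.d (nat_lit 562) (nat_lit 559) (nat_lit 1582) (nat_lit 563) (nat_lit 1583))) (.a (.f (nat_lit 625) (nat_lit 657) (nat_lit 4624) (.f (nat_lit 590) (nat_lit 589) (nat_lit 2605) (.d (nat_lit 626) (nat_lit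 593) (nat_lit 590) (nat_lit 627) (nat_lit 3663)))) (.f (nat_lit 623) (nat_lit 655) (nat_lit 5647) (.f (nat_lit 625) (nat_lit 657) (nat_lit 4624) (.f (nat_lit 626) (nat_lit 627) (nat_lit 3663) (.f (nat_lit 594) (nat_lit 595) (nat_lit 2639) (.f (nat_lit 593) (nat_lit 622) (nat_lit 2638) (.d (nat_lit 658) (nat_lit 659) (nat_lit 623) (nat_lit 690) (nat_lit 7729)))))))))) (.a (.p (nat_lit 591) (.a (.f (nat_lit 625) (nat_lit 657) (nat_lit 4624) (.f (nat_lit 590) (nat_lit 589) (nat_lit 2605) (.d (nat_lit 626) (nat_lit 593) (nat_lit 590) (nat_lit 627) (nat_lit 3663)))) (.a (.f (nat_lit 562) (nat_lit 563) (nat_lit 1583) (.d (nat_lit 590) (nat_lit 589) (nat_lit 2605) (nat_lit 593) (nat_lit 2606))) (.a (.f (nat_lit 623) (nat_lit 655) (nat_lit 5647) (.f (nat_lit 625) (nat_lit 657) (nat_lit 4624) (.f (nat_lit 626) (nat_lit 627) (nat_lit 3663) (.f (nat_lit 594) (nat_lit 595) (nat_lit 2639) (.f (nat_lit 593) (nat_lit 622)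 (nat_lit 2638) (.d (nat_lit 658) (nat_lit 659) (nat_lit 623) (nat_lit 690) (nat_lit 7729))))))) (.f (nat_lit 625) (nat_lit 657) (nat_lit 4624) (.f (nat_lit 590) (nat_lit 589) (nat_lit 2605) (.d (nat_lit 626) (nat_lit 623) (nat_lit 3662) (nat_lit 627) (nat_lit 3663)))))))) (.p (nat_lit 591) (.a (.f (nat_lit 625) (nat_lit 657) (nat_lit 4624) (.f (nat_lit 590) (nat_lit 589) (nat_lit 2605) (.d (nat_lit 626) (nat_lit 593) (nat_lit 590) (nat_lit 627) (nat_lit 3663)))) (.a (.f (nat_lit 623) (nat_lit 655) (nat_lit 5647) (.f (nat_lit 590) (nat_lit 589) (nat_lit 2605) (.f (nat_lit 527) (nat_lit 495) (nat_lit 7663) (.f (nat_lit 526) (nat_lit 525) (nat_lit 525) (.d (nat_lit 494) (nat_lit 558) (nat_lit 4590) (nat_lit 559) (nat_lit 7662)))))) (.f (nat_lit 623) (nat_lit 655) (nat_lit 5647) (.f (nat_lit 625) (nat_lit 657) (nat_lit 4624) (.f (nat_lit 626) (nat_lit 627) (nat_lit 3663) (.f (nat_lit 594) (nat_lit 595) (nat_lit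 2639) (.f (nat_lit 593) (nat_lit 622) (nat_lit 2638) (.d (nat_lit 658) (nat_lit 659) (nat_lit 623) (nat_lit 690) (nat_lit 7729)))))))))))))))))) (.a (.p (nat_lit 624) (.a (.f (nat_lit 625) (nat_lit 657) (nat_lit 4624) (.f (nat_lit 623) (nat_lit 655) (nat_lit 5647) (.d (nat_lit 496) (nat_lit 591) (nat_lit 5615) (nat_lit 593) (nat_lit 4592)))) (.a (.f (nat_lit 527) (nat_lit 495) (nat_lit 7663) (.f (nat_lit 656) (nat_lit 559) (nat_lit 7695) (.d (nat_lit 655) (nat_lit 623) (nat_lit 5647) (nat_lit 687) (nat_lit 5679)))) (.f (nat_lit 527) (nat_lit 495) (nat_lit 7663) (.f (nat_lit 656) (nat_lit 559) (nat_lit 7695) (.d (nat_lit 657) (nat_lit 625) (nat_lit 4624) (nat_lit 689) (nat_lit 4656))))))) (.a (.p (nat_lit 624) (.a (.f (nat_lit 625) (nat_lit 657) (nat_lit 4624) (.f (nat_lit 623) (nat_lit 655) (nat_lit 5647) (.d (nat_lit 496) (nat_lit 591) (nat_lit 5615) (nat_lit 593) (nat_lit 4592)))) (.a (.f (nat_lit 657) (nat_lit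 625) (nat_lit 4624) (.f (nat_lit 656) (nat_lit 689) (nat_lit 4656) (.d (nat_lit 655) (nat_lit 623) (nat_lit 5647) (nat_lit 687) (nat_lit 5679)))) (.a (.f (nat_lit 625) (nat_lit 657) (nat_lit 4624) (.f (nat_lit 496) (nat_lit 593) (nat_lit 4592) (.d (nat_lit 495) (nat_lit 463) (nat_lit 7631) (nat_lit 527) (nat_lit 7663)))) (.f (nat_lit 623) (nat_lit 655) (nat_lit 5647) (.f (nat_lit 496) (nat_lit 591) (nat_lit 5615) (.d (nat_lit 495) (nat_lit 463) (nat_lit 7631) (nat_lit 527) (nat_lit 7663)))))))) (.a (.p (nat_lit 496) (.a (.f (nat_lit 591) (nat_lit 623) (nat_lit 5615) (.f (nat_lit 593) (nat_lit 625) (nat_lit 4592) (.d (nat_lit 464) (nat_lit 559) (nat_lit 5583) (nat_lit 561) (nat_lit 4560)))) (.a (.f (nat_lit 591) (nat_lit 623) (nat_lit 5615) (.p (nat_lit 562) (.a (.f (nat_lit 561) (nat_lit 563) (nat_lit 1583) (.d (nat_lit 590) (nat_lit 559) (nat_lit 1582) (nat_lit 589) (nat_lit 2605))) (.a (.f (nat_lit 593)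 (nat_lit 625) (nat_lit 4592) (.f (nat_lit 594) (nat_lit 563) (nat_lit 2607) (.d (nat_lit 559) (nat_lit 558) (nat_lit 3630) (nat_lit 595) (nat_lit 3631)))) (.a (.f (nat_lit 561) (nat_lit 563) (nat_lit 1583) (.d (nat_lit 590) (nat_lit 589) (nat_lit 2605) (nat_lit 593) (nat_lit 2606))) (.f (nat_lit 593) (nat_lit 625) (nat_lit 4592) (.f (nat_lit 590) (nat_lit 561) (nat_lit 2606) (.f (nat_lit 558) (nat_lit 557) (nat_lit 3629) (.f (nat_lit 559) (nat_lit 594) (nat_lit 3630) (.f (nat_lit 622) (nat_lit 621) (nat_lit 1613) (.d (nat_lit 495) (nat_lit 463) (nat_lit 7631) (nat_lit 527) (nat_lit 5614)))))))))))) (.a (.f (nat_lit 591) (nat_lit 623) (nat_lit 5615) (.f (nat_lit 464) (nat_lit 559) (nat_lit 5583) (.d (nat_lit 463) (nat_lit 431) (nat_lit 7599) (nat_lit 495) (nat_lit 7631)))) (.f (nat_lit 593) (nat_lit 625) (nat_lit 4592) (.f (nat_lit 464) (nat_lit 561) (nat_lit 4560) (.d (nat_lit 463) (nat_lit 431) (nat_lit 7599)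 (nat_lit 495) (nat_lit 7631)))))))) (.a (.p (nat_lit 624) (.a (.f (nat_lit 527) (nat_lit 495) (nat_lit 7663) (.f (nat_lit 656) (nat_lit 559) (nat_lit 7695) (.d (nat_lit 655) (nat_lit 623) (nat_lit 5647) (nat_lit 687) (nat_lit 5679)))) (.a (.f (nat_lit 657) (nat_lit 625) (nat_lit 4624) (.f (nat_lit 656) (nat_lit 689) (nat_lit 4656) (.d (nat_lit 655) (nat_lit 623) (nat_lit 5647) (nat_lit 687) (nat_lit 5679)))) (.a (.f (nat_lit 625) (nat_lit 657) (nat_lit 4624) (.f (nat_lit 527) (nat_lit 495) (nat_lit 7663) (.f (nat_lit 656) (nat_lit 559) (nat_lit 7695) (.f (nat_lit 593) (nat_lit 496) (nat_lit 4592) (.d (nat_lit 688) (nat_lit 561) (nat_lit 6704) (nat_lit 720) (nat_lit 6736)))))) (.f (nat_lit 625) (nat_lit 657) (nat_lit 4624) (.f (nat_lit 496) (nat_lit 593) (nat_lit 4592) (.d (nat_lit 495) (nat_lit 463) (nat_lit 7631) (nat_lit 527) (nat_lit 7663)))))))) (.a (.p (nat_lit 624) (.a (.f (nat_lit 625) (nat_lit 657)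 (nat_lit 4624) (.f (nat_lit 623) (nat_lit 655) (nat_lit 5647) (.d (nat_lit 496) (nat_lit 591) (nat_lit 5615) (nat_lit 593) (nat_lit 4592)))) (.a (.f (nat_lit 657) (nat_lit 625) (nat_lit 4624) (.f (nat_lit 656) (nat_lit 689) (nat_lit 4656) (.d (nat_lit 655) (nat_lit 623) (nat_lit 5647) (nat_lit 687) (nat_lit 5679)))) (.a (.f (nat_lit 657) (nat_lit 625) (nat_lit 4624) (.f (nat_lit 656) (nat_lit 689) (nat_lit 4656) (.f (nat_lit 687) (nat_lit 655) (nat_lit 5679) (.f (nat_lit 688) (nat_lit 719) (nat_lit 5711) (.d (nat_lit 559) (nat_lit 527) (nat_lit 7695) (nat_lit 591) (nat_lit 7727)))))) (.a (.f (nat_lit 655) (nat_lit 623) (nat_lit 5647) (.f (nat_lit 656) (nat_lit 687) (nat_lit 5679) (.f (nat_lit 689) (nat_lit 657) (nat_lit 4656) (.f (nat_lit 688) (nat_lit 721) (nat_lit 4688) (.d (nat_lit 559) (nat_lit 527) (nat_lit 7695) (nat_lit 591) (nat_lit 7727)))))) (.a (.f (nat_lit 625) (nat_lit 657) (nat_lit 4624) (.f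 (nat_lit 496) (nat_lit 593) (nat_lit 4592) (.f (nat_lit 591) (nat_lit 623) (nat_lit 5615) (.f (nat_lit 559) (nat_lit 464) (nat_lit 5583) (.d (nat_lit 656) (nat_lit 527) (nat_lit 7695) (nat_lit 688) (nat_lit 7727)))))) (.f (nat_lit 623) (nat_lit 655) (nat_lit 5647) (.f (nat_lit 496) (nat_lit 591) (nat_lit 5615) (.f (nat_lit 593) (nat_lit 625) (nat_lit 4592) (.f (nat_lit 561) (nat_lit 464) (nat_lit 4560) (.f (nat_lit 594) (nat_lit 595) (nat_lit 1615) (.f (nat_lit 559) (nat_lit 558) (nat_lit 558) (.d (nat_lit 656) (nat_lit 527) (nat_lit 7695) (nat_lit 688) (nat_lit 6704)))))))))))))) (.a s29587 (.a (.p (nat_lit 496) (.a (.f (nat_lit 593) (nat_lit 625) (nat_lit 4592) (.f (nat_lit 464) (nat_lit 561) (nat_lit 4560) (.d (nat_lit 463) (nat_lit 431) (nat_lit 7599) (nat_lit 495) (nat_lit 7631)))) (.a (.f (nat_lit 495) (nat_lit 463) (nat_lit 7631) (.f (nat_lit 624) (nat_lit 527) (nat_lit 7663) (.d (nat_lit 625) (nat_lit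 593) (nat_lit 4592) (nat_lit 657) (nat_lit 4624)))) (.a (.f (nat_lit 593) (nat_lit 625) (nat_lit 4592) (.f (nat_lit 464) (nat_lit 561) (nat_lit 4560) (.f (nat_lit 559) (nat_lit 591) (nat_lit 5583) (.f (nat_lit 527) (nat_lit 432) (nat_lit 5551) (.d (nat_lit 624) (nat_lit 495) (nat_lit 7663) (nat_lit 656) (nat_lit 7695)))))) (.a (.f (nat_lit 593) (nat_lit 625) (nat_lit 4592) (.f (nat_lit 464) (nat_lit 561) (nat_lit 4560) (.f (nat_lit 559) (nat_lit 591) (nat_lit 5583) (.f (nat_lit 432) (nat_lit 527) (nat_lit 5551) (.d (nat_lit 431) (nat_lit 399) (nat_lit 7567) (nat_lit 463) (nat_lit 7599)))))) (.p (nat_lit 464) (.a (.d (nat_lit 463) (nat_lit 431) (nat_lit 7599) (nat_lit 495) (nat_lit 7631)) (.a (.f (nat_lit 559) (nat_lit 591) (nat_lit 5583) (.f (nat_lit 527) (nat_lit 432) (nat_lit 5551) (.d (nat_lit 624) (nat_lit 495) (nat_lit 7663) (nat_lit 656) (nat_lit 7695)))) (.f (nat_lit 559) (nat_lit 591) (nat_lit 5583)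 (.f (nat_lit 432) (nat_lit 527) (nat_lit 5551) (.d (nat_lit 431) (nat_lit 399) (nat_lit 7567) (nat_lit 463) (nat_lit 7599)))))))))))) (.p (nat_lit 624) (.a (.f (nat_lit 527) (nat_lit 495) (nat_lit 7663) (.f (nat_lit 656) (nat_lit 559) (nat_lit 7695) (.d (nat_lit 655) (nat_lit 623) (nat_lit 5647) (nat_lit 687) (nat_lit 5679)))) (.a (.p (nat_lit 656) (.a (.d (nat_lit 655) (nat_lit 623) (nat_lit 5647) (nat_lit 687) (nat_lit 5679)) (.a (.f (nat_lit 689) (nat_lit 657) (nat_lit 4656) (.f (nat_lit 688) (nat_lit 721) (nat_lit 4688) (.f (nat_lit 591) (nat_lit 559) (nat_lit 7727) (.d (nat_lit 623) (nat_lit 496) (nat_lit 5615) (nat_lit 720) (nat_lit 7759))))) (.f (nat_lit 689) (nat_lit 657) (nat_lit 4656) (.f (nat_lit 688) (nat_lit 721) (nat_lit 4688) (.d (nat_lit 687) (nat_lit 655) (nat_lit 5679) (nat_lit 719) (nat_lit 5711))))))) (.a (.f (nat_lit 623) (nat_lit 655) (nat_lit 5647) (.f (nat_lit 496) (nat_lit 591) (nat_lit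 5615) (.d (nat_lit 495) (nat_lit 463) (nat_lit 7631) (nat_lit 527) (nat_lit 7663)))) (.a (.f (nat_lit 527) (nat_lit 495) (nat_lit 7663) (.f (nat_lit 656) (nat_lit 559) (nat_lit 7695) (.f (nat_lit 687) (nat_lit 655) (nat_lit 5679) (.f (nat_lit 688) (nat_lit 719) (nat_lit 5711) (.d (nat_lit 689) (nat_lit 657) (nat_lit 4656) (nat_lit 721) (nat_lit 4688)))))) (.p (nat_lit 496) (.a (.d (nat_lit 495) (nat_lit 463) (nat_lit 7631) (nat_lit 527) (nat_lit 7663)) (.a (.f (nat_lit 591) (nat_lit 623) (nat_lit 5615) (.f (nat_lit 464) (nat_lit 559) (nat_lit 5583) (.d (nat_lit 463) (nat_lit 431) (nat_lit 7599) (nat_lit 495) (nat_lit 7631)))) (.a (.f (nat_lit 527) (nat_lit 495) (nat_lit 7663) (.f (nat_lit 559) (nat_lit 656) (nat_lit 7695) (.d (nat_lit 464) (nat_lit 432) (nat_lit 5551) (nat_lit 591) (nat_lit 5583)))) (.f (nat_lit 591) (nat_lit 623) (nat_lit 5615) (.f (nat_lit 559) (nat_lit 464) (nat_lit 5583) (.d (nat_lit 656)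 (nat_lit 527) (nat_lit 7695) (nat_lit 688) (nat_lit 7727)))))))))))))))))))))))))
end Vale.Agent.Lib.P062.Part4
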