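import Vale.Agent.Lib.P062.Part4.K_0

set_option maxRecDepth 100000
set_option linter.all false

namespace Vale.Agent.Lib.P062.Part4
open Vale.Agent.Lib.P062 Vale.Agent.Lib.P062.V2

noncomputable def s33607 : Cert := .r (nat_lit 3773962425700235454170381015460514261330110044589002775889330287791956330566838353103085235776391519307565223460440841511393058764483938163057714398267031125743353462784) (.p (nat_lit 531) (.a (.f (nat_lit 499) (nat_lit 532) (nat_lit 496) (.f (nat_lit 467) (nat_lit 468) (nat_lit 2512) (.d (nat_lit 495) (nat_lit 466) (nat_lit 2511) (nat_lit 530) (nat_lit 495)))) (.a (.f (nat_lit 499) (nat_lit 532) (nat_lit 496) (.f (nat_lit 468) (nat_lit 467) (nat_lit 2512) (.f (nat_lit 500) (nat_lit 469) (nat_lit 2513) (.f (nat_lit 465) (nat_lit 464) (nat_lit 3536) (.f (nat_lit 501) (nat_lit 466) (nat_lit 3537) (.f (nat_lit 502) (nat_lit 530) (nat_lit 1522) (.d (nat_lit 534) (nat_lit 533) (nat_lit 498) (nat_lit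 535) (nat_lit 499)))))))) (.a (.f (nat_lit 495) (nat_lit 530) (nat_lit 495) (.f (nat_lit 466) (nat_lit 467) (nat_lit 2511) (.f (nat_lit 494) (nat_lit 465) (nat_lit 2510) (.f (nat_lit 525) (nat_lit 526) (nat_lit 1517) (.f (nat_lit 493) (nat_lit 524) (nat_lit 1516) (.d (nat_lit 461) (nat_lit 460) (nat_lit 3532) (nat_lit 462) (nat_lit 3533))))))) (.a (.f (nat_lit 499) (nat_lit 532) (nat_lit 496) (.f (nat_lit 467) (nat_lit 468) (nat_lit 2512) (.f (nat_lit 466) (nat_lit 495) (nat_lit 2511) (.d (nat_lit 434) (nat_lit 402) (nat_lit 4498) (nat_lit 563) (nat_lit 7602))))) (.a (.f (nat_lit 499) (nat_lit 532) (nat_lit 496) (.f (nat_lit 467) (nat_lit 468) (nat_lit 2512) (.f (nat_lit 530) (nat_lit 495) (nat_lit 495) (.d (nat_lit 435) (nat_lit 403) (nat_lit 5522) (nat_lit 562) (nat_lit 5554))))) (.f (nat_lit 530) (nat_lit 495) (nat_lit 495) (.d (nat_lit 532) (nat_lit 499) (nat_lit 496) (nat_lit 533) (nat_lit 3569)))))))))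
noncomputable def s33688 : Cert := .r (nat_lit 33965661824272566272511991489353683122417128520023976096926060945512332728389440590804115761748245978999720985247289620353418571319827288099701345477964273606604582027264) (.p (nat_lit 593) (.a (.f (nat_lit 561) (nat_lit 464) (nat_lit 4560) (.d (nat_lit 625) (nat_lit 592) (nat_lit 4592) (nat_lit 657) (nat_lit 7696))) (.a (.f (nat_lit 592) (nat_lit 625) (nat_lit 4592) (.f (nat_lit 591) (nat_lit 623) (nat_lit 5615) (.d (nat_lit 562) (nat_lit 561) (nat_lit 1583) (nat_lit 594) (nat_lit 2607)))) (.a (.f (nat_lit 561) (nat_lit 464) (nat_lit 4560) (.f (nat_lit 562) (nat_lit 527) (nat_lit 3599) (.d (nat_lit 592) (nat_lit 564) (nat_lit 1584) (nat_lit 591) (nat_lit 1583)))) (.a (.f (nat_lit 592) (nat_lit 625) (nat_lit 4592) (.f (nat_lit 591) (nat_lit 623) (nat_lit 5615) (.f (nat_lit 594) (nat_lit 562) (nat_lit 2607) (.f (nat_lit 595) (nat_lit 564) (nat_lit 2608) (.d (nat_lit 627)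 (nat_lit 626) (nat_lit 591) (nat_lit 628) (nat_lit 592)))))) (.f (nat_lit 561) (nat_lit 464) (nat_lit 4560) (.f (nat_lit 562) (nat_lit 527) (nat_lit 3599) (.f (nat_lit 531) (nat_lit 532) (nat_lit 2576) (.f (nat_lit 595) (nat_lit 596) (nat_lit 560) (.d (nat_lit 594) (nat_lit 467) (nat_lit 5586) (nat_lit 626) (nat_lit 5618)))))))))))
noncomputable def s33747 : Cert := .r (nat_lit 33965661831302119076485735837495149540676475174507877844272805684732263310595436810603315559121747051037050449544041043218294969949840203811411188742040078576706400550912) (.p (nat_lit 498) (.a (.f (nat_lit 595) (nat_lit 466) (nat_lit 7634) (.f (nat_lit 532) (nat_lit 497) (nat_lit 496) (.d (nat_lit 627) (nat_lit 500) (nat_lit 6643) (nat_lit 530) (nat_lit 7666)))) (.a (.f (nat_lit 595) (nat_lit 466) (nat_lit 7634) (.f (nat_lit 627) (nat_lit 530) (nat_lit 7666) (.d (nat_lit 500) (nat_lit 468) (nat_lit 6611) (nat_lit 532) (nat_lit 6643)))) (.a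 (.f (nat_lit 532) (nat_lit 497) (nat_lit 496) (.f (nat_lit 562) (nat_lit 561) (nat_lit 2576) (.f (nat_lit 467) (nat_lit 594) (nat_lit 5586) (.d (nat_lit 435) (nat_lit 530) (nat_lit 5554) (nat_lit 564) (nat_lit 4531))))) (.a (.f (nat_lit 595) (nat_lit 466) (nat_lit 7634) (.f (nat_lit 532) (nat_lit 497) (nat_lit 496) (.d (nat_lit 500) (nat_lit 468) (nat_lit 6611) (nat_lit 627) (nat_lit 6643)))) (.f (nat_lit 595) (nat_lit 466) (nat_lit 7634) (.f (nat_lit 627) (nat_lit 530) (nat_lit 7666) (.d (nat_lit 626) (nat_lit 594) (nat_lit 5618) (nat_lit 658) (nat_lit 5650)))))))))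
noncomputable def s33762 : Cert := .r (nat_lit 33965661831302119076485735837495149540676475174507877844272805684732263310595436810603315559121747051037050449544041043218294969949840203811411188742040078576706400550912) (.p (nat_lit 498) (.a (.f (nat_lit 595) (nat_lit 466) (nat_lit 7634) (.f (nat_lit 532) (nat_lit 497) (nat_lit 496) (.d (nat_lit 627) (nat_lit 500) (nat_lit 6643) (nat_lit 530) (nat_lit 7666)))) (.a (.f (nat_lit 595) (nat_lit 466) (nat_lit 7634) (.f (nat_lit 627) (nat_lit 530) (nat_lit 7666) (.d (nat_lit 500) (nat_lit 468) (nat_lit 6611) (nat_lit 532) (nat_lit 6643)))) (.a (.f (nat_lit 497) (nat_lit 532) (nat_lit 496) (.f (nat_lit 467) (nat_lit 468) (nat_lit 2512) (.f (nat_lit 466) (nat_lit 434) (nat_lit 7602) (.f (nat_lit 562) (nat_lit 594) (nat_lit 5586) (.f (nat_lit 435) (nat_lit 530) (nat_lit 5554) (.f (nat_lit 403) (nat_lit 371) (nat_lit 5490) (.d (nat_lit 404) (nat_lit 372) (nat_lit 6515) (nat_lit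 436) (nat_lit 6547)))))))) (.a (.f (nat_lit 595) (nat_lit 466) (nat_lit 7634) (.f (nat_lit 532) (nat_lit 497) (nat_lit 496) (.d (nat_lit 500) (nat_lit 468) (nat_lit 6611) (nat_lit 627) (nat_lit 6643)))) (.a (.f (nat_lit 497) (nat_lit 532) (nat_lit 496) (.f (nat_lit 467) (nat_lit 468) (nat_lit 2512) (.f (nat_lit 562) (nat_lit 594) (nat_lit 5586) (.f (nat_lit 435) (nat_lit 530) (nat_lit 5554) (.f (nat_lit 404) (nat_lit 436) (nat_lit 6547) (.f (nat_lit 403) (nat_lit 372) (nat_lit 6515) (.d (nat_lit 402) (nat_lit 370) (nat_lit 7538) (nat_lit 434) (nat_lit 7570)))))))) (.f (nat_lit 595) (nat_lit 466) (nat_lit 7634) (.f (nat_lit 627) (nat_lit 530) (nat_lit 7666) (.d (nat_lit 626) (nat_lit 594) (nat_lit 5618) (nat_lit 658) (nat_lit 5650))))))))))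
noncomputable def s33772 : Cert := .r (nat_lit 33965661831302119076485735837495149540676475174507877844272805684732263310595436810603315559121747051037050449544041043218294969949840203811411188742040078576706400550912) (.p (nat_lit 498) (.a (.f (nat_lit 595) (nat_lit 466) (nat_lit 7634) (.f (nat_lit 532) (nat_lit 497) (nat_lit 496) (.d (nat_lit 627) (nat_lit 500) (nat_lit 6643) (nat_lit 530) (nat_lit 7666)))) (.a (.f (nat_lit 595) (nat_lit 466) (nat_lit 7634) (.f (nat_lit 627) (nat_lit 530) (nat_lit 7666) (.d (nat_lit 500) (nat_lit 468) (nat_lit 6611) (nat_lit 532) (nat_lit 6643)))) (.a (.f (nat_lit 497) (nat_lit 532) (nat_lit 496) (.f (nat_lit 467) (nat_lit 468) (nat_lit 2512) (.f (nat_lit 434) (nat_lit 466) (nat_lit 7602) (.f (nat_lit 435) (nat_lit 402) (nat_lit 7570) (.f (nat_lit 404) (nat_lit 436) (nat_lit 6547) (.d (nat_lit 403) (nat_lit 372) (nat_lit 6515) (nat_lit 530) (nat_lit 5522))))))) (.a (.f (nat_lit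 595) (nat_lit 466) (nat_lit 7634) (.f (nat_lit 532) (nat_lit 497) (nat_lit 496) (.d (nat_lit 500) (nat_lit 468) (nat_lit 6611) (nat_lit 627) (nat_lit 6643)))) (.a (.f (nat_lit 497) (nat_lit 532) (nat_lit 496) (.f (nat_lit 468) (nat_lit 467) (nat_lit 2512) (.d (nat_lit 500) (nat_lit 469) (nat_lit 2513) (nat_lit 595) (nat_lit 6611)))) (.f (nat_lit 595) (nat_lit 466) (nat_lit 7634) (.f (nat_lit 627) (nat_lit 530) (nat_lit 7666) (.d (nat_lit 626) (nat_lit 594) (nat_lit 5618) (nat_lit 658) (nat_lit 5650))))))))))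
noncomputable def s33846 : Cert := .r (nat_lit 33965661831302119076485735837495149540676475174507877844272805684732263310595436810603315559121747051037050449544041043218294969949840203811411188742040078576706400550912) (.p (nat_lit 498) (.a (.f (nat_lit 595) (nat_lit 466) (nat_lit 7634) (.f (nat_lit 532) (nat_lit 497) (nat_lit 496) (.d (nat_lit 627) (nat_lit 500) (nat_lit 6643) (nat_lit 530) (nat_lit 7666)))) (.a (.f (nat_lit 595) (nat_lit 466) (nat_lit 7634) (.f (nat_lit 627) (nat_lit 530) (nat_lit 7666) (.d (nat_lit 500) (nat_lit 468) (nat_lit 6611) (nat_lit 532) (nat_lit 6643)))) (.a (.f (nat_lit 497) (nat_lit 532) (nat_lit 496) (.f (nat_lit 467) (nat_lit 468) (nat_lit 2512) (.f (nat_lit 434) (nat_lit 466) (nat_lit 7602) (.f (nat_lit 435) (nat_lit 402) (nat_lit 7570) (.f (nat_lit 404) (nat_lit 436) (nat_lit 6547) (.d (nat_lit 403) (nat_lit 372) (nat_lit 6515) (nat_lit 530) (nat_lit 5522))))))) (.a (.f (nat_lit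 595) (nat_lit 466) (nat_lit 7634) (.f (nat_lit 532) (nat_lit 497) (nat_lit 496) (.d (nat_lit 500) (nat_lit 468) (nat_lit 6611) (nat_lit 627) (nat_lit 6643)))) (.a (.f (nat_lit 497) (nat_lit 532) (nat_lit 496) (.f (nat_lit 468) (nat_lit 467) (nat_lit 2512) (.d (nat_lit 500) (nat_lit 469) (nat_lit 2513) (nat_lit 595) (nat_lit 6611)))) (.f (nat_lit 595) (nat_lit 466) (nat_lit 7634) (.f (nat_lit 468) (nat_lit 500) (nat_lit 6611) (.d (nat_lit 497) (nat_lit 467) (nat_lit 2512) (nat_lit 527) (nat_lit 1519))))))))))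
noncomputable def s33864 : Cert := .r (nat_lit 33965661824272566272511991489353683122417128520023976096926060945512332728389440590804115761748245978999720985247289620353418571319827288099701345477964273606604582027264) (.p (nat_lit 531) (.a s33747 (.a s33762 (.a (.p (nat_lit 562) (.a (.f (nat_lit 467) (nat_lit 594) (nat_lit 5586) (.f (nat_lit 532) (nat_lit 561) (nat_lit 2576) (.d (nat_lit 435) (nat_lit 530) (nat_lit 5554) (nat_lit 564) (nat_lit 4531)))) (.a (.f (nat_lit 467) (nat_lit 594) (nat_lit 5586) (.f (nat_lit 435) (nat_lit 530) (nat_lit 5554) (.d (nat_lit 564) (nat_lit 532) (nat_lit 4531) (nat_lit 596) (nat_lit 4563)))) (.a (.d (nat_lit 561) (nat_lit 527) (nat_lit 3599) (nat_lit 532) (nat_lit 2576)) (.f (nat_lit 467) (nat_lit 594) (nat_lit 5586) (.f (nat_lit 435) (nat_lit 530) (nat_lit 5554) (.d (nat_lit 436) (nat_lit 404) (nat_lit 6547) (nat_lit 468) (nat_lit 6579)))))))) (.a s33772 (.a s33846 (.a (.p (nat_lit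 498) (.a (.f (nat_lit 595) (nat_lit 466) (nat_lit 7634) (.f (nat_lit 532) (nat_lit 497) (nat_lit 496) (.d (nat_lit 500) (nat_lit 468) (nat_lit 6611) (nat_lit 627) (nat_lit 6643)))) (.a (.f (nat_lit 595) (nat_lit 466) (nat_lit 7634) (.f (nat_lit 596) (nat_lit 628) (nat_lit 4595) (.f (nat_lit 562) (nat_lit 561) (nat_lit 560) (.d (nat_lit 467) (nat_lit 564) (nat_lit 4563) (nat_lit 594) (nat_lit 5586))))) (.d (nat_lit 497) (nat_lit 527) (nat_lit 1519) (nat_lit 532) (nat_lit 496))))) (.a (.p (nat_lit 498) (.a (.f (nat_lit 595) (nat_lit 466) (nat_lit 7634) (.f (nat_lit 532) (nat_lit 497) (nat_lit 496) (.d (nat_lit 627) (nat_lit 500) (nat_lit 6643) (nat_lit 530) (nat_lit 7666)))) (.a (.f (nat_lit 595) (nat_lit 466) (nat_lit 7634) (.f (nat_lit 627) (nat_lit 530) (nat_lit 7666) (.d (nat_lit 500) (nat_lit 468) (nat_lit 6611) (nat_lit 532) (nat_lit 6643)))) (.a (.d (nat_lit 497) (nat_lit 527) (nat_lit 1519) (nat_lit 532) (nat_lit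 496)) (.f (nat_lit 595) (nat_lit 466) (nat_lit 7634) (.f (nat_lit 627) (nat_lit 530) (nat_lit 7666) (.d (nat_lit 626) (nat_lit 594) (nat_lit 5618) (nat_lit 658) (nat_lit 5650)))))))) (.a (.p (nat_lit 498) (.a (.f (nat_lit 595) (nat_lit 466) (nat_lit 7634) (.f (nat_lit 532) (nat_lit 497) (nat_lit 496) (.d (nat_lit 627) (nat_lit 500) (nat_lit 6643) (nat_lit 530) (nat_lit 7666)))) (.a (.f (nat_lit 595) (nat_lit 466) (nat_lit 7634) (.f (nat_lit 627) (nat_lit 530) (nat_lit 7666) (.d (nat_lit 626) (nat_lit 594) (nat_lit 5618) (nat_lit 658) (nat_lit 5650)))) (.a (.f (nat_lit 532) (nat_lit 497) (nat_lit 496) (.f (nat_lit 562) (nat_lit 561) (nat_lit 2576) (.f (nat_lit 467) (nat_lit 594) (nat_lit 5586) (.d (nat_lit 435) (nat_lit 530) (nat_lit 5554) (nat_lit 564) (nat_lit 4531))))) (.f (nat_lit 595) (nat_lit 466) (nat_lit 7634) (.f (nat_lit 596) (nat_lit 628) (nat_lit 4595) (.f (nat_lit 562) (nat_lit 561) (nat_lit 560) (.d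 (nat_lit 467) (nat_lit 564) (nat_lit 4563) (nat_lit 594) (nat_lit 5586))))))))) (.p (nat_lit 498) (.a (.f (nat_lit 595) (nat_lit 466) (nat_lit 7634) (.f (nat_lit 627) (nat_lit 530) (nat_lit 7666) (.d (nat_lit 626) (nat_lit 594) (nat_lit 5618) (nat_lit 658) (nat_lit 5650)))) (.a (.f (nat_lit 497) (nat_lit 527) (nat_lit 1519) (.f (nat_lit 467) (nat_lit 468) (nat_lit 2512) (.f (nat_lit 562) (nat_lit 594) (nat_lit 5586) (.f (nat_lit 435) (nat_lit 530) (nat_lit 5554) (.d (nat_lit 434) (nat_lit 402) (nat_lit 7570) (nat_lit 466) (nat_lit 7602)))))) (.a (.f (nat_lit 595) (nat_lit 466) (nat_lit 7634) (.f (nat_lit 468) (nat_lit 500) (nat_lit 6611) (.d (nat_lit 497) (nat_lit 467) (nat_lit 2512) (nat_lit 527) (nat_lit 1519)))) (.f (nat_lit 497) (nat_lit 527) (nat_lit 1519) (.f (nat_lit 467) (nat_lit 468) (nat_lit 2512) (.f (nat_lit 562) (nat_lit 594) (nat_lit 5586) (.f (nat_lit 596) (nat_lit 564) (nat_lit 4563) (.d (nat_lit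 595) (nat_lit 561) (nat_lit 560) (nat_lit 628) (nat_lit 4595)))))))))))))))))))
noncomputable def s33891 : Cert := .r (nat_lit 33965661831302119076485735837495149540676475174507877844272805684732263310595436810603315559121747051037050449544041043218294969949840203811411188742040078576706400550912) (.p (nat_lit 594) (.a (.f (nat_lit 467) (nat_lit 562) (nat_lit 5586) (.f (nat_lit 595) (nat_lit 626) (nat_lit 5618) (.d (nat_lit 596) (nat_lit 564) (nat_lit 4563) (nat_lit 628) (nat_lit 4595)))) (.a (.f (nat_lit 595) (nat_lit 626) (nat_lit 5618) (.f (nat_lit 596) (nat_lit 628) (nat_lit 4595) (.f (nat_lit 564) (nat_lit 467) (nat_lit 4563) (.f (nat_lit 500) (nat_lit 468) (nat_lit 6611) (.f (nat_lit 532) (nat_lit 627) (nat_lit 5619) (.f (nat_lit 501) (nat_lit 469) (nat_lit 6612) (.d (nat_lit 502) (nat_lit 503) (nat_lit 1523) (nat_lit 530) (nat_lit 1522)))))))) (.a (.f (nat_lit 467) (nat_lit 562) (nat_lit 5586) (.f (nat_lit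 564) (nat_lit 596) (nat_lit 4563) (.f (nat_lit 435) (nat_lit 532) (nat_lit 4531) (.d (nat_lit 436) (nat_lit 404) (nat_lit 6547) (nat_lit 468) (nat_lit 6579))))) (.a (.f (nat_lit 595) (nat_lit 626) (nat_lit 5618) (.f (nat_lit 628) (nat_lit 596) (nat_lit 4595) (.f (nat_lit 627) (nat_lit 660) (nat_lit 4627) (.d (nat_lit 500) (nat_lit 468) (nat_lit 6611) (nat_lit 532) (nat_lit 6643))))) (.f (nat_lit 467) (nat_lit 562) (nat_lit 5586) (.f (nat_lit 595) (nat_lit 626) (nat_lit 5618) (.d (nat_lit 468) (nat_lit 436) (nat_lit 6579) (nat_lit 500) (nat_lit 6611)))))))))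
noncomputable def s33927 : Cert := .r (nat_lit 33965661824272566272511991489353683122417128520023976096926060945512332728389440590804115761748245978999720985247289620353418571319827288099701345477964273606604582027264) (.p (nat_lit 531) (.a s33762 (.a (.p (nat_lit 594) (.a (.f (nat_lit 467) (nat_lit 562) (nat_lit 5586) (.f (nat_lit 595) (nat_lit 626) (nat_lit 5618) (.d (nat_lit 596) (nat_lit 564) (nat_lit 4563) (nat_lit 628) (nat_lit 4595)))) (.a (.f (nat_lit 595) (nat_lit 626) (nat_lit 5618) (.f (nat_lit 596) (nat_lit 628) (nat_lit 4595) (.f (nat_lit 564) (nat_lit 467) (nat_lit 4563) (.f (nat_lit 500) (nat_lit 468) (nat_lit 6611) (.f (nat_lit 532) (nat_lit 627) (nat_lit 5619) (.f (nat_lit 501) (nat_lit 469) (nat_lit 6612) (.d (nat_lit 502) (nat_lit 503) (nat_lit 1523) (nat_lit 530) (nat_lit 1522)))))))) (.a (.f (nat_lit 467) (nat_lit 562) (nat_lit 5586) (.f (nat_lit 564) (nat_lit 596) (nat_lit 4563) (.f (nat_lit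 435) (nat_lit 532) (nat_lit 4531) (.d (nat_lit 436) (nat_lit 404) (nat_lit 6547) (nat_lit 468) (nat_lit 6579))))) (.f (nat_lit 595) (nat_lit 626) (nat_lit 5618) (.f (nat_lit 498) (nat_lit 466) (nat_lit 7634) (.f (nat_lit 627) (nat_lit 530) (nat_lit 7666) (.d (nat_lit 500) (nat_lit 468) (nat_lit 6611) (nat_lit 532) (nat_lit 6643))))))))) (.a s33772 (.a s33891 (.a (.p (nat_lit 467) (.a (.f (nat_lit 564) (nat_lit 596) (nat_lit 4563) (.f (nat_lit 435) (nat_lit 532) (nat_lit 4531) (.d (nat_lit 562) (nat_lit 530) (nat_lit 5554) (nat_lit 594) (nat_lit 5586)))) (.a (.f (nat_lit 564) (nat_lit 596) (nat_lit 4563) (.f (nat_lit 435) (nat_lit 532) (nat_lit 4531) (.d (nat_lit 436) (nat_lit 404) (nat_lit 6547) (nat_lit 468) (nat_lit 6579)))) (.a (.f (nat_lit 468) (nat_lit 436) (nat_lit 6579) (.f (nat_lit 498) (nat_lit 497) (nat_lit 2512) (.f (nat_lit 466) (nat_lit 434) (nat_lit 7602) (.f (nat_lit 562) (nat_lit 594) (nat_lit 5586)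 (.f (nat_lit 435) (nat_lit 530) (nat_lit 5554) (.f (nat_lit 403) (nat_lit 371) (nat_lit 5490) (.d (nat_lit 532) (nat_lit 500) (nat_lit 4499) (nat_lit 564) (nat_lit 4531)))))))) (.a (.f (nat_lit 562) (nat_lit 594) (nat_lit 5586) (.f (nat_lit 435) (nat_lit 530) (nat_lit 5554) (.d (nat_lit 436) (nat_lit 404) (nat_lit 6547) (nat_lit 468) (nat_lit 6579)))) (.f (nat_lit 468) (nat_lit 436) (nat_lit 6579) (.f (nat_lit 498) (nat_lit 497) (nat_lit 2512) (.f (nat_lit 466) (nat_lit 434) (nat_lit 7602) (.f (nat_lit 469) (nat_lit 470) (nat_lit 1490) (.f (nat_lit 501) (nat_lit 502) (nat_lit 466) (.f (nat_lit 437) (nat_lit 438) (nat_lit 2482) (.f (nat_lit 564) (nat_lit 596) (nat_lit 4563) (.d (nat_lit 532) (nat_lit 500) (nat_lit 6580) (nat_lit 533) (nat_lit 5556)))))))))))))) (.a s33846 (.a (.p (nat_lit 498) (.a (.f (nat_lit 595) (nat_lit 466) (nat_lit 7634) (.f (nat_lit 532) (nat_lit 497) (nat_lit 496) (.d (nat_lit 500) (nat_lit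 468) (nat_lit 6611) (nat_lit 627) (nat_lit 6643)))) (.a (.f (nat_lit 595) (nat_lit 466) (nat_lit 7634) (.f (nat_lit 500) (nat_lit 468) (nat_lit 6611) (.f (nat_lit 532) (nat_lit 627) (nat_lit 6643) (.f (nat_lit 596) (nat_lit 628) (nat_lit 4595) (.f (nat_lit 564) (nat_lit 467) (nat_lit 4563) (.f (nat_lit 597) (nat_lit 629) (nat_lit 4596) (.d (nat_lit 598) (nat_lit 562) (nat_lit 3634) (nat_lit 599) (nat_lit 3635)))))))) (.a (.d (nat_lit 497) (nat_lit 527) (nat_lit 1519) (nat_lit 532) (nat_lit 496)) (.f (nat_lit 595) (nat_lit 466) (nat_lit 7634) (.f (nat_lit 468) (nat_lit 500) (nat_lit 6611) (.d (nat_lit 497) (nat_lit 467) (nat_lit 2512) (nat_lit 527) (nat_lit 1519)))))))) (.a (.p (nat_lit 498) (.a (.f (nat_lit 595) (nat_lit 466) (nat_lit 7634) (.f (nat_lit 532) (nat_lit 497) (nat_lit 496) (.d (nat_lit 627) (nat_lit 500) (nat_lit 6643) (nat_lit 530) (nat_lit 7666)))) (.a (.f (nat_lit 595) (nat_lit 466) (nat_lit 7634)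 (.f (nat_lit 627) (nat_lit 530) (nat_lit 7666) (.d (nat_lit 500) (nat_lit 468) (nat_lit 6611) (nat_lit 532) (nat_lit 6643)))) (.a (.d (nat_lit 497) (nat_lit 527) (nat_lit 1519) (nat_lit 532) (nat_lit 496)) (.f (nat_lit 595) (nat_lit 466) (nat_lit 7634) (.f (nat_lit 627) (nat_lit 530) (nat_lit 7666) (.d (nat_lit 626) (nat_lit 594) (nat_lit 5618) (nat_lit 658) (nat_lit 5650)))))))) (.a (.p (nat_lit 498) (.a (.f (nat_lit 595) (nat_lit 466) (nat_lit 7634) (.f (nat_lit 532) (nat_lit 497) (nat_lit 496) (.d (nat_lit 627) (nat_lit 500) (nat_lit 6643) (nat_lit 530) (nat_lit 7666)))) (.a (.f (nat_lit 595) (nat_lit 466) (nat_lit 7634) (.f (nat_lit 627) (nat_lit 530) (nat_lit 7666) (.d (nat_lit 626) (nat_lit 594) (nat_lit 5618) (nat_lit 658) (nat_lit 5650)))) (.d (nat_lit 497) (nat_lit 527) (nat_lit 1519) (nat_lit 532) (nat_lit 496))))) (.a (.p (nat_lit 498) (.a (.f (nat_lit 595) (nat_lit 466) (nat_lit 7634) (.f (nat_lit 627)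 (nat_lit 530) (nat_lit 7666) (.d (nat_lit 626) (nat_lit 594) (nat_lit 5618) (nat_lit 658) (nat_lit 5650)))) (.a (.f (nat_lit 497) (nat_lit 527) (nat_lit 1519) (.f (nat_lit 467) (nat_lit 468) (nat_lit 2512) (.f (nat_lit 562) (nat_lit 594) (nat_lit 5586) (.f (nat_lit 435) (nat_lit 530) (nat_lit 5554) (.d (nat_lit 434) (nat_lit 402) (nat_lit 7570) (nat_lit 466) (nat_lit 7602)))))) (.a (.f (nat_lit 595) (nat_lit 466) (nat_lit 7634) (.f (nat_lit 468) (nat_lit 500) (nat_lit 6611) (.d (nat_lit 497) (nat_lit 467) (nat_lit 2512) (nat_lit 527) (nat_lit 1519)))) (.f (nat_lit 497) (nat_lit 527) (nat_lit 1519) (.f (nat_lit 467) (nat_lit 468) (nat_lit 2512) (.f (nat_lit 562) (nat_lit 594) (nat_lit 5586) (.f (nat_lit 435) (nat_lit 530) (nat_lit 5554) (.f (nat_lit 404) (nat_lit 436) (nat_lit 6547) (.f (nat_lit 403) (nat_lit 372) (nat_lit 6515) (.d (nat_lit 402) (nat_lit 370) (nat_lit 7538) (nat_lit 434) (nat_lit 7570))))))))))))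 (.p (nat_lit 498) (.a (.f (nat_lit 595) (nat_lit 466) (nat_lit 7634) (.f (nat_lit 627) (nat_lit 530) (nat_lit 7666) (.d (nat_lit 626) (nat_lit 594) (nat_lit 5618) (nat_lit 658) (nat_lit 5650)))) (.a (.f (nat_lit 497) (nat_lit 532) (nat_lit 496) (.f (nat_lit 467) (nat_lit 468) (nat_lit 2512) (.f (nat_lit 466) (nat_lit 434) (nat_lit 7602) (.f (nat_lit 562) (nat_lit 594) (nat_lit 5586) (.f (nat_lit 435) (nat_lit 530) (nat_lit 5554) (.f (nat_lit 403) (nat_lit 371) (nat_lit 5490) (.d (nat_lit 404) (nat_lit 372) (nat_lit 6515) (nat_lit 436) (nat_lit 6547)))))))) (.a (.f (nat_lit 497) (nat_lit 532) (nat_lit 496) (.f (nat_lit 467) (nat_lit 468) (nat_lit 2512) (.f (nat_lit 434) (nat_lit 466) (nat_lit 7602) (.f (nat_lit 435) (nat_lit 402) (nat_lit 7570) (.f (nat_lit 404) (nat_lit 436) (nat_lit 6547) (.d (nat_lit 403) (nat_lit 372) (nat_lit 6515) (nat_lit 530) (nat_lit 5522))))))) (.d (nat_lit 497) (nat_lit 527) (nat_lit 1519)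 (nat_lit 532) (nat_lit 496)))))))))))))))))
noncomputable def s33949 : Cert := .r (nat_lit 33965661831302119076485735837495149540676475174507877844272805684732263310595436810603315559121747051037050449544041043218294969949840203811411188742040078576706400550912) (.p (nat_lit 466) (.a (.f (nat_lit 595) (nat_lit 498) (nat_lit 7634) (.f (nat_lit 467) (nat_lit 434) (nat_lit 7602) (.d (nat_lit 468) (nat_lit 436) (nat_lit 6579) (nat_lit 500) (nat_lit 6611)))) (.a (.f (nat_lit 467) (nat_lit 434) (nat_lit 7602) (.f (nat_lit 468) (nat_lit 436) (nat_lit 6579) (.f (nat_lit 500) (nat_lit 595) (nat_lit 6611) (.f (nat_lit 564) (nat_lit 596) (nat_lit 4563) (.f (nat_lit 532) (nat_lit 435) (nat_lit 4531) (.f (nat_lit 565) (nat_lit 597) (nat_lit 4564) (.d (nat_lit 566) (nat_lit 530) (nat_lit 3602) (nat_lit 567) (nat_lit 3603)))))))) (.a (.f (nat_lit 467) (nat_lit 434) (nat_lit 7602) (.f (nat_lit 436) (nat_lit 468) (nat_lit 6579) (.f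 (nat_lit 435) (nat_lit 404) (nat_lit 6547) (.d (nat_lit 564) (nat_lit 532) (nat_lit 4531) (nat_lit 596) (nat_lit 4563))))) (.a (.f (nat_lit 595) (nat_lit 498) (nat_lit 7634) (.f (nat_lit 500) (nat_lit 468) (nat_lit 6611) (.f (nat_lit 627) (nat_lit 532) (nat_lit 6643) (.d (nat_lit 626) (nat_lit 594) (nat_lit 5618) (nat_lit 658) (nat_lit 5650))))) (.f (nat_lit 595) (nat_lit 498) (nat_lit 7634) (.f (nat_lit 467) (nat_lit 434) (nat_lit 7602) (.d (nat_lit 596) (nat_lit 564) (nat_lit 4563) (nat_lit 628) (nat_lit 4595)))))))))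
noncomputable def s33973 : Cert := .r (nat_lit 33965661831302119076485735837495149540676475174507877844272805684732263310595436810603315559121747051037050449544041043218294969949840203811411188742040078576706400550912) (.p (nat_lit 467) (.a (.f (nat_lit 564) (nat_lit 596) (nat_lit 4563) (.f (nat_lit 435) (nat_lit 532) (nat_lit 4531) (.d (nat_lit 436) (nat_lit 404) (nat_lit 6547) (nat_lit 468) (nat_lit 6579)))) (.a (.f (nat_lit 468) (nat_lit 436) (nat_lit 6579) (.f (nat_lit 498) (nat_lit 497) (nat_lit 2512) (.f (nat_lit 434) (nat_lit 466) (nat_lit 7602) (.f (nat_lit 435) (nat_lit 402) (nat_lit 7570) (.f (nat_lit 403) (nat_lit 530) (nat_lit 5522) (.d (nat_lit 532) (nat_lit 500) (nat_lit 4499) (nat_lit 564) (nat_lit 4531))))))) (.a (.f (nat_lit 564) (nat_lit 596) (nat_lit 4563) (.f (nat_lit 435) (nat_lit 532) (nat_lit 4531) (.d (nat_lit 434) (nat_lit 402) (nat_lit 7570) (nat_lit 466) (nat_lit 7602)))) (.a (.f (nat_lit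 434) (nat_lit 466) (nat_lit 7602) (.f (nat_lit 435) (nat_lit 402) (nat_lit 7570) (.d (nat_lit 436) (nat_lit 404) (nat_lit 6547) (nat_lit 468) (nat_lit 6579)))) (.f (nat_lit 468) (nat_lit 436) (nat_lit 6579) (.f (nat_lit 498) (nat_lit 497) (nat_lit 2512) (.f (nat_lit 466) (nat_lit 434) (nat_lit 7602) (.f (nat_lit 469) (nat_lit 470) (nat_lit 1490) (.f (nat_lit 501) (nat_lit 502) (nat_lit 466) (.f (nat_lit 437) (nat_lit 438) (nat_lit 2482) (.f (nat_lit 564) (nat_lit 596) (nat_lit 4563) (.d (nat_lit 532) (nat_lit 500) (nat_lit 6580) (nat_lit 533) (nat_lit 5556))))))))))))))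
noncomputable def s33976 : Cert := .r (nat_lit 33965661831302119076485735837495149540676475174507877844272805684732263310595436810603315559121747051037050449544041043218294969949840203811411188742040078576706400550912) (.p (nat_lit 498) (.a (.f (nat_lit 595) (nat_lit 466) (nat_lit 7634) (.f (nat_lit 627) (nat_lit 530) (nat_lit 7666) (.d (nat_lit 626) (nat_lit 594) (nat_lit 5618) (nat_lit 658) (nat_lit 5650)))) (.a (.f (nat_lit 497) (nat_lit 527) (nat_lit 1519) (.f (nat_lit 467) (nat_lit 468) (nat_lit 2512) (.f (nat_lit 434) (nat_lit 466) (nat_lit 7602) (.f (nat_lit 435) (nat_lit 402) (nat_lit 7570) (.f (nat_lit 404) (nat_lit 436) (nat_lit 6547) (.d (nat_lit 403) (nat_lit 372) (nat_lit 6515) (nat_lit 530) (nat_lit 5522))))))) (.a (.f (nat_lit 595) (nat_lit 466) (nat_lit 7634) (.f (nat_lit 468) (nat_lit 500) (nat_lit 6611) (.d (nat_lit 497) (nat_lit 467) (nat_lit 2512) (nat_lit 527) (nat_lit 1519)))) (.f (nat_lit 497)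 (nat_lit 527) (nat_lit 1519) (.f (nat_lit 468) (nat_lit 467) (nat_lit 2512) (.d (nat_lit 500) (nat_lit 469) (nat_lit 2513) (nat_lit 595) (nat_lit 6611))))))))
noncomputable def s34099 : Cert := .r (nat_lit 49061511523558731681478209813354392788720250294868778295504634411658229618172040075547230404152383425551394131673450256652078118872116591245935342720747181433535053430784) (.p (nat_lit 531) (.a (.f (nat_lit 467) (nat_lit 594) (nat_lit 5586) (.f (nat_lit 435) (nat_lit 530) (nat_lit 5554) (.d (nat_lit 532) (nat_lit 561) (nat_lit 2576) (nat_lit 564) (nat_lit 4531)))) (.a (.f (nat_lit 467) (nat_lit 594) (nat_lit 5586) (.f (nat_lit 435) (nat_lit 530) (nat_lit 5554) (.d (nat_lit 564) (nat_lit 532) (nat_lit 4531) (nat_lit 596) (nat_lit 4563)))) (.a (.f (nat_lit 561) (nat_lit 532) (nat_lit 2576) (.f (nat_lit 595) (nat_lit 596) (nat_lit 560) (.f (nat_lit 466) (nat_lit 498) (nat_lit 7634) (.f (nat_lit 467) (nat_lit 434)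 (nat_lit 7602) (.d (nat_lit 468) (nat_lit 436) (nat_lit 6579) (nat_lit 500) (nat_lit 6611)))))) (.a (.f (nat_lit 561) (nat_lit 532) (nat_lit 2576) (.f (nat_lit 595) (nat_lit 596) (nat_lit 560) (.f (nat_lit 498) (nat_lit 466) (nat_lit 7634) (.f (nat_lit 627) (nat_lit 530) (nat_lit 7666) (.d (nat_lit 626) (nat_lit 594) (nat_lit 5618) (nat_lit 658) (nat_lit 5650)))))) (.f (nat_lit 467) (nat_lit 594) (nat_lit 5586) (.f (nat_lit 466) (nat_lit 434) (nat_lit 7602) (.d (nat_lit 465) (nat_lit 433) (nat_lit 6576) (nat_lit 500) (nat_lit 464)))))))))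
noncomputable def s34476 : Cert := .r (nat_lit 81045225988672555545218032360229982720113157698537661116243198802520371933584095202972722966950844485633113328262489170269050171494632016834582944819477958977930104356623205007360) (.p (nat_lit 531) (.a (.f (nat_lit 595) (nat_lit 626) (nat_lit 5618) (.f (nat_lit 467) (nat_lit 562) (nat_lit 5586) (.d (nat_lit 596) (nat_lit 564) (nat_lit 4563) (nat_lit 628) (nat_lit 4595)))) (.a (.f (nat_lit 595) (nat_lit 626) (nat_lit 5618) (.f (nat_lit 596) (nat_lit 628) (nat_lit 4595) (.f (nat_lit 564) (nat_lit 467) (nat_lit 4563) (.f (nat_lit 500) (nat_lit 468) (nat_lit 6611) (.f (nat_lit 532) (nat_lit 627) (nat_lit 5619) (.f (nat_lit 501) (nat_lit 469) (nat_lit 6612) (.d (nat_lit 502) (nat_lit 503) (nat_lit 1523) (nat_lit 530) (nat_lit 1522)))))))) (.a (.f (nat_lit 467) (nat_lit 562) (nat_lit 5586) (.f (nat_lit 564) (nat_lit 596) (nat_lit 4563) (.f (nat_lit 435) (nat_lit 532) (nat_lit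 4531) (.d (nat_lit 436) (nat_lit 404) (nat_lit 6547) (nat_lit 468) (nat_lit 6579))))) (.f (nat_lit 595) (nat_lit 626) (nat_lit 5618) (.f (nat_lit 498) (nat_lit 466) (nat_lit 7634) (.f (nat_lit 627) (nat_lit 530) (nat_lit 7666) (.d (nat_lit 500) (nat_lit 468) (nat_lit 6611) (nat_lit 532) (nat_lit 6643)))))))))
noncomputable def s34628 : Cert := .r (nat_lit 33965661831302119076485735837495149540676475174507877844272805684732263310595436810603315559121747051037050449544041043218294969949840203811411188742040078576706400550912) (.p (nat_lit 595) (.a (.f (nat_lit 500) (nat_lit 468) (nat_lit 6611) (.f (nat_lit 627) (nat_lit 532) (nat_lit 6643) (.d (nat_lit 626) (nat_lit 594) (nat_lit 5618) (nat_lit 658) (nat_lit 5650)))) (.a (.f (nat_lit 500) (nat_lit 468) (nat_lit 6611) (.f (nat_lit 627) (nat_lit 532) (nat_lit 6643) (.d (nat_lit 628) (nat_lit 596) (nat_lit 4595) (nat_lit 660) (nat_lit 4627)))) (.a (.f (nat_lit 596) (nat_lit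 628) (nat_lit 4595) (.f (nat_lit 467) (nat_lit 564) (nat_lit 4563) (.d (nat_lit 468) (nat_lit 436) (nat_lit 6579) (nat_lit 500) (nat_lit 6611)))) (.a (.f (nat_lit 596) (nat_lit 628) (nat_lit 4595) (.f (nat_lit 564) (nat_lit 467) (nat_lit 4563) (.f (nat_lit 626) (nat_lit 594) (nat_lit 5618) (.f (nat_lit 627) (nat_lit 658) (nat_lit 5650) (.d (nat_lit 532) (nat_lit 500) (nat_lit 5619) (nat_lit 659) (nat_lit 6675)))))) (.f (nat_lit 596) (nat_lit 628) (nat_lit 4595) (.f (nat_lit 467) (nat_lit 564) (nat_lit 4563) (.f (nat_lit 434) (nat_lit 466) (nat_lit 7602) (.f (nat_lit 435) (nat_lit 402) (nat_lit 7570) (.d (nat_lit 436) (nat_lit 404) (nat_lit 6547) (nat_lit 468) (nat_lit 6579)))))))))))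
noncomputable def s34680 : Cert := .r (nat_lit 33965661824272566272511991489353683122417128520023976096926060945512332728389440590804115761748245978999720985247289620353418571319827288099701345477964273606604582027264) (.p (nat_lit 531) (.a (.p (nat_lit 562) (.a (.f (nat_lit 467) (nat_lit 594) (nat_lit 5586) (.f (nat_lit 532) (nat_lit 561) (nat_lit 2576) (.d (nat_lit 435) (nat_lit 530) (nat_lit 5554) (nat_lit 564) (nat_lit 4531)))) (.a (.f (nat_lit 467) (nat_lit 594) (nat_lit 5586) (.f (nat_lit 435) (nat_lit 530) (nat_lit 5554) (.d (nat_lit 564) (nat_lit 532) (nat_lit 4531) (nat_lit 596) (nat_lit 4563)))) (.a (.d (nat_lit 561) (nat_lit 527) (nat_lit 3599) (nat_lit 532) (nat_lit 2576)) (.f (nat_lit 467) (nat_lit 594) (nat_lit 5586) (.f (nat_lit 435) (nat_lit 530) (nat_lit 5554) (.d (nat_lit 436) (nat_lit 404) (nat_lit 6547) (nat_lit 468) (nat_lit 6579)))))))) (.a s33891 (.a s34628 (.a (.p (nat_lit 595) (.a (.f (nat_lit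 500) (nat_lit 468) (nat_lit 6611) (.f (nat_lit 627) (nat_lit 532) (nat_lit 6643) (.d (nat_lit 628) (nat_lit 596) (nat_lit 4595) (nat_lit 660) (nat_lit 4627)))) (.a (.f (nat_lit 596) (nat_lit 628) (nat_lit 4595) (.f (nat_lit 467) (nat_lit 564) (nat_lit 4563) (.d (nat_lit 468) (nat_lit 436) (nat_lit 6579) (nat_lit 500) (nat_lit 6611)))) (.a (.f (nat_lit 500) (nat_lit 468) (nat_lit 6611) (.f (nat_lit 627) (nat_lit 532) (nat_lit 6643) (.f (nat_lit 658) (nat_lit 626) (nat_lit 5650) (.f (nat_lit 659) (nat_lit 690) (nat_lit 5682) (.d (nat_lit 660) (nat_lit 628) (nat_lit 4627) (nat_lit 692) (nat_lit 4659)))))) (.a (.f (nat_lit 596) (nat_lit 628) (nat_lit 4595) (.f (nat_lit 562) (nat_lit 561) (nat_lit 560) (.f (nat_lit 467) (nat_lit 564) (nat_lit 4563) (.f (nat_lit 435) (nat_lit 530) (nat_lit 5554) (.d (nat_lit 434) (nat_lit 402) (nat_lit 7570) (nat_lit 466) (nat_lit 7602)))))) (.f (nat_lit 500) (nat_lit 468) (nat_lit 6611)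 (.f (nat_lit 627) (nat_lit 532) (nat_lit 6643) (.f (nat_lit 658) (nat_lit 626) (nat_lit 5650) (.f (nat_lit 659) (nat_lit 690) (nat_lit 5682) (.f (nat_lit 562) (nat_lit 530) (nat_lit 7698) (.d (nat_lit 561) (nat_lit 527) (nat_lit 3599) (nat_lit 596) (nat_lit 560)))))))))))) (.a (.p (nat_lit 595) (.a (.f (nat_lit 500) (nat_lit 468) (nat_lit 6611) (.f (nat_lit 627) (nat_lit 532) (nat_lit 6643) (.d (nat_lit 626) (nat_lit 594) (nat_lit 5618) (nat_lit 658) (nat_lit 5650)))) (.a (.f (nat_lit 500) (nat_lit 468) (nat_lit 6611) (.f (nat_lit 627) (nat_lit 532) (nat_lit 6643) (.d (nat_lit 628) (nat_lit 596) (nat_lit 4595) (nat_lit 660) (nat_lit 4627)))) (.a (.f (nat_lit 596) (nat_lit 628) (nat_lit 4595) (.f (nat_lit 562) (nat_lit 561) (nat_lit 560) (.f (nat_lit 594) (nat_lit 626) (nat_lit 5618) (.f (nat_lit 597) (nat_lit 598) (nat_lit 3634) (.f (nat_lit 565) (nat_lit 566) (nat_lit 2610) (.f (nat_lit 629) (nat_lit 630) (nat_lit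 594) (.f (nat_lit 500) (nat_lit 468) (nat_lit 6611) (.d (nat_lit 532) (nat_lit 533) (nat_lit 7668) (nat_lit 564) (nat_lit 4596))))))))) (.a (.f (nat_lit 596) (nat_lit 628) (nat_lit 4595) (.f (nat_lit 562) (nat_lit 561) (nat_lit 560) (.f (nat_lit 626) (nat_lit 594) (nat_lit 5618) (.f (nat_lit 627) (nat_lit 658) (nat_lit 5650) (.f (nat_lit 659) (nat_lit 530) (nat_lit 7698) (.d (nat_lit 564) (nat_lit 532) (nat_lit 6675) (nat_lit 691) (nat_lit 6707))))))) (.f (nat_lit 626) (nat_lit 594) (nat_lit 5618) (.f (nat_lit 627) (nat_lit 658) (nat_lit 5650) (.d (nat_lit 628) (nat_lit 596) (nat_lit 4595) (nat_lit 660) (nat_lit 4627))))))))) (.a (.p (nat_lit 562) (.a (.f (nat_lit 467) (nat_lit 594) (nat_lit 5586) (.f (nat_lit 532) (nat_lit 561) (nat_lit 2576) (.d (nat_lit 435) (nat_lit 530) (nat_lit 5554) (nat_lit 564) (nat_lit 4531)))) (.a (.f (nat_lit 467) (nat_lit 594) (nat_lit 5586) (.f (nat_lit 435) (nat_lit 530) (nat_lit 5554)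 (.d (nat_lit 436) (nat_lit 404) (nat_lit 6547) (nat_lit 468) (nat_lit 6579)))) (.d (nat_lit 561) (nat_lit 527) (nat_lit 3599) (nat_lit 532) (nat_lit 2576))))) (.a (.p (nat_lit 562) (.a (.f (nat_lit 467) (nat_lit 594) (nat_lit 5586) (.f (nat_lit 532) (nat_lit 561) (nat_lit 2576) (.d (nat_lit 435) (nat_lit 530) (nat_lit 5554) (nat_lit 564) (nat_lit 4531)))) (.a (.f (nat_lit 467) (nat_lit 594) (nat_lit 5586) (.f (nat_lit 435) (nat_lit 530) (nat_lit 5554) (.d (nat_lit 564) (nat_lit 532) (nat_lit 4531) (nat_lit 596) (nat_lit 4563)))) (.a (.d (nat_lit 561) (nat_lit 527) (nat_lit 3599) (nat_lit 532) (nat_lit 2576)) (.f (nat_lit 467) (nat_lit 594) (nat_lit 5586) (.f (nat_lit 596) (nat_lit 564) (nat_lit 4563) (.d (nat_lit 561) (nat_lit 527) (nat_lit 3599) (nat_lit 595) (nat_lit 560)))))))) (.a (.p (nat_lit 562) (.a (.f (nat_lit 467) (nat_lit 594) (nat_lit 5586) (.f (nat_lit 435) (nat_lit 530) (nat_lit 5554) (.d (nat_lit 436)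 (nat_lit 404) (nat_lit 6547) (nat_lit 468) (nat_lit 6579)))) (.a (.f (nat_lit 561) (nat_lit 527) (nat_lit 3599) (.f (nat_lit 596) (nat_lit 595) (nat_lit 560) (.d (nat_lit 564) (nat_lit 467) (nat_lit 4563) (nat_lit 597) (nat_lit 561)))) (.f (nat_lit 561) (nat_lit 527) (nat_lit 3599) (.f (nat_lit 595) (nat_lit 596) (nat_lit 560) (.f (nat_lit 626) (nat_lit 594) (nat_lit 5618) (.f (nat_lit 627) (nat_lit 658) (nat_lit 5650) (.f (nat_lit 660) (nat_lit 628) (nat_lit 4627) (.d (nat_lit 659) (nat_lit 530) (nat_lit 7698) (nat_lit 692) (nat_lit 4659)))))))))) (.p (nat_lit 562) (.a (.f (nat_lit 467) (nat_lit 594) (nat_lit 5586) (.f (nat_lit 435) (nat_lit 530) (nat_lit 5554) (.d (nat_lit 436) (nat_lit 404) (nat_lit 6547) (nat_lit 468) (nat_lit 6579)))) (.d (nat_lit 561) (nat_lit 527) (nat_lit 3599) (nat_lit 532) (nat_lit 2576)))))))))))))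
noncomputable def s34915 : Cert := .r (nat_lit 3773962425700235453096299722244592710232032175317446804068244616434075696517633372946541333831107680986492224416003539946258365535128289863158302094148386530119930347520) (.p (nat_lit 464) (.a (.f (nat_lit 463) (nat_lit 431) (nat_lit 7599) (.d (nat_lit 493) (nat_lit 465) (nat_lit 2509) (nat_lit 492) (nat_lit 2508))) (.a (.f (nat_lit 463) (nat_lit 431) (nat_lit 7599) (.f (nat_lit 493) (nat_lit 492) (nat_lit 2508) (.f (nat_lit 461) (nat_lit 460) (nat_lit 3532) (.f (nat_lit 462) (nat_lit 497) (nat_lit 461) (.f (nat_lit 525) (nat_lit 524) (nat_lit 1516) (.d (nat_lit 430) (nat_lit 398) (nat_lit 5517) (nat_lit 557) (nat_lit 6573))))))) (.a (.f (nat_lit 493) (nat_lit 465) (nat_lit 2509) (.d (nat_lit 492) (nat_lit 463) (nat_lit 2508) (nat_lit 527) (nat_lit 492))) (.a (.f (nat_lit 493) (nat_lit 465) (nat_lit 2509) (.f (nat_lit 527) (nat_lit 492) (nat_lit 492) (.f (nat_lit 525)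 (nat_lit 524) (nat_lit 1516) (.d (nat_lit 561) (nat_lit 526) (nat_lit 525) (nat_lit 593) (nat_lit 4560))))) (.f (nat_lit 463) (nat_lit 431) (nat_lit 7599) (.d (nat_lit 465) (nat_lit 433) (nat_lit 6576) (nat_lit 466) (nat_lit 1486))))))))
noncomputable def s34917 : Cert := .r (nat_lit 3773962425700235453096299722244592710232032175317446804068244616434075696517633372946541333831107680986492224416003539946258365535128289863158302094148386530119930347520) (.p (nat_lit 464) (.a (.f (nat_lit 463) (nat_lit 431) (nat_lit 7599) (.d (nat_lit 493) (nat_lit 465) (nat_lit 2509) (nat_lit 492) (nat_lit 2508))) (.a (.f (nat_lit 463) (nat_lit 431) (nat_lit 7599) (.f (nat_lit 493) (nat_lit 492) (nat_lit 2508) (.f (nat_lit 461) (nat_lit 460) (nat_lit 3532) (.f (nat_lit 462) (nat_lit 497) (nat_lit 461) (.f (nat_lit 525) (nat_lit 524) (nat_lit 1516) (.d (nat_lit 430) (nat_lit 398) (nat_lit 5517) (nat_lit 557) (nat_lit 6573))))))) (.a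 (.d (nat_lit 465) (nat_lit 433) (nat_lit 6576) (nat_lit 493) (nat_lit 2509)) (.f (nat_lit 463) (nat_lit 431) (nat_lit 7599) (.d (nat_lit 465) (nat_lit 433) (nat_lit 6576) (nat_lit 466) (nat_lit 1486)))))))
noncomputable def s34921 : Cert := .r (nat_lit 3773962425700235453096299722244592710232032175317446804068244616434075696517633372946541333831107680986492224416003539946258365535128289863158302094148386530119930347520) (.p (nat_lit 497) (.a (.f (nat_lit 526) (nat_lit 525) (nat_lit 1517) (.f (nat_lit 498) (nat_lit 527) (nat_lit 1518) (.d (nat_lit 466) (nat_lit 465) (nat_lit 2510) (nat_lit 467) (nat_lit 2511)))) (.a (.f (nat_lit 525) (nat_lit 526) (nat_lit 1517) (.f (nat_lit 493) (nat_lit 524) (nat_lit 1516) (.d (nat_lit 461) (nat_lit 460) (nat_lit 3532) (nat_lit 462) (nat_lit 3533)))) (.a (.f (nat_lit 461) (nat_lit 462) (nat_lit 3533) (.f (nat_lit 493) (nat_lit 460) (nat_lit 3532) (.f (nat_lit 527) (nat_lit 492)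 (nat_lit 492) (.d (nat_lit 498) (nat_lit 499) (nat_lit 1519) (nat_lit 526) (nat_lit 1518))))) (.f (nat_lit 461) (nat_lit 462) (nat_lit 3533) (.f (nat_lit 493) (nat_lit 460) (nat_lit 3532) (.f (nat_lit 524) (nat_lit 525) (nat_lit 1516) (.d (nat_lit 492) (nat_lit 523) (nat_lit 1515) (nat_lit 527) (nat_lit 492)))))))))
noncomputable def s34927 : Cert := .r (nat_lit 3773962425700235453096299722244592710232032175317446804068244616434075696517633372946541333831107680986492224416003539946258365535128289863158302094148386530119930347520) (.p (nat_lit 497) (.a (.f (nat_lit 526) (nat_lit 525) (nat_lit 1517) (.f (nat_lit 498) (nat_lit 527) (nat_lit 1518) (.f (nat_lit 467) (nat_lit 466) (nat_lit 2511) (.f (nat_lit 499) (nat_lit 468) (nat_lit 2512) (.d (nat_lit 531) (nat_lit 530) (nat_lit 495) (nat_lit 532) (nat_lit 496)))))) (.a (.f (nat_lit 525) (nat_lit 526) (nat_lit 1517) (.f (nat_lit 493) (nat_lit 524) (nat_lit 1516) (.d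 (nat_lit 461) (nat_lit 460) (nat_lit 3532) (nat_lit 462) (nat_lit 3533)))) (.a (.f (nat_lit 461) (nat_lit 462) (nat_lit 3533) (.f (nat_lit 493) (nat_lit 460) (nat_lit 3532) (.f (nat_lit 527) (nat_lit 492) (nat_lit 492) (.d (nat_lit 498) (nat_lit 499) (nat_lit 1519) (nat_lit 526) (nat_lit 1518))))) (.f (nat_lit 461) (nat_lit 462) (nat_lit 3533) (.f (nat_lit 493) (nat_lit 460) (nat_lit 3532) (.f (nat_lit 524) (nat_lit 525) (nat_lit 1516) (.d (nat_lit 492) (nat_lit 523) (nat_lit 1515) (nat_lit 527) (nat_lit 492)))))))))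
noncomputable def s34935 : Cert := .r (nat_lit 3773962425700235453096299722244592710232032175317446804068244616434075696517633372946541333831107680986492224416003539946258365535128289863158302094148386530119930347520) (.p (nat_lit 464) (.a (.f (nat_lit 463) (nat_lit 431) (nat_lit 7599) (.d (nat_lit 493) (nat_lit 465) (nat_lit 2509) (nat_lit 492) (nat_lit 2508))) (.a (.f (nat_lit 463) (nat_lit 431) (nat_lit 7599) (.f (nat_lit 493) (nat_lit 492) (nat_lit 2508) (.f (nat_lit 461) (nat_lit 460) (nat_lit 3532) (.f (nat_lit 525) (nat_lit 524) (nat_lit 1516) (.f (nat_lit 561) (nat_lit 593) (nat_lit 4560) (.f (nat_lit 526) (nat_lit 527) (nat_lit 525) (.d (nat_lit 429) (nat_lit 397) (nat_lit 4493) (nat_lit 558) (nat_lit 4525)))))))) (.a (.f (nat_lit 493) (nat_lit 465) (nat_lit 2509) (.d (nat_lit 492) (nat_lit 463) (nat_lit 2508) (nat_lit 527) (nat_lit 492))) (.a (.f (nat_lit 493) (nat_lit 465) (nat_lit 2509) (.f (nat_lit 527)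 (nat_lit 492) (nat_lit 492) (.f (nat_lit 525) (nat_lit 524) (nat_lit 1516) (.d (nat_lit 561) (nat_lit 526) (nat_lit 525) (nat_lit 593) (nat_lit 4560))))) (.f (nat_lit 463) (nat_lit 431) (nat_lit 7599) (.d (nat_lit 465) (nat_lit 433) (nat_lit 6576) (nat_lit 466) (nat_lit 1486))))))))
noncomputable def s34942 : Cert := .r (nat_lit 3773962425700235453096299722244592710232032175317446804068244616434075696517633372946541333831107680986492224416003539946258365535128289863158302094148386530119930347520) (.p (nat_lit 464) (.a (.f (nat_lit 463) (nat_lit 431) (nat_lit 7599) (.d (nat_lit 493) (nat_lit 465) (nat_lit 2509) (nat_lit 492) (nat_lit 2508))) (.a (.f (nat_lit 463) (nat_lit 431) (nat_lit 7599) (.f (nat_lit 493) (nat_lit 492) (nat_lit 2508) (.f (nat_lit 461) (nat_lit 460) (nat_lit 3532) (.f (nat_lit 462) (nat_lit 497) (nat_lit 461) (.f (nat_lit 429) (nat_lit 428) (nat_lit 3500) (.d (nat_lit 397) (nat_lit 365) (nat_lit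 4461) (nat_lit 526) (nat_lit 4493))))))) (.a (.f (nat_lit 493) (nat_lit 465) (nat_lit 2509) (.d (nat_lit 492) (nat_lit 463) (nat_lit 2508) (nat_lit 527) (nat_lit 492))) (.a (.d (nat_lit 465) (nat_lit 433) (nat_lit 6576) (nat_lit 493) (nat_lit 2509)) (.f (nat_lit 463) (nat_lit 431) (nat_lit 7599) (.d (nat_lit 465) (nat_lit 433) (nat_lit 6576) (nat_lit 466) (nat_lit 1486))))))))
noncomputable def s34948 : Cert := .r (nat_lit 3773962425700235453096299722244592710232032175317446804068244616434075696517633372946541333831107680986492224416003539946258365535128289863158302094148386530119930347520) (.p (nat_lit 497) (.a (.f (nat_lit 526) (nat_lit 525) (nat_lit 1517) (.f (nat_lit 498) (nat_lit 527) (nat_lit 1518) (.d (nat_lit 466) (nat_lit 465) (nat_lit 2510) (nat_lit 467) (nat_lit 2511)))) (.a (.f (nat_lit 465) (nat_lit 466) (nat_lit 2510) (.d (nat_lit 433) (nat_lit 401) (nat_lit 5520) (nat_lit 464) (nat_lit 6576))) (.a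 (.f (nat_lit 526) (nat_lit 525) (nat_lit 1517) (.f (nat_lit 498) (nat_lit 527) (nat_lit 1518) (.f (nat_lit 467) (nat_lit 466) (nat_lit 2511) (.f (nat_lit 499) (nat_lit 468) (nat_lit 2512) (.d (nat_lit 531) (nat_lit 530) (nat_lit 495) (nat_lit 532) (nat_lit 496)))))) (.f (nat_lit 526) (nat_lit 525) (nat_lit 1517) (.f (nat_lit 498) (nat_lit 527) (nat_lit 1518) (.d (nat_lit 462) (nat_lit 461) (nat_lit 3533) (nat_lit 463) (nat_lit 3534))))))))
noncomputable def s34954 : Cert := .r (nat_lit 3773962425700235453096299722244592710232032175317446804068244616434075696517633372946541333831107680986492224416003539946258365535128289863158302094148386530119930347520) (.p (nat_lit 464) (.a (.f (nat_lit 463) (nat_lit 431) (nat_lit 7599) (.d (nat_lit 493) (nat_lit 465) (nat_lit 2509) (nat_lit 492) (nat_lit 2508))) (.a (.f (nat_lit 463) (nat_lit 431) (nat_lit 7599) (.f (nat_lit 493) (nat_lit 492) (nat_lit 2508) (.f (nat_lit 525) (nat_lit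 524) (nat_lit 1516) (.f (nat_lit 526) (nat_lit 497) (nat_lit 1517) (.d (nat_lit 561) (nat_lit 527) (nat_lit 525) (nat_lit 593) (nat_lit 4560)))))) (.a (.f (nat_lit 493) (nat_lit 465) (nat_lit 2509) (.d (nat_lit 492) (nat_lit 463) (nat_lit 2508) (nat_lit 527) (nat_lit 492))) (.a (.f (nat_lit 493) (nat_lit 465) (nat_lit 2509) (.f (nat_lit 527) (nat_lit 492) (nat_lit 492) (.f (nat_lit 525) (nat_lit 524) (nat_lit 1516) (.d (nat_lit 561) (nat_lit 526) (nat_lit 525) (nat_lit 593) (nat_lit 4560))))) (.f (nat_lit 463) (nat_lit 431) (nat_lit 7599) (.d (nat_lit 465) (nat_lit 433) (nat_lit 6576) (nat_lit 466) (nat_lit 1486))))))))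
noncomputable def s34979 : Cert := .r (nat_lit 3773962425700235453096299722244592710232032175317446804068244616434075696517633372946541333831107680986492224416003539946258365535128289863158302094148386530119930347520) (.p (nat_lit 493) (.a (.f (nat_lit 492) (nat_lit 527) (nat_lit 492) (.d (nat_lit 524) (nat_lit 523) (nat_lit 1515) (nat_lit 525) (nat_lit 1516))) (.a (.f (nat_lit 464) (nat_lit 465) (nat_lit 2509) (.f (nat_lit 492) (nat_lit 463) (nat_lit 2508) (.d (nat_lit 524) (nat_lit 523) (nat_lit 1515) (nat_lit 525) (nat_lit 1516)))) (.a (.f (nat_lit 464) (nat_lit 465) (nat_lit 2509) (.d (nat_lit 492) (nat_lit 463) (nat_lit 2508) (nat_lit 527) (nat_lit 492))) (.f (nat_lit 464) (nat_lit 465) (nat_lit 2509) (.f (nat_lit 525) (nat_lit 524) (nat_lit 1516) (.f (nat_lit 461) (nat_lit 460) (nat_lit 3532) (.f (nat_lit 561) (nat_lit 593) (nat_lit 4560) (.f (nat_lit 526) (nat_lit 527) (nat_lit 525) (.d (nat_lit 429) (nat_lit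 397) (nat_lit 4493) (nat_lit 558) (nat_lit 4525)))))))))))
noncomputable def s35232 : Cert := .r (nat_lit 3773962425700235453096299722244592710232032175317446804068244616434075696517633372946541333831107680986492224416003539946258365535128289863158302094148386530119930347520) (.p (nat_lit 461) (.a (.f (nat_lit 462) (nat_lit 497) (nat_lit 3533) (.d (nat_lit 460) (nat_lit 459) (nat_lit 459) (nat_lit 463) (nat_lit 460))) (.a (.f (nat_lit 460) (nat_lit 493) (nat_lit 3532) (.d (nat_lit 462) (nat_lit 459) (nat_lit 459) (nat_lit 463) (nat_lit 460))) (.a (.f (nat_lit 493) (nat_lit 460) (nat_lit 3532) (.f (nat_lit 525) (nat_lit 524) (nat_lit 1516) (.d (nat_lit 497) (nat_lit 462) (nat_lit 3533) (nat_lit 526) (nat_lit 1517)))) (.a (.f (nat_lit 493) (nat_lit 460) (nat_lit 3532) (.f (nat_lit 525) (nat_lit 524) (nat_lit 1516) (.f (nat_lit 526) (nat_lit 497) (nat_lit 1517) (.d (nat_lit 429) (nat_lit 397) (nat_lit 4493) (nat_lit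 558) (nat_lit 4525))))) (.p (nat_lit 526) (.a (.d (nat_lit 497) (nat_lit 462) (nat_lit 3533) (nat_lit 525) (nat_lit 1517)) (.a (.p (nat_lit 558) (.a (.d (nat_lit 590) (nat_lit 463) (nat_lit 6606) (nat_lit 493) (nat_lit 7629)) (.a (.f (nat_lit 493) (nat_lit 590) (nat_lit 7629) (.d (nat_lit 429) (nat_lit 462) (nat_lit 7597) (nat_lit 525) (nat_lit 4525))) (.a (.f (nat_lit 462) (nat_lit 429) (nat_lit 7597) (.d (nat_lit 463) (nat_lit 431) (nat_lit 6574) (nat_lit 590) (nat_lit 6606))) (.f (nat_lit 462) (nat_lit 429) (nat_lit 7597) (.f (nat_lit 431) (nat_lit 463) (nat_lit 6574) (.f (nat_lit 430) (nat_lit 399) (nat_lit 6542) (.d (nat_lit 557) (nat_lit 525) (nat_lit 5549) (nat_lit 589) (nat_lit 5581))))))))) (.a (.f (nat_lit 462) (nat_lit 497) (nat_lit 3533) (.f (nat_lit 558) (nat_lit 429) (nat_lit 7597) (.d (nat_lit 463) (nat_lit 431) (nat_lit 6574) (nat_lit 590) (nat_lit 6606)))) (.f (nat_lit 525) (nat_lit 497) (nat_lit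 1517) (.d (nat_lit 524) (nat_lit 493) (nat_lit 1516) (nat_lit 523) (nat_lit 2539))))))))))))
noncomputable def s35236 : Cert := .r (nat_lit 3773962425700235453096299722244592710232032175317446804068244616434075696517633372946541333831107680986492224416003539946258365535128289863158302094148386530119930347520) (.p (nat_lit 493) (.a (.f (nat_lit 492) (nat_lit 527) (nat_lit 492) (.d (nat_lit 524) (nat_lit 523) (nat_lit 1515) (nat_lit 525) (nat_lit 1516))) (.a (.f (nat_lit 460) (nat_lit 461) (nat_lit 3532) (.f (nat_lit 492) (nat_lit 459) (nat_lit 3531) (.d (nat_lit 524) (nat_lit 523) (nat_lit 1515) (nat_lit 525) (nat_lit 1516)))) (.a (.f (nat_lit 492) (nat_lit 527) (nat_lit 492) (.d (nat_lit 460) (nat_lit 459) (nat_lit 3531) (nat_lit 461) (nat_lit 3532))) (.p (nat_lit 526) (.a (.f (nat_lit 461) (nat_lit 460) (nat_lit 3532) (.f (nat_lit 558) (nat_lit 590) (nat_lit 7629) (.d (nat_lit 429) (nat_lit 397) (nat_lit 4493) (nat_lit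 462) (nat_lit 7597)))) (.a (.f (nat_lit 525) (nat_lit 524) (nat_lit 1516) (.f (nat_lit 461) (nat_lit 460) (nat_lit 3532) (.d (nat_lit 429) (nat_lit 397) (nat_lit 4493) (nat_lit 558) (nat_lit 4525)))) (.f (nat_lit 525) (nat_lit 524) (nat_lit 1516) (.f (nat_lit 527) (nat_lit 561) (nat_lit 525) (.f (nat_lit 557) (nat_lit 556) (nat_lit 1548) (.d (nat_lit 462) (nat_lit 430) (nat_lit 5549) (nat_lit 589) (nat_lit 6605))))))))))))
noncomputable def s35263 : Cert := .r (nat_lit 3773962425700235453096299722244592710232032175317446804068244616434075696517633372946541333831107680986492224416003539946258365535128289863158302094148386530119930347520) (.p (nat_lit 493) (.a (.f (nat_lit 492) (nat_lit 527) (nat_lit 492) (.d (nat_lit 524) (nat_lit 523) (nat_lit 1515) (nat_lit 525) (nat_lit 1516))) (.a (.f (nat_lit 460) (nat_lit 461) (nat_lit 3532) (.f (nat_lit 492) (nat_lit 459) (nat_lit 3531) (.d (nat_lit 524) (nat_lit 523) (nat_lit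 1515) (nat_lit 525) (nat_lit 1516)))) (.a (.f (nat_lit 492) (nat_lit 527) (nat_lit 492) (.d (nat_lit 460) (nat_lit 459) (nat_lit 3531) (nat_lit 461) (nat_lit 3532))) (.f (nat_lit 525) (nat_lit 524) (nat_lit 1516) (.f (nat_lit 526) (nat_lit 497) (nat_lit 1517) (.f (nat_lit 461) (nat_lit 460) (nat_lit 3532) (.d (nat_lit 429) (nat_lit 397) (nat_lit 4493) (nat_lit 558) (nat_lit 4525)))))))))
noncomputable def s35328 : Cert := .r (nat_lit 3773962425700235453045152994043849596148512979483556052388607849628053049395961021718646984955787017452240775526516544190352970128225296369627542697671050915994562199552) (.p (nat_lit 432) (.a (.d (nat_lit 431) (nat_lit 399) (nat_lit 7567) (nat_lit 463) (nat_lit 7599)) (.a (.f (nat_lit 401) (nat_lit 433) (nat_lit 6544) (.f (nat_lit 400) (nat_lit 369) (nat_lit 6512) (.f (nat_lit 368) (nat_lit 463) (nat_lit 5487) (.d (nat_lit 367) (nat_lit 335) (nat_lit 7503) (nat_lit 399) (nat_lit 7535)))))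 (.a (.f (nat_lit 401) (nat_lit 433) (nat_lit 6544) (.f (nat_lit 400) (nat_lit 369) (nat_lit 6512) (.d (nat_lit 399) (nat_lit 367) (nat_lit 7535) (nat_lit 431) (nat_lit 7567)))) (.f (nat_lit 463) (nat_lit 431) (nat_lit 7599) (.f (nat_lit 400) (nat_lit 368) (nat_lit 5487) (.d (nat_lit 401) (nat_lit 369) (nat_lit 6512) (nat_lit 433) (nat_lit 6544))))))))
noncomputable def s35435 : Cert := .r (nat_lit 3773962425700235452738272624505952193199339552226928146794549392648115485167898379561026699849346401546134558067857772757880134458676407096525164659442171664912122642432) (.p (nat_lit 496) (.a (.p (nat_lit 592) (.a (.f (nat_lit 593) (nat_lit 625) (nat_lit 4592) (.f (nat_lit 591) (nat_lit 623) (nat_lit 5615) (.f (nat_lit 561) (nat_lit 464) (nat_lit 4560) (.d (nat_lit 562) (nat_lit 563) (nat_lit 1583) (nat_lit 590) (nat_lit 2606))))) (.a (.f (nat_lit 593) (nat_lit 625) (nat_lit 4592) (.f (nat_lit 464) (nat_lit 561) (nat_lit 4560) (.d (nat_lit 465) (nat_lit 433) (nat_lit 6576) (nat_lit 497) (nat_lit 6608)))) (.f (nat_lit 495) (nat_lit 463) (nat_lit 7631) (.f (nat_lit 497) (nat_lit 465) (nat_lit 6608) (.f (nat_lit 527) (nat_lit 624) (nat_lit 7663) (.d (nat_lit 526) (nat_lit 498) (nat_lit 1518) (nat_lit 525) (nat_lit 2541)))))))) (.a (.p (nat_lit 592) (.a (.f (nat_lit 593) (nat_lit 625) (nat_lit 4592) (.f (nat_lit 591) (nat_lit 623) (nat_lit 5615) (.f (nat_lit 561) (nat_lit 464) (nat_lit 4560) (.d (nat_lit 562) (nat_lit 563) (nat_lit 1583) (nat_lit 590) (nat_lit 2606))))) (.f (nat_lit 495) (nat_lit 463) (nat_lit 7631) (.f (nat_lit 497) (nat_lit 465) (nat_lit 6608) (.f (nat_lit 527) (nat_lit 624) (nat_lit 7663) (.d (nat_lit 526) (nat_lit 498) (nat_lit 1518) (nat_lit 525) (nat_lit 2541))))))) (.a (.p (nat_lit 497) (.a (.f (nat_lit 592) (nat_lit 465) (nat_lit 6608) (.f (nat_lit 593) (nat_lit 625) (nat_lit 4592) (.f (nat_lit 591) (nat_lit 623) (nat_lit 5615) (.f (nat_lit 561) (nat_lit 464) (nat_lit 4560) (.d (nat_lit 562) (nat_lit 563) (nat_lit 1583) (nat_lit 590) (nat_lit 2606)))))) (.a (.f (nat_lit 592) (nat_lit 465) (nat_lit 6608) (.f (nat_lit 625) (nat_lit 593) (nat_lit 4592) (.f (nat_lit 624) (nat_lit 657) (nat_lit 4624) (.d (nat_lit 623) (nat_lit 591) (nat_lit 5615) (nat_lit 655) (nat_lit 5647))))) (.a (.p (nat_lit 498) (.a (.f (nat_lit 527) (nat_lit 499) (nat_lit 1519) (.d (nat_lit 526) (nat_lit 495) (nat_lit 1518) (nat_lit 525) (nat_lit 2541))) (.a (.f (nat_lit 499) (nat_lit 527) (nat_lit 1519) (.f (nat_lit 532) (nat_lit 531) (nat_lit 496) (.f (nat_lit 500) (nat_lit 533) (nat_lit 497) (.d (nat_lit 468) (nat_lit 467) (nat_lit 2512) (nat_lit 469) (nat_lit 2513))))) (.a (.p (nat_lit 562) (.a (.p (nat_lit 592) (.a (.f (nat_lit 593) (nat_lit 625) (nat_lit 4592) (.f (nat_lit 561) (nat_lit 464) (nat_lit 4560) (.d (nat_lit 563) (nat_lit 527) (nat_lit 3599) (nat_lit 591) (nat_lit 1583)))) (.a (.f (nat_lit 593) (nat_lit 625) (nat_lit 4592) (.f (nat_lit 561) (nat_lit 464) (nat_lit 4560) (.d (nat_lit 591) (nat_lit 563) (nat_lit 1583) (nat_lit 590) (nat_lit 2606)))) (.a (.f (nat_lit 623) (nat_lit 591) (nat_lit 5615) (.f (nat_lit 624) (nat_lit 655) (nat_lit 5647) (.f (nat_lit 495) (nat_lit 527) (nat_lit 7663) (.f (nat_lit 625) (nat_lit 657) (nat_lit 4624) (.f (nat_lit 530) (nat_lit 531) (nat_lit 495) (.f (nat_lit 466) (nat_lit 467) (nat_lit 2511) (.f (nat_lit 595) (nat_lit 563) (nat_lit 4562) (.d (nat_lit 594) (nat_lit 626) (nat_lit 2639) (nat_lit 627) (nat_lit 4594))))))))) (.a (.f (nat_lit 591) (nat_lit 623) (nat_lit 5615) (.f (nat_lit 561) (nat_lit 563) (nat_lit 1583) (.d (nat_lit 590) (nat_lit 589) (nat_lit 2605) (nat_lit 593) (nat_lit 2606)))) (.a (.f (nat_lit 593) (nat_lit 625) (nat_lit 4592) (.f (nat_lit 561) (nat_lit 464) (nat_lit 4560) (.d (nat_lit 591) (nat_lit 590) (nat_lit 2606) (nat_lit 623) (nat_lit 5615)))) (.f (nat_lit 593) (nat_lit 625) (nat_lit 4592) (.f (nat_lit 561) (nat_lit 464) (nat_lit 4560) (.d (nat_lit 563) (nat_lit 527) (nat_lit 3599) (nat_lit 564) (nat_lit 1584)))))))))) (.a (.p (nat_lit 561) (.a (.f (nat_lit 593) (nat_lit 464) (nat_lit 4560) (.d (nat_lit 625) (nat_lit 592) (nat_lit 4592) (nat_lit 657) (nat_lit 7696))) (.f (nat_lit 563) (nat_lit 527) (nat_lit 3599) (.f (nat_lit 531) (nat_lit 532) (nat_lit 2576) (.f (nat_lit 530) (nat_lit 495) (nat_lit 495) (.d (nat_lit 466) (nat_lit 434) (nat_lit 4530) (nat_lit 595) (nat_lit 4562))))))) (.a (.p (nat_lit 593) (.a (.f (nat_lit 561) (nat_lit 464) (nat_lit 4560) (.d (nat_lit 625) (nat_lit 592) (nat_lit 4592) (nat_lit 657) (nat_lit 7696))) (.a (.f (nat_lit 625) (nat_lit 592) (nat_lit 4592) (.f (nat_lit 561) (nat_lit 657) (nat_lit 7696) (.d (nat_lit 530) (nat_lit 466) (nat_lit 5585) (nat_lit 594) (nat_lit 5617)))) (.a (.f (nat_lit 561) (nat_lit 464) (nat_lit 4560) (.f (nat_lit 530) (nat_lit 466) (nat_lit 5585) (.f (nat_lit 531) (nat_lit 495) (nat_lit 495) (.d (nat_lit 532) (nat_lit 533) (nat_lit 1553) (nat_lit 563) (nat_lit 2576))))) (.f (nat_lit 592) (nat_lit 625) (nat_lit 4592) (.f (nat_lit 591) (nat_lit 623) (nat_lit 5615) (.f (nat_lit 594) (nat_lit 563) (nat_lit 2607) (.f (nat_lit 627) (nat_lit 626) (nat_lit 591) (.d (nat_lit 595) (nat_lit 530) (nat_lit 4594) (nat_lit 628) (nat_lit 592)))))))))) (.a (.p (nat_lit 563) (.a (.f (nat_lit 561) (nat_lit 527) (nat_lit 3599) (.f (nat_lit 531) (nat_lit 532) (nat_lit 2576) (.f (nat_lit 530) (nat_lit 495) (nat_lit 495) (.d (nat_lit 466) (nat_lit 434) (nat_lit 4530) (nat_lit 595) (nat_lit 4562))))) (.a (.p (nat_lit 530) (.a (.f (nat_lit 531) (nat_lit 495) (nat_lit 495) (.d (nat_lit 466) (nat_lit 434) (nat_lit 4530) (nat_lit 595) (nat_lit 4562))) (.a (.f (nat_lit 595) (nat_lit 466) (nat_lit 4562) (.d (nat_lit 627) (nat_lit 531) (nat_lit 7666) (nat_lit 594) (nat_lit 4594))) (.a (.f (nat_lit 531) (nat_lit 495) (nat_lit 495) (.d (nat_lit 532) (nat_lit 533) (nat_lit 3569) (nat_lit 561) (nat_lit 2576))) (.f (nat_lit 595) (nat_lit 466) (nat_lit 4562) (.d (nat_lit 627) (nat_lit 594) (nat_lit 4594) (nat_lit 659) (nat_lit 7698))))))) (.a (.p (nat_lit 495) (.a (.f (nat_lit 530) (nat_lit 531) (nat_lit 495) (.d (nat_lit 466) (nat_lit 467) (nat_lit 2511) (nat_lit 595) (nat_lit 4562))) (.p (nat_lit 494) (.a (.d (nat_lit 526) (nat_lit 525) (nat_lit 1517) (nat_lit 527) (nat_lit 1518)) (.a (.f (nat_lit 525) (nat_lit 526) (nat_lit 1517) (.f (nat_lit 493) (nat_lit 524) (nat_lit 1516) (.d (nat_lit 461) (nat_lit 460) (nat_lit 3532) (nat_lit 462) (nat_lit 3533)))) (.a (.f (nat_lit 527) (nat_lit 526) (nat_lit 1518) (.f (nat_lit 493) (nat_lit 492) (nat_lit 492) (.d (nat_lit 461) (nat_lit 460) (nat_lit 3532) (nat_lit 462) (nat_lit 3533)))) (.f (nat_lit 461) (nat_lit 462) (nat_lit 3533) (.f (nat_lit 493) (nat_lit 460) (nat_lit 3532) (.f (nat_lit 524) (nat_lit 525) (nat_lit 1516) (.d (nat_lit 492) (nat_lit 523) (nat_lit 1515) (nat_lit 527) (nat_lit 492))))))))))) (.a (.f (nat_lit 561) (nat_lit 527) (nat_lit 3599) (.f (nat_lit 595) (nat_lit 596) (nat_lit 560) (.f (nat_lit 530) (nat_lit 466) (nat_lit 4562) (.d (nat_lit 627) (nat_lit 531) (nat_lit 7666) (nat_lit 594) (nat_lit 4594))))) (.f (nat_lit 527) (nat_lit 561) (nat_lit 3599) (.d (nat_lit 526) (nat_lit 495) (nat_lit 1518) (nat_lit 525) (nat_lit 2541)))))))) (.a (.p (nat_lit 592) (.a (.f (nat_lit 623) (nat_lit 591) (nat_lit 5615) (.f (nat_lit 624) (nat_lit 655) (nat_lit 5647) (.f (nat_lit 495) (nat_lit 527) (nat_lit 7663) (.f (nat_lit 625) (nat_lit 657) (nat_lit 4624) (.f (nat_lit 530) (nat_lit 531) (nat_lit 495) (.f (nat_lit 466) (nat_lit 467) (nat_lit 2511) (.f (nat_lit 595) (nat_lit 563) (nat_lit 4562) (.d (nat_lit 594) (nat_lit 626) (nat_lit 2639) (nat_lit 627) (nat_lit 4594))))))))) (.a (.f (nat_lit 625) (nat_lit 593) (nat_lit 4592) (.f (nat_lit 624) (nat_lit 657) (nat_lit 4624) (.f (nat_lit 495) (nat_lit 527) (nat_lit 7663) (.f (nat_lit 530) (nat_lit 531) (nat_lit 495) (.f (nat_lit 466) (nat_lit 467) (nat_lit 2511) (.f (nat_lit 595) (nat_lit 563) (nat_lit 4562) (.f (nat_lit 627) (nat_lit 594) (nat_lit 4594) (.d (nat_lit 626) (nat_lit 591) (nat_lit 3663) (nat_lit 596) (nat_lit 2640))))))))) (.a (.f (nat_lit 625) (nat_lit 593) (nat_lit 4592) (.f (nat_lit 624) (nat_lit 657) (nat_lit 4624) (.d (nat_lit 623) (nat_lit 591) (nat_lit 5615) (nat_lit 655) (nat_lit 5647)))) (.a (.f (nat_lit 623) (nat_lit 591) (nat_lit 5615) (.f (nat_lit 624) (nat_lit 655) (nat_lit 5647) (.f (nat_lit 495) (nat_lit 527) (nat_lit 7663) (.f (nat_lit 530) (nat_lit 531) (nat_lit 495) (.f (nat_lit 466) (nat_lit 467) (nat_lit 2511) (.f (nat_lit 595) (nat_lit 563) (nat_lit 4562) (.d (nat_lit 594) (nat_lit 593) (nat_lit 1615) (nat_lit 627) (nat_lit 4594)))))))) (.a (.f (nat_lit 593) (nat_lit 625) (nat_lit 4592) (.f (nat_lit 591) (nat_lit 623) (nat_lit 5615) (.f (nat_lit 594) (nat_lit 563) (nat_lit 2607) (.f (nat_lit 627) (nat_lit 626) (nat_lit 591) (.d (nat_lit 595) (nat_lit 530) (nat_lit 4594) (nat_lit 628) (nat_lit 592)))))) (.f (nat_lit 625) (nat_lit 593) (nat_lit 4592) (.f (nat_lit 624) (nat_lit 657) (nat_lit 4624) (.f (nat_lit 495) (nat_lit 527) (nat_lit 7663) (.f (nat_lit 655) (nat_lit 623) (nat_lit 5647) (.f (nat_lit 656) (nat_lit 687) (nat_lit 5679) (.f (nat_lit 530) (nat_lit 531) (nat_lit 495) (.f (nat_lit 466) (nat_lit 467) (nat_lit 2511) (.f (nat_lit 627) (nat_lit 626) (nat_lit 1647) (.d (nat_lit 595) (nat_lit 563) (nat_lit 4562) (nat_lit 594) (nat_lit 4594)))))))))))))))) (.a (.p (nat_lit 593) (.a (.f (nat_lit 561) (nat_lit 464) (nat_lit 4560) (.d (nat_lit 625) (nat_lit 592) (nat_lit 4592) (nat_lit 657) (nat_lit 7696))) (.a (.f (nat_lit 625) (nat_lit 592) (nat_lit 4592) (.f (nat_lit 561) (nat_lit 657) (nat_lit 7696) (.d (nat_lit 530) (nat_lit 466) (nat_lit 5585) (nat_lit 594) (nat_lit 5617)))) (.a (.f (nat_lit 561) (nat_lit 464) (nat_lit 4560) (.f (nat_lit 563) (nat_lit 527) (nat_lit 3599) (.d (nat_lit 592) (nat_lit 564) (nat_lit 1584) (nat_lit 591) (nat_lit 1583)))) (.a (.f (nat_lit 592) (nat_lit 625) (nat_lit 4592) (.f (nat_lit 591) (nat_lit 623) (nat_lit 5615) (.f (nat_lit 594) (nat_lit 563) (nat_lit 2607) (.f (nat_lit 627) (nat_lit 626) (nat_lit 591) (.d (nat_lit 595) (nat_lit 530) (nat_lit 4594) (nat_lit 628) (nat_lit 592)))))) (.f (nat_lit 561) (nat_lit 464) (nat_lit 4560) (.f (nat_lit 530) (nat_lit 466) (nat_lit 5585) (.d (nat_lit 625) (nat_lit 594) (nat_lit 5617) (nat_lit 657) (nat_lit 7696))))))))) (.a (.p (nat_lit 495) (.a (.f (nat_lit 530) (nat_lit 531) (nat_lit 495) (.f (nat_lit 466) (nat_lit 467) (nat_lit 2511) (.f (nat_lit 593) (nat_lit 561) (nat_lit 5585) (.d (nat_lit 625) (nat_lit 592) (nat_lit 4592) (nat_lit 594) (nat_lit 5617))))) (.p (nat_lit 494) (.a (.d (nat_lit 526) (nat_lit 525) (nat_lit 1517) (nat_lit 527) (nat_lit 1518)) (.a (.f (nat_lit 461) (nat_lit 462) (nat_lit 3533) (.f (nat_lit 493) (nat_lit 460) (nat_lit 3532) (.d (nat_lit 525) (nat_lit 524) (nat_lit 1516) (nat_lit 526) (nat_lit 1517)))) (.a (.f (nat_lit 527) (nat_lit 526) (nat_lit 1518) (.f (nat_lit 493) (nat_lit 492) (nat_lit 492) (.d (nat_lit 461) (nat_lit 460) (nat_lit 3532) (nat_lit 462) (nat_lit 3533)))) (.f (nat_lit 461) (nat_lit 462) (nat_lit 3533) (.f (nat_lit 493) (nat_lit 460) (nat_lit 3532) (.f (nat_lit 524) (nat_lit 525) (nat_lit 1516) (.d (nat_lit 492) (nat_lit 523) (nat_lit 1515) (nat_lit 527) (nat_lit 492))))))))))) (.p (nat_lit 561) (.a (.f (nat_lit 593) (nat_lit 464) (nat_lit 4560) (.d (nat_lit 625) (nat_lit 592) (nat_lit 4592) (nat_lit 657) (nat_lit 7696))) (.f (nat_lit 563) (nat_lit 527) (nat_lit 3599) (.f (nat_lit 596) (nat_lit 595) (nat_lit 560) (.f (nat_lit 564) (nat_lit 597) (nat_lit 561) (.d (nat_lit 532) (nat_lit 531) (nat_lit 2576) (nat_lit 533) (nat_lit 2577))))))))))))))) (.p (nat_lit 593) (.a (.f (nat_lit 592) (nat_lit 625) (nat_lit 4592) (.f (nat_lit 591) (nat_lit 623) (nat_lit 5615) (.f (nat_lit 561) (nat_lit 464) (nat_lit 4560) (.d (nat_lit 562) (nat_lit 563) (nat_lit 1583) (nat_lit 590) (nat_lit 2606))))) (.a (.f (nat_lit 625) (nat_lit 592) (nat_lit 4592) (.d (nat_lit 561) (nat_lit 464) (nat_lit 4560) (nat_lit 657) (nat_lit 7696))) (.a (.p (nat_lit 530) (.a (.f (nat_lit 625) (nat_lit 592) (nat_lit 4592) (.f (nat_lit 562) (nat_lit 594) (nat_lit 5617) (.d (nat_lit 561) (nat_lit 466) (nat_lit 5585) (nat_lit 657) (nat_lit 7696)))) (.f (nat_lit 531) (nat_lit 495) (nat_lit 495) (.d (nat_lit 532) (nat_lit 499) (nat_lit 496) (nat_lit 533) (nat_lit 3569))))) (.a (.p (nat_lit 531) (.a (.f (nat_lit 499) (nat_lit 532) (nat_lit 496) (.f (nat_lit 467) (nat_lit 468) (nat_lit 2512) (.d (nat_lit 495) (nat_lit 466) (nat_lit 2511) (nat_lit 530) (nat_lit 495)))) (.a (.f (nat_lit 532) (nat_lit 499) (nat_lit 496) (.f (nat_lit 561) (nat_lit 464) (nat_lit 4560) (.f (nat_lit 562) (nat_lit 563) (nat_lit 2576) (.d (nat_lit 530) (nat_lit 466) (nat_lit 5585) (nat_lit 533) (nat_lit 1553))))) (.a (.f (nat_lit 530) (nat_lit 495) (nat_lit 495) (.f (nat_lit 561) (nat_lit 464) (nat_lit 4560) (.f (nat_lit 562) (nat_lit 466) (nat_lit 5585) (.d (nat_lit 532) (nat_lit 533) (nat_lit 3569) (nat_lit 563) (nat_lit 2576))))) (.a (.f (nat_lit 499) (nat_lit 532) (nat_lit 496) (.f (nat_lit 467) (nat_lit 468) (nat_lit 2512) (.f (nat_lit 466) (nat_lit 495) (nat_lit 2511) (.d (nat_lit 434) (nat_lit 402) (nat_lit 4498) (nat_lit 563) (nat_lit 7602))))) (.a (.f (nat_lit 499) (nat_lit 532) (nat_lit 496) (.f (nat_lit 467) (nat_lit 468) (nat_lit 2512) (.f (nat_lit 530) (nat_lit 495) (nat_lit 495) (.d (nat_lit 435) (nat_lit 403) (nat_lit 5522) (nat_lit 562) (nat_lit 5554))))) (.f (nat_lit 530) (nat_lit 495) (nat_lit 495) (.f (nat_lit 561) (nat_lit 464) (nat_lit 4560) (.f (nat_lit 466) (nat_lit 562) (nat_lit 5585) (.f (nat_lit 434) (nat_lit 563) (nat_lit 4530) (.f (nat_lit 402) (nat_lit 499) (nat_lit 4498) (.d (nat_lit 403) (nat_lit 371) (nat_lit 6514) (nat_lit 435) (nat_lit 6546))))))))))))) (.p (nat_lit 531) (.a (.f (nat_lit 499) (nat_lit 532) (nat_lit 496) (.f (nat_lit 467) (nat_lit 468) (nat_lit 2512) (.d (nat_lit 495) (nat_lit 466) (nat_lit 2511) (nat_lit 530) (nat_lit 495)))) (.a (.f (nat_lit 499) (nat_lit 532) (nat_lit 496) (.f (nat_lit 467) (nat_lit 468) (nat_lit 2512) (.f (nat_lit 592) (nat_lit 625) (nat_lit 4592) (.f (nat_lit 623) (nat_lit 591) (nat_lit 5615) (.f (nat_lit 624) (nat_lit 655) (nat_lit 5647) (.f (nat_lit 594) (nat_lit 595) (nat_lit 1615) (.d (nat_lit 562) (nat_lit 530) (nat_lit 6610) (nat_lit 563) (nat_lit 5586)))))))) (.a (.f (nat_lit 592) (nat_lit 625) (nat_lit 4592) (.f (nat_lit 623) (nat_lit 591) (nat_lit 5615) (.f (nat_lit 624) (nat_lit 655) (nat_lit 5647) (.f (nat_lit 530) (nat_lit 495) (nat_lit 495) (.f (nat_lit 595) (nat_lit 594) (nat_lit 1615) (.f (nat_lit 563) (nat_lit 627) (nat_lit 7666) (.d (nat_lit 466) (nat_lit 434) (nat_lit 4530) (nat_lit 562) (nat_lit 4562)))))))) (.f (nat_lit 499) (nat_lit 532) (nat_lit 496) (.f (nat_lit 467) (nat_lit 468) (nat_lit 2512) (.f (nat_lit 466) (nat_lit 495) (nat_lit 2511) (.d (nat_lit 434) (nat_lit 402) (nat_lit 4498) (nat_lit 563) (nat_lit 7602)))))))))))))))))) (.a (.f (nat_lit 465) (nat_lit 592) (nat_lit 6608) (.d (nat_lit 433) (nat_lit 401) (nat_lit 5520) (nat_lit 464) (nat_lit 6576))) (.p (nat_lit 498) (.a (.f (nat_lit 527) (nat_lit 499) (nat_lit 1519) (.d (nat_lit 526) (nat_lit 495) (nat_lit 1518) (nat_lit 525) (nat_lit 2541))) (.a s33607 (.a (.f (nat_lit 499) (nat_lit 527) (nat_lit 1519) (.f (nat_lit 532) (nat_lit 531) (nat_lit 496) (.f (nat_lit 500) (nat_lit 533) (nat_lit 497) (.d (nat_lit 468) (nat_lit 467) (nat_lit 2512) (nat_lit 469) (nat_lit 2513))))) (.p (nat_lit 495) (.a (.f (nat_lit 466) (nat_lit 467) (nat_lit 2511) (.f (nat_lit 465) (nat_lit 494) (nat_lit 2510) (.d (nat_lit 433) (nat_lit 401) (nat_lit 5520) (nat_lit 464) (nat_lit 6576)))) (.a (.f (nat_lit 526) (nat_lit 527) (nat_lit 1518) (.f (nat_lit 494) (nat_lit 525) (nat_lit 1517) (.d (nat_lit 466) (nat_lit 465) (nat_lit 2510) (nat_lit 467) (nat_lit 2511)))) (.a (.p (nat_lit 494) (.a (.f (nat_lit 461) (nat_lit 462) (nat_lit 3533) (.f (nat_lit 493) (nat_lit 460) (nat_lit 3532) (.d (nat_lit 525) (nat_lit 524) (nat_lit 1516) (nat_lit 526) (nat_lit 1517)))) (.a (.f (nat_lit 527) (nat_lit 526) (nat_lit 1518) (.f (nat_lit 493) (nat_lit 492) (nat_lit 492) (.d (nat_lit 461) (nat_lit 460) (nat_lit 3532) (nat_lit 462) (nat_lit 3533)))) (.a (.f (nat_lit 461) (nat_lit 462) (nat_lit 3533) (.f (nat_lit 493) (nat_lit 460) (nat_lit 3532) (.f (nat_lit 524) (nat_lit 525) (nat_lit 1516) (.d (nat_lit 492) (nat_lit 523) (nat_lit 1515) (nat_lit 527) (nat_lit 492))))) (.d (nat_lit 526) (nat_lit 525) (nat_lit 1517) (nat_lit 527) (nat_lit 1518)))))) (.p (nat_lit 562) (.a (.f (nat_lit 527) (nat_lit 526) (nat_lit 1518) (.f (nat_lit 530) (nat_lit 531) (nat_lit 495) (.f (nat_lit 466) (nat_lit 467) (nat_lit 2511) (.d (nat_lit 563) (nat_lit 561) (nat_lit 3599) (nat_lit 595) (nat_lit 4562))))) (.a (.f (nat_lit 530) (nat_lit 531) (nat_lit 495) (.f (nat_lit 466) (nat_lit 467) (nat_lit 2511) (.f (nat_lit 593) (nat_lit 561) (nat_lit 5585) (.f (nat_lit 594) (nat_lit 625) (nat_lit 5617) (.d (nat_lit 595) (nat_lit 563) (nat_lit 4562) (nat_lit 627) (nat_lit 4594)))))) (.a (.f (nat_lit 530) (nat_lit 531) (nat_lit 495) (.f (nat_lit 465) (nat_lit 594) (nat_lit 7633) (.d (nat_lit 466) (nat_lit 433) (nat_lit 7601) (nat_lit 467) (nat_lit 2511)))) (.f (nat_lit 527) (nat_lit 526) (nat_lit 1518) (.f (nat_lit 561) (nat_lit 563) (nat_lit 3599) (.f (nat_lit 464) (nat_lit 593) (nat_lit 4560) (.f (nat_lit 432) (nat_lit 400) (nat_lit 5519) (.d (nat_lit 433) (nat_lit 401) (nat_lit 6544) (nat_lit 465) (nat_lit 6576))))))))))))))))))))))) (.a (.p (nat_lit 592) (.a (.f (nat_lit 495) (nat_lit 463) (nat_lit 7631) (.f (nat_lit 497) (nat_lit 465) (nat_lit 6608) (.f (nat_lit 527) (nat_lit 624) (nat_lit 7663) (.d (nat_lit 526) (nat_lit 498) (nat_lit 1518) (nat_lit 525) (nat_lit 2541))))) (.a (.f (nat_lit 625) (nat_lit 593) (nat_lit 4592) (.f (nat_lit 624) (nat_lit 657) (nat_lit 4624) (.d (nat_lit 623) (nat_lit 591) (nat_lit 5615) (nat_lit 655) (nat_lit 5647)))) (.f (nat_lit 497) (nat_lit 465) (nat_lit 6608) (.p (nat_lit 498) (.a (.f (nat_lit 495) (nat_lit 463) (nat_lit 7631) (.d (nat_lit 527) (nat_lit 499) (nat_lit 1519) (nat_lit 526) (nat_lit 1518))) (.a (.f (nat_lit 495) (nat_lit 463) (nat_lit 7631) (.f (nat_lit 467) (nat_lit 466) (nat_lit 2511) (.f (nat_lit 499) (nat_lit 468) (nat_lit 2512) (.d (nat_lit 531) (nat_lit 530) (nat_lit 495) (nat_lit 532) (nat_lit 496))))) (.a (.f (nat_lit 499) (nat_lit 527) (nat_lit 1519) (.f (nat_lit 532) (nat_lit 531) (nat_lit 496) (.f (nat_lit 500) (nat_lit 533) (nat_lit 497) (.d (nat_lit 468) (nat_lit 467) (nat_lit 2512) (nat_lit 469) (nat_lit 2513))))) (.f (nat_lit 495) (nat_lit 463) (nat_lit 7631) (.f (nat_lit 526) (nat_lit 527) (nat_lit 1518) (.f (nat_lit 494) (nat_lit 525) (nat_lit 1517) (.f (nat_lit 461) (nat_lit 462) (nat_lit 3533) (.f (nat_lit 493) (nat_lit 460) (nat_lit 3532) (.f (nat_lit 591) (nat_lit 623) (nat_lit 5615) (.f (nat_lit 590) (nat_lit 558) (nat_lit 7629) (.f (nat_lit 593) (nat_lit 625) (nat_lit 4592) (.d (nat_lit 561) (nat_lit 562) (nat_lit 2606) (nat_lit 589) (nat_lit 2605)))))))))))))))))) (.a (.p (nat_lit 592) (.a (.f (nat_lit 593) (nat_lit 625) (nat_lit 4592) (.f (nat_lit 591) (nat_lit 623) (nat_lit 5615) (.f (nat_lit 561) (nat_lit 464) (nat_lit 4560) (.d (nat_lit 562) (nat_lit 563) (nat_lit 1583) (nat_lit 590) (nat_lit 2606))))) (.a (.f (nat_lit 593) (nat_lit 625) (nat_lit 4592) (.f (nat_lit 464) (nat_lit 561) (nat_lit 4560) (.d (nat_lit 463) (nat_lit 431) (nat_lit 7599) (nat_lit 495) (nat_lit 7631)))) (.f (nat_lit 495) (nat_lit 463) (nat_lit 7631) (.f (nat_lit 624) (nat_lit 527) (nat_lit 7663) (.d (nat_lit 623) (nat_lit 591) (nat_lit 5615) (nat_lit 655) (nat_lit 5647))))))) (.a (.p (nat_lit 499) (.a (.p (nat_lit 592) (.a (.f (nat_lit 625) (nat_lit 593) (nat_lit 4592) (.f (nat_lit 624) (nat_lit 657) (nat_lit 4624) (.d (nat_lit 623) (nat_lit 591) (nat_lit 5615) (nat_lit 655) (nat_lit 5647)))) (.a (.f (nat_lit 497) (nat_lit 465) (nat_lit 6608) (.f (nat_lit 498) (nat_lit 527) (nat_lit 1519) (.f (nat_lit 464) (nat_lit 463) (nat_lit 3535) (.d (nat_lit 593) (nat_lit 561) (nat_lit 4560) (nat_lit 625) (nat_lit 4592))))) (.f (nat_lit 497) (nat_lit 465) (nat_lit 6608) (.f (nat_lit 498) (nat_lit 527) (nat_lit 1519) (.f (nat_lit 532) (nat_lit 531) (nat_lit 496) (.f (nat_lit 500) (nat_lit 533) (nat_lit 497) (.d (nat_lit 468) (nat_lit 467) (nat_lit 2512) (nat_lit 469) (nat_lit 2513))))))))) (.a (.p (nat_lit 592) (.a (.f (nat_lit 625) (nat_lit 593) (nat_lit 4592) (.f (nat_lit 624) (nat_lit 657) (nat_lit 4624) (.d (nat_lit 623) (nat_lit 591) (nat_lit 5615) (nat_lit 655) (nat_lit 5647)))) (.f (nat_lit 497) (nat_lit 465) (nat_lit 6608) (.f (nat_lit 498) (nat_lit 527) (nat_lit 1519) (.f (nat_lit 532) (nat_lit 531) (nat_lit 496) (.f (nat_lit 500) (nat_lit 533) (nat_lit 497) (.d (nat_lit 468) (nat_lit 467) (nat_lit 2512) (nat_lit 469) (nat_lit 2513)))))))) (.a (.p (nat_lit 563) (.a s33688 (.a (.p (nat_lit 561) (.a (.f (nat_lit 562) (nat_lit 527) (nat_lit 3599) (.f (nat_lit 531) (nat_lit 532) (nat_lit 2576) (.f (nat_lit 595) (nat_lit 596) (nat_lit 560) (.d (nat_lit 594) (nat_lit 467) (nat_lit 5586) (nat_lit 626) (nat_lit 5618))))) (.f (nat_lit 593) (nat_lit 464) (nat_lit 4560) (.d (nat_lit 625) (nat_lit 592) (nat_lit 4592) (nat_lit 657) (nat_lit 7696))))) (.a (.p (nat_lit 531) (.a (.p (nat_lit 592) (.a (.f (nat_lit 593) (nat_lit 625) (nat_lit 4592) (.f (nat_lit 561) (nat_lit 464) (nat_lit 4560) (.d (nat_lit 562) (nat_lit 532) (nat_lit 2576) (nat_lit 591) (nat_lit 1583)))) (.a (.f (nat_lit 591) (nat_lit 623) (nat_lit 5615) (.f (nat_lit 562) (nat_lit 561) (nat_lit 1583) (.f (nat_lit 467) (nat_lit 594) (nat_lit 5586) (.f (nat_lit 435) (nat_lit 530) (nat_lit 5554) (.d (nat_lit 564) (nat_lit 532) (nat_lit 4531) (nat_lit 596) (nat_lit 4563)))))) (.a (.f (nat_lit 623) (nat_lit 591) (nat_lit 5615) (.f (nat_lit 624) (nat_lit 655) (nat_lit 5647) (.d (nat_lit 625) (nat_lit 593) (nat_lit 4592) (nat_lit 657) (nat_lit 4624)))) (.f (nat_lit 593) (nat_lit 625) (nat_lit 4592) (.f (nat_lit 561) (nat_lit 464) (nat_lit 4560) (.d (nat_lit 562) (nat_lit 532) (nat_lit 2576) (nat_lit 564) (nat_lit 1584)))))))) (.a (.p (nat_lit 464) (.a (.f (nat_lit 561) (nat_lit 593) (nat_lit 4560) (.f (nat_lit 562) (nat_lit 532) (nat_lit 2576) (.f (nat_lit 595) (nat_lit 596) (nat_lit 560) (.d (nat_lit 594) (nat_lit 467) (nat_lit 5586) (nat_lit 626) (nat_lit 5618))))) (.a (.f (nat_lit 463) (nat_lit 431) (nat_lit 7599) (.f (nat_lit 498) (nat_lit 497) (nat_lit 3535) (.f (nat_lit 595) (nat_lit 466) (nat_lit 7634) (.f (nat_lit 627) (nat_lit 530) (nat_lit 7666) (.d (nat_lit 500) (nat_lit 468) (nat_lit 6611) (nat_lit 532) (nat_lit 6643)))))) (.a (.f (nat_lit 561) (nat_lit 593) (nat_lit 4560) (.f (nat_lit 562) (nat_lit 532) (nat_lit 2576) (.f (nat_lit 467) (nat_lit 594) (nat_lit 5586) (.f (nat_lit 435) (nat_lit 530) (nat_lit 5554) (.d (nat_lit 434) (nat_lit 402) (nat_lit 7570) (nat_lit 466) (nat_lit 7602)))))) (.f (nat_lit 463) (nat_lit 431) (nat_lit 7599) (.f (nat_lit 498) (nat_lit 497) (nat_lit 3535) (.f (nat_lit 595) (nat_lit 466) (nat_lit 7634) (.f (nat_lit 594) (nat_lit 626) (nat_lit 5618) (.f (nat_lit 596) (nat_lit 628) (nat_lit 4595) (.d (nat_lit 467) (nat_lit 562) (nat_lit 5586) (nat_lit 564) (nat_lit 4563))))))))))) (.a s33747 (.a s33762 (.a s33772 (.a (.p (nat_lit 464) (.a (.f (nat_lit 463) (nat_lit 431) (nat_lit 7599) (.f (nat_lit 498) (nat_lit 497) (nat_lit 3535) (.f (nat_lit 595) (nat_lit 466) (nat_lit 7634) (.f (nat_lit 627) (nat_lit 530) (nat_lit 7666) (.d (nat_lit 500) (nat_lit 468) (nat_lit 6611) (nat_lit 532) (nat_lit 6643)))))) (.a (.f (nat_lit 561) (nat_lit 593) (nat_lit 4560) (.f (nat_lit 562) (nat_lit 532) (nat_lit 2576) (.f (nat_lit 595) (nat_lit 596) (nat_lit 560) (.f (nat_lit 498) (nat_lit 466) (nat_lit 7634) (.f (nat_lit 468) (nat_lit 500) (nat_lit 6611) (.d (nat_lit 497) (nat_lit 463) (nat_lit 3535) (nat_lit 467) (nat_lit 2512))))))) (.a (.f (nat_lit 561) (nat_lit 593) (nat_lit 4560) (.f (nat_lit 562) (nat_lit 532) (nat_lit 2576) (.f (nat_lit 595) (nat_lit 596) (nat_lit 560) (.f (nat_lit 498) (nat_lit 466) (nat_lit 7634) (.f (nat_lit 627) (nat_lit 530) (nat_lit 7666) (.f (nat_lit 660) (nat_lit 628) (nat_lit 4627) (.f (nat_lit 659) (nat_lit 692) (nat_lit 4659) (.d (nat_lit 658) (nat_lit 626) (nat_lit 5650) (nat_lit 690) (nat_lit 5682))))))))) (.a (.f (nat_lit 561) (nat_lit 593) (nat_lit 4560) (.f (nat_lit 562) (nat_lit 532) (nat_lit 2576) (.f (nat_lit 596) (nat_lit 595) (nat_lit 560) (.d (nat_lit 564) (nat_lit 467) (nat_lit 4563) (nat_lit 597) (nat_lit 561))))) (.a (.f (nat_lit 561) (nat_lit 593) (nat_lit 4560) (.f (nat_lit 532) (nat_lit 562) (nat_lit 2576) (.f (nat_lit 498) (nat_lit 497) (nat_lit 496) (.f (nat_lit 533) (nat_lit 534) (nat_lit 3570) (.f (nat_lit 431) (nat_lit 463) (nat_lit 7599) (.f (nat_lit 432) (nat_lit 399) (nat_lit 7567) (.f (nat_lit 401) (nat_lit 433) (nat_lit 6544) (.f (nat_lit 400) (nat_lit 369) (nat_lit 6512) (.f (nat_lit 402) (nat_lit 403) (nat_lit 1423) (.f (nat_lit 434) (nat_lit 466) (nat_lit 4498) (.f (nat_lit 467) (nat_lit 435) (nat_lit 7570) (.f (nat_lit 564) (nat_lit 596) (nat_lit 4563) (.f (nat_lit 468) (nat_lit 436) (nat_lit 6579) (.f (nat_lit 469) (nat_lit 470) (nat_lit 1490) (.d (nat_lit 437) (nat_lit 500) (nat_lit 6580) (nat_lit 501) (nat_lit 5556)))))))))))))))) (.f (nat_lit 463) (nat_lit 431) (nat_lit 7599) (.f (nat_lit 498) (nat_lit 497) (nat_lit 3535) (.f (nat_lit 595) (nat_lit 466) (nat_lit 7634) (.f (nat_lit 596) (nat_lit 628) (nat_lit 4595) (.d (nat_lit 561) (nat_lit 562) (nat_lit 560) (nat_lit 593) (nat_lit 4560)))))))))))) (.a (.p (nat_lit 592) (.a (.f (nat_lit 593) (nat_lit 625) (nat_lit 4592) (.f (nat_lit 561) (nat_lit 464) (nat_lit 4560) (.d (nat_lit 562) (nat_lit 532) (nat_lit 2576) (nat_lit 591) (nat_lit 1583)))) (.a (.f (nat_lit 591) (nat_lit 623) (nat_lit 5615) (.f (nat_lit 562) (nat_lit 561) (nat_lit 1583) (.f (nat_lit 467) (nat_lit 594) (nat_lit 5586) (.f (nat_lit 468) (nat_lit 436) (nat_lit 6579) (.f (nat_lit 498) (nat_lit 497) (nat_lit 2512) (.d (nat_lit 595) (nat_lit 466) (nat_lit 7634) (nat_lit 500) (nat_lit 6611))))))) (.a (.f (nat_lit 623) (nat_lit 591) (nat_lit 5615) (.f (nat_lit 624) (nat_lit 655) (nat_lit 5647) (.d (nat_lit 625) (nat_lit 593) (nat_lit 4592) (nat_lit 657) (nat_lit 4624)))) (.f (nat_lit 593) (nat_lit 625) (nat_lit 4592) (.f (nat_lit 561) (nat_lit 464) (nat_lit 4560) (.d (nat_lit 562) (nat_lit 532) (nat_lit 2576) (nat_lit 564) (nat_lit 1584)))))))) (.a (.p (nat_lit 498) (.a (.f (nat_lit 595) (nat_lit 466) (nat_lit 7634) (.f (nat_lit 532) (nat_lit 497) (nat_lit 496) (.d (nat_lit 627) (nat_lit 500) (nat_lit 6643) (nat_lit 530) (nat_lit 7666)))) (.a (.f (nat_lit 595) (nat_lit 466) (nat_lit 7634) (.f (nat_lit 627) (nat_lit 530) (nat_lit 7666) (.d (nat_lit 500) (nat_lit 468) (nat_lit 6611) (nat_lit 532) (nat_lit 6643)))) (.a (.f (nat_lit 532) (nat_lit 497) (nat_lit 496) (.f (nat_lit 561) (nat_lit 562) (nat_lit 2576) (.f (nat_lit 593) (nat_lit 464) (nat_lit 4560) (.d (nat_lit 625) (nat_lit 592) (nat_lit 4592) (nat_lit 657) (nat_lit 7696))))) (.f (nat_lit 595) (nat_lit 466) (nat_lit 7634) (.f (nat_lit 627) (nat_lit 530) (nat_lit 7666) (.d (nat_lit 626) (nat_lit 594) (nat_lit 5618) (nat_lit 658) (nat_lit 5650)))))))) (.p (nat_lit 592) (.a (.f (nat_lit 623) (nat_lit 591) (nat_lit 5615) (.f (nat_lit 624) (nat_lit 655) (nat_lit 5647) (.d (nat_lit 625) (nat_lit 593) (nat_lit 4592) (nat_lit 657) (nat_lit 4624)))) (.a (.f (nat_lit 593) (nat_lit 625) (nat_lit 4592) (.f (nat_lit 464) (nat_lit 561) (nat_lit 4560) (.f (nat_lit 463) (nat_lit 431) (nat_lit 7599) (.f (nat_lit 498) (nat_lit 497) (nat_lit 3535) (.f (nat_lit 595) (nat_lit 466) (nat_lit 7634) (.d (nat_lit 594) (nat_lit 564) (nat_lit 2608) (nat_lit 626) (nat_lit 5618))))))) (.f (nat_lit 591) (nat_lit 623) (nat_lit 5615) (.f (nat_lit 562) (nat_lit 561) (nat_lit 1583) (.f (nat_lit 467) (nat_lit 594) (nat_lit 5586) (.f (nat_lit 468) (nat_lit 436) (nat_lit 6579) (.f (nat_lit 498) (nat_lit 497) (nat_lit 2512) (.d (nat_lit 595) (nat_lit 466) (nat_lit 7634) (nat_lit 500) (nat_lit 6611))))))))))))))))))) (.a s33864 (.a s33927 (.a (.p (nat_lit 531) (.a s33772 (.a s33949 (.a (.p (nat_lit 595) (.a (.f (nat_lit 596) (nat_lit 628) (nat_lit 4595) (.f (nat_lit 564) (nat_lit 467) (nat_lit 4563) (.f (nat_lit 594) (nat_lit 626) (nat_lit 5618) (.d (nat_lit 593) (nat_lit 561) (nat_lit 3632) (nat_lit 592) (nat_lit 2608))))) (.a (.f (nat_lit 500) (nat_lit 468) (nat_lit 6611) (.f (nat_lit 627) (nat_lit 532) (nat_lit 6643) (.d (nat_lit 626) (nat_lit 594) (nat_lit 5618) (nat_lit 658) (nat_lit 5650)))) (.f (nat_lit 500) (nat_lit 468) (nat_lit 6611) (.f (nat_lit 627) (nat_lit 532) (nat_lit 6643) (.d (nat_lit 628) (nat_lit 596) (nat_lit 4595) (nat_lit 660) (nat_lit 4627))))))) (.a s33973 (.a (.p (nat_lit 498) (.a (.f (nat_lit 595) (nat_lit 466) (nat_lit 7634) (.f (nat_lit 532) (nat_lit 497) (nat_lit 496) (.d (nat_lit 627) (nat_lit 500) (nat_lit 6643) (nat_lit 530) (nat_lit 7666)))) (.a (.f (nat_lit 595) (nat_lit 466) (nat_lit 7634) (.f (nat_lit 627) (nat_lit 530) (nat_lit 7666) (.d (nat_lit 500) (nat_lit 468) (nat_lit 6611) (nat_lit 532) (nat_lit 6643)))) (.a (.d (nat_lit 497) (nat_lit 527) (nat_lit 1519) (nat_lit 532) (nat_lit 496)) (.f (nat_lit 595) (nat_lit 466) (nat_lit 7634) (.f (nat_lit 627) (nat_lit 530) (nat_lit 7666) (.d (nat_lit 626) (nat_lit 594) (nat_lit 5618) (nat_lit 658) (nat_lit 5650)))))))) (.a (.p (nat_lit 498) (.a (.f (nat_lit 595) (nat_lit 466) (nat_lit 7634) (.f (nat_lit 532) (nat_lit 497) (nat_lit 496) (.d (nat_lit 627) (nat_lit 500) (nat_lit 6643) (nat_lit 530) (nat_lit 7666)))) (.a (.f (nat_lit 595) (nat_lit 466) (nat_lit 7634) (.f (nat_lit 627) (nat_lit 530) (nat_lit 7666) (.d (nat_lit 626) (nat_lit 594) (nat_lit 5618) (nat_lit 658) (nat_lit 5650)))) (.d (nat_lit 497) (nat_lit 527) (nat_lit 1519) (nat_lit 532) (nat_lit 496))))) (.a s33976 (.p (nat_lit 498) (.a (.f (nat_lit 595) (nat_lit 466) (nat_lit 7634) (.f (nat_lit 627) (nat_lit 530) (nat_lit 7666) (.d (nat_lit 626) (nat_lit 594) (nat_lit 5618) (nat_lit 658) (nat_lit 5650)))) (.a (.f (nat_lit 497) (nat_lit 532) (nat_lit 496) (.f (nat_lit 467) (nat_lit 468) (nat_lit 2512) (.f (nat_lit 434) (nat_lit 466) (nat_lit 7602) (.f (nat_lit 435) (nat_lit 402) (nat_lit 7570) (.f (nat_lit 404) (nat_lit 436) (nat_lit 6547) (.d (nat_lit 403) (nat_lit 372) (nat_lit 6515) (nat_lit 530) (nat_lit 5522))))))) (.d (nat_lit 497) (nat_lit 527) (nat_lit 1519) (nat_lit 532) (nat_lit 496))))))))))))) (.a (.p (nat_lit 561) (.a (.f (nat_lit 593) (nat_lit 464) (nat_lit 4560) (.d (nat_lit 625) (nat_lit 592) (nat_lit 4592) (nat_lit 657) (nat_lit 7696))) (.f (nat_lit 562) (nat_lit 527) (nat_lit 3599) (.f (nat_lit 531) (nat_lit 532) (nat_lit 2576) (.f (nat_lit 467) (nat_lit 594) (nat_lit 5586) (.f (nat_lit 435) (nat_lit 530) (nat_lit 5554) (.d (nat_lit 436) (nat_lit 404) (nat_lit 6547) (nat_lit 468) (nat_lit 6579)))))))) (.a (.p (nat_lit 561) (.a (.f (nat_lit 593) (nat_lit 464) (nat_lit 4560) (.d (nat_lit 625) (nat_lit 592) (nat_lit 4592) (nat_lit 657) (nat_lit 7696))) (.f (nat_lit 562) (nat_lit 527) (nat_lit 3599) (.f (nat_lit 531) (nat_lit 532) (nat_lit 2576) (.f (nat_lit 595) (nat_lit 596) (nat_lit 560) (.f (nat_lit 498) (nat_lit 466) (nat_lit 7634) (.f (nat_lit 468) (nat_lit 500) (nat_lit 6611) (.d (nat_lit 467) (nat_lit 436) (nat_lit 6579) (nat_lit 497) (nat_lit 2512))))))))) (.a (.p (nat_lit 593) (.a (.f (nat_lit 561) (nat_lit 464) (nat_lit 4560) (.d (nat_lit 625) (nat_lit 592) (nat_lit 4592) (nat_lit 657) (nat_lit 7696))) (.a (.f (nat_lit 592) (nat_lit 625) (nat_lit 4592) (.f (nat_lit 591) (nat_lit 623) (nat_lit 5615) (.d (nat_lit 562) (nat_lit 561) (nat_lit 1583) (nat_lit 594) (nat_lit 2607)))) (.a (.f (nat_lit 561) (nat_lit 464) (nat_lit 4560) (.f (nat_lit 562) (nat_lit 527) (nat_lit 3599) (.d (nat_lit 592) (nat_lit 564) (nat_lit 1584) (nat_lit 591) (nat_lit 1583)))) (.a (.f (nat_lit 592) (nat_lit 625) (nat_lit 4592) (.f (nat_lit 591) (nat_lit 623) (nat_lit 5615) (.f (nat_lit 594) (nat_lit 562) (nat_lit 2607) (.f (nat_lit 595) (nat_lit 564) (nat_lit 2608) (.d (nat_lit 627) (nat_lit 626) (nat_lit 591) (nat_lit 628) (nat_lit 592)))))) (.f (nat_lit 561) (nat_lit 464) (nat_lit 4560) (.f (nat_lit 562) (nat_lit 527) (nat_lit 3599) (.f (nat_lit 596) (nat_lit 595) (nat_lit 560) (.f (nat_lit 564) (nat_lit 597) (nat_lit 561) (.f (nat_lit 532) (nat_lit 533) (nat_lit 2577) (.f (nat_lit 625) (nat_lit 657) (nat_lit 7696) (.f (nat_lit 500) (nat_lit 467) (nat_lit 7635) (.f (nat_lit 469) (nat_lit 501) (nat_lit 6612) (.f (nat_lit 468) (nat_lit 437) (nat_lit 6580) (.f (nat_lit 498) (nat_lit 497) (nat_lit 2513) (.d (nat_lit 530) (nat_lit 466) (nat_lit 5585) (nat_lit 594) (nat_lit 5617))))))))))))))))) (.a (.p (nat_lit 593) (.a (.f (nat_lit 561) (nat_lit 464) (nat_lit 4560) (.d (nat_lit 625) (nat_lit 592) (nat_lit 4592) (nat_lit 657) (nat_lit 7696))) (.a (.f (nat_lit 592) (nat_lit 625) (nat_lit 4592) (.f (nat_lit 591) (nat_lit 623) (nat_lit 5615) (.d (nat_lit 562) (nat_lit 561) (nat_lit 1583) (nat_lit 594) (nat_lit 2607)))) (.a (.f (nat_lit 561) (nat_lit 464) (nat_lit 4560) (.f (nat_lit 562) (nat_lit 527) (nat_lit 3599) (.d (nat_lit 592) (nat_lit 564) (nat_lit 1584) (nat_lit 591) (nat_lit 1583)))) (.a (.f (nat_lit 592) (nat_lit 625) (nat_lit 4592) (.f (nat_lit 591) (nat_lit 623) (nat_lit 5615) (.f (nat_lit 594) (nat_lit 562) (nat_lit 2607) (.f (nat_lit 595) (nat_lit 564) (nat_lit 2608) (.d (nat_lit 627) (nat_lit 626) (nat_lit 591) (nat_lit 628) (nat_lit 592)))))) (.f (nat_lit 561) (nat_lit 464) (nat_lit 4560) (.f (nat_lit 562) (nat_lit 527) (nat_lit 3599) (.f (nat_lit 595) (nat_lit 596) (nat_lit 560) (.f (nat_lit 531) (nat_lit 532) (nat_lit 2576) (.f (nat_lit 594) (nat_lit 626) (nat_lit 5618) (.f (nat_lit 498) (nat_lit 466) (nat_lit 7634) (.d (nat_lit 625) (nat_lit 530) (nat_lit 5617) (nat_lit 657) (nat_lit 7696))))))))))))) (.p (nat_lit 593) (.a (.f (nat_lit 561) (nat_lit 464) (nat_lit 4560) (.d (nat_lit 625) (nat_lit 592) (nat_lit 4592) (nat_lit 657) (nat_lit 7696))) (.a (.f (nat_lit 592) (nat_lit 625) (nat_lit 4592) (.f (nat_lit 591) (nat_lit 623) (nat_lit 5615) (.d (nat_lit 562) (nat_lit 561) (nat_lit 1583) (nat_lit 594) (nat_lit 2607)))) (.a (.f (nat_lit 561) (nat_lit 464) (nat_lit 4560) (.f (nat_lit 562) (nat_lit 527) (nat_lit 3599) (.d (nat_lit 592) (nat_lit 564) (nat_lit 1584) (nat_lit 591) (nat_lit 1583)))) (.a (.f (nat_lit 592) (nat_lit 625) (nat_lit 4592) (.f (nat_lit 591) (nat_lit 623) (nat_lit 5615) (.f (nat_lit 594) (nat_lit 562) (nat_lit 2607) (.f (nat_lit 595) (nat_lit 564) (nat_lit 2608) (.d (nat_lit 627) (nat_lit 626) (nat_lit 591) (nat_lit 628) (nat_lit 592)))))) (.f (nat_lit 561) (nat_lit 464) (nat_lit 4560) (.f (nat_lit 562) (nat_lit 527) (nat_lit 3599) (.f (nat_lit 596) (nat_lit 595) (nat_lit 560) (.f (nat_lit 564) (nat_lit 597) (nat_lit 561) (.f (nat_lit 531) (nat_lit 467) (nat_lit 4563) (.f (nat_lit 565) (nat_lit 594) (nat_lit 1585) (.f (nat_lit 566) (nat_lit 530) (nat_lit 3602) (.d (nat_lit 534) (nat_lit 533) (nat_lit 2578) (nat_lit 535) (nat_lit 2579))))))))))))))))))))))))) (.a (.p (nat_lit 497) (.a (.f (nat_lit 498) (nat_lit 527) (nat_lit 1519) (.f (nat_lit 464) (nat_lit 463) (nat_lit 3535) (.d (nat_lit 465) (nat_lit 500) (nat_lit 3536) (nat_lit 592) (nat_lit 6608)))) (.a (.f (nat_lit 592) (nat_lit 465) (nat_lit 6608) (.f (nat_lit 593) (nat_lit 625) (nat_lit 4592) (.f (nat_lit 591) (nat_lit 623) (nat_lit 5615) (.f (nat_lit 561) (nat_lit 464) (nat_lit 4560) (.d (nat_lit 562) (nat_lit 563) (nat_lit 1583) (nat_lit 590) (nat_lit 2606)))))) (.a (.f (nat_lit 592) (nat_lit 465) (nat_lit 6608) (.f (nat_lit 625) (nat_lit 593) (nat_lit 4592) (.f (nat_lit 624) (nat_lit 657) (nat_lit 4624) (.d (nat_lit 623) (nat_lit 591) (nat_lit 5615) (nat_lit 655) (nat_lit 5647))))) (.a (.f (nat_lit 498) (nat_lit 527) (nat_lit 1519) (.f (nat_lit 464) (nat_lit 463) (nat_lit 3535) (.f (nat_lit 532) (nat_lit 531) (nat_lit 496) (.f (nat_lit 500) (nat_lit 533) (nat_lit 497) (.f (nat_lit 468) (nat_lit 469) (nat_lit 2513) (.f (nat_lit 593) (nat_lit 561) (nat_lit 4560) (.f (nat_lit 592) (nat_lit 625) (nat_lit 4592) (.f (nat_lit 623) (nat_lit 591) (nat_lit 5615) (.f (nat_lit 624) (nat_lit 655) (nat_lit 5647) (.f (nat_lit 595) (nat_lit 594) (nat_lit 1615) (.f (nat_lit 564) (nat_lit 563) (nat_lit 5587) (.f (nat_lit 596) (nat_lit 627) (nat_lit 5619) (.d (nat_lit 597) (nat_lit 565) (nat_lit 4564) (nat_lit 629) (nat_lit 4596)))))))))))))) (.f (nat_lit 498) (nat_lit 527) (nat_lit 1519) (.f (nat_lit 464) (nat_lit 463) (nat_lit 3535) (.d (nat_lit 465) (nat_lit 433) (nat_lit 6576) (nat_lit 500) (nat_lit 3536))))))))) (.a (.p (nat_lit 592) (.a (.f (nat_lit 625) (nat_lit 593) (nat_lit 4592) (.f (nat_lit 624) (nat_lit 657) (nat_lit 4624) (.d (nat_lit 623) (nat_lit 591) (nat_lit 5615) (nat_lit 655) (nat_lit 5647)))) (.a (.f (nat_lit 497) (nat_lit 465) (nat_lit 6608) (.f (nat_lit 498) (nat_lit 527) (nat_lit 1519) (.f (nat_lit 464) (nat_lit 463) (nat_lit 3535) (.d (nat_lit 593) (nat_lit 561) (nat_lit 4560) (nat_lit 625) (nat_lit 4592))))) (.f (nat_lit 465) (nat_lit 497) (nat_lit 6608) (.f (nat_lit 464) (nat_lit 433) (nat_lit 6576) (.f (nat_lit 463) (nat_lit 431) (nat_lit 7599) (.f (nat_lit 466) (nat_lit 498) (nat_lit 463) (.f (nat_lit 467) (nat_lit 500) (nat_lit 464) (.d (nat_lit 435) (nat_lit 434) (nat_lit 2479) (nat_lit 436) (nat_lit 2480)))))))))) (.a (.p (nat_lit 464) (.a (.f (nat_lit 433) (nat_lit 465) (nat_lit 6576) (.f (nat_lit 432) (nat_lit 401) (nat_lit 6544) (.d (nat_lit 431) (nat_lit 399) (nat_lit 7567) (nat_lit 463) (nat_lit 7599)))) (.a (.f (nat_lit 465) (nat_lit 433) (nat_lit 6576) (.f (nat_lit 463) (nat_lit 431) (nat_lit 7599) (.f (nat_lit 466) (nat_lit 498) (nat_lit 463) (.f (nat_lit 467) (nat_lit 500) (nat_lit 464) (.d (nat_lit 435) (nat_lit 434) (nat_lit 2479) (nat_lit 436) (nat_lit 2480)))))) (.a (.p (nat_lit 562) (.a (.f (nat_lit 561) (nat_lit 593) (nat_lit 4560) (.f (nat_lit 563) (nat_lit 527) (nat_lit 3599) (.f (nat_lit 531) (nat_lit 532) (nat_lit 2576) (.f (nat_lit 595) (nat_lit 596) (nat_lit 560) (.d (nat_lit 594) (nat_lit 467) (nat_lit 5586) (nat_lit 626) (nat_lit 5618)))))) (.a (.f (nat_lit 593) (nat_lit 561) (nat_lit 4560) (.f (nat_lit 592) (nat_lit 625) (nat_lit 4592) (.f (nat_lit 591) (nat_lit 623) (nat_lit 5615) (.f (nat_lit 594) (nat_lit 563) (nat_lit 2607) (.f (nat_lit 627) (nat_lit 626) (nat_lit 591) (.f (nat_lit 595) (nat_lit 628) (nat_lit 592) (.f (nat_lit 498) (nat_lit 530) (nat_lit 4594) (.f (nat_lit 465) (nat_lit 433) (nat_lit 6576) (.f (nat_lit 466) (nat_lit 463) (nat_lit 463) (.d (nat_lit 500) (nat_lit 467) (nat_lit 464) (nat_lit 501) (nat_lit 3537))))))))))) (.a (.p (nat_lit 563) (.a (.f (nat_lit 561) (nat_lit 527) (nat_lit 3599) (.f (nat_lit 531) (nat_lit 532) (nat_lit 2576) (.f (nat_lit 595) (nat_lit 596) (nat_lit 560) (.d (nat_lit 594) (nat_lit 467) (nat_lit 5586) (nat_lit 626) (nat_lit 5618))))) (.a s34099 (.a (.p (nat_lit 467) (.a (.f (nat_lit 531) (nat_lit 594) (nat_lit 5586) (.f (nat_lit 435) (nat_lit 530) (nat_lit 5554) (.d (nat_lit 564) (nat_lit 532) (nat_lit 4531) (nat_lit 596) (nat_lit 4563)))) (.a (.f (nat_lit 465) (nat_lit 433) (nat_lit 6576) (.f (nat_lit 466) (nat_lit 500) (nat_lit 464) (.f (nat_lit 531) (nat_lit 434) (nat_lit 7602) (.d (nat_lit 436) (nat_lit 435) (nat_lit 2480) (nat_lit 468) (nat_lit 6579))))) (.a (.f (nat_lit 465) (nat_lit 433) (nat_lit 6576) (.f (nat_lit 466) (nat_lit 500) (nat_lit 464) (.f (nat_lit 498) (nat_lit 463) (nat_lit 463) (.d (nat_lit 530) (nat_lit 435) (nat_lit 6578) (nat_lit 595) (nat_lit 4562))))) (.f (nat_lit 531) (nat_lit 594) (nat_lit 5586) (.f (nat_lit 466) (nat_lit 434) (nat_lit 7602) (.d (nat_lit 465) (nat_lit 433) (nat_lit 6576) (nat_lit 500) (nat_lit 464)))))))) (.a (.f (nat_lit 561) (nat_lit 527) (nat_lit 3599) (.f (nat_lit 531) (nat_lit 532) (nat_lit 2576) (.f (nat_lit 467) (nat_lit 594) (nat_lit 5586) (.f (nat_lit 435) (nat_lit 530) (nat_lit 5554) (.d (nat_lit 436) (nat_lit 404) (nat_lit 6547) (nat_lit 468) (nat_lit 6579)))))) (.a (.f (nat_lit 561) (nat_lit 527) (nat_lit 3599) (.f (nat_lit 531) (nat_lit 532) (nat_lit 2576) (.f (nat_lit 595) (nat_lit 596) (nat_lit 560) (.f (nat_lit 466) (nat_lit 498) (nat_lit 7634) (.f (nat_lit 467) (nat_lit 434) (nat_lit 7602) (.d (nat_lit 468) (nat_lit 436) (nat_lit 6579) (nat_lit 500) (nat_lit 6611))))))) (.a (.p (nat_lit 498) (.a (.f (nat_lit 465) (nat_lit 433) (nat_lit 6576) (.f (nat_lit 466) (nat_lit 463) (nat_lit 463) (.d (nat_lit 500) (nat_lit 467) (nat_lit 464) (nat_lit 501) (nat_lit 3537)))) (.a (.f (nat_lit 561) (nat_lit 527) (nat_lit 3599) (.f (nat_lit 595) (nat_lit 596) (nat_lit 560) (.f (nat_lit 530) (nat_lit 466) (nat_lit 4562) (.d (nat_lit 594) (nat_lit 467) (nat_lit 6610) (nat_lit 627) (nat_lit 4594))))) (.a (.f (nat_lit 561) (nat_lit 527) (nat_lit 3599) (.f (nat_lit 596) (nat_lit 595) (nat_lit 560) (.f (nat_lit 564) (nat_lit 597) (nat_lit 561) (.f (nat_lit 532) (nat_lit 533) (nat_lit 2577) (.f (nat_lit 467) (nat_lit 500) (nat_lit 7635) (.f (nat_lit 433) (nat_lit 465) (nat_lit 6576) (.f (nat_lit 432) (nat_lit 401) (nat_lit 6544) (.f (nat_lit 530) (nat_lit 594) (nat_lit 6610) (.f (nat_lit 435) (nat_lit 403) (nat_lit 5522) (.d (nat_lit 434) (nat_lit 463) (nat_lit 1455) (nat_lit 468) (nat_lit 432))))))))))) (.f (nat_lit 561) (nat_lit 527) (nat_lit 3599) (.f (nat_lit 595) (nat_lit 596) (nat_lit 560) (.f (nat_lit 530) (nat_lit 466) (nat_lit 4562) (.d (nat_lit 627) (nat_lit 594) (nat_lit 4594) (nat_lit 659) (nat_lit 7698))))))))) (.a (.f (nat_lit 561) (nat_lit 527) (nat_lit 3599) (.f (nat_lit 531) (nat_lit 532) (nat_lit 2576) (.f (nat_lit 595) (nat_lit 596) (nat_lit 560) (.f (nat_lit 498) (nat_lit 466) (nat_lit 7634) (.f (nat_lit 627) (nat_lit 530) (nat_lit 7666) (.d (nat_lit 626) (nat_lit 594) (nat_lit 5618) (nat_lit 658) (nat_lit 5650))))))) (.f (nat_lit 561) (nat_lit 527) (nat_lit 3599) (.f (nat_lit 596) (nat_lit 595) (nat_lit 560) (.f (nat_lit 564) (nat_lit 597) (nat_lit 561) (.f (nat_lit 467) (nat_lit 531) (nat_lit 4563) (.f (nat_lit 465) (nat_lit 433) (nat_lit 6576) (.f (nat_lit 466) (nat_lit 500) (nat_lit 464) (.f (nat_lit 435) (nat_lit 436) (nat_lit 2480) (.d (nat_lit 463) (nat_lit 434) (nat_lit 2479) (nat_lit 498) (nat_lit 463))))))))))))))))) (.a (.p (nat_lit 467) (.a (.f (nat_lit 465) (nat_lit 433) (nat_lit 6576) (.f (nat_lit 466) (nat_lit 500) (nat_lit 464) (.f (nat_lit 435) (nat_lit 436) (nat_lit 2480) (.d (nat_lit 463) (nat_lit 434) (nat_lit 2479) (nat_lit 498) (nat_lit 463))))) (.a (.p (nat_lit 530) (.a (.f (nat_lit 435) (nat_lit 531) (nat_lit 5554) (.d (nat_lit 498) (nat_lit 403) (nat_lit 5522) (nat_lit 594) (nat_lit 6610))) (.a (.f (nat_lit 531) (nat_lit 435) (nat_lit 5554) (.d (nat_lit 594) (nat_lit 563) (nat_lit 5586) (nat_lit 626) (nat_lit 6642))) (.a (.f (nat_lit 435) (nat_lit 531) (nat_lit 5554) (.d (nat_lit 498) (nat_lit 403) (nat_lit 5522) (nat_lit 466) (nat_lit 6578))) (.a (.f (nat_lit 498) (nat_lit 594) (nat_lit 6610) (.d (nat_lit 435) (nat_lit 403) (nat_lit 5522) (nat_lit 466) (nat_lit 6578))) (.f (nat_lit 594) (nat_lit 498) (nat_lit 6610) (.d (nat_lit 531) (nat_lit 563) (nat_lit 5586) (nat_lit 626) (nat_lit 6642)))))))) (.a (.f (nat_lit 465) (nat_lit 433) (nat_lit 6576) (.f (nat_lit 466) (nat_lit 500) (nat_lit 464) (.f (nat_lit 435) (nat_lit 436) (nat_lit 2480) (.f (nat_lit 531) (nat_lit 530) (nat_lit 5554) (.d (nat_lit 434) (nat_lit 402) (nat_lit 7570) (nat_lit 463) (nat_lit 2479)))))) (.a (.p (nat_lit 530) (.a (.f (nat_lit 435) (nat_lit 531) (nat_lit 5554) (.d (nat_lit 498) (nat_lit 403) (nat_lit 5522) (nat_lit 594) (nat_lit 6610))) (.a (.f (nat_lit 531) (nat_lit 435) (nat_lit 5554) (.d (nat_lit 594) (nat_lit 563) (nat_lit 5586) (nat_lit 626) (nat_lit 6642))) (.a (.f (nat_lit 435) (nat_lit 531) (nat_lit 5554) (.f (nat_lit 403) (nat_lit 498) (nat_lit 5522) (.f (nat_lit 433) (nat_lit 465) (nat_lit 6576) (.f (nat_lit 432) (nat_lit 401) (nat_lit 6544) (.d (nat_lit 404) (nat_lit 372) (nat_lit 6515) (nat_lit 434) (nat_lit 2448)))))) (.a (.f (nat_lit 498) (nat_lit 594) (nat_lit 6610) (.f (nat_lit 433) (nat_lit 465) (nat_lit 6576) (.f (nat_lit 432) (nat_lit 401) (nat_lit 6544) (.f (nat_lit 435) (nat_lit 403) (nat_lit 5522) (.d (nat_lit 434) (nat_lit 463) (nat_lit 1455) (nat_lit 468) (nat_lit 432)))))) (.f (nat_lit 594) (nat_lit 498) (nat_lit 6610) (.d (nat_lit 531) (nat_lit 563) (nat_lit 5586) (nat_lit 626) (nat_lit 6642)))))))) (.f (nat_lit 465) (nat_lit 433) (nat_lit 6576) (.f (nat_lit 466) (nat_lit 500) (nat_lit 464) (.f (nat_lit 498) (nat_lit 463) (nat_lit 463) (.f (nat_lit 530) (nat_lit 594) (nat_lit 6610) (.f (nat_lit 563) (nat_lit 595) (nat_lit 4562) (.f (nat_lit 531) (nat_lit 434) (nat_lit 4530) (.f (nat_lit 468) (nat_lit 436) (nat_lit 6579) (.f (nat_lit 469) (nat_lit 470) (nat_lit 1490) (.f (nat_lit 564) (nat_lit 596) (nat_lit 4563) (.f (nat_lit 565) (nat_lit 566) (nat_lit 3602) (.f (nat_lit 533) (nat_lit 534) (nat_lit 2578) (.f (nat_lit 501) (nat_lit 502) (nat_lit 466) (.d (nat_lit 437) (nat_lit 438) (nat_lit 2482) (nat_lit 532) (nat_lit 5556))))))))))))))))))) (.a (.p (nat_lit 467) (.a (.f (nat_lit 465) (nat_lit 433) (nat_lit 6576) (.f (nat_lit 466) (nat_lit 500) (nat_lit 464) (.f (nat_lit 435) (nat_lit 436) (nat_lit 2480) (.d (nat_lit 463) (nat_lit 434) (nat_lit 2479) (nat_lit 498) (nat_lit 463))))) (.a (.f (nat_lit 593) (nat_lit 561) (nat_lit 4560) (.f (nat_lit 592) (nat_lit 625) (nat_lit 4592) (.f (nat_lit 623) (nat_lit 591) (nat_lit 5615) (.f (nat_lit 624) (nat_lit 655) (nat_lit 5647) (.f (nat_lit 594) (nat_lit 595) (nat_lit 1615) (.f (nat_lit 530) (nat_lit 498) (nat_lit 6610) (.d (nat_lit 531) (nat_lit 435) (nat_lit 5554) (nat_lit 626) (nat_lit 6642)))))))) (.a (.f (nat_lit 465) (nat_lit 433) (nat_lit 6576) (.f (nat_lit 466) (nat_lit 500) (nat_lit 464) (.f (nat_lit 435) (nat_lit 436) (nat_lit 2480) (.f (nat_lit 531) (nat_lit 530) (nat_lit 5554) (.d (nat_lit 434) (nat_lit 402) (nat_lit 7570) (nat_lit 463) (nat_lit 2479)))))) (.f (nat_lit 465) (nat_lit 433) (nat_lit 6576) (.f (nat_lit 466) (nat_lit 500) (nat_lit 464) (.f (nat_lit 498) (nat_lit 463) (nat_lit 463) (.f (nat_lit 593) (nat_lit 561) (nat_lit 4560) (.f (nat_lit 594) (nat_lit 530) (nat_lit 6610) (.f (nat_lit 592) (nat_lit 625) (nat_lit 4592) (.f (nat_lit 623) (nat_lit 591) (nat_lit 5615) (.d (nat_lit 624) (nat_lit 595) (nat_lit 1615) (nat_lit 655) (nat_lit 5647))))))))))))) (.a (.f (nat_lit 561) (nat_lit 593) (nat_lit 4560) (.f (nat_lit 563) (nat_lit 527) (nat_lit 3599) (.f (nat_lit 531) (nat_lit 532) (nat_lit 2576) (.f (nat_lit 467) (nat_lit 594) (nat_lit 5586) (.f (nat_lit 435) (nat_lit 530) (nat_lit 5554) (.d (nat_lit 436) (nat_lit 404) (nat_lit 6547) (nat_lit 468) (nat_lit 6579))))))) (.a (.f (nat_lit 561) (nat_lit 593) (nat_lit 4560) (.f (nat_lit 563) (nat_lit 527) (nat_lit 3599) (.f (nat_lit 531) (nat_lit 532) (nat_lit 2576) (.f (nat_lit 595) (nat_lit 596) (nat_lit 560) (.f (nat_lit 466) (nat_lit 498) (nat_lit 7634) (.f (nat_lit 467) (nat_lit 434) (nat_lit 7602) (.d (nat_lit 468) (nat_lit 436) (nat_lit 6579) (nat_lit 500) (nat_lit 6611)))))))) (.f (nat_lit 561) (nat_lit 593) (nat_lit 4560) (.f (nat_lit 563) (nat_lit 527) (nat_lit 3599) (.f (nat_lit 531) (nat_lit 532) (nat_lit 2576) (.f (nat_lit 595) (nat_lit 596) (nat_lit 560) (.f (nat_lit 498) (nat_lit 466) (nat_lit 7634) (.f (nat_lit 627) (nat_lit 530) (nat_lit 7666) (.d (nat_lit 626) (nat_lit 594) (nat_lit 5618) (nat_lit 658) (nat_lit 5650)))))))))))))))) (.a (.p (nat_lit 563) (.a (.f (nat_lit 561) (nat_lit 593) (nat_lit 4560) (.f (nat_lit 562) (nat_lit 527) (nat_lit 3599) (.f (nat_lit 531) (nat_lit 532) (nat_lit 2576) (.f (nat_lit 595) (nat_lit 596) (nat_lit 560) (.d (nat_lit 594) (nat_lit 467) (nat_lit 5586) (nat_lit 626) (nat_lit 5618)))))) (.a (.f (nat_lit 593) (nat_lit 561) (nat_lit 4560) (.f (nat_lit 592) (nat_lit 625) (nat_lit 4592) (.f (nat_lit 591) (nat_lit 623) (nat_lit 5615) (.f (nat_lit 594) (nat_lit 562) (nat_lit 2607) (.f (nat_lit 595) (nat_lit 564) (nat_lit 2608) (.d (nat_lit 627) (nat_lit 626) (nat_lit 591) (nat_lit 628) (nat_lit 592))))))) (.a (.p (nat_lit 531) (.a (.p (nat_lit 562) (.a (.f (nat_lit 467) (nat_lit 594) (nat_lit 5586) (.f (nat_lit 435) (nat_lit 530) (nat_lit 5554) (.d (nat_lit 532) (nat_lit 561) (nat_lit 2576) (nat_lit 564) (nat_lit 4531)))) (.a (.f (nat_lit 467) (nat_lit 594) (nat_lit 5586) (.f (nat_lit 435) (nat_lit 530) (nat_lit 5554) (.d (nat_lit 564) (nat_lit 532) (nat_lit 4531) (nat_lit 596) (nat_lit 4563)))) (.a (.f (nat_lit 561) (nat_lit 532) (nat_lit 2576) (.f (nat_lit 595) (nat_lit 596) (nat_lit 560) (.f (nat_lit 466) (nat_lit 498) (nat_lit 7634) (.f (nat_lit 467) (nat_lit 434) (nat_lit 7602) (.d (nat_lit 468) (nat_lit 436) (nat_lit 6579) (nat_lit 500) (nat_lit 6611)))))) (.a (.f (nat_lit 561) (nat_lit 532) (nat_lit 2576) (.f (nat_lit 595) (nat_lit 596) (nat_lit 560) (.f (nat_lit 498) (nat_lit 466) (nat_lit 7634) (.f (nat_lit 627) (nat_lit 530) (nat_lit 7666) (.d (nat_lit 626) (nat_lit 594) (nat_lit 5618) (nat_lit 658) (nat_lit 5650)))))) (.f (nat_lit 467) (nat_lit 594) (nat_lit 5586) (.f (nat_lit 466) (nat_lit 434) (nat_lit 7602) (.f (nat_lit 595) (nat_lit 498) (nat_lit 7634) (.d (nat_lit 500) (nat_lit 465) (nat_lit 464) (nat_lit 468) (nat_lit 6611)))))))))) (.a (.p (nat_lit 562) (.a (.f (nat_lit 467) (nat_lit 594) (nat_lit 5586) (.f (nat_lit 435) (nat_lit 530) (nat_lit 5554) (.d (nat_lit 532) (nat_lit 561) (nat_lit 2576) (nat_lit 564) (nat_lit 4531)))) (.a (.f (nat_lit 467) (nat_lit 594) (nat_lit 5586) (.f (nat_lit 435) (nat_lit 530) (nat_lit 5554) (.d (nat_lit 564) (nat_lit 532) (nat_lit 4531) (nat_lit 596) (nat_lit 4563)))) (.a (.f (nat_lit 561) (nat_lit 532) (nat_lit 2576) (.f (nat_lit 595) (nat_lit 596) (nat_lit 560) (.f (nat_lit 466) (nat_lit 498) (nat_lit 7634) (.f (nat_lit 467) (nat_lit 434) (nat_lit 7602) (.d (nat_lit 468) (nat_lit 436) (nat_lit 6579) (nat_lit 500) (nat_lit 6611)))))) (.a (.f (nat_lit 561) (nat_lit 532) (nat_lit 2576) (.f (nat_lit 595) (nat_lit 596) (nat_lit 560) (.f (nat_lit 498) (nat_lit 466) (nat_lit 7634) (.f (nat_lit 627) (nat_lit 530) (nat_lit 7666) (.d (nat_lit 626) (nat_lit 594) (nat_lit 5618) (nat_lit 658) (nat_lit 5650)))))) (.f (nat_lit 467) (nat_lit 594) (nat_lit 5586) (.f (nat_lit 435) (nat_lit 530) (nat_lit 5554) (.d (nat_lit 436) (nat_lit 404) (nat_lit 6547) (nat_lit 468) (nat_lit 6579))))))))) (.a (.p (nat_lit 594) (.a (.f (nat_lit 467) (nat_lit 562) (nat_lit 5586) (.f (nat_lit 595) (nat_lit 626) (nat_lit 5618) (.d (nat_lit 596) (nat_lit 564) (nat_lit 4563) (nat_lit 628) (nat_lit 4595)))) (.a (.f (nat_lit 595) (nat_lit 626) (nat_lit 5618) (.f (nat_lit 596) (nat_lit 628) (nat_lit 4595) (.f (nat_lit 564) (nat_lit 467) (nat_lit 4563) (.f (nat_lit 500) (nat_lit 468) (nat_lit 6611) (.f (nat_lit 532) (nat_lit 627) (nat_lit 5619) (.f (nat_lit 501) (nat_lit 469) (nat_lit 6612) (.d (nat_lit 502) (nat_lit 503) (nat_lit 1523) (nat_lit 530) (nat_lit 1522)))))))) (.a (.f (nat_lit 467) (nat_lit 562) (nat_lit 5586) (.f (nat_lit 466) (nat_lit 434) (nat_lit 7602) (.f (nat_lit 465) (nat_lit 500) (nat_lit 464) (.d (nat_lit 463) (nat_lit 431) (nat_lit 7599) (nat_lit 498) (nat_lit 463))))) (.f (nat_lit 595) (nat_lit 626) (nat_lit 5618) (.f (nat_lit 498) (nat_lit 466) (nat_lit 7634) (.f (nat_lit 627) (nat_lit 530) (nat_lit 7666) (.d (nat_lit 500) (nat_lit 468) (nat_lit 6611) (nat_lit 532) (nat_lit 6643))))))))) (.a (.p (nat_lit 466) (.a (.f (nat_lit 467) (nat_lit 434) (nat_lit 7602) (.f (nat_lit 500) (nat_lit 465) (nat_lit 464) (.d (nat_lit 595) (nat_lit 468) (nat_lit 6611) (nat_lit 498) (nat_lit 7634)))) (.a (.f (nat_lit 595) (nat_lit 498) (nat_lit 7634) (.f (nat_lit 467) (nat_lit 434) (nat_lit 7602) (.d (nat_lit 468) (nat_lit 436) (nat_lit 6579) (nat_lit 500) (nat_lit 6611)))) (.a (.f (nat_lit 467) (nat_lit 434) (nat_lit 7602) (.f (nat_lit 500) (nat_lit 465) (nat_lit 464) (.d (nat_lit 468) (nat_lit 436) (nat_lit 6579) (nat_lit 595) (nat_lit 6611)))) (.a (.f (nat_lit 467) (nat_lit 434) (nat_lit 7602) (.f (nat_lit 465) (nat_lit 500) (nat_lit 464) (.d (nat_lit 463) (nat_lit 431) (nat_lit 7599) (nat_lit 498) (nat_lit 463)))) (.a (.f (nat_lit 595) (nat_lit 498) (nat_lit 7634) (.f (nat_lit 500) (nat_lit 468) (nat_lit 6611) (.f (nat_lit 627) (nat_lit 532) (nat_lit 6643) (.d (nat_lit 626) (nat_lit 594) (nat_lit 5618) (nat_lit 658) (nat_lit 5650))))) (.f (nat_lit 467) (nat_lit 434) (nat_lit 7602) (.f (nat_lit 595) (nat_lit 498) (nat_lit 7634) (.d (nat_lit 596) (nat_lit 564) (nat_lit 4563) (nat_lit 628) (nat_lit 4595)))))))))) (.a (.p (nat_lit 562) (.a (.f (nat_lit 467) (nat_lit 594) (nat_lit 5586) (.f (nat_lit 435) (nat_lit 530) (nat_lit 5554) (.d (nat_lit 532) (nat_lit 561) (nat_lit 2576) (nat_lit 564) (nat_lit 4531)))) (.a (.f (nat_lit 467) (nat_lit 594) (nat_lit 5586) (.f (nat_lit 435) (nat_lit 530) (nat_lit 5554) (.d (nat_lit 564) (nat_lit 532) (nat_lit 4531) (nat_lit 596) (nat_lit 4563)))) (.a (.d (nat_lit 561) (nat_lit 527) (nat_lit 3599) (nat_lit 532) (nat_lit 2576)) (.f (nat_lit 467) (nat_lit 594) (nat_lit 5586) (.f (nat_lit 435) (nat_lit 530) (nat_lit 5554) (.d (nat_lit 436) (nat_lit 404) (nat_lit 6547) (nat_lit 468) (nat_lit 6579)))))))) (.a (.p (nat_lit 466) (.a (.f (nat_lit 467) (nat_lit 434) (nat_lit 7602) (.f (nat_lit 500) (nat_lit 465) (nat_lit 464) (.d (nat_lit 595) (nat_lit 468) (nat_lit 6611) (nat_lit 498) (nat_lit 7634)))) (.a (.f (nat_lit 595) (nat_lit 498) (nat_lit 7634) (.f (nat_lit 467) (nat_lit 434) (nat_lit 7602) (.d (nat_lit 468) (nat_lit 436) (nat_lit 6579) (nat_lit 500) (nat_lit 6611)))) (.a (.f (nat_lit 467) (nat_lit 434) (nat_lit 7602) (.f (nat_lit 500) (nat_lit 465) (nat_lit 464) (.d (nat_lit 468) (nat_lit 436) (nat_lit 6579) (nat_lit 595) (nat_lit 6611)))) (.a (.f (nat_lit 467) (nat_lit 434) (nat_lit 7602) (.f (nat_lit 465) (nat_lit 500) (nat_lit 464) (.d (nat_lit 463) (nat_lit 431) (nat_lit 7599) (nat_lit 498) (nat_lit 463)))) (.f (nat_lit 498) (nat_lit 595) (nat_lit 7634) (.d (nat_lit 463) (nat_lit 431) (nat_lit 7599) (nat_lit 465) (nat_lit 463)))))))) (.a (.p (nat_lit 595) (.a (.f (nat_lit 498) (nat_lit 466) (nat_lit 7634) (.f (nat_lit 627) (nat_lit 530) (nat_lit 7666) (.d (nat_lit 500) (nat_lit 468) (nat_lit 6611) (nat_lit 532) (nat_lit 6643)))) (.a (.f (nat_lit 626) (nat_lit 594) (nat_lit 5618) (.f (nat_lit 627) (nat_lit 658) (nat_lit 5650) (.d (nat_lit 500) (nat_lit 468) (nat_lit 6611) (nat_lit 532) (nat_lit 6643)))) (.a (.f (nat_lit 596) (nat_lit 628) (nat_lit 4595) (.f (nat_lit 562) (nat_lit 561) (nat_lit 560) (.f (nat_lit 594) (nat_lit 626) (nat_lit 5618) (.f (nat_lit 597) (nat_lit 598) (nat_lit 3634) (.f (nat_lit 565) (nat_lit 566) (nat_lit 2610) (.f (nat_lit 629) (nat_lit 630) (nat_lit 594) (.f (nat_lit 500) (nat_lit 468) (nat_lit 6611) (.d (nat_lit 532) (nat_lit 533) (nat_lit 7668) (nat_lit 564) (nat_lit 4596))))))))) (.f (nat_lit 498) (nat_lit 466) (nat_lit 7634) (.f (nat_lit 627) (nat_lit 530) (nat_lit 7666) (.d (nat_lit 628) (nat_lit 596) (nat_lit 4595) (nat_lit 660) (nat_lit 4627)))))))) (.p (nat_lit 562) (.a (.f (nat_lit 467) (nat_lit 594) (nat_lit 5586) (.f (nat_lit 435) (nat_lit 530) (nat_lit 5554) (.d (nat_lit 532) (nat_lit 561) (nat_lit 2576) (nat_lit 564) (nat_lit 4531)))) (.a (.f (nat_lit 467) (nat_lit 594) (nat_lit 5586) (.f (nat_lit 435) (nat_lit 530) (nat_lit 5554) (.d (nat_lit 564) (nat_lit 532) (nat_lit 4531) (nat_lit 596) (nat_lit 4563)))) (.a (.d (nat_lit 561) (nat_lit 527) (nat_lit 3599) (nat_lit 532) (nat_lit 2576)) (.f (nat_lit 467) (nat_lit 594) (nat_lit 5586) (.f (nat_lit 466) (nat_lit 434) (nat_lit 7602) (.f (nat_lit 435) (nat_lit 530) (nat_lit 5554) (.d (nat_lit 465) (nat_lit 436) (nat_lit 2480) (nat_lit 500) (nat_lit 464))))))))))))))))) (.a (.p (nat_lit 466) (.a (.f (nat_lit 463) (nat_lit 431) (nat_lit 7599) (.f (nat_lit 465) (nat_lit 498) (nat_lit 463) (.f (nat_lit 467) (nat_lit 500) (nat_lit 464) (.d (nat_lit 435) (nat_lit 434) (nat_lit 2479) (nat_lit 436) (nat_lit 2480))))) (.a (.p (nat_lit 531) (.a (.f (nat_lit 595) (nat_lit 498) (nat_lit 7634) (.f (nat_lit 467) (nat_lit 434) (nat_lit 7602) (.d (nat_lit 468) (nat_lit 436) (nat_lit 6579) (nat_lit 500) (nat_lit 6611)))) (.a (.f (nat_lit 467) (nat_lit 434) (nat_lit 7602) (.f (nat_lit 562) (nat_lit 594) (nat_lit 5586) (.f (nat_lit 435) (nat_lit 530) (nat_lit 5554) (.d (nat_lit 564) (nat_lit 532) (nat_lit 4531) (nat_lit 596) (nat_lit 4563))))) (.f (nat_lit 595) (nat_lit 498) (nat_lit 7634) (.f (nat_lit 500) (nat_lit 468) (nat_lit 6611) (.f (nat_lit 627) (nat_lit 532) (nat_lit 6643) (.d (nat_lit 626) (nat_lit 594) (nat_lit 5618) (nat_lit 658) (nat_lit 5650)))))))) (.a (.f (nat_lit 431) (nat_lit 463) (nat_lit 7599) (.f (nat_lit 432) (nat_lit 399) (nat_lit 7567) (.f (nat_lit 467) (nat_lit 465) (nat_lit 3503) (.f (nat_lit 531) (nat_lit 434) (nat_lit 7602) (.f (nat_lit 468) (nat_lit 436) (nat_lit 6579) (.f (nat_lit 500) (nat_lit 595) (nat_lit 6611) (.f (nat_lit 564) (nat_lit 596) (nat_lit 4563) (.f (nat_lit 532) (nat_lit 435) (nat_lit 4531) (.f (nat_lit 565) (nat_lit 597) (nat_lit 4564) (.d (nat_lit 566) (nat_lit 530) (nat_lit 3602) (nat_lit 567) (nat_lit 3603))))))))))) (.a (.f (nat_lit 463) (nat_lit 431) (nat_lit 7599) (.f (nat_lit 498) (nat_lit 465) (nat_lit 463) (.f (nat_lit 531) (nat_lit 595) (nat_lit 7634) (.d (nat_lit 434) (nat_lit 402) (nat_lit 4498) (nat_lit 530) (nat_lit 4530))))) (.f (nat_lit 463) (nat_lit 431) (nat_lit 7599) (.f (nat_lit 465) (nat_lit 498) (nat_lit 463) (.f (nat_lit 467) (nat_lit 500) (nat_lit 464) (.f (nat_lit 436) (nat_lit 435) (nat_lit 2480) (.d (nat_lit 468) (nat_lit 437) (nat_lit 2481) (nat_lit 531) (nat_lit 6579))))))))))) (.a (.p (nat_lit 466) (.a (.f (nat_lit 463) (nat_lit 431) (nat_lit 7599) (.f (nat_lit 465) (nat_lit 498) (nat_lit 463) (.f (nat_lit 467) (nat_lit 500) (nat_lit 464) (.d (nat_lit 435) (nat_lit 434) (nat_lit 2479) (nat_lit 436) (nat_lit 2480))))) (.a (.f (nat_lit 593) (nat_lit 561) (nat_lit 4560) (.f (nat_lit 592) (nat_lit 625) (nat_lit 4592) (.f (nat_lit 623) (nat_lit 591) (nat_lit 5615) (.f (nat_lit 624) (nat_lit 655) (nat_lit 5647) (.f (nat_lit 595) (nat_lit 594) (nat_lit 1615) (.f (nat_lit 531) (nat_lit 498) (nat_lit 7634) (.f (nat_lit 467) (nat_lit 434) (nat_lit 7602) (.d (nat_lit 468) (nat_lit 436) (nat_lit 6579) (nat_lit 500) (nat_lit 6611))))))))) (.a (.f (nat_lit 431) (nat_lit 463) (nat_lit 7599) (.f (nat_lit 432) (nat_lit 399) (nat_lit 7567) (.f (nat_lit 467) (nat_lit 465) (nat_lit 3503) (.f (nat_lit 531) (nat_lit 434) (nat_lit 7602) (.f (nat_lit 468) (nat_lit 436) (nat_lit 6579) (.f (nat_lit 500) (nat_lit 595) (nat_lit 6611) (.f (nat_lit 564) (nat_lit 596) (nat_lit 4563) (.f (nat_lit 532) (nat_lit 435) (nat_lit 4531) (.f (nat_lit 565) (nat_lit 597) (nat_lit 4564) (.d (nat_lit 566) (nat_lit 530) (nat_lit 3602) (nat_lit 567) (nat_lit 3603))))))))))) (.a (.f (nat_lit 463) (nat_lit 431) (nat_lit 7599) (.f (nat_lit 498) (nat_lit 465) (nat_lit 463) (.f (nat_lit 531) (nat_lit 595) (nat_lit 7634) (.d (nat_lit 434) (nat_lit 402) (nat_lit 4498) (nat_lit 530) (nat_lit 4530))))) (.f (nat_lit 463) (nat_lit 431) (nat_lit 7599) (.f (nat_lit 465) (nat_lit 498) (nat_lit 463) (.f (nat_lit 467) (nat_lit 500) (nat_lit 464) (.f (nat_lit 436) (nat_lit 435) (nat_lit 2480) (.d (nat_lit 468) (nat_lit 437) (nat_lit 2481) (nat_lit 531) (nat_lit 6579))))))))))) (.a (.f (nat_lit 561) (nat_lit 593) (nat_lit 4560) (.f (nat_lit 562) (nat_lit 527) (nat_lit 3599) (.f (nat_lit 531) (nat_lit 532) (nat_lit 2576) (.f (nat_lit 467) (nat_lit 594) (nat_lit 5586) (.f (nat_lit 435) (nat_lit 530) (nat_lit 5554) (.d (nat_lit 436) (nat_lit 404) (nat_lit 6547) (nat_lit 468) (nat_lit 6579))))))) (.f (nat_lit 561) (nat_lit 593) (nat_lit 4560) (.f (nat_lit 562) (nat_lit 527) (nat_lit 3599) (.f (nat_lit 531) (nat_lit 532) (nat_lit 2576) (.f (nat_lit 595) (nat_lit 596) (nat_lit 560) (.f (nat_lit 466) (nat_lit 498) (nat_lit 7634) (.f (nat_lit 467) (nat_lit 434) (nat_lit 7602) (.d (nat_lit 468) (nat_lit 436) (nat_lit 6579) (nat_lit 500) (nat_lit 6611))))))))))))))) (.a (.p (nat_lit 563) (.a (.f (nat_lit 561) (nat_lit 593) (nat_lit 4560) (.f (nat_lit 562) (nat_lit 527) (nat_lit 3599) (.f (nat_lit 531) (nat_lit 532) (nat_lit 2576) (.f (nat_lit 595) (nat_lit 596) (nat_lit 560) (.d (nat_lit 594) (nat_lit 467) (nat_lit 5586) (nat_lit 626) (nat_lit 5618)))))) (.a (.f (nat_lit 593) (nat_lit 561) (nat_lit 4560) (.f (nat_lit 592) (nat_lit 625) (nat_lit 4592) (.f (nat_lit 591) (nat_lit 623) (nat_lit 5615) (.f (nat_lit 594) (nat_lit 562) (nat_lit 2607) (.f (nat_lit 595) (nat_lit 564) (nat_lit 2608) (.d (nat_lit 627) (nat_lit 626) (nat_lit 591) (nat_lit 628) (nat_lit 592))))))) (.a (.p (nat_lit 562) (.a (.f (nat_lit 561) (nat_lit 527) (nat_lit 3599) (.f (nat_lit 531) (nat_lit 532) (nat_lit 2576) (.f (nat_lit 595) (nat_lit 596) (nat_lit 560) (.d (nat_lit 594) (nat_lit 467) (nat_lit 5586) (nat_lit 626) (nat_lit 5618))))) (.a s34099 (.a (.p (nat_lit 467) (.a (.f (nat_lit 531) (nat_lit 594) (nat_lit 5586) (.f (nat_lit 435) (nat_lit 530) (nat_lit 5554) (.d (nat_lit 564) (nat_lit 532) (nat_lit 4531) (nat_lit 596) (nat_lit 4563)))) (.a (.f (nat_lit 465) (nat_lit 433) (nat_lit 6576) (.f (nat_lit 466) (nat_lit 500) (nat_lit 464) (.f (nat_lit 531) (nat_lit 434) (nat_lit 7602) (.d (nat_lit 436) (nat_lit 435) (nat_lit 2480) (nat_lit 468) (nat_lit 6579))))) (.a (.f (nat_lit 433) (nat_lit 465) (nat_lit 6576) (.f (nat_lit 432) (nat_lit 401) (nat_lit 6544) (.f (nat_lit 431) (nat_lit 399) (nat_lit 7567) (.f (nat_lit 434) (nat_lit 466) (nat_lit 431) (.f (nat_lit 435) (nat_lit 468) (nat_lit 432) (.d (nat_lit 403) (nat_lit 402) (nat_lit 2447) (nat_lit 404) (nat_lit 2448))))))) (.f (nat_lit 531) (nat_lit 594) (nat_lit 5586) (.f (nat_lit 466) (nat_lit 434) (nat_lit 7602) (.d (nat_lit 465) (nat_lit 433) (nat_lit 6576) (nat_lit 500) (nat_lit 464)))))))) (.a (.f (nat_lit 561) (nat_lit 527) (nat_lit 3599) (.f (nat_lit 531) (nat_lit 532) (nat_lit 2576) (.f (nat_lit 595) (nat_lit 596) (nat_lit 560) (.f (nat_lit 466) (nat_lit 498) (nat_lit 7634) (.f (nat_lit 467) (nat_lit 434) (nat_lit 7602) (.d (nat_lit 468) (nat_lit 436) (nat_lit 6579) (nat_lit 500) (nat_lit 6611))))))) (.a (.f (nat_lit 561) (nat_lit 527) (nat_lit 3599) (.f (nat_lit 596) (nat_lit 595) (nat_lit 560) (.f (nat_lit 564) (nat_lit 597) (nat_lit 561) (.f (nat_lit 532) (nat_lit 533) (nat_lit 2577) (.f (nat_lit 433) (nat_lit 465) (nat_lit 6576) (.f (nat_lit 432) (nat_lit 401) (nat_lit 6544) (.f (nat_lit 431) (nat_lit 399) (nat_lit 7567) (.f (nat_lit 467) (nat_lit 500) (nat_lit 7635) (.f (nat_lit 434) (nat_lit 466) (nat_lit 431) (.f (nat_lit 435) (nat_lit 468) (nat_lit 432) (.d (nat_lit 403) (nat_lit 402) (nat_lit 2447) (nat_lit 404) (nat_lit 2448)))))))))))) (.a (.f (nat_lit 561) (nat_lit 527) (nat_lit 3599) (.f (nat_lit 531) (nat_lit 532) (nat_lit 2576) (.f (nat_lit 595) (nat_lit 596) (nat_lit 560) (.f (nat_lit 498) (nat_lit 466) (nat_lit 7634) (.f (nat_lit 627) (nat_lit 530) (nat_lit 7666) (.d (nat_lit 626) (nat_lit 594) (nat_lit 5618) (nat_lit 658) (nat_lit 5650))))))) (.a (.f (nat_lit 561) (nat_lit 527) (nat_lit 3599) (.f (nat_lit 531) (nat_lit 532) (nat_lit 2576) (.f (nat_lit 467) (nat_lit 594) (nat_lit 5586) (.f (nat_lit 435) (nat_lit 530) (nat_lit 5554) (.d (nat_lit 436) (nat_lit 404) (nat_lit 6547) (nat_lit 468) (nat_lit 6579)))))) (.f (nat_lit 561) (nat_lit 527) (nat_lit 3599) (.f (nat_lit 596) (nat_lit 595) (nat_lit 560) (.f (nat_lit 564) (nat_lit 597) (nat_lit 561) (.f (nat_lit 467) (nat_lit 531) (nat_lit 4563) (.f (nat_lit 433) (nat_lit 465) (nat_lit 6576) (.f (nat_lit 432) (nat_lit 401) (nat_lit 6544) (.f (nat_lit 431) (nat_lit 399) (nat_lit 7567) (.f (nat_lit 434) (nat_lit 466) (nat_lit 431) (.f (nat_lit 435) (nat_lit 468) (nat_lit 432) (.d (nat_lit 403) (nat_lit 402) (nat_lit 2447) (nat_lit 404) (nat_lit 2448))))))))))))))))))) (.a (.p (nat_lit 467) (.a (.f (nat_lit 465) (nat_lit 433) (nat_lit 6576) (.f (nat_lit 466) (nat_lit 500) (nat_lit 464) (.f (nat_lit 531) (nat_lit 434) (nat_lit 7602) (.d (nat_lit 436) (nat_lit 435) (nat_lit 2480) (nat_lit 468) (nat_lit 6579))))) (.a (.p (nat_lit 531) (.a (.f (nat_lit 564) (nat_lit 596) (nat_lit 4563) (.f (nat_lit 435) (nat_lit 532) (nat_lit 4531) (.d (nat_lit 562) (nat_lit 530) (nat_lit 5554) (nat_lit 594) (nat_lit 5586)))) (.f (nat_lit 466) (nat_lit 434) (nat_lit 7602) (.f (nat_lit 595) (nat_lit 498) (nat_lit 7634) (.d (nat_lit 468) (nat_lit 436) (nat_lit 6579) (nat_lit 500) (nat_lit 6611)))))) (.a (.f (nat_lit 433) (nat_lit 465) (nat_lit 6576) (.f (nat_lit 432) (nat_lit 401) (nat_lit 6544) (.f (nat_lit 431) (nat_lit 399) (nat_lit 7567) (.f (nat_lit 434) (nat_lit 466) (nat_lit 431) (.f (nat_lit 435) (nat_lit 468) (nat_lit 432) (.d (nat_lit 403) (nat_lit 402) (nat_lit 2447) (nat_lit 404) (nat_lit 2448))))))) (.a (.p (nat_lit 531) (.a (.f (nat_lit 564) (nat_lit 596) (nat_lit 4563) (.f (nat_lit 435) (nat_lit 532) (nat_lit 4531) (.d (nat_lit 562) (nat_lit 530) (nat_lit 5554) (nat_lit 594) (nat_lit 5586)))) (.a (.f (nat_lit 564) (nat_lit 596) (nat_lit 4563) (.f (nat_lit 435) (nat_lit 532) (nat_lit 4531) (.d (nat_lit 436) (nat_lit 404) (nat_lit 6547) (nat_lit 468) (nat_lit 6579)))) (.f (nat_lit 468) (nat_lit 436) (nat_lit 6579) (.f (nat_lit 595) (nat_lit 500) (nat_lit 6611) (.d (nat_lit 594) (nat_lit 562) (nat_lit 5586) (nat_lit 626) (nat_lit 5618))))))) (.a (.f (nat_lit 465) (nat_lit 433) (nat_lit 6576) (.f (nat_lit 466) (nat_lit 500) (nat_lit 464) (.f (nat_lit 531) (nat_lit 434) (nat_lit 7602) (.f (nat_lit 435) (nat_lit 436) (nat_lit 2480) (.d (nat_lit 564) (nat_lit 532) (nat_lit 4531) (nat_lit 596) (nat_lit 4563)))))) (.f (nat_lit 465) (nat_lit 433) (nat_lit 6576) (.f (nat_lit 466) (nat_lit 500) (nat_lit 464) (.f (nat_lit 531) (nat_lit 434) (nat_lit 7602) (.f (nat_lit 595) (nat_lit 498) (nat_lit 7634) (.d (nat_lit 594) (nat_lit 562) (nat_lit 5586) (nat_lit 626) (nat_lit 5618)))))))))))) (.a (.p (nat_lit 531) (.a (.f (nat_lit 593) (nat_lit 561) (nat_lit 4560) (.f (nat_lit 592) (nat_lit 625) (nat_lit 4592) (.f (nat_lit 623) (nat_lit 591) (nat_lit 5615) (.f (nat_lit 624) (nat_lit 655) (nat_lit 5647) (.f (nat_lit 595) (nat_lit 594) (nat_lit 1615) (.f (nat_lit 500) (nat_lit 468) (nat_lit 6611) (.f (nat_lit 627) (nat_lit 532) (nat_lit 6643) (.d (nat_lit 628) (nat_lit 596) (nat_lit 4595) (nat_lit 660) (nat_lit 4627))))))))) (.f (nat_lit 433) (nat_lit 465) (nat_lit 6576) (.f (nat_lit 432) (nat_lit 401) (nat_lit 6544) (.f (nat_lit 399) (nat_lit 431) (nat_lit 7567) (.f (nat_lit 400) (nat_lit 367) (nat_lit 7535) (.f (nat_lit 434) (nat_lit 435) (nat_lit 3471) (.f (nat_lit 466) (nat_lit 467) (nat_lit 7602) (.d (nat_lit 498) (nat_lit 402) (nat_lit 4498) (nat_lit 530) (nat_lit 4530)))))))))) (.a (.f (nat_lit 561) (nat_lit 593) (nat_lit 4560) (.f (nat_lit 562) (nat_lit 527) (nat_lit 3599) (.f (nat_lit 531) (nat_lit 532) (nat_lit 2576) (.f (nat_lit 467) (nat_lit 594) (nat_lit 5586) (.f (nat_lit 435) (nat_lit 530) (nat_lit 5554) (.d (nat_lit 436) (nat_lit 404) (nat_lit 6547) (nat_lit 468) (nat_lit 6579))))))) (.f (nat_lit 561) (nat_lit 593) (nat_lit 4560) (.f (nat_lit 562) (nat_lit 527) (nat_lit 3599) (.f (nat_lit 531) (nat_lit 532) (nat_lit 2576) (.f (nat_lit 595) (nat_lit 596) (nat_lit 560) (.f (nat_lit 466) (nat_lit 498) (nat_lit 7634) (.f (nat_lit 467) (nat_lit 434) (nat_lit 7602) (.d (nat_lit 468) (nat_lit 436) (nat_lit 6579) (nat_lit 500) (nat_lit 6611))))))))))))))) (.p (nat_lit 563) (.a (.f (nat_lit 561) (nat_lit 593) (nat_lit 4560) (.f (nat_lit 562) (nat_lit 527) (nat_lit 3599) (.f (nat_lit 531) (nat_lit 532) (nat_lit 2576) (.f (nat_lit 595) (nat_lit 596) (nat_lit 560) (.d (nat_lit 594) (nat_lit 467) (nat_lit 5586) (nat_lit 626) (nat_lit 5618)))))) (.a (.f (nat_lit 593) (nat_lit 561) (nat_lit 4560) (.f (nat_lit 592) (nat_lit 625) (nat_lit 4592) (.f (nat_lit 591) (nat_lit 623) (nat_lit 5615) (.f (nat_lit 594) (nat_lit 562) (nat_lit 2607) (.f (nat_lit 595) (nat_lit 564) (nat_lit 2608) (.d (nat_lit 627) (nat_lit 626) (nat_lit 591) (nat_lit 628) (nat_lit 592))))))) (.a (.p (nat_lit 562) (.a (.f (nat_lit 561) (nat_lit 527) (nat_lit 3599) (.f (nat_lit 531) (nat_lit 532) (nat_lit 2576) (.f (nat_lit 595) (nat_lit 596) (nat_lit 560) (.d (nat_lit 594) (nat_lit 467) (nat_lit 5586) (nat_lit 626) (nat_lit 5618))))) (.a (.p (nat_lit 531) (.a (.f (nat_lit 467) (nat_lit 594) (nat_lit 5586) (.f (nat_lit 435) (nat_lit 530) (nat_lit 5554) (.d (nat_lit 532) (nat_lit 561) (nat_lit 2576) (nat_lit 564) (nat_lit 4531)))) (.a (.f (nat_lit 467) (nat_lit 594) (nat_lit 5586) (.f (nat_lit 435) (nat_lit 530) (nat_lit 5554) (.d (nat_lit 564) (nat_lit 532) (nat_lit 4531) (nat_lit 596) (nat_lit 4563)))) (.a (.f (nat_lit 561) (nat_lit 532) (nat_lit 2576) (.f (nat_lit 595) (nat_lit 596) (nat_lit 560) (.f (nat_lit 466) (nat_lit 498) (nat_lit 7634) (.f (nat_lit 467) (nat_lit 434) (nat_lit 7602) (.d (nat_lit 468) (nat_lit 436) (nat_lit 6579) (nat_lit 500) (nat_lit 6611)))))) (.a (.f (nat_lit 561) (nat_lit 532) (nat_lit 2576) (.f (nat_lit 595) (nat_lit 596) (nat_lit 560) (.f (nat_lit 498) (nat_lit 466) (nat_lit 7634) (.f (nat_lit 627) (nat_lit 530) (nat_lit 7666) (.d (nat_lit 626) (nat_lit 594) (nat_lit 5618) (nat_lit 658) (nat_lit 5650)))))) (.f (nat_lit 467) (nat_lit 594) (nat_lit 5586) (.f (nat_lit 435) (nat_lit 530) (nat_lit 5554) (.d (nat_lit 436) (nat_lit 404) (nat_lit 6547) (nat_lit 468) (nat_lit 6579))))))))) (.a (.p (nat_lit 467) (.a (.f (nat_lit 531) (nat_lit 594) (nat_lit 5586) (.f (nat_lit 435) (nat_lit 530) (nat_lit 5554) (.d (nat_lit 564) (nat_lit 532) (nat_lit 4531) (nat_lit 596) (nat_lit 4563)))) (.a (.f (nat_lit 431) (nat_lit 463) (nat_lit 7599) (.f (nat_lit 432) (nat_lit 399) (nat_lit 7567) (.f (nat_lit 433) (nat_lit 401) (nat_lit 6544) (.f (nat_lit 434) (nat_lit 466) (nat_lit 431) (.f (nat_lit 435) (nat_lit 468) (nat_lit 432) (.d (nat_lit 403) (nat_lit 402) (nat_lit 2447) (nat_lit 404) (nat_lit 2448))))))) (.f (nat_lit 531) (nat_lit 594) (nat_lit 5586) (.f (nat_lit 466) (nat_lit 434) (nat_lit 7602) (.f (nat_lit 595) (nat_lit 498) (nat_lit 7634) (.d (nat_lit 468) (nat_lit 436) (nat_lit 6579) (nat_lit 500) (nat_lit 6611)))))))) (.a (.f (nat_lit 561) (nat_lit 527) (nat_lit 3599) (.f (nat_lit 531) (nat_lit 532) (nat_lit 2576) (.f (nat_lit 467) (nat_lit 594) (nat_lit 5586) (.f (nat_lit 435) (nat_lit 530) (nat_lit 5554) (.d (nat_lit 436) (nat_lit 404) (nat_lit 6547) (nat_lit 468) (nat_lit 6579)))))) (.a (.f (nat_lit 561) (nat_lit 527) (nat_lit 3599) (.f (nat_lit 531) (nat_lit 532) (nat_lit 2576) (.f (nat_lit 595) (nat_lit 596) (nat_lit 560) (.f (nat_lit 466) (nat_lit 498) (nat_lit 7634) (.f (nat_lit 467) (nat_lit 434) (nat_lit 7602) (.d (nat_lit 468) (nat_lit 436) (nat_lit 6579) (nat_lit 500) (nat_lit 6611))))))) (.a (.f (nat_lit 561) (nat_lit 527) (nat_lit 3599) (.f (nat_lit 596) (nat_lit 595) (nat_lit 560) (.f (nat_lit 564) (nat_lit 597) (nat_lit 561) (.f (nat_lit 532) (nat_lit 533) (nat_lit 2577) (.f (nat_lit 431) (nat_lit 463) (nat_lit 7599) (.f (nat_lit 432) (nat_lit 399) (nat_lit 7567) (.f (nat_lit 433) (nat_lit 401) (nat_lit 6544) (.f (nat_lit 467) (nat_lit 500) (nat_lit 7635) (.f (nat_lit 434) (nat_lit 466) (nat_lit 431) (.f (nat_lit 435) (nat_lit 468) (nat_lit 432) (.d (nat_lit 403) (nat_lit 402) (nat_lit 2447) (nat_lit 404) (nat_lit 2448)))))))))))) (.a (.f (nat_lit 561) (nat_lit 527) (nat_lit 3599) (.f (nat_lit 531) (nat_lit 532) (nat_lit 2576) (.f (nat_lit 595) (nat_lit 596) (nat_lit 560) (.f (nat_lit 498) (nat_lit 466) (nat_lit 7634) (.f (nat_lit 627) (nat_lit 530) (nat_lit 7666) (.d (nat_lit 626) (nat_lit 594) (nat_lit 5618) (nat_lit 658) (nat_lit 5650))))))) (.f (nat_lit 561) (nat_lit 527) (nat_lit 3599) (.f (nat_lit 596) (nat_lit 595) (nat_lit 560) (.f (nat_lit 564) (nat_lit 597) (nat_lit 561) (.f (nat_lit 467) (nat_lit 531) (nat_lit 4563) (.f (nat_lit 431) (nat_lit 463) (nat_lit 7599) (.f (nat_lit 432) (nat_lit 399) (nat_lit 7567) (.f (nat_lit 433) (nat_lit 401) (nat_lit 6544) (.f (nat_lit 434) (nat_lit 466) (nat_lit 431) (.f (nat_lit 435) (nat_lit 468) (nat_lit 432) (.d (nat_lit 403) (nat_lit 402) (nat_lit 2447) (nat_lit 404) (nat_lit 2448))))))))))))))))))) (.a (.p (nat_lit 592) (.a (.f (nat_lit 623) (nat_lit 591) (nat_lit 5615) (.f (nat_lit 624) (nat_lit 655) (nat_lit 5647) (.d (nat_lit 625) (nat_lit 593) (nat_lit 4592) (nat_lit 657) (nat_lit 4624)))) (.a (.p (nat_lit 594) (.a (.f (nat_lit 593) (nat_lit 625) (nat_lit 4592) (.f (nat_lit 595) (nat_lit 564) (nat_lit 2608) (.f (nat_lit 531) (nat_lit 626) (nat_lit 5618) (.d (nat_lit 562) (nat_lit 467) (nat_lit 5586) (nat_lit 591) (nat_lit 2607))))) (.a s34476 (.a (.f (nat_lit 593) (nat_lit 625) (nat_lit 4592) (.f (nat_lit 595) (nat_lit 564) (nat_lit 2608) (.f (nat_lit 531) (nat_lit 626) (nat_lit 5618) (.d (nat_lit 628) (nat_lit 596) (nat_lit 4595) (nat_lit 627) (nat_lit 592))))) (.a (.f (nat_lit 593) (nat_lit 625) (nat_lit 4592) (.f (nat_lit 562) (nat_lit 591) (nat_lit 2607) (.f (nat_lit 531) (nat_lit 467) (nat_lit 5586) (.d (nat_lit 626) (nat_lit 530) (nat_lit 6642) (nat_lit 658) (nat_lit 6674))))) (.a (.f (nat_lit 593) (nat_lit 625) (nat_lit 4592) (.f (nat_lit 595) (nat_lit 564) (nat_lit 2608) (.f (nat_lit 627) (nat_lit 628) (nat_lit 592) (.d (nat_lit 591) (nat_lit 562) (nat_lit 2607) (nat_lit 626) (nat_lit 591))))) (.f (nat_lit 593) (nat_lit 625) (nat_lit 4592) (.f (nat_lit 595) (nat_lit 564) (nat_lit 2608) (.f (nat_lit 627) (nat_lit 628) (nat_lit 592) (.f (nat_lit 562) (nat_lit 591) (nat_lit 2607) (.d (nat_lit 530) (nat_lit 498) (nat_lit 4594) (nat_lit 659) (nat_lit 7698)))))))))))) (.a (.p (nat_lit 595) (.a (.f (nat_lit 623) (nat_lit 591) (nat_lit 5615) (.f (nat_lit 624) (nat_lit 655) (nat_lit 5647) (.f (nat_lit 625) (nat_lit 657) (nat_lit 4624) (.f (nat_lit 626) (nat_lit 594) (nat_lit 2639) (.f (nat_lit 627) (nat_lit 596) (nat_lit 2640) (.d (nat_lit 659) (nat_lit 658) (nat_lit 623) (nat_lit 660) (nat_lit 624))))))) (.a (.p (nat_lit 531) (.a (.f (nat_lit 596) (nat_lit 628) (nat_lit 4595) (.f (nat_lit 467) (nat_lit 564) (nat_lit 4563) (.d (nat_lit 594) (nat_lit 562) (nat_lit 5586) (nat_lit 626) (nat_lit 5618)))) (.a (.f (nat_lit 500) (nat_lit 468) (nat_lit 6611) (.f (nat_lit 627) (nat_lit 532) (nat_lit 6643) (.d (nat_lit 626) (nat_lit 594) (nat_lit 5618) (nat_lit 658) (nat_lit 5650)))) (.f (nat_lit 498) (nat_lit 466) (nat_lit 7634) (.f (nat_lit 627) (nat_lit 530) (nat_lit 7666) (.d (nat_lit 500) (nat_lit 468) (nat_lit 6611) (nat_lit 532) (nat_lit 6643))))))) (.a (.p (nat_lit 531) (.a (.f (nat_lit 498) (nat_lit 466) (nat_lit 7634) (.f (nat_lit 627) (nat_lit 530) (nat_lit 7666) (.d (nat_lit 500) (nat_lit 468) (nat_lit 6611) (nat_lit 532) (nat_lit 6643)))) (.a (.f (nat_lit 596) (nat_lit 628) (nat_lit 4595) (.f (nat_lit 467) (nat_lit 564) (nat_lit 4563) (.d (nat_lit 468) (nat_lit 436) (nat_lit 6579) (nat_lit 500) (nat_lit 6611)))) (.f (nat_lit 498) (nat_lit 466) (nat_lit 7634) (.f (nat_lit 627) (nat_lit 530) (nat_lit 7666) (.d (nat_lit 628) (nat_lit 596) (nat_lit 4595) (nat_lit 660) (nat_lit 4627))))))) (.a (.p (nat_lit 467) (.a (.f (nat_lit 431) (nat_lit 463) (nat_lit 7599) (.f (nat_lit 432) (nat_lit 399) (nat_lit 7567) (.f (nat_lit 433) (nat_lit 401) (nat_lit 6544) (.f (nat_lit 434) (nat_lit 466) (nat_lit 431) (.f (nat_lit 435) (nat_lit 468) (nat_lit 432) (.d (nat_lit 403) (nat_lit 402) (nat_lit 2447) (nat_lit 404) (nat_lit 2448))))))) (.f (nat_lit 623) (nat_lit 591) (nat_lit 5615) (.f (nat_lit 624) (nat_lit 655) (nat_lit 5647) (.f (nat_lit 625) (nat_lit 657) (nat_lit 4624) (.f (nat_lit 594) (nat_lit 626) (nat_lit 2639) (.f (nat_lit 531) (nat_lit 562) (nat_lit 5586) (.d (nat_lit 596) (nat_lit 564) (nat_lit 4563) (nat_lit 628) (nat_lit 4595))))))))) (.f (nat_lit 623) (nat_lit 591) (nat_lit 5615) (.f (nat_lit 624) (nat_lit 655) (nat_lit 5647) (.f (nat_lit 625) (nat_lit 657) (nat_lit 4624) (.f (nat_lit 626) (nat_lit 594) (nat_lit 2639) (.f (nat_lit 659) (nat_lit 658) (nat_lit 623) (.f (nat_lit 627) (nat_lit 660) (nat_lit 624) (.f (nat_lit 530) (nat_lit 562) (nat_lit 7698) (.f (nat_lit 531) (nat_lit 498) (nat_lit 7666) (.d (nat_lit 532) (nat_lit 500) (nat_lit 6643) (nat_lit 564) (nat_lit 6675))))))))))))))) (.a (.p (nat_lit 594) (.a (.f (nat_lit 591) (nat_lit 623) (nat_lit 5615) (.f (nat_lit 593) (nat_lit 562) (nat_lit 2607) (.f (nat_lit 595) (nat_lit 564) (nat_lit 2608) (.d (nat_lit 627) (nat_lit 626) (nat_lit 591) (nat_lit 628) (nat_lit 592))))) (.a s34476 (.a (.f (nat_lit 623) (nat_lit 591) (nat_lit 5615) (.f (nat_lit 624) (nat_lit 655) (nat_lit 5647) (.f (nat_lit 595) (nat_lit 593) (nat_lit 1615) (.f (nat_lit 531) (nat_lit 626) (nat_lit 5618) (.f (nat_lit 596) (nat_lit 628) (nat_lit 4595) (.f (nat_lit 564) (nat_lit 467) (nat_lit 4563) (.f (nat_lit 500) (nat_lit 468) (nat_lit 6611) (.f (nat_lit 532) (nat_lit 627) (nat_lit 5619) (.f (nat_lit 501) (nat_lit 469) (nat_lit 6612) (.d (nat_lit 502) (nat_lit 503) (nat_lit 1523) (nat_lit 530) (nat_lit 1522))))))))))) (.a (.f (nat_lit 591) (nat_lit 623) (nat_lit 5615) (.f (nat_lit 562) (nat_lit 593) (nat_lit 2607) (.f (nat_lit 531) (nat_lit 467) (nat_lit 5586) (.d (nat_lit 626) (nat_lit 530) (nat_lit 6642) (nat_lit 658) (nat_lit 6674))))) (.f (nat_lit 591) (nat_lit 623) (nat_lit 5615) (.f (nat_lit 593) (nat_lit 562) (nat_lit 2607) (.f (nat_lit 595) (nat_lit 564) (nat_lit 2608) (.f (nat_lit 628) (nat_lit 627) (nat_lit 592) (.d (nat_lit 596) (nat_lit 531) (nat_lit 4595) (nat_lit 629) (nat_lit 593))))))))))) (.p (nat_lit 595) (.a (.f (nat_lit 593) (nat_lit 625) (nat_lit 4592) (.f (nat_lit 594) (nat_lit 564) (nat_lit 2608) (.f (nat_lit 531) (nat_lit 626) (nat_lit 5618) (.d (nat_lit 628) (nat_lit 596) (nat_lit 4595) (nat_lit 627) (nat_lit 592))))) (.a (.p (nat_lit 531) (.a (.f (nat_lit 596) (nat_lit 628) (nat_lit 4595) (.f (nat_lit 467) (nat_lit 564) (nat_lit 4563) (.d (nat_lit 594) (nat_lit 562) (nat_lit 5586) (nat_lit 626) (nat_lit 5618)))) (.a (.f (nat_lit 500) (nat_lit 468) (nat_lit 6611) (.f (nat_lit 627) (nat_lit 532) (nat_lit 6643) (.d (nat_lit 626) (nat_lit 594) (nat_lit 5618) (nat_lit 658) (nat_lit 5650)))) (.f (nat_lit 498) (nat_lit 466) (nat_lit 7634) (.f (nat_lit 627) (nat_lit 530) (nat_lit 7666) (.d (nat_lit 500) (nat_lit 468) (nat_lit 6611) (nat_lit 532) (nat_lit 6643))))))) (.a (.p (nat_lit 531) (.a (.f (nat_lit 498) (nat_lit 466) (nat_lit 7634) (.f (nat_lit 627) (nat_lit 530) (nat_lit 7666) (.d (nat_lit 500) (nat_lit 468) (nat_lit 6611) (nat_lit 532) (nat_lit 6643)))) (.a (.f (nat_lit 596) (nat_lit 628) (nat_lit 4595) (.f (nat_lit 467) (nat_lit 564) (nat_lit 4563) (.d (nat_lit 468) (nat_lit 436) (nat_lit 6579) (nat_lit 500) (nat_lit 6611)))) (.f (nat_lit 498) (nat_lit 466) (nat_lit 7634) (.f (nat_lit 627) (nat_lit 530) (nat_lit 7666) (.d (nat_lit 628) (nat_lit 596) (nat_lit 4595) (nat_lit 660) (nat_lit 4627))))))) (.a (.f (nat_lit 625) (nat_lit 593) (nat_lit 4592) (.f (nat_lit 624) (nat_lit 657) (nat_lit 4624) (.f (nat_lit 623) (nat_lit 655) (nat_lit 5647) (.f (nat_lit 626) (nat_lit 594) (nat_lit 2639) (.f (nat_lit 627) (nat_lit 596) (nat_lit 2640) (.d (nat_lit 659) (nat_lit 658) (nat_lit 623) (nat_lit 660) (nat_lit 624))))))) (.f (nat_lit 593) (nat_lit 625) (nat_lit 4592) (.f (nat_lit 594) (nat_lit 564) (nat_lit 2608) (.f (nat_lit 531) (nat_lit 626) (nat_lit 5618) (.f (nat_lit 467) (nat_lit 562) (nat_lit 5586) (.d (nat_lit 468) (nat_lit 436) (nat_lit 6579) (nat_lit 500) (nat_lit 6611)))))))))))))))) (.a (.p (nat_lit 595) (.a (.f (nat_lit 593) (nat_lit 561) (nat_lit 4560) (.f (nat_lit 592) (nat_lit 625) (nat_lit 4592) (.f (nat_lit 594) (nat_lit 564) (nat_lit 2608) (.f (nat_lit 531) (nat_lit 626) (nat_lit 5618) (.d (nat_lit 628) (nat_lit 596) (nat_lit 4595) (nat_lit 627) (nat_lit 592)))))) (.a (.p (nat_lit 531) (.a (.f (nat_lit 498) (nat_lit 466) (nat_lit 7634) (.f (nat_lit 627) (nat_lit 530) (nat_lit 7666) (.d (nat_lit 500) (nat_lit 468) (nat_lit 6611) (nat_lit 532) (nat_lit 6643)))) (.a (.f (nat_lit 500) (nat_lit 468) (nat_lit 6611) (.f (nat_lit 627) (nat_lit 532) (nat_lit 6643) (.d (nat_lit 628) (nat_lit 596) (nat_lit 4595) (nat_lit 660) (nat_lit 4627)))) (.a (.f (nat_lit 596) (nat_lit 628) (nat_lit 4595) (.f (nat_lit 467) (nat_lit 564) (nat_lit 4563) (.d (nat_lit 468) (nat_lit 436) (nat_lit 6579) (nat_lit 500) (nat_lit 6611)))) (.f (nat_lit 498) (nat_lit 466) (nat_lit 7634) (.f (nat_lit 627) (nat_lit 530) (nat_lit 7666) (.d (nat_lit 628) (nat_lit 596) (nat_lit 4595) (nat_lit 660) (nat_lit 4627)))))))) (.a (.f (nat_lit 593) (nat_lit 561) (nat_lit 4560) (.f (nat_lit 592) (nat_lit 625) (nat_lit 4592) (.f (nat_lit 594) (nat_lit 564) (nat_lit 2608) (.d (nat_lit 623) (nat_lit 591) (nat_lit 5615) (nat_lit 624) (nat_lit 1615))))) (.f (nat_lit 593) (nat_lit 561) (nat_lit 4560) (.f (nat_lit 592) (nat_lit 625) (nat_lit 4592) (.f (nat_lit 623) (nat_lit 591) (nat_lit 5615) (.d (nat_lit 624) (nat_lit 594) (nat_lit 1615) (nat_lit 655) (nat_lit 5647))))))))) (.a (.f (nat_lit 561) (nat_lit 593) (nat_lit 4560) (.f (nat_lit 562) (nat_lit 527) (nat_lit 3599) (.f (nat_lit 531) (nat_lit 532) (nat_lit 2576) (.f (nat_lit 467) (nat_lit 594) (nat_lit 5586) (.f (nat_lit 435) (nat_lit 530) (nat_lit 5554) (.d (nat_lit 436) (nat_lit 404) (nat_lit 6547) (nat_lit 468) (nat_lit 6579))))))) (.f (nat_lit 561) (nat_lit 593) (nat_lit 4560) (.f (nat_lit 562) (nat_lit 527) (nat_lit 3599) (.f (nat_lit 531) (nat_lit 532) (nat_lit 2576) (.f (nat_lit 595) (nat_lit 596) (nat_lit 560) (.f (nat_lit 466) (nat_lit 498) (nat_lit 7634) (.f (nat_lit 467) (nat_lit 434) (nat_lit 7602) (.d (nat_lit 468) (nat_lit 436) (nat_lit 6579) (nat_lit 500) (nat_lit 6611))))))))))))))))))))) (.a (.p (nat_lit 563) (.a s33688 (.a (.p (nat_lit 561) (.a (.f (nat_lit 562) (nat_lit 527) (nat_lit 3599) (.f (nat_lit 531) (nat_lit 532) (nat_lit 2576) (.f (nat_lit 595) (nat_lit 596) (nat_lit 560) (.d (nat_lit 594) (nat_lit 467) (nat_lit 5586) (nat_lit 626) (nat_lit 5618))))) (.f (nat_lit 593) (nat_lit 464) (nat_lit 4560) (.d (nat_lit 625) (nat_lit 592) (nat_lit 4592) (nat_lit 657) (nat_lit 7696))))) (.a (.p (nat_lit 592) (.a (.f (nat_lit 593) (nat_lit 625) (nat_lit 4592) (.f (nat_lit 561) (nat_lit 464) (nat_lit 4560) (.d (nat_lit 562) (nat_lit 564) (nat_lit 1584) (nat_lit 591) (nat_lit 1583)))) (.a (.f (nat_lit 591) (nat_lit 623) (nat_lit 5615) (.f (nat_lit 465) (nat_lit 497) (nat_lit 6608) (.f (nat_lit 464) (nat_lit 433) (nat_lit 6576) (.f (nat_lit 431) (nat_lit 463) (nat_lit 7599) (.f (nat_lit 432) (nat_lit 399) (nat_lit 7567) (.f (nat_lit 467) (nat_lit 466) (nat_lit 3503) (.f (nat_lit 562) (nat_lit 561) (nat_lit 1583) (.f (nat_lit 531) (nat_lit 594) (nat_lit 5586) (.f (nat_lit 435) (nat_lit 530) (nat_lit 5554) (.d (nat_lit 564) (nat_lit 532) (nat_lit 4531) (nat_lit 596) (nat_lit 4563))))))))))) (.a (.f (nat_lit 625) (nat_lit 593) (nat_lit 4592) (.f (nat_lit 624) (nat_lit 657) (nat_lit 4624) (.d (nat_lit 623) (nat_lit 591) (nat_lit 5615) (nat_lit 655) (nat_lit 5647)))) (.f (nat_lit 593) (nat_lit 625) (nat_lit 4592) (.f (nat_lit 464) (nat_lit 561) (nat_lit 4560) (.d (nat_lit 465) (nat_lit 433) (nat_lit 6576) (nat_lit 497) (nat_lit 6608)))))))) (.a s34680 (.a (.p (nat_lit 467) (.a (.p (nat_lit 592) (.a (.f (nat_lit 465) (nat_lit 497) (nat_lit 6608) (.f (nat_lit 464) (nat_lit 433) (nat_lit 6576) (.f (nat_lit 466) (nat_lit 500) (nat_lit 464) (.d (nat_lit 431) (nat_lit 432) (nat_lit 3503) (nat_lit 463) (nat_lit 7599))))) (.f (nat_lit 625) (nat_lit 593) (nat_lit 4592) (.f (nat_lit 624) (nat_lit 657) (nat_lit 4624) (.d (nat_lit 623) (nat_lit 591) (nat_lit 5615) (nat_lit 655) (nat_lit 5647)))))) (.a (.p (nat_lit 464) (.a (.f (nat_lit 431) (nat_lit 463) (nat_lit 7599) (.f (nat_lit 432) (nat_lit 399) (nat_lit 7567) (.f (nat_lit 433) (nat_lit 401) (nat_lit 6544) (.f (nat_lit 434) (nat_lit 466) (nat_lit 431) (.f (nat_lit 435) (nat_lit 468) (nat_lit 432) (.d (nat_lit 403) (nat_lit 402) (nat_lit 2447) (nat_lit 404) (nat_lit 2448))))))) (.a (.f (nat_lit 465) (nat_lit 433) (nat_lit 6576) (.f (nat_lit 466) (nat_lit 500) (nat_lit 464) (.f (nat_lit 531) (nat_lit 434) (nat_lit 7602) (.d (nat_lit 436) (nat_lit 435) (nat_lit 2480) (nat_lit 468) (nat_lit 6579))))) (.a (.f (nat_lit 431) (nat_lit 463) (nat_lit 7599) (.f (nat_lit 432) (nat_lit 399) (nat_lit 7567) (.f (nat_lit 466) (nat_lit 465) (nat_lit 3503) (.f (nat_lit 531) (nat_lit 434) (nat_lit 7602) (.f (nat_lit 468) (nat_lit 436) (nat_lit 6579) (.f (nat_lit 500) (nat_lit 595) (nat_lit 6611) (.f (nat_lit 564) (nat_lit 596) (nat_lit 4563) (.f (nat_lit 532) (nat_lit 435) (nat_lit 4531) (.f (nat_lit 565) (nat_lit 597) (nat_lit 4564) (.d (nat_lit 566) (nat_lit 530) (nat_lit 3602) (nat_lit 567) (nat_lit 3603))))))))))) (.f (nat_lit 433) (nat_lit 465) (nat_lit 6576) (.f (nat_lit 432) (nat_lit 401) (nat_lit 6544) (.d (nat_lit 431) (nat_lit 399) (nat_lit 7567) (nat_lit 463) (nat_lit 7599)))))))) (.a (.p (nat_lit 531) (.a (.f (nat_lit 564) (nat_lit 596) (nat_lit 4563) (.f (nat_lit 435) (nat_lit 532) (nat_lit 4531) (.d (nat_lit 562) (nat_lit 530) (nat_lit 5554) (nat_lit 594) (nat_lit 5586)))) (.a (.f (nat_lit 564) (nat_lit 596) (nat_lit 4563) (.f (nat_lit 435) (nat_lit 532) (nat_lit 4531) (.d (nat_lit 436) (nat_lit 404) (nat_lit 6547) (nat_lit 468) (nat_lit 6579)))) (.a (.f (nat_lit 562) (nat_lit 594) (nat_lit 5586) (.f (nat_lit 435) (nat_lit 530) (nat_lit 5554) (.d (nat_lit 436) (nat_lit 404) (nat_lit 6547) (nat_lit 468) (nat_lit 6579)))) (.f (nat_lit 468) (nat_lit 436) (nat_lit 6579) (.f (nat_lit 466) (nat_lit 434) (nat_lit 7602) (.f (nat_lit 500) (nat_lit 595) (nat_lit 6611) (.d (nat_lit 465) (nat_lit 497) (nat_lit 1488) (nat_lit 501) (nat_lit 465))))))))) (.a (.p (nat_lit 531) (.a (.f (nat_lit 564) (nat_lit 596) (nat_lit 4563) (.f (nat_lit 435) (nat_lit 532) (nat_lit 4531) (.d (nat_lit 562) (nat_lit 530) (nat_lit 5554) (nat_lit 594) (nat_lit 5586)))) (.a (.f (nat_lit 564) (nat_lit 596) (nat_lit 4563) (.f (nat_lit 435) (nat_lit 532) (nat_lit 4531) (.d (nat_lit 436) (nat_lit 404) (nat_lit 6547) (nat_lit 468) (nat_lit 6579)))) (.a (.f (nat_lit 562) (nat_lit 594) (nat_lit 5586) (.f (nat_lit 435) (nat_lit 530) (nat_lit 5554) (.d (nat_lit 436) (nat_lit 404) (nat_lit 6547) (nat_lit 468) (nat_lit 6579)))) (.f (nat_lit 468) (nat_lit 436) (nat_lit 6579) (.f (nat_lit 595) (nat_lit 500) (nat_lit 6611) (.d (nat_lit 594) (nat_lit 562) (nat_lit 5586) (nat_lit 626) (nat_lit 5618)))))))) (.p (nat_lit 592) (.a (.f (nat_lit 625) (nat_lit 593) (nat_lit 4592) (.f (nat_lit 624) (nat_lit 657) (nat_lit 4624) (.d (nat_lit 623) (nat_lit 591) (nat_lit 5615) (nat_lit 655) (nat_lit 5647)))) (.f (nat_lit 465) (nat_lit 497) (nat_lit 6608) (.f (nat_lit 464) (nat_lit 433) (nat_lit 6576) (.f (nat_lit 431) (nat_lit 463) (nat_lit 7599) (.d (nat_lit 432) (nat_lit 399) (nat_lit 7567) (nat_lit 466) (nat_lit 3503)))))))))))) (.a (.p (nat_lit 531) (.a (.p (nat_lit 595) (.a (.f (nat_lit 596) (nat_lit 628) (nat_lit 4595) (.f (nat_lit 564) (nat_lit 467) (nat_lit 4563) (.f (nat_lit 594) (nat_lit 626) (nat_lit 5618) (.d (nat_lit 593) (nat_lit 561) (nat_lit 3632) (nat_lit 592) (nat_lit 2608))))) (.a (.f (nat_lit 500) (nat_lit 468) (nat_lit 6611) (.f (nat_lit 627) (nat_lit 532) (nat_lit 6643) (.d (nat_lit 626) (nat_lit 594) (nat_lit 5618) (nat_lit 658) (nat_lit 5650)))) (.f (nat_lit 500) (nat_lit 468) (nat_lit 6611) (.f (nat_lit 627) (nat_lit 532) (nat_lit 6643) (.d (nat_lit 628) (nat_lit 596) (nat_lit 4595) (nat_lit 660) (nat_lit 4627))))))) (.a s34628 (.a (.p (nat_lit 592) (.a (.f (nat_lit 623) (nat_lit 591) (nat_lit 5615) (.f (nat_lit 624) (nat_lit 655) (nat_lit 5647) (.d (nat_lit 625) (nat_lit 593) (nat_lit 4592) (nat_lit 657) (nat_lit 4624)))) (.f (nat_lit 465) (nat_lit 497) (nat_lit 6608) (.f (nat_lit 464) (nat_lit 433) (nat_lit 6576) (.f (nat_lit 431) (nat_lit 463) (nat_lit 7599) (.f (nat_lit 432) (nat_lit 399) (nat_lit 7567) (.f (nat_lit 467) (nat_lit 466) (nat_lit 3503) (.f (nat_lit 564) (nat_lit 596) (nat_lit 4563) (.f (nat_lit 435) (nat_lit 532) (nat_lit 4531) (.d (nat_lit 436) (nat_lit 404) (nat_lit 6547) (nat_lit 468) (nat_lit 6579))))))))))) (.a (.p (nat_lit 464) (.a (.f (nat_lit 593) (nat_lit 561) (nat_lit 4560) (.f (nat_lit 592) (nat_lit 625) (nat_lit 4592) (.f (nat_lit 623) (nat_lit 591) (nat_lit 5615) (.f (nat_lit 624) (nat_lit 655) (nat_lit 5647) (.f (nat_lit 595) (nat_lit 594) (nat_lit 1615) (.f (nat_lit 500) (nat_lit 468) (nat_lit 6611) (.f (nat_lit 627) (nat_lit 532) (nat_lit 6643) (.d (nat_lit 628) (nat_lit 596) (nat_lit 4595) (nat_lit 660) (nat_lit 4627))))))))) (.f (nat_lit 433) (nat_lit 465) (nat_lit 6576) (.f (nat_lit 432) (nat_lit 401) (nat_lit 6544) (.d (nat_lit 431) (nat_lit 399) (nat_lit 7567) (nat_lit 463) (nat_lit 7599)))))) (.a (.p (nat_lit 592) (.a (.f (nat_lit 623) (nat_lit 591) (nat_lit 5615) (.f (nat_lit 624) (nat_lit 655) (nat_lit 5647) (.d (nat_lit 625) (nat_lit 593) (nat_lit 4592) (nat_lit 657) (nat_lit 4624)))) (.f (nat_lit 465) (nat_lit 497) (nat_lit 6608) (.f (nat_lit 464) (nat_lit 433) (nat_lit 6576) (.f (nat_lit 431) (nat_lit 463) (nat_lit 7599) (.f (nat_lit 432) (nat_lit 399) (nat_lit 7567) (.f (nat_lit 467) (nat_lit 466) (nat_lit 3503) (.f (nat_lit 436) (nat_lit 468) (nat_lit 6579) (.f (nat_lit 435) (nat_lit 404) (nat_lit 6547) (.f (nat_lit 402) (nat_lit 434) (nat_lit 7570) (.f (nat_lit 403) (nat_lit 370) (nat_lit 7538) (.d (nat_lit 532) (nat_lit 500) (nat_lit 4499) (nat_lit 564) (nat_lit 4531))))))))))))) (.a (.p (nat_lit 592) (.a (.f (nat_lit 623) (nat_lit 591) (nat_lit 5615) (.f (nat_lit 624) (nat_lit 655) (nat_lit 5647) (.d (nat_lit 625) (nat_lit 593) (nat_lit 4592) (nat_lit 657) (nat_lit 4624)))) (.f (nat_lit 465) (nat_lit 497) (nat_lit 6608) (.f (nat_lit 464) (nat_lit 433) (nat_lit 6576) (.f (nat_lit 431) (nat_lit 463) (nat_lit 7599) (.f (nat_lit 432) (nat_lit 399) (nat_lit 7567) (.f (nat_lit 467) (nat_lit 466) (nat_lit 3503) (.f (nat_lit 564) (nat_lit 596) (nat_lit 4563) (.f (nat_lit 435) (nat_lit 532) (nat_lit 4531) (.f (nat_lit 402) (nat_lit 434) (nat_lit 7570) (.f (nat_lit 403) (nat_lit 370) (nat_lit 7538) (.d (nat_lit 404) (nat_lit 372) (nat_lit 6515) (nat_lit 436) (nat_lit 6547))))))))))))) (.p (nat_lit 592) (.a (.f (nat_lit 623) (nat_lit 591) (nat_lit 5615) (.f (nat_lit 624) (nat_lit 655) (nat_lit 5647) (.d (nat_lit 625) (nat_lit 593) (nat_lit 4592) (nat_lit 657) (nat_lit 4624)))) (.f (nat_lit 465) (nat_lit 497) (nat_lit 6608) (.f (nat_lit 464) (nat_lit 433) (nat_lit 6576) (.f (nat_lit 431) (nat_lit 463) (nat_lit 7599) (.f (nat_lit 432) (nat_lit 399) (nat_lit 7567) (.f (nat_lit 467) (nat_lit 466) (nat_lit 3503) (.f (nat_lit 468) (nat_lit 436) (nat_lit 6579) (.f (nat_lit 595) (nat_lit 500) (nat_lit 6611) (.d (nat_lit 596) (nat_lit 564) (nat_lit 4563) (nat_lit 628) (nat_lit 4595)))))))))))))))))) (.a (.p (nat_lit 464) (.a (.f (nat_lit 433) (nat_lit 465) (nat_lit 6576) (.f (nat_lit 432) (nat_lit 401) (nat_lit 6544) (.d (nat_lit 431) (nat_lit 399) (nat_lit 7567) (nat_lit 463) (nat_lit 7599)))) (.f (nat_lit 561) (nat_lit 593) (nat_lit 4560) (.f (nat_lit 562) (nat_lit 527) (nat_lit 3599) (.f (nat_lit 531) (nat_lit 532) (nat_lit 2576) (.f (nat_lit 596) (nat_lit 595) (nat_lit 560) (.d (nat_lit 564) (nat_lit 467) (nat_lit 4563) (nat_lit 597) (nat_lit 561)))))))) (.p (nat_lit 464) (.a (.f (nat_lit 593) (nat_lit 561) (nat_lit 4560) (.f (nat_lit 592) (nat_lit 625) (nat_lit 4592) (.f (nat_lit 591) (nat_lit 623) (nat_lit 5615) (.f (nat_lit 594) (nat_lit 562) (nat_lit 2607) (.f (nat_lit 595) (nat_lit 564) (nat_lit 2608) (.d (nat_lit 627) (nat_lit 626) (nat_lit 591) (nat_lit 628) (nat_lit 592))))))) (.f (nat_lit 433) (nat_lit 465) (nat_lit 6576) (.f (nat_lit 432) (nat_lit 401) (nat_lit 6544) (.d (nat_lit 431) (nat_lit 399) (nat_lit 7567) (nat_lit 463) (nat_lit 7599)))))))))))))) (.a (.p (nat_lit 497) (.a (.f (nat_lit 592) (nat_lit 465) (nat_lit 6608) (.f (nat_lit 593) (nat_lit 625) (nat_lit 4592) (.f (nat_lit 591) (nat_lit 623) (nat_lit 5615) (.f (nat_lit 561) (nat_lit 464) (nat_lit 4560) (.d (nat_lit 562) (nat_lit 563) (nat_lit 1583) (nat_lit 590) (nat_lit 2606)))))) (.a (.f (nat_lit 465) (nat_lit 592) (nat_lit 6608) (.d (nat_lit 433) (nat_lit 401) (nat_lit 5520) (nat_lit 464) (nat_lit 6576))) (.a (.f (nat_lit 592) (nat_lit 465) (nat_lit 6608) (.f (nat_lit 625) (nat_lit 593) (nat_lit 4592) (.f (nat_lit 624) (nat_lit 657) (nat_lit 4624) (.d (nat_lit 623) (nat_lit 591) (nat_lit 5615) (nat_lit 655) (nat_lit 5647))))) (.a (.f (nat_lit 498) (nat_lit 527) (nat_lit 1519) (.f (nat_lit 464) (nat_lit 463) (nat_lit 3535) (.f (nat_lit 531) (nat_lit 532) (nat_lit 496) (.f (nat_lit 467) (nat_lit 468) (nat_lit 2512) (.f (nat_lit 593) (nat_lit 561) (nat_lit 4560) (.f (nat_lit 592) (nat_lit 625) (nat_lit 4592) (.f (nat_lit 623) (nat_lit 591) (nat_lit 5615) (.f (nat_lit 624) (nat_lit 655) (nat_lit 5647) (.f (nat_lit 594) (nat_lit 595) (nat_lit 1615) (.d (nat_lit 562) (nat_lit 530) (nat_lit 6610) (nat_lit 563) (nat_lit 5586))))))))))) (.f (nat_lit 498) (nat_lit 527) (nat_lit 1519) (.f (nat_lit 464) (nat_lit 463) (nat_lit 3535) (.f (nat_lit 433) (nat_lit 465) (nat_lit 6576) (.f (nat_lit 432) (nat_lit 401) (nat_lit 6544) (.f (nat_lit 399) (nat_lit 431) (nat_lit 7567) (.f (nat_lit 400) (nat_lit 367) (nat_lit 7535) (.f (nat_lit 467) (nat_lit 468) (nat_lit 2512) (.f (nat_lit 435) (nat_lit 434) (nat_lit 3471) (.f (nat_lit 531) (nat_lit 532) (nat_lit 496) (.d (nat_lit 530) (nat_lit 403) (nat_lit 5522) (nat_lit 562) (nat_lit 5554)))))))))))))))) (.a (.p (nat_lit 592) (.a (.f (nat_lit 625) (nat_lit 593) (nat_lit 4592) (.f (nat_lit 624) (nat_lit 657) (nat_lit 4624) (.d (nat_lit 623) (nat_lit 591) (nat_lit 5615) (nat_lit 655) (nat_lit 5647)))) (.f (nat_lit 465) (nat_lit 497) (nat_lit 6608) (.f (nat_lit 464) (nat_lit 433) (nat_lit 6576) (.f (nat_lit 463) (nat_lit 431) (nat_lit 7599) (.f (nat_lit 466) (nat_lit 498) (nat_lit 463) (.f (nat_lit 467) (nat_lit 500) (nat_lit 464) (.d (nat_lit 435) (nat_lit 434) (nat_lit 2479) (nat_lit 436) (nat_lit 2480))))))))) (.a (.p (nat_lit 497) (.a (.f (nat_lit 498) (nat_lit 527) (nat_lit 1519) (.f (nat_lit 468) (nat_lit 467) (nat_lit 2512) (.f (nat_lit 500) (nat_lit 469) (nat_lit 2513) (.d (nat_lit 532) (nat_lit 531) (nat_lit 496) (nat_lit 533) (nat_lit 497))))) (.f (nat_lit 465) (nat_lit 592) (nat_lit 6608) (.d (nat_lit 433) (nat_lit 401) (nat_lit 5520) (nat_lit 464) (nat_lit 6576))))) (.p (nat_lit 563) (.a s33864 (.a (.p (nat_lit 464) (.a (.p (nat_lit 531) (.a (.f (nat_lit 561) (nat_lit 593) (nat_lit 4560) (.f (nat_lit 562) (nat_lit 532) (nat_lit 2576) (.f (nat_lit 595) (nat_lit 596) (nat_lit 560) (.d (nat_lit 594) (nat_lit 467) (nat_lit 5586) (nat_lit 626) (nat_lit 5618))))) (.a (.f (nat_lit 463) (nat_lit 431) (nat_lit 7599) (.f (nat_lit 498) (nat_lit 497) (nat_lit 3535) (.f (nat_lit 595) (nat_lit 466) (nat_lit 7634) (.f (nat_lit 627) (nat_lit 530) (nat_lit 7666) (.d (nat_lit 500) (nat_lit 468) (nat_lit 6611) (nat_lit 532) (nat_lit 6643)))))) (.a (.f (nat_lit 561) (nat_lit 593) (nat_lit 4560) (.f (nat_lit 562) (nat_lit 532) (nat_lit 2576) (.f (nat_lit 467) (nat_lit 594) (nat_lit 5586) (.f (nat_lit 435) (nat_lit 530) (nat_lit 5554) (.d (nat_lit 434) (nat_lit 402) (nat_lit 7570) (nat_lit 466) (nat_lit 7602)))))) (.f (nat_lit 463) (nat_lit 431) (nat_lit 7599) (.f (nat_lit 498) (nat_lit 497) (nat_lit 3535) (.f (nat_lit 595) (nat_lit 466) (nat_lit 7634) (.f (nat_lit 594) (nat_lit 626) (nat_lit 5618) (.f (nat_lit 596) (nat_lit 628) (nat_lit 4595) (.d (nat_lit 467) (nat_lit 562) (nat_lit 5586) (nat_lit 564) (nat_lit 4563))))))))))) (.a (.f (nat_lit 433) (nat_lit 465) (nat_lit 6576) (.f (nat_lit 432) (nat_lit 401) (nat_lit 6544) (.d (nat_lit 431) (nat_lit 399) (nat_lit 7567) (nat_lit 463) (nat_lit 7599)))) (.a (.p (nat_lit 498) (.a (.f (nat_lit 497) (nat_lit 463) (nat_lit 3535) (.f (nat_lit 531) (nat_lit 532) (nat_lit 496) (.f (nat_lit 467) (nat_lit 468) (nat_lit 2512) (.d (nat_lit 466) (nat_lit 434) (nat_lit 7602) (nat_lit 595) (nat_lit 7634))))) (.a (.f (nat_lit 465) (nat_lit 433) (nat_lit 6576) (.f (nat_lit 466) (nat_lit 463) (nat_lit 463) (.d (nat_lit 500) (nat_lit 467) (nat_lit 464) (nat_lit 501) (nat_lit 3537)))) (.a (.f (nat_lit 465) (nat_lit 433) (nat_lit 6576) (.f (nat_lit 500) (nat_lit 497) (nat_lit 3536) (.d (nat_lit 466) (nat_lit 467) (nat_lit 464) (nat_lit 501) (nat_lit 3537)))) (.f (nat_lit 497) (nat_lit 463) (nat_lit 3535) (.d (nat_lit 465) (nat_lit 433) (nat_lit 6576) (nat_lit 500) (nat_lit 3536))))))) (.p (nat_lit 531) (.a (.f (nat_lit 561) (nat_lit 593) (nat_lit 4560) (.f (nat_lit 562) (nat_lit 532) (nat_lit 2576) (.f (nat_lit 595) (nat_lit 596) (nat_lit 560) (.d (nat_lit 594) (nat_lit 467) (nat_lit 5586) (nat_lit 626) (nat_lit 5618))))) (.a (.f (nat_lit 433) (nat_lit 465) (nat_lit 6576) (.f (nat_lit 432) (nat_lit 401) (nat_lit 6544) (.f (nat_lit 399) (nat_lit 431) (nat_lit 7567) (.f (nat_lit 400) (nat_lit 367) (nat_lit 7535) (.f (nat_lit 434) (nat_lit 435) (nat_lit 3471) (.f (nat_lit 466) (nat_lit 467) (nat_lit 7602) (.d (nat_lit 498) (nat_lit 402) (nat_lit 4498) (nat_lit 530) (nat_lit 4530)))))))) (.f (nat_lit 561) (nat_lit 593) (nat_lit 4560) (.f (nat_lit 562) (nat_lit 532) (nat_lit 2576) (.f (nat_lit 595) (nat_lit 596) (nat_lit 560) (.f (nat_lit 498) (nat_lit 466) (nat_lit 7634) (.f (nat_lit 627) (nat_lit 530) (nat_lit 7666) (.f (nat_lit 660) (nat_lit 628) (nat_lit 4627) (.f (nat_lit 659) (nat_lit 692) (nat_lit 4659) (.d (nat_lit 658) (nat_lit 626) (nat_lit 5650) (nat_lit 690) (nat_lit 5682)))))))))))))))) (.a s33927 (.a s34680 (.a (.p (nat_lit 531) (.a s33772 (.a s33949 (.a s34628 (.a s33973 (.a (.p (nat_lit 595) (.a (.f (nat_lit 500) (nat_lit 468) (nat_lit 6611) (.f (nat_lit 627) (nat_lit 532) (nat_lit 6643) (.d (nat_lit 626) (nat_lit 594) (nat_lit 5618) (nat_lit 658) (nat_lit 5650)))) (.a (.f (nat_lit 500) (nat_lit 468) (nat_lit 6611) (.f (nat_lit 627) (nat_lit 532) (nat_lit 6643) (.d (nat_lit 628) (nat_lit 596) (nat_lit 4595) (nat_lit 660) (nat_lit 4627)))) (.a (.f (nat_lit 596) (nat_lit 628) (nat_lit 4595) (.f (nat_lit 467) (nat_lit 564) (nat_lit 4563) (.d (nat_lit 468) (nat_lit 436) (nat_lit 6579) (nat_lit 500) (nat_lit 6611)))) (.a (.f (nat_lit 596) (nat_lit 628) (nat_lit 4595) (.f (nat_lit 564) (nat_lit 467) (nat_lit 4563) (.f (nat_lit 626) (nat_lit 594) (nat_lit 5618) (.f (nat_lit 627) (nat_lit 658) (nat_lit 5650) (.d (nat_lit 532) (nat_lit 500) (nat_lit 5619) (nat_lit 659) (nat_lit 6675)))))) (.f (nat_lit 626) (nat_lit 594) (nat_lit 5618) (.f (nat_lit 627) (nat_lit 658) (nat_lit 5650) (.d (nat_lit 628) (nat_lit 596) (nat_lit 4595) (nat_lit 660) (nat_lit 4627))))))))) (.a (.p (nat_lit 498) (.a (.f (nat_lit 595) (nat_lit 466) (nat_lit 7634) (.f (nat_lit 532) (nat_lit 497) (nat_lit 496) (.d (nat_lit 627) (nat_lit 500) (nat_lit 6643) (nat_lit 530) (nat_lit 7666)))) (.a (.f (nat_lit 595) (nat_lit 466) (nat_lit 7634) (.f (nat_lit 627) (nat_lit 530) (nat_lit 7666) (.d (nat_lit 500) (nat_lit 468) (nat_lit 6611) (nat_lit 532) (nat_lit 6643)))) (.a (.d (nat_lit 497) (nat_lit 527) (nat_lit 1519) (nat_lit 532) (nat_lit 496)) (.f (nat_lit 595) (nat_lit 466) (nat_lit 7634) (.f (nat_lit 627) (nat_lit 530) (nat_lit 7666) (.d (nat_lit 626) (nat_lit 594) (nat_lit 5618) (nat_lit 658) (nat_lit 5650)))))))) (.a (.p (nat_lit 498) (.a (.f (nat_lit 595) (nat_lit 466) (nat_lit 7634) (.f (nat_lit 532) (nat_lit 497) (nat_lit 496) (.d (nat_lit 627) (nat_lit 500) (nat_lit 6643) (nat_lit 530) (nat_lit 7666)))) (.a (.f (nat_lit 595) (nat_lit 466) (nat_lit 7634) (.f (nat_lit 627) (nat_lit 530) (nat_lit 7666) (.d (nat_lit 626) (nat_lit 594) (nat_lit 5618) (nat_lit 658) (nat_lit 5650)))) (.d (nat_lit 497) (nat_lit 527) (nat_lit 1519) (nat_lit 532) (nat_lit 496))))) (.a s33976 (.p (nat_lit 498) (.a (.f (nat_lit 595) (nat_lit 466) (nat_lit 7634) (.f (nat_lit 627) (nat_lit 530) (nat_lit 7666) (.d (nat_lit 626) (nat_lit 594) (nat_lit 5618) (nat_lit 658) (nat_lit 5650)))) (.a (.f (nat_lit 497) (nat_lit 532) (nat_lit 496) (.f (nat_lit 467) (nat_lit 468) (nat_lit 2512) (.f (nat_lit 434) (nat_lit 466) (nat_lit 7602) (.f (nat_lit 435) (nat_lit 402) (nat_lit 7570) (.f (nat_lit 404) (nat_lit 436) (nat_lit 6547) (.d (nat_lit 403) (nat_lit 372) (nat_lit 6515) (nat_lit 530) (nat_lit 5522))))))) (.d (nat_lit 497) (nat_lit 527) (nat_lit 1519) (nat_lit 532) (nat_lit 496)))))))))))))) (.a (.p (nat_lit 464) (.a (.f (nat_lit 561) (nat_lit 593) (nat_lit 4560) (.f (nat_lit 562) (nat_lit 527) (nat_lit 3599) (.f (nat_lit 531) (nat_lit 532) (nat_lit 2576) (.f (nat_lit 467) (nat_lit 594) (nat_lit 5586) (.f (nat_lit 435) (nat_lit 530) (nat_lit 5554) (.d (nat_lit 436) (nat_lit 404) (nat_lit 6547) (nat_lit 468) (nat_lit 6579))))))) (.f (nat_lit 433) (nat_lit 465) (nat_lit 6576) (.f (nat_lit 432) (nat_lit 401) (nat_lit 6544) (.d (nat_lit 431) (nat_lit 399) (nat_lit 7567) (nat_lit 463) (nat_lit 7599)))))) (.a (.p (nat_lit 464) (.a (.f (nat_lit 433) (nat_lit 465) (nat_lit 6576) (.f (nat_lit 432) (nat_lit 401) (nat_lit 6544) (.d (nat_lit 431) (nat_lit 399) (nat_lit 7567) (nat_lit 463) (nat_lit 7599)))) (.f (nat_lit 561) (nat_lit 593) (nat_lit 4560) (.f (nat_lit 562) (nat_lit 527) (nat_lit 3599) (.f (nat_lit 531) (nat_lit 532) (nat_lit 2576) (.f (nat_lit 596) (nat_lit 595) (nat_lit 560) (.d (nat_lit 564) (nat_lit 467) (nat_lit 4563) (nat_lit 597) (nat_lit 561)))))))) (.a (.p (nat_lit 464) (.a (.f (nat_lit 561) (nat_lit 593) (nat_lit 4560) (.f (nat_lit 562) (nat_lit 527) (nat_lit 3599) (.f (nat_lit 463) (nat_lit 431) (nat_lit 7599) (.f (nat_lit 596) (nat_lit 595) (nat_lit 560) (.f (nat_lit 564) (nat_lit 597) (nat_lit 561) (.f (nat_lit 532) (nat_lit 533) (nat_lit 2577) (.f (nat_lit 467) (nat_lit 500) (nat_lit 7635) (.f (nat_lit 498) (nat_lit 497) (nat_lit 3535) (.f (nat_lit 530) (nat_lit 594) (nat_lit 6610) (.d (nat_lit 435) (nat_lit 403) (nat_lit 5522) (nat_lit 466) (nat_lit 6578))))))))))) (.a (.f (nat_lit 433) (nat_lit 465) (nat_lit 6576) (.f (nat_lit 432) (nat_lit 401) (nat_lit 6544) (.d (nat_lit 431) (nat_lit 399) (nat_lit 7567) (nat_lit 463) (nat_lit 7599)))) (.a (.f (nat_lit 561) (nat_lit 593) (nat_lit 4560) (.f (nat_lit 527) (nat_lit 562) (nat_lit 3599) (.f (nat_lit 498) (nat_lit 497) (nat_lit 1519) (.f (nat_lit 465) (nat_lit 433) (nat_lit 6576) (.f (nat_lit 466) (nat_lit 463) (nat_lit 463) (.d (nat_lit 500) (nat_lit 467) (nat_lit 464) (nat_lit 501) (nat_lit 3537))))))) (.f (nat_lit 561) (nat_lit 593) (nat_lit 4560) (.f (nat_lit 562) (nat_lit 527) (nat_lit 3599) (.f (nat_lit 433) (nat_lit 465) (nat_lit 6576) (.f (nat_lit 432) (nat_lit 401) (nat_lit 6544) (.f (nat_lit 431) (nat_lit 399) (nat_lit 7567) (.f (nat_lit 596) (nat_lit 595) (nat_lit 560) (.f (nat_lit 564) (nat_lit 597) (nat_lit 561) (.f (nat_lit 532) (nat_lit 533) (nat_lit 2577) (.f (nat_lit 467) (nat_lit 500) (nat_lit 7635) (.f (nat_lit 434) (nat_lit 466) (nat_lit 431) (.f (nat_lit 435) (nat_lit 468) (nat_lit 432) (.d (nat_lit 403) (nat_lit 402) (nat_lit 2447) (nat_lit 404) (nat_lit 2448))))))))))))))))) (.a (.p (nat_lit 464) (.a (.f (nat_lit 561) (nat_lit 593) (nat_lit 4560) (.f (nat_lit 562) (nat_lit 527) (nat_lit 3599) (.f (nat_lit 531) (nat_lit 532) (nat_lit 2576) (.f (nat_lit 595) (nat_lit 596) (nat_lit 560) (.f (nat_lit 498) (nat_lit 466) (nat_lit 7634) (.d (nat_lit 463) (nat_lit 431) (nat_lit 7599) (nat_lit 497) (nat_lit 3535))))))) (.a (.f (nat_lit 433) (nat_lit 465) (nat_lit 6576) (.f (nat_lit 432) (nat_lit 401) (nat_lit 6544) (.d (nat_lit 431) (nat_lit 399) (nat_lit 7567) (nat_lit 463) (nat_lit 7599)))) (.f (nat_lit 561) (nat_lit 593) (nat_lit 4560) (.f (nat_lit 562) (nat_lit 527) (nat_lit 3599) (.f (nat_lit 531) (nat_lit 532) (nat_lit 2576) (.f (nat_lit 595) (nat_lit 596) (nat_lit 560) (.f (nat_lit 498) (nat_lit 466) (nat_lit 7634) (.f (nat_lit 627) (nat_lit 530) (nat_lit 7666) (.d (nat_lit 626) (nat_lit 594) (nat_lit 5618) (nat_lit 658) (nat_lit 5650))))))))))) (.p (nat_lit 464) (.a (.f (nat_lit 561) (nat_lit 593) (nat_lit 4560) (.f (nat_lit 562) (nat_lit 527) (nat_lit 3599) (.f (nat_lit 595) (nat_lit 596) (nat_lit 560) (.f (nat_lit 463) (nat_lit 431) (nat_lit 7599) (.f (nat_lit 498) (nat_lit 497) (nat_lit 3535) (.d (nat_lit 466) (nat_lit 530) (nat_lit 4562) (nat_lit 531) (nat_lit 7634))))))) (.a (.f (nat_lit 433) (nat_lit 465) (nat_lit 6576) (.f (nat_lit 432) (nat_lit 401) (nat_lit 6544) (.d (nat_lit 431) (nat_lit 399) (nat_lit 7567) (nat_lit 463) (nat_lit 7599)))) (.a (.f (nat_lit 561) (nat_lit 593) (nat_lit 4560) (.f (nat_lit 527) (nat_lit 562) (nat_lit 3599) (.f (nat_lit 498) (nat_lit 497) (nat_lit 1519) (.f (nat_lit 465) (nat_lit 433) (nat_lit 6576) (.f (nat_lit 466) (nat_lit 463) (nat_lit 463) (.d (nat_lit 500) (nat_lit 467) (nat_lit 464) (nat_lit 501) (nat_lit 3537))))))) (.f (nat_lit 561) (nat_lit 593) (nat_lit 4560) (.f (nat_lit 562) (nat_lit 527) (nat_lit 3599) (.f (nat_lit 596) (nat_lit 595) (nat_lit 560) (.f (nat_lit 564) (nat_lit 597) (nat_lit 561) (.f (nat_lit 467) (nat_lit 531) (nat_lit 4563) (.f (nat_lit 465) (nat_lit 433) (nat_lit 6576) (.f (nat_lit 466) (nat_lit 500) (nat_lit 464) (.f (nat_lit 468) (nat_lit 497) (nat_lit 1488) (.d (nat_lit 436) (nat_lit 435) (nat_lit 2480) (nat_lit 437) (nat_lit 2481))))))))))))))))))))))))))))))))))) (.a (.p (nat_lit 592) (.a (.f (nat_lit 593) (nat_lit 625) (nat_lit 4592) (.f (nat_lit 591) (nat_lit 623) (nat_lit 5615) (.f (nat_lit 561) (nat_lit 464) (nat_lit 4560) (.d (nat_lit 562) (nat_lit 563) (nat_lit 1583) (nat_lit 590) (nat_lit 2606))))) (.a (.f (nat_lit 593) (nat_lit 625) (nat_lit 4592) (.f (nat_lit 464) (nat_lit 561) (nat_lit 4560) (.d (nat_lit 465) (nat_lit 433) (nat_lit 6576) (nat_lit 497) (nat_lit 6608)))) (.a (.f (nat_lit 465) (nat_lit 497) (nat_lit 6608) (.f (nat_lit 464) (nat_lit 433) (nat_lit 6576) (.d (nat_lit 463) (nat_lit 431) (nat_lit 7599) (nat_lit 495) (nat_lit 7631)))) (.f (nat_lit 625) (nat_lit 593) (nat_lit 4592) (.f (nat_lit 624) (nat_lit 657) (nat_lit 4624) (.d (nat_lit 623) (nat_lit 591) (nat_lit 5615) (nat_lit 655) (nat_lit 5647)))))))) (.a (.p (nat_lit 592) (.a (.f (nat_lit 495) (nat_lit 463) (nat_lit 7631) (.f (nat_lit 497) (nat_lit 465) (nat_lit 6608) (.f (nat_lit 527) (nat_lit 624) (nat_lit 7663) (.d (nat_lit 526) (nat_lit 498) (nat_lit 1518) (nat_lit 525) (nat_lit 2541))))) (.a (.f (nat_lit 625) (nat_lit 593) (nat_lit 4592) (.f (nat_lit 624) (nat_lit 657) (nat_lit 4624) (.d (nat_lit 623) (nat_lit 591) (nat_lit 5615) (nat_lit 655) (nat_lit 5647)))) (.f (nat_lit 465) (nat_lit 497) (nat_lit 6608) (.f (nat_lit 464) (nat_lit 433) (nat_lit 6576) (.d (nat_lit 463) (nat_lit 431) (nat_lit 7599) (nat_lit 495) (nat_lit 7631))))))) (.a (.p (nat_lit 592) (.a (.f (nat_lit 593) (nat_lit 625) (nat_lit 4592) (.f (nat_lit 464) (nat_lit 561) (nat_lit 4560) (.d (nat_lit 465) (nat_lit 433) (nat_lit 6576) (nat_lit 497) (nat_lit 6608)))) (.a (.f (nat_lit 495) (nat_lit 463) (nat_lit 7631) (.f (nat_lit 497) (nat_lit 465) (nat_lit 6608) (.f (nat_lit 527) (nat_lit 624) (nat_lit 7663) (.d (nat_lit 526) (nat_lit 498) (nat_lit 1518) (nat_lit 525) (nat_lit 2541))))) (.f (nat_lit 593) (nat_lit 625) (nat_lit 4592) (.f (nat_lit 464) (nat_lit 561) (nat_lit 4560) (.d (nat_lit 463) (nat_lit 431) (nat_lit 7599) (nat_lit 495) (nat_lit 7631))))))) (.a (.p (nat_lit 495) (.a (.p (nat_lit 464) (.a (.f (nat_lit 463) (nat_lit 431) (nat_lit 7599) (.f (nat_lit 465) (nat_lit 433) (nat_lit 6576) (.d (nat_lit 494) (nat_lit 466) (nat_lit 1486) (nat_lit 493) (nat_lit 2509)))) (.a (.f (nat_lit 431) (nat_lit 463) (nat_lit 7599) (.f (nat_lit 432) (nat_lit 399) (nat_lit 7567) (.f (nat_lit 401) (nat_lit 433) (nat_lit 6544) (.d (nat_lit 400) (nat_lit 369) (nat_lit 6512) (nat_lit 527) (nat_lit 5519))))) (.a (.f (nat_lit 465) (nat_lit 433) (nat_lit 6576) (.f (nat_lit 494) (nat_lit 493) (nat_lit 2509) (.d (nat_lit 466) (nat_lit 463) (nat_lit 1486) (nat_lit 467) (nat_lit 1487)))) (.a (.p (nat_lit 494) (.a (.f (nat_lit 463) (nat_lit 431) (nat_lit 7599) (.d (nat_lit 493) (nat_lit 465) (nat_lit 2509) (nat_lit 492) (nat_lit 2508))) (.a (.f (nat_lit 463) (nat_lit 431) (nat_lit 7599) (.f (nat_lit 493) (nat_lit 492) (nat_lit 2508) (.f (nat_lit 461) (nat_lit 460) (nat_lit 3532) (.f (nat_lit 462) (nat_lit 497) (nat_lit 461) (.f (nat_lit 525) (nat_lit 524) (nat_lit 1516) (.d (nat_lit 430) (nat_lit 398) (nat_lit 5517) (nat_lit 557) (nat_lit 6573))))))) (.a (.f (nat_lit 493) (nat_lit 465) (nat_lit 2509) (.d (nat_lit 492) (nat_lit 463) (nat_lit 2508) (nat_lit 527) (nat_lit 492))) (.a (.f (nat_lit 493) (nat_lit 465) (nat_lit 2509) (.f (nat_lit 527) (nat_lit 492) (nat_lit 492) (.f (nat_lit 525) (nat_lit 524) (nat_lit 1516) (.d (nat_lit 561) (nat_lit 526) (nat_lit 525) (nat_lit 593) (nat_lit 4560))))) (.f (nat_lit 431) (nat_lit 463) (nat_lit 7599) (.f (nat_lit 432) (nat_lit 399) (nat_lit 7567) (.f (nat_lit 527) (nat_lit 400) (nat_lit 5519) (.f (nat_lit 561) (nat_lit 593) (nat_lit 4560) (.f (nat_lit 526) (nat_lit 525) (nat_lit 525) (.f (nat_lit 497) (nat_lit 498) (nat_lit 1518) (.f (nat_lit 465) (nat_lit 466) (nat_lit 2510) (.f (nat_lit 462) (nat_lit 461) (nat_lit 3533) (.d (nat_lit 430) (nat_lit 398) (nat_lit 4494) (nat_lit 429) (nat_lit 429))))))))))))))) (.f (nat_lit 465) (nat_lit 433) (nat_lit 6576) (.f (nat_lit 494) (nat_lit 493) (nat_lit 2509) (.d (nat_lit 466) (nat_lit 467) (nat_lit 1487) (nat_lit 497) (nat_lit 2510))))))))) (.a (.p (nat_lit 464) (.a (.f (nat_lit 463) (nat_lit 431) (nat_lit 7599) (.f (nat_lit 465) (nat_lit 433) (nat_lit 6576) (.d (nat_lit 494) (nat_lit 466) (nat_lit 1486) (nat_lit 493) (nat_lit 2509)))) (.a (.p (nat_lit 432) (.a (.d (nat_lit 431) (nat_lit 399) (nat_lit 7567) (nat_lit 463) (nat_lit 7599)) (.a (.f (nat_lit 400) (nat_lit 527) (nat_lit 5519) (.f (nat_lit 368) (nat_lit 463) (nat_lit 5487) (.d (nat_lit 367) (nat_lit 335) (nat_lit 7503) (nat_lit 399) (nat_lit 7535)))) (.a (.f (nat_lit 400) (nat_lit 527) (nat_lit 5519) (.d (nat_lit 399) (nat_lit 367) (nat_lit 7535) (nat_lit 431) (nat_lit 7567))) (.f (nat_lit 463) (nat_lit 431) (nat_lit 7599) (.d (nat_lit 400) (nat_lit 368) (nat_lit 5487) (nat_lit 527) (nat_lit 5519))))))) (.a (.f (nat_lit 465) (nat_lit 433) (nat_lit 6576) (.f (nat_lit 494) (nat_lit 493) (nat_lit 2509) (.d (nat_lit 466) (nat_lit 463) (nat_lit 1486) (nat_lit 467) (nat_lit 1487)))) (.f (nat_lit 465) (nat_lit 433) (nat_lit 6576) (.f (nat_lit 494) (nat_lit 493) (nat_lit 2509) (.d (nat_lit 466) (nat_lit 467) (nat_lit 1487) (nat_lit 497) (nat_lit 2510)))))))) (.a (.p (nat_lit 494) (.a s34915 (.a s34917 (.a s34921 (.a s34927 (.a s34935 (.a s34942 (.a s34948 (.a s34954 (.p (nat_lit 464) (.a (.f (nat_lit 463) (nat_lit 431) (nat_lit 7599) (.d (nat_lit 493) (nat_lit 465) (nat_lit 2509) (nat_lit 492) (nat_lit 2508))) (.a (.f (nat_lit 463) (nat_lit 431) (nat_lit 7599) (.f (nat_lit 493) (nat_lit 492) (nat_lit 2508) (.f (nat_lit 461) (nat_lit 460) (nat_lit 3532) (.f (nat_lit 462) (nat_lit 497) (nat_lit 461) (.f (nat_lit 525) (nat_lit 524) (nat_lit 1516) (.d (nat_lit 430) (nat_lit 398) (nat_lit 5517) (nat_lit 557) (nat_lit 6573))))))) (.a (.f (nat_lit 493) (nat_lit 465) (nat_lit 2509) (.d (nat_lit 492) (nat_lit 463) (nat_lit 2508) (nat_lit 527) (nat_lit 492))) (.a (.f (nat_lit 493) (nat_lit 465) (nat_lit 2509) (.f (nat_lit 527) (nat_lit 492) (nat_lit 492) (.f (nat_lit 525) (nat_lit 524) (nat_lit 1516) (.d (nat_lit 561) (nat_lit 526) (nat_lit 525) (nat_lit 593) (nat_lit 4560))))) (.f (nat_lit 463) (nat_lit 431) (nat_lit 7599) (.f (nat_lit 433) (nat_lit 465) (nat_lit 6576) (.f (nat_lit 432) (nat_lit 401) (nat_lit 6544) (.d (nat_lit 400) (nat_lit 368) (nat_lit 5487) (nat_lit 527) (nat_lit 5519))))))))))))))))))) (.a (.p (nat_lit 494) (.a s34915 (.a s34917 (.a s34921 (.a s34927 (.a s34935 (.a s34942 (.a s34948 (.a s34954 (.p (nat_lit 464) (.a (.f (nat_lit 463) (nat_lit 431) (nat_lit 7599) (.d (nat_lit 493) (nat_lit 465) (nat_lit 2509) (nat_lit 492) (nat_lit 2508))) (.a (.f (nat_lit 463) (nat_lit 431) (nat_lit 7599) (.f (nat_lit 493) (nat_lit 492) (nat_lit 2508) (.f (nat_lit 461) (nat_lit 460) (nat_lit 3532) (.f (nat_lit 462) (nat_lit 497) (nat_lit 461) (.f (nat_lit 525) (nat_lit 524) (nat_lit 1516) (.d (nat_lit 430) (nat_lit 398) (nat_lit 5517) (nat_lit 557) (nat_lit 6573))))))) (.a (.f (nat_lit 493) (nat_lit 465) (nat_lit 2509) (.d (nat_lit 492) (nat_lit 463) (nat_lit 2508) (nat_lit 527) (nat_lit 492))) (.a (.f (nat_lit 493) (nat_lit 465) (nat_lit 2509) (.f (nat_lit 527) (nat_lit 492) (nat_lit 492) (.f (nat_lit 525) (nat_lit 524) (nat_lit 1516) (.d (nat_lit 561) (nat_lit 526) (nat_lit 525) (nat_lit 593) (nat_lit 4560))))) (.f (nat_lit 431) (nat_lit 463) (nat_lit 7599) (.f (nat_lit 433) (nat_lit 465) (nat_lit 6576) (.d (nat_lit 432) (nat_lit 399) (nat_lit 7567) (nat_lit 401) (nat_lit 6544)))))))))))))))))) (.a (.p (nat_lit 494) (.a s34921 (.a (.p (nat_lit 497) (.a (.f (nat_lit 465) (nat_lit 466) (nat_lit 2510) (.d (nat_lit 464) (nat_lit 433) (nat_lit 6576) (nat_lit 493) (nat_lit 2509))) (.a (.f (nat_lit 525) (nat_lit 526) (nat_lit 1517) (.f (nat_lit 493) (nat_lit 524) (nat_lit 1516) (.d (nat_lit 461) (nat_lit 460) (nat_lit 3532) (nat_lit 462) (nat_lit 3533)))) (.f (nat_lit 465) (nat_lit 466) (nat_lit 2510) (.d (nat_lit 433) (nat_lit 401) (nat_lit 5520) (nat_lit 464) (nat_lit 6576)))))) (.a s34927 (.a s34979 (.a (.p (nat_lit 497) (.a (.f (nat_lit 465) (nat_lit 466) (nat_lit 2510) (.d (nat_lit 464) (nat_lit 433) (nat_lit 6576) (nat_lit 493) (nat_lit 2509))) (.a (.f (nat_lit 461) (nat_lit 462) (nat_lit 3533) (.f (nat_lit 493) (nat_lit 460) (nat_lit 3532) (.f (nat_lit 527) (nat_lit 492) (nat_lit 492) (.d (nat_lit 498) (nat_lit 499) (nat_lit 1519) (nat_lit 526) (nat_lit 1518))))) (.f (nat_lit 465) (nat_lit 466) (nat_lit 2510) (.d (nat_lit 433) (nat_lit 401) (nat_lit 5520) (nat_lit 464) (nat_lit 6576)))))) (.a (.p (nat_lit 497) (.a (.f (nat_lit 465) (nat_lit 466) (nat_lit 2510) (.d (nat_lit 464) (nat_lit 433) (nat_lit 6576) (nat_lit 493) (nat_lit 2509))) (.a (.f (nat_lit 461) (nat_lit 462) (nat_lit 3533) (.f (nat_lit 493) (nat_lit 460) (nat_lit 3532) (.f (nat_lit 524) (nat_lit 525) (nat_lit 1516) (.d (nat_lit 492) (nat_lit 523) (nat_lit 1515) (nat_lit 527) (nat_lit 492))))) (.f (nat_lit 465) (nat_lit 466) (nat_lit 2510) (.d (nat_lit 433) (nat_lit 401) (nat_lit 5520) (nat_lit 464) (nat_lit 6576)))))) (.a s34948 (.p (nat_lit 497) (.a (.f (nat_lit 465) (nat_lit 466) (nat_lit 2510) (.d (nat_lit 464) (nat_lit 433) (nat_lit 6576) (nat_lit 493) (nat_lit 2509))) (.a (.f (nat_lit 526) (nat_lit 525) (nat_lit 1517) (.f (nat_lit 498) (nat_lit 527) (nat_lit 1518) (.d (nat_lit 466) (nat_lit 465) (nat_lit 2510) (nat_lit 467) (nat_lit 2511)))) (.a (.f (nat_lit 526) (nat_lit 525) (nat_lit 1517) (.f (nat_lit 498) (nat_lit 527) (nat_lit 1518) (.f (nat_lit 467) (nat_lit 466) (nat_lit 2511) (.f (nat_lit 499) (nat_lit 468) (nat_lit 2512) (.d (nat_lit 531) (nat_lit 530) (nat_lit 495) (nat_lit 532) (nat_lit 496)))))) (.f (nat_lit 526) (nat_lit 525) (nat_lit 1517) (.f (nat_lit 498) (nat_lit 527) (nat_lit 1518) (.f (nat_lit 463) (nat_lit 462) (nat_lit 3534) (.f (nat_lit 464) (nat_lit 499) (nat_lit 3535) (.d (nat_lit 493) (nat_lit 465) (nat_lit 2509) (nat_lit 492) (nat_lit 2508)))))))))))))))))) (.a (.p (nat_lit 494) (.a s34921 (.a (.p (nat_lit 497) (.a (.f (nat_lit 525) (nat_lit 526) (nat_lit 1517) (.f (nat_lit 493) (nat_lit 524) (nat_lit 1516) (.d (nat_lit 461) (nat_lit 460) (nat_lit 3532) (nat_lit 462) (nat_lit 3533)))) (.a (.f (nat_lit 462) (nat_lit 461) (nat_lit 3533) (.f (nat_lit 463) (nat_lit 498) (nat_lit 3534) (.d (nat_lit 431) (nat_lit 399) (nat_lit 4495) (nat_lit 464) (nat_lit 7599)))) (.f (nat_lit 465) (nat_lit 466) (nat_lit 2510) (.f (nat_lit 493) (nat_lit 464) (nat_lit 2509) (.d (nat_lit 525) (nat_lit 524) (nat_lit 1516) (nat_lit 526) (nat_lit 1517))))))) (.a s34927 (.a s34979 (.a (.p (nat_lit 497) (.a (.f (nat_lit 461) (nat_lit 462) (nat_lit 3533) (.f (nat_lit 493) (nat_lit 460) (nat_lit 3532) (.f (nat_lit 527) (nat_lit 492) (nat_lit 492) (.d (nat_lit 498) (nat_lit 499) (nat_lit 1519) (nat_lit 526) (nat_lit 1518))))) (.a (.f (nat_lit 462) (nat_lit 461) (nat_lit 3533) (.f (nat_lit 463) (nat_lit 498) (nat_lit 3534) (.d (nat_lit 431) (nat_lit 399) (nat_lit 4495) (nat_lit 464) (nat_lit 7599)))) (.a (.f (nat_lit 465) (nat_lit 466) (nat_lit 2510) (.f (nat_lit 464) (nat_lit 493) (nat_lit 2509) (.f (nat_lit 463) (nat_lit 431) (nat_lit 7599) (.f (nat_lit 462) (nat_lit 461) (nat_lit 3533) (.f (nat_lit 430) (nat_lit 429) (nat_lit 3501) (.d (nat_lit 398) (nat_lit 366) (nat_lit 4462) (nat_lit 527) (nat_lit 4494))))))) (.f (nat_lit 465) (nat_lit 466) (nat_lit 2510) (.f (nat_lit 464) (nat_lit 493) (nat_lit 2509) (.f (nat_lit 463) (nat_lit 431) (nat_lit 7599) (.f (nat_lit 498) (nat_lit 499) (nat_lit 3535) (.f (nat_lit 527) (nat_lit 526) (nat_lit 1518) (.f (nat_lit 561) (nat_lit 593) (nat_lit 4560) (.f (nat_lit 562) (nat_lit 563) (nat_lit 3599) (.d (nat_lit 530) (nat_lit 531) (nat_lit 495) (nat_lit 594) (nat_lit 7633))))))))))))) (.a (.p (nat_lit 497) (.a (.f (nat_lit 461) (nat_lit 462) (nat_lit 3533) (.f (nat_lit 493) (nat_lit 460) (nat_lit 3532) (.f (nat_lit 524) (nat_lit 525) (nat_lit 1516) (.d (nat_lit 492) (nat_lit 523) (nat_lit 1515) (nat_lit 527) (nat_lit 492))))) (.a (.f (nat_lit 462) (nat_lit 461) (nat_lit 3533) (.f (nat_lit 463) (nat_lit 498) (nat_lit 3534) (.d (nat_lit 431) (nat_lit 399) (nat_lit 4495) (nat_lit 464) (nat_lit 7599)))) (.f (nat_lit 465) (nat_lit 466) (nat_lit 2510) (.f (nat_lit 493) (nat_lit 464) (nat_lit 2509) (.f (nat_lit 492) (nat_lit 527) (nat_lit 492) (.d (nat_lit 524) (nat_lit 523) (nat_lit 1515) (nat_lit 525) (nat_lit 1516)))))))) (.a (.p (nat_lit 497) (.a (.f (nat_lit 526) (nat_lit 525) (nat_lit 1517) (.f (nat_lit 498) (nat_lit 527) (nat_lit 1518) (.d (nat_lit 466) (nat_lit 465) (nat_lit 2510) (nat_lit 467) (nat_lit 2511)))) (.a (.f (nat_lit 462) (nat_lit 461) (nat_lit 3533) (.f (nat_lit 463) (nat_lit 498) (nat_lit 3534) (.d (nat_lit 431) (nat_lit 399) (nat_lit 4495) (nat_lit 464) (nat_lit 7599)))) (.p (nat_lit 431) (.a (.d (nat_lit 463) (nat_lit 399) (nat_lit 4495) (nat_lit 527) (nat_lit 4527)) (.a (.d (nat_lit 463) (nat_lit 399) (nat_lit 4495) (nat_lit 464) (nat_lit 7599)) (.a (.f (nat_lit 526) (nat_lit 525) (nat_lit 1517) (.f (nat_lit 462) (nat_lit 461) (nat_lit 3533) (.f (nat_lit 430) (nat_lit 399) (nat_lit 6542) (.f (nat_lit 398) (nat_lit 527) (nat_lit 4494) (.d (nat_lit 397) (nat_lit 365) (nat_lit 7533) (nat_lit 429) (nat_lit 7565)))))) (.d (nat_lit 463) (nat_lit 464) (nat_lit 7599) (nat_lit 527) (nat_lit 4527))))))))) (.p (nat_lit 497) (.a (.f (nat_lit 526) (nat_lit 525) (nat_lit 1517) (.f (nat_lit 498) (nat_lit 527) (nat_lit 1518) (.d (nat_lit 466) (nat_lit 465) (nat_lit 2510) (nat_lit 467) (nat_lit 2511)))) (.a (.f (nat_lit 465) (nat_lit 466) (nat_lit 2510) (.f (nat_lit 493) (nat_lit 464) (nat_lit 2509) (.d (nat_lit 525) (nat_lit 524) (nat_lit 1516) (nat_lit 526) (nat_lit 1517)))) (.a (.f (nat_lit 526) (nat_lit 525) (nat_lit 1517) (.f (nat_lit 498) (nat_lit 527) (nat_lit 1518) (.f (nat_lit 467) (nat_lit 466) (nat_lit 2511) (.f (nat_lit 499) (nat_lit 468) (nat_lit 2512) (.d (nat_lit 531) (nat_lit 530) (nat_lit 495) (nat_lit 532) (nat_lit 496)))))) (.a (.f (nat_lit 465) (nat_lit 466) (nat_lit 2510) (.f (nat_lit 464) (nat_lit 493) (nat_lit 2509) (.f (nat_lit 463) (nat_lit 431) (nat_lit 7599) (.f (nat_lit 498) (nat_lit 499) (nat_lit 3535) (.f (nat_lit 527) (nat_lit 526) (nat_lit 1518) (.f (nat_lit 561) (nat_lit 593) (nat_lit 4560) (.f (nat_lit 562) (nat_lit 563) (nat_lit 3599) (.d (nat_lit 530) (nat_lit 531) (nat_lit 495) (nat_lit 594) (nat_lit 7633))))))))) (.a (.f (nat_lit 465) (nat_lit 466) (nat_lit 2510) (.f (nat_lit 493) (nat_lit 464) (nat_lit 2509) (.f (nat_lit 492) (nat_lit 527) (nat_lit 492) (.d (nat_lit 524) (nat_lit 523) (nat_lit 1515) (nat_lit 525) (nat_lit 1516))))) (.f (nat_lit 526) (nat_lit 525) (nat_lit 1517) (.f (nat_lit 498) (nat_lit 527) (nat_lit 1518) (.f (nat_lit 463) (nat_lit 462) (nat_lit 3534) (.f (nat_lit 464) (nat_lit 499) (nat_lit 3535) (.d (nat_lit 493) (nat_lit 465) (nat_lit 2509) (nat_lit 492) (nat_lit 2508)))))))))))))))))))) (.a (.p (nat_lit 494) (.a s34921 (.a (.p (nat_lit 493) (.a (.f (nat_lit 492) (nat_lit 527) (nat_lit 492) (.d (nat_lit 524) (nat_lit 523) (nat_lit 1515) (nat_lit 525) (nat_lit 1516))) (.a (.f (nat_lit 465) (nat_lit 464) (nat_lit 2509) (.f (nat_lit 497) (nat_lit 466) (nat_lit 2510) (.d (nat_lit 525) (nat_lit 524) (nat_lit 1516) (nat_lit 526) (nat_lit 1517)))) (.f (nat_lit 465) (nat_lit 464) (nat_lit 2509) (.f (nat_lit 497) (nat_lit 466) (nat_lit 2510) (.f (nat_lit 527) (nat_lit 492) (nat_lit 492) (.d (nat_lit 498) (nat_lit 499) (nat_lit 1519) (nat_lit 526) (nat_lit 1518)))))))) (.a s34927 (.a (.p (nat_lit 493) (.a (.f (nat_lit 492) (nat_lit 527) (nat_lit 492) (.d (nat_lit 524) (nat_lit 523) (nat_lit 1515) (nat_lit 525) (nat_lit 1516))) (.a (.f (nat_lit 461) (nat_lit 460) (nat_lit 3532) (.f (nat_lit 525) (nat_lit 524) (nat_lit 1516) (.d (nat_lit 497) (nat_lit 462) (nat_lit 3533) (nat_lit 526) (nat_lit 1517)))) (.f (nat_lit 492) (nat_lit 527) (nat_lit 492) (.d (nat_lit 460) (nat_lit 459) (nat_lit 3531) (nat_lit 461) (nat_lit 3532)))))) (.a (.p (nat_lit 497) (.a (.f (nat_lit 465) (nat_lit 466) (nat_lit 2510) (.d (nat_lit 464) (nat_lit 433) (nat_lit 6576) (nat_lit 493) (nat_lit 2509))) (.a (.f (nat_lit 525) (nat_lit 526) (nat_lit 1517) (.f (nat_lit 493) (nat_lit 524) (nat_lit 1516) (.d (nat_lit 461) (nat_lit 460) (nat_lit 3532) (nat_lit 462) (nat_lit 3533)))) (.f (nat_lit 465) (nat_lit 466) (nat_lit 2510) (.d (nat_lit 433) (nat_lit 401) (nat_lit 5520) (nat_lit 464) (nat_lit 6576)))))) (.a (.p (nat_lit 462) (.a (.f (nat_lit 497) (nat_lit 461) (nat_lit 3533) (.f (nat_lit 526) (nat_lit 525) (nat_lit 1517) (.f (nat_lit 498) (nat_lit 527) (nat_lit 1518) (.d (nat_lit 466) (nat_lit 465) (nat_lit 2510) (nat_lit 467) (nat_lit 2511))))) (.a (.f (nat_lit 497) (nat_lit 461) (nat_lit 3533) (.f (nat_lit 465) (nat_lit 466) (nat_lit 2510) (.d (nat_lit 433) (nat_lit 401) (nat_lit 5520) (nat_lit 464) (nat_lit 6576)))) (.a (.f (nat_lit 497) (nat_lit 461) (nat_lit 3533) (.f (nat_lit 526) (nat_lit 525) (nat_lit 1517) (.f (nat_lit 498) (nat_lit 527) (nat_lit 1518) (.f (nat_lit 531) (nat_lit 530) (nat_lit 495) (.f (nat_lit 499) (nat_lit 532) (nat_lit 496) (.d (nat_lit 467) (nat_lit 466) (nat_lit 2511) (nat_lit 468) (nat_lit 2512))))))) (.a (.p (nat_lit 430) (.a (.f (nat_lit 398) (nat_lit 527) (nat_lit 4494) (.f (nat_lit 399) (nat_lit 367) (nat_lit 6510) (.f (nat_lit 397) (nat_lit 365) (nat_lit 7533) (.d (nat_lit 526) (nat_lit 429) (nat_lit 7565) (nat_lit 431) (nat_lit 6542))))) (.a (.p (nat_lit 399) (.a (.f (nat_lit 431) (nat_lit 526) (nat_lit 6542) (.d (nat_lit 367) (nat_lit 335) (nat_lit 5454) (nat_lit 398) (nat_lit 6510))) (.a (.f (nat_lit 398) (nat_lit 367) (nat_lit 6510) (.f (nat_lit 397) (nat_lit 365) (nat_lit 7533) (.f (nat_lit 429) (nat_lit 526) (nat_lit 7565) (.d (nat_lit 428) (nat_lit 400) (nat_lit 1420) (nat_lit 427) (nat_lit 2443))))) (.a (.f (nat_lit 367) (nat_lit 398) (nat_lit 6510) (.f (nat_lit 431) (nat_lit 335) (nat_lit 5454) (.f (nat_lit 432) (nat_lit 464) (nat_lit 7567) (.f (nat_lit 461) (nat_lit 433) (nat_lit 1453) (.d (nat_lit 460) (nat_lit 429) (nat_lit 1452) (nat_lit 459) (nat_lit 459)))))) (.f (nat_lit 431) (nat_lit 526) (nat_lit 6542) (.f (nat_lit 432) (nat_lit 464) (nat_lit 7567) (.f (nat_lit 461) (nat_lit 433) (nat_lit 1453) (.d (nat_lit 460) (nat_lit 429) (nat_lit 1452) (nat_lit 459) (nat_lit 459))))))))) (.a (.f (nat_lit 398) (nat_lit 527) (nat_lit 4494) (.f (nat_lit 397) (nat_lit 365) (nat_lit 7533) (.f (nat_lit 399) (nat_lit 367) (nat_lit 6510) (.f (nat_lit 429) (nat_lit 526) (nat_lit 7565) (.d (nat_lit 428) (nat_lit 400) (nat_lit 1420) (nat_lit 427) (nat_lit 2443)))))) (.a (.f (nat_lit 398) (nat_lit 527) (nat_lit 4494) (.f (nat_lit 365) (nat_lit 397) (nat_lit 7533) (.f (nat_lit 366) (nat_lit 333) (nat_lit 7501) (.d (nat_lit 367) (nat_lit 335) (nat_lit 6478) (nat_lit 399) (nat_lit 6510))))) (.a (.p (nat_lit 464) (.a (.f (nat_lit 527) (nat_lit 398) (nat_lit 4494) (.f (nat_lit 432) (nat_lit 400) (nat_lit 5519) (.d (nat_lit 433) (nat_lit 401) (nat_lit 6544) (nat_lit 465) (nat_lit 6576)))) (.a (.f (nat_lit 433) (nat_lit 465) (nat_lit 6576) (.f (nat_lit 432) (nat_lit 401) (nat_lit 6544) (.f (nat_lit 431) (nat_lit 461) (nat_lit 1453) (.f (nat_lit 397) (nat_lit 398) (nat_lit 3469) (.d (nat_lit 429) (nat_lit 396) (nat_lit 3468) (nat_lit 526) (nat_lit 7565)))))) (.a (.f (nat_lit 527) (nat_lit 398) (nat_lit 4494) (.f (nat_lit 561) (nat_lit 593) (nat_lit 4560) (.f (nat_lit 526) (nat_lit 525) (nat_lit 525) (.f (nat_lit 432) (nat_lit 400) (nat_lit 5519) (.f (nat_lit 429) (nat_lit 397) (nat_lit 7565) (.f (nat_lit 461) (nat_lit 558) (nat_lit 7597) (.d (nat_lit 433) (nat_lit 401) (nat_lit 6544) (nat_lit 431) (nat_lit 1453)))))))) (.a (.f (nat_lit 527) (nat_lit 398) (nat_lit 4494) (.f (nat_lit 561) (nat_lit 593) (nat_lit 4560) (.f (nat_lit 526) (nat_lit 525) (nat_lit 525) (.f (nat_lit 429) (nat_lit 397) (nat_lit 7565) (.f (nat_lit 558) (nat_lit 461) (nat_lit 7597) (.f (nat_lit 590) (nat_lit 622) (nat_lit 6638) (.d (nat_lit 589) (nat_lit 557) (nat_lit 5581) (nat_lit 621) (nat_lit 5613)))))))) (.f (nat_lit 433) (nat_lit 465) (nat_lit 6576) (.f (nat_lit 432) (nat_lit 401) (nat_lit 6544) (.f (nat_lit 461) (nat_lit 431) (nat_lit 1453) (.f (nat_lit 527) (nat_lit 400) (nat_lit 5519) (.f (nat_lit 561) (nat_lit 593) (nat_lit 4560) (.f (nat_lit 526) (nat_lit 525) (nat_lit 525) (.d (nat_lit 429) (nat_lit 397) (nat_lit 7565) (nat_lit 558) (nat_lit 7597))))))))))))) (.a (.p (nat_lit 526) (.a (.f (nat_lit 429) (nat_lit 397) (nat_lit 7565) (.f (nat_lit 558) (nat_lit 461) (nat_lit 7597) (.d (nat_lit 557) (nat_lit 525) (nat_lit 5549) (nat_lit 589) (nat_lit 5581)))) (.a (.f (nat_lit 429) (nat_lit 397) (nat_lit 7565) (.f (nat_lit 431) (nat_lit 399) (nat_lit 6542) (.f (nat_lit 461) (nat_lit 558) (nat_lit 7597) (.d (nat_lit 460) (nat_lit 432) (nat_lit 1452) (nat_lit 459) (nat_lit 2475))))) (.f (nat_lit 525) (nat_lit 557) (nat_lit 5549) (.d (nat_lit 527) (nat_lit 524) (nat_lit 2540) (nat_lit 561) (nat_lit 525)))))) (.f (nat_lit 398) (nat_lit 527) (nat_lit 4494) (.f (nat_lit 399) (nat_lit 367) (nat_lit 6510) (.f (nat_lit 431) (nat_lit 526) (nat_lit 6542) (.f (nat_lit 432) (nat_lit 464) (nat_lit 7567) (.d (nat_lit 433) (nat_lit 434) (nat_lit 3470) (nat_lit 461) (nat_lit 1453))))))))))))) (.p (nat_lit 526) (.a (.f (nat_lit 525) (nat_lit 497) (nat_lit 1517) (.d (nat_lit 524) (nat_lit 523) (nat_lit 2539) (nat_lit 527) (nat_lit 2540))) (.a (.f (nat_lit 525) (nat_lit 497) (nat_lit 1517) (.f (nat_lit 430) (nat_lit 557) (nat_lit 5549) (.f (nat_lit 399) (nat_lit 431) (nat_lit 6542) (.f (nat_lit 398) (nat_lit 367) (nat_lit 6510) (.d (nat_lit 397) (nat_lit 365) (nat_lit 7533) (nat_lit 429) (nat_lit 7565)))))) (.a (.p (nat_lit 525) (.a (.d (nat_lit 524) (nat_lit 523) (nat_lit 2539) (nat_lit 527) (nat_lit 2540)) (.f (nat_lit 430) (nat_lit 557) (nat_lit 5549) (.f (nat_lit 399) (nat_lit 431) (nat_lit 6542) (.f (nat_lit 398) (nat_lit 367) (nat_lit 6510) (.d (nat_lit 397) (nat_lit 365) (nat_lit 7533) (nat_lit 429) (nat_lit 7565))))))) (.p (nat_lit 432) (.a (.p (nat_lit 464) (.a (.d (nat_lit 433) (nat_lit 401) (nat_lit 6544) (nat_lit 465) (nat_lit 6576)) (.a (.f (nat_lit 400) (nat_lit 527) (nat_lit 5519) (.d (nat_lit 401) (nat_lit 369) (nat_lit 6512) (nat_lit 433) (nat_lit 6544))) (.f (nat_lit 400) (nat_lit 527) (nat_lit 5519) (.d (nat_lit 399) (nat_lit 367) (nat_lit 7535) (nat_lit 431) (nat_lit 7567)))))) (.a (.p (nat_lit 430) (.a (.f (nat_lit 431) (nat_lit 399) (nat_lit 6542) (.f (nat_lit 429) (nat_lit 397) (nat_lit 7565) (.f (nat_lit 464) (nat_lit 465) (nat_lit 429) (.d (nat_lit 401) (nat_lit 400) (nat_lit 2445) (nat_lit 433) (nat_lit 6544))))) (.a (.f (nat_lit 397) (nat_lit 429) (nat_lit 7565) (.f (nat_lit 398) (nat_lit 365) (nat_lit 7533) (.d (nat_lit 399) (nat_lit 367) (nat_lit 6510) (nat_lit 431) (nat_lit 6542)))) (.a (.f (nat_lit 397) (nat_lit 429) (nat_lit 7565) (.f (nat_lit 398) (nat_lit 365) (nat_lit 7533) (.f (nat_lit 399) (nat_lit 367) (nat_lit 6510) (.f (nat_lit 433) (nat_lit 400) (nat_lit 397) (.d (nat_lit 464) (nat_lit 401) (nat_lit 6544) (nat_lit 465) (nat_lit 6576)))))) (.a (.f (nat_lit 397) (nat_lit 429) (nat_lit 7565) (.f (nat_lit 398) (nat_lit 365) (nat_lit 7533) (.f (nat_lit 433) (nat_lit 431) (nat_lit 3469) (.d (nat_lit 464) (nat_lit 401) (nat_lit 6544) (nat_lit 465) (nat_lit 6576))))) (.a (.f (nat_lit 399) (nat_lit 431) (nat_lit 6542) (.f (nat_lit 398) (nat_lit 367) (nat_lit 6510) (.f (nat_lit 397) (nat_lit 365) (nat_lit 7533) (.f (nat_lit 433) (nat_lit 400) (nat_lit 397) (.d (nat_lit 464) (nat_lit 401) (nat_lit 6544) (nat_lit 465) (nat_lit 6576)))))) (.f (nat_lit 399) (nat_lit 431) (nat_lit 6542) (.f (nat_lit 367) (nat_lit 398) (nat_lit 6510) (.f (nat_lit 464) (nat_lit 400) (nat_lit 7535) (.d (nat_lit 433) (nat_lit 401) (nat_lit 6544) (nat_lit 465) (nat_lit 6576))))))))))) (.a (.p (nat_lit 430) (.a (.f (nat_lit 397) (nat_lit 429) (nat_lit 7565) (.f (nat_lit 398) (nat_lit 365) (nat_lit 7533) (.d (nat_lit 399) (nat_lit 367) (nat_lit 6510) (nat_lit 431) (nat_lit 6542)))) (.a (.f (nat_lit 398) (nat_lit 527) (nat_lit 4494) (.d (nat_lit 397) (nat_lit 365) (nat_lit 7533) (nat_lit 429) (nat_lit 7565))) (.a (.f (nat_lit 398) (nat_lit 527) (nat_lit 4494) (.d (nat_lit 399) (nat_lit 367) (nat_lit 6510) (nat_lit 431) (nat_lit 6542))) (.f (nat_lit 431) (nat_lit 399) (nat_lit 6542) (.f (nat_lit 429) (nat_lit 397) (nat_lit 7565) (.f (nat_lit 401) (nat_lit 400) (nat_lit 2445) (.f (nat_lit 433) (nat_lit 402) (nat_lit 2446) (.d (nat_lit 465) (nat_lit 466) (nat_lit 430) (nat_lit 497) (nat_lit 5520)))))))))) (.a (.p (nat_lit 430) (.a (.f (nat_lit 397) (nat_lit 429) (nat_lit 7565) (.f (nat_lit 398) (nat_lit 365) (nat_lit 7533) (.d (nat_lit 399) (nat_lit 367) (nat_lit 6510) (nat_lit 431) (nat_lit 6542)))) (.a (.f (nat_lit 398) (nat_lit 527) (nat_lit 4494) (.d (nat_lit 397) (nat_lit 365) (nat_lit 7533) (nat_lit 429) (nat_lit 7565))) (.a (.f (nat_lit 398) (nat_lit 527) (nat_lit 4494) (.d (nat_lit 399) (nat_lit 367) (nat_lit 6510) (nat_lit 431) (nat_lit 6542))) (.f (nat_lit 431) (nat_lit 399) (nat_lit 6542) (.f (nat_lit 429) (nat_lit 397) (nat_lit 7565) (.f (nat_lit 401) (nat_lit 400) (nat_lit 2445) (.d (nat_lit 433) (nat_lit 402) (nat_lit 2446) (nat_lit 464) (nat_lit 6544))))))))) (.a (.p (nat_lit 464) (.a (.d (nat_lit 433) (nat_lit 401) (nat_lit 6544) (nat_lit 465) (nat_lit 6576)) (.a (.f (nat_lit 400) (nat_lit 527) (nat_lit 5519) (.d (nat_lit 401) (nat_lit 369) (nat_lit 6512) (nat_lit 433) (nat_lit 6544))) (.a (.f (nat_lit 400) (nat_lit 527) (nat_lit 5519) (.f (nat_lit 367) (nat_lit 399) (nat_lit 7535) (.f (nat_lit 368) (nat_lit 335) (nat_lit 7503) (.d (nat_lit 369) (nat_lit 337) (nat_lit 6480) (nat_lit 401) (nat_lit 6512))))) (.f (nat_lit 527) (nat_lit 400) (nat_lit 5519) (.f (nat_lit 497) (nat_lit 498) (nat_lit 1518) (.d (nat_lit 465) (nat_lit 433) (nat_lit 6576) (nat_lit 466) (nat_lit 2510)))))))) (.a (.p (nat_lit 430) (.a (.f (nat_lit 397) (nat_lit 429) (nat_lit 7565) (.f (nat_lit 398) (nat_lit 365) (nat_lit 7533) (.d (nat_lit 399) (nat_lit 367) (nat_lit 6510) (nat_lit 431) (nat_lit 6542)))) (.a (.f (nat_lit 398) (nat_lit 527) (nat_lit 4494) (.d (nat_lit 397) (nat_lit 365) (nat_lit 7533) (nat_lit 429) (nat_lit 7565))) (.a (.f (nat_lit 398) (nat_lit 527) (nat_lit 4494) (.d (nat_lit 399) (nat_lit 367) (nat_lit 6510) (nat_lit 431) (nat_lit 6542))) (.f (nat_lit 431) (nat_lit 399) (nat_lit 6542) (.f (nat_lit 429) (nat_lit 397) (nat_lit 7565) (.f (nat_lit 464) (nat_lit 465) (nat_lit 429) (.d (nat_lit 400) (nat_lit 401) (nat_lit 2445) (nat_lit 527) (nat_lit 5519))))))))) (.a (.p (nat_lit 464) (.a (.f (nat_lit 400) (nat_lit 527) (nat_lit 5519) (.d (nat_lit 399) (nat_lit 367) (nat_lit 7535) (nat_lit 431) (nat_lit 7567))) (.f (nat_lit 465) (nat_lit 433) (nat_lit 6576) (.d (nat_lit 466) (nat_lit 467) (nat_lit 1487) (nat_lit 497) (nat_lit 2510))))) (.a (.p (nat_lit 464) (.a (.d (nat_lit 433) (nat_lit 401) (nat_lit 6544) (nat_lit 465) (nat_lit 6576)) (.a (.f (nat_lit 400) (nat_lit 527) (nat_lit 5519) (.d (nat_lit 401) (nat_lit 369) (nat_lit 6512) (nat_lit 433) (nat_lit 6544))) (.f (nat_lit 527) (nat_lit 400) (nat_lit 5519) (.f (nat_lit 497) (nat_lit 498) (nat_lit 1518) (.f (nat_lit 465) (nat_lit 466) (nat_lit 2510) (.f (nat_lit 430) (nat_lit 398) (nat_lit 4494) (.d (nat_lit 429) (nat_lit 397) (nat_lit 7565) (nat_lit 431) (nat_lit 429))))))))) (.p (nat_lit 430) (.a (.f (nat_lit 397) (nat_lit 429) (nat_lit 7565) (.f (nat_lit 398) (nat_lit 365) (nat_lit 7533) (.d (nat_lit 399) (nat_lit 367) (nat_lit 6510) (nat_lit 431) (nat_lit 6542)))) (.a (.f (nat_lit 398) (nat_lit 527) (nat_lit 4494) (.d (nat_lit 397) (nat_lit 365) (nat_lit 7533) (nat_lit 429) (nat_lit 7565))) (.a (.f (nat_lit 398) (nat_lit 527) (nat_lit 4494) (.d (nat_lit 399) (nat_lit 367) (nat_lit 6510) (nat_lit 431) (nat_lit 6542))) (.f (nat_lit 431) (nat_lit 399) (nat_lit 6542) (.f (nat_lit 429) (nat_lit 397) (nat_lit 7565) (.f (nat_lit 465) (nat_lit 464) (nat_lit 429) (.d (nat_lit 466) (nat_lit 433) (nat_lit 430) (nat_lit 497) (nat_lit 2510))))))))))))))))))))))))))) (.a (.p (nat_lit 493) (.a (.f (nat_lit 492) (nat_lit 527) (nat_lit 492) (.d (nat_lit 524) (nat_lit 523) (nat_lit 1515) (nat_lit 525) (nat_lit 1516))) (.a (.f (nat_lit 460) (nat_lit 461) (nat_lit 3532) (.f (nat_lit 492) (nat_lit 459) (nat_lit 3531) (.d (nat_lit 524) (nat_lit 523) (nat_lit 1515) (nat_lit 525) (nat_lit 1516)))) (.a (.f (nat_lit 492) (nat_lit 527) (nat_lit 492) (.d (nat_lit 460) (nat_lit 459) (nat_lit 3531) (nat_lit 461) (nat_lit 3532))) (.f (nat_lit 464) (nat_lit 465) (nat_lit 2509) (.f (nat_lit 525) (nat_lit 524) (nat_lit 1516) (.f (nat_lit 461) (nat_lit 460) (nat_lit 3532) (.f (nat_lit 561) (nat_lit 593) (nat_lit 4560) (.f (nat_lit 526) (nat_lit 527) (nat_lit 525) (.d (nat_lit 429) (nat_lit 397) (nat_lit 4493) (nat_lit 558) (nat_lit 4525))))))))))) (.a (.p (nat_lit 497) (.a (.f (nat_lit 465) (nat_lit 466) (nat_lit 2510) (.d (nat_lit 464) (nat_lit 433) (nat_lit 6576) (nat_lit 493) (nat_lit 2509))) (.a (.f (nat_lit 461) (nat_lit 462) (nat_lit 3533) (.f (nat_lit 493) (nat_lit 460) (nat_lit 3532) (.f (nat_lit 527) (nat_lit 492) (nat_lit 492) (.d (nat_lit 498) (nat_lit 499) (nat_lit 1519) (nat_lit 526) (nat_lit 1518))))) (.f (nat_lit 465) (nat_lit 466) (nat_lit 2510) (.d (nat_lit 433) (nat_lit 401) (nat_lit 5520) (nat_lit 464) (nat_lit 6576)))))) (.p (nat_lit 497) (.a (.f (nat_lit 465) (nat_lit 466) (nat_lit 2510) (.d (nat_lit 464) (nat_lit 433) (nat_lit 6576) (nat_lit 493) (nat_lit 2509))) (.a (.f (nat_lit 461) (nat_lit 462) (nat_lit 3533) (.f (nat_lit 493) (nat_lit 460) (nat_lit 3532) (.f (nat_lit 524) (nat_lit 525) (nat_lit 1516) (.d (nat_lit 492) (nat_lit 523) (nat_lit 1515) (nat_lit 527) (nat_lit 492))))) (.f (nat_lit 465) (nat_lit 466) (nat_lit 2510) (.d (nat_lit 433) (nat_lit 401) (nat_lit 5520) (nat_lit 464) (nat_lit 6576))))))))))))))) (.a (.p (nat_lit 494) (.a s34921 (.a s35232 (.a s35236 (.a (.p (nat_lit 497) (.a (.f (nat_lit 461) (nat_lit 462) (nat_lit 3533) (.f (nat_lit 493) (nat_lit 460) (nat_lit 3532) (.f (nat_lit 527) (nat_lit 492) (nat_lit 492) (.d (nat_lit 498) (nat_lit 499) (nat_lit 1519) (nat_lit 526) (nat_lit 1518))))) (.a (.f (nat_lit 462) (nat_lit 461) (nat_lit 3533) (.f (nat_lit 498) (nat_lit 463) (nat_lit 3534) (.d (nat_lit 466) (nat_lit 465) (nat_lit 2510) (nat_lit 467) (nat_lit 2511)))) (.a (.p (nat_lit 493) (.a (.d (nat_lit 461) (nat_lit 460) (nat_lit 3532) (nat_lit 462) (nat_lit 3533)) (.a (.f (nat_lit 492) (nat_lit 527) (nat_lit 492) (.d (nat_lit 460) (nat_lit 459) (nat_lit 3531) (nat_lit 461) (nat_lit 3532))) (.a (.f (nat_lit 492) (nat_lit 527) (nat_lit 492) (.f (nat_lit 459) (nat_lit 460) (nat_lit 3531) (.f (nat_lit 491) (nat_lit 458) (nat_lit 3530) (.d (nat_lit 523) (nat_lit 522) (nat_lit 1514) (nat_lit 524) (nat_lit 1515))))) (.f (nat_lit 492) (nat_lit 527) (nat_lit 492) (.f (nat_lit 462) (nat_lit 461) (nat_lit 3533) (.f (nat_lit 491) (nat_lit 463) (nat_lit 2507) (.d (nat_lit 523) (nat_lit 522) (nat_lit 1514) (nat_lit 524) (nat_lit 1515))))))))) (.f (nat_lit 466) (nat_lit 465) (nat_lit 2510) (.f (nat_lit 498) (nat_lit 467) (nat_lit 2511) (.d (nat_lit 527) (nat_lit 499) (nat_lit 1519) (nat_lit 526) (nat_lit 1518)))))))) (.a (.p (nat_lit 497) (.a (.f (nat_lit 461) (nat_lit 462) (nat_lit 3533) (.f (nat_lit 493) (nat_lit 460) (nat_lit 3532) (.f (nat_lit 524) (nat_lit 525) (nat_lit 1516) (.d (nat_lit 492) (nat_lit 523) (nat_lit 1515) (nat_lit 527) (nat_lit 492))))) (.a (.f (nat_lit 462) (nat_lit 461) (nat_lit 3533) (.f (nat_lit 498) (nat_lit 463) (nat_lit 3534) (.d (nat_lit 466) (nat_lit 465) (nat_lit 2510) (nat_lit 467) (nat_lit 2511)))) (.f (nat_lit 466) (nat_lit 465) (nat_lit 2510) (.f (nat_lit 498) (nat_lit 467) (nat_lit 2511) (.f (nat_lit 499) (nat_lit 527) (nat_lit 1519) (.d (nat_lit 531) (nat_lit 530) (nat_lit 495) (nat_lit 532) (nat_lit 496)))))))) (.a (.p (nat_lit 497) (.a (.f (nat_lit 526) (nat_lit 525) (nat_lit 1517) (.f (nat_lit 498) (nat_lit 527) (nat_lit 1518) (.d (nat_lit 466) (nat_lit 465) (nat_lit 2510) (nat_lit 467) (nat_lit 2511)))) (.a (.f (nat_lit 462) (nat_lit 461) (nat_lit 3533) (.f (nat_lit 498) (nat_lit 463) (nat_lit 3534) (.d (nat_lit 466) (nat_lit 465) (nat_lit 2510) (nat_lit 467) (nat_lit 2511)))) (.a (.f (nat_lit 526) (nat_lit 525) (nat_lit 1517) (.f (nat_lit 498) (nat_lit 527) (nat_lit 1518) (.f (nat_lit 467) (nat_lit 466) (nat_lit 2511) (.f (nat_lit 499) (nat_lit 468) (nat_lit 2512) (.d (nat_lit 531) (nat_lit 530) (nat_lit 495) (nat_lit 532) (nat_lit 496)))))) (.p (nat_lit 431) (.a (.d (nat_lit 463) (nat_lit 399) (nat_lit 4495) (nat_lit 527) (nat_lit 4527)) (.a (.f (nat_lit 463) (nat_lit 399) (nat_lit 4495) (.f (nat_lit 462) (nat_lit 461) (nat_lit 3533) (.d (nat_lit 526) (nat_lit 525) (nat_lit 1517) (nat_lit 558) (nat_lit 6574)))) (.a (.f (nat_lit 526) (nat_lit 525) (nat_lit 1517) (.f (nat_lit 462) (nat_lit 461) (nat_lit 3533) (.f (nat_lit 430) (nat_lit 399) (nat_lit 6542) (.f (nat_lit 398) (nat_lit 527) (nat_lit 4494) (.d (nat_lit 397) (nat_lit 365) (nat_lit 7533) (nat_lit 429) (nat_lit 7565)))))) (.f (nat_lit 526) (nat_lit 525) (nat_lit 1517) (.f (nat_lit 463) (nat_lit 527) (nat_lit 4527) (.d (nat_lit 558) (nat_lit 462) (nat_lit 6574) (nat_lit 590) (nat_lit 6606)))))))))))) (.a s35263 (.p (nat_lit 463) (.a (.d (nat_lit 431) (nat_lit 399) (nat_lit 4495) (nat_lit 527) (nat_lit 4527)) (.a (.p (nat_lit 526) (.a (.f (nat_lit 431) (nat_lit 399) (nat_lit 4495) (.d (nat_lit 558) (nat_lit 462) (nat_lit 6574) (nat_lit 590) (nat_lit 6606))) (.f (nat_lit 525) (nat_lit 497) (nat_lit 1517) (.d (nat_lit 524) (nat_lit 493) (nat_lit 1516) (nat_lit 523) (nat_lit 2539))))) (.p (nat_lit 497) (.a (.f (nat_lit 498) (nat_lit 462) (nat_lit 3534) (.d (nat_lit 466) (nat_lit 465) (nat_lit 2510) (nat_lit 467) (nat_lit 2511))) (.a (.f (nat_lit 498) (nat_lit 462) (nat_lit 3534) (.d (nat_lit 526) (nat_lit 525) (nat_lit 1517) (nat_lit 527) (nat_lit 1518))) (.a (.f (nat_lit 525) (nat_lit 526) (nat_lit 1517) (.f (nat_lit 493) (nat_lit 524) (nat_lit 1516) (.f (nat_lit 492) (nat_lit 527) (nat_lit 492) (.f (nat_lit 491) (nat_lit 462) (nat_lit 2507) (.d (nat_lit 459) (nat_lit 458) (nat_lit 3530) (nat_lit 460) (nat_lit 3531)))))) (.f (nat_lit 526) (nat_lit 525) (nat_lit 1517) (.f (nat_lit 498) (nat_lit 527) (nat_lit 1518) (.d (nat_lit 466) (nat_lit 465) (nat_lit 2510) (nat_lit 467) (nat_lit 2511))))))))))))))))))) (.a (.p (nat_lit 494) (.a s34927 (.a s35232 (.a s35236 (.a (.p (nat_lit 493) (.a (.f (nat_lit 492) (nat_lit 527) (nat_lit 492) (.d (nat_lit 460) (nat_lit 459) (nat_lit 3531) (nat_lit 461) (nat_lit 3532))) (.a (.p (nat_lit 492) (.a (.d (nat_lit 460) (nat_lit 459) (nat_lit 3531) (nat_lit 461) (nat_lit 3532)) (.a (.f (nat_lit 459) (nat_lit 460) (nat_lit 3531) (.f (nat_lit 491) (nat_lit 458) (nat_lit 3530) (.d (nat_lit 523) (nat_lit 522) (nat_lit 1514) (nat_lit 524) (nat_lit 1515)))) (.f (nat_lit 523) (nat_lit 524) (nat_lit 1515) (.f (nat_lit 491) (nat_lit 522) (nat_lit 1514) (.f (nat_lit 462) (nat_lit 463) (nat_lit 2507) (.d (nat_lit 461) (nat_lit 490) (nat_lit 2506) (nat_lit 497) (nat_lit 3533)))))))) (.a (.f (nat_lit 492) (nat_lit 527) (nat_lit 492) (.f (nat_lit 463) (nat_lit 464) (nat_lit 2508) (.f (nat_lit 491) (nat_lit 462) (nat_lit 2507) (.d (nat_lit 523) (nat_lit 522) (nat_lit 1514) (nat_lit 524) (nat_lit 1515))))) (.p (nat_lit 464) (.a (.p (nat_lit 432) (.a (.f (nat_lit 400) (nat_lit 527) (nat_lit 5519) (.d (nat_lit 401) (nat_lit 369) (nat_lit 6512) (nat_lit 433) (nat_lit 6544))) (.a (.f (nat_lit 461) (nat_lit 460) (nat_lit 3532) (.f (nat_lit 462) (nat_lit 497) (nat_lit 3533) (.d (nat_lit 433) (nat_lit 401) (nat_lit 6544) (nat_lit 463) (nat_lit 2477)))) (.a (.f (nat_lit 400) (nat_lit 527) (nat_lit 5519) (.f (nat_lit 368) (nat_lit 463) (nat_lit 5487) (.d (nat_lit 369) (nat_lit 337) (nat_lit 6480) (nat_lit 401) (nat_lit 6512)))) (.f (nat_lit 461) (nat_lit 460) (nat_lit 3532) (.f (nat_lit 462) (nat_lit 497) (nat_lit 3533) (.f (nat_lit 463) (nat_lit 433) (nat_lit 2477) (.d (nat_lit 400) (nat_lit 368) (nat_lit 5487) (nat_lit 527) (nat_lit 5519))))))))) (.a (.f (nat_lit 463) (nat_lit 431) (nat_lit 7599) (.f (nat_lit 461) (nat_lit 460) (nat_lit 3532) (.f (nat_lit 462) (nat_lit 497) (nat_lit 461) (.f (nat_lit 429) (nat_lit 428) (nat_lit 3500) (.d (nat_lit 397) (nat_lit 365) (nat_lit 4461) (nat_lit 526) (nat_lit 4493)))))) (.a (.f (nat_lit 431) (nat_lit 463) (nat_lit 7599) (.f (nat_lit 432) (nat_lit 399) (nat_lit 7567) (.f (nat_lit 401) (nat_lit 433) (nat_lit 6544) (.d (nat_lit 400) (nat_lit 369) (nat_lit 6512) (nat_lit 527) (nat_lit 5519))))) (.p (nat_lit 432) (.a (.f (nat_lit 400) (nat_lit 527) (nat_lit 5519) (.d (nat_lit 401) (nat_lit 369) (nat_lit 6512) (nat_lit 433) (nat_lit 6544))) (.a (.f (nat_lit 461) (nat_lit 460) (nat_lit 3532) (.f (nat_lit 462) (nat_lit 497) (nat_lit 3533) (.f (nat_lit 431) (nat_lit 399) (nat_lit 7567) (.d (nat_lit 433) (nat_lit 401) (nat_lit 6544) (nat_lit 430) (nat_lit 1453))))) (.f (nat_lit 400) (nat_lit 527) (nat_lit 5519) (.d (nat_lit 399) (nat_lit 367) (nat_lit 7535) (nat_lit 431) (nat_lit 7567)))))))))))))) (.a (.p (nat_lit 493) (.a (.f (nat_lit 492) (nat_lit 527) (nat_lit 492) (.d (nat_lit 524) (nat_lit 523) (nat_lit 1515) (nat_lit 525) (nat_lit 1516))) (.a (.f (nat_lit 460) (nat_lit 461) (nat_lit 3532) (.f (nat_lit 492) (nat_lit 459) (nat_lit 3531) (.d (nat_lit 524) (nat_lit 523) (nat_lit 1515) (nat_lit 525) (nat_lit 1516)))) (.a (.f (nat_lit 492) (nat_lit 527) (nat_lit 492) (.d (nat_lit 460) (nat_lit 459) (nat_lit 3531) (nat_lit 461) (nat_lit 3532))) (.f (nat_lit 461) (nat_lit 460) (nat_lit 3532) (.f (nat_lit 525) (nat_lit 524) (nat_lit 1516) (.f (nat_lit 462) (nat_lit 497) (nat_lit 3533) (.d (nat_lit 430) (nat_lit 398) (nat_lit 5517) (nat_lit 557) (nat_lit 6573))))))))) (.a (.p (nat_lit 497) (.a (.f (nat_lit 526) (nat_lit 525) (nat_lit 1517) (.f (nat_lit 498) (nat_lit 527) (nat_lit 1518) (.f (nat_lit 467) (nat_lit 466) (nat_lit 2511) (.f (nat_lit 499) (nat_lit 468) (nat_lit 2512) (.d (nat_lit 531) (nat_lit 530) (nat_lit 495) (nat_lit 532) (nat_lit 496)))))) (.a (.f (nat_lit 462) (nat_lit 461) (nat_lit 3533) (.f (nat_lit 463) (nat_lit 498) (nat_lit 3534) (.d (nat_lit 431) (nat_lit 399) (nat_lit 4495) (nat_lit 464) (nat_lit 7599)))) (.p (nat_lit 431) (.a (.d (nat_lit 463) (nat_lit 399) (nat_lit 4495) (nat_lit 527) (nat_lit 4527)) (.a (.d (nat_lit 463) (nat_lit 399) (nat_lit 4495) (nat_lit 464) (nat_lit 7599)) (.a (.f (nat_lit 526) (nat_lit 525) (nat_lit 1517) (.f (nat_lit 462) (nat_lit 461) (nat_lit 3533) (.f (nat_lit 430) (nat_lit 399) (nat_lit 6542) (.f (nat_lit 398) (nat_lit 527) (nat_lit 4494) (.d (nat_lit 397) (nat_lit 365) (nat_lit 7533) (nat_lit 429) (nat_lit 7565)))))) (.d (nat_lit 463) (nat_lit 464) (nat_lit 7599) (nat_lit 527) (nat_lit 4527))))))))) (.a s35263 (.p (nat_lit 493) (.a (.f (nat_lit 492) (nat_lit 527) (nat_lit 492) (.d (nat_lit 524) (nat_lit 523) (nat_lit 1515) (nat_lit 525) (nat_lit 1516))) (.a (.f (nat_lit 524) (nat_lit 525) (nat_lit 1516) (.f (nat_lit 492) (nat_lit 523) (nat_lit 1515) (.f (nat_lit 463) (nat_lit 464) (nat_lit 2508) (.f (nat_lit 491) (nat_lit 462) (nat_lit 2507) (.d (nat_lit 459) (nat_lit 458) (nat_lit 3530) (nat_lit 460) (nat_lit 3531)))))) (.a (.f (nat_lit 492) (nat_lit 527) (nat_lit 492) (.f (nat_lit 463) (nat_lit 464) (nat_lit 2508) (.f (nat_lit 491) (nat_lit 462) (nat_lit 2507) (.d (nat_lit 523) (nat_lit 522) (nat_lit 1514) (nat_lit 524) (nat_lit 1515))))) (.a (.f (nat_lit 525) (nat_lit 524) (nat_lit 1516) (.f (nat_lit 526) (nat_lit 497) (nat_lit 1517) (.f (nat_lit 527) (nat_lit 561) (nat_lit 525) (.f (nat_lit 557) (nat_lit 556) (nat_lit 1548) (.d (nat_lit 462) (nat_lit 430) (nat_lit 5549) (nat_lit 589) (nat_lit 6605)))))) (.f (nat_lit 492) (nat_lit 527) (nat_lit 492) (.f (nat_lit 463) (nat_lit 464) (nat_lit 2508) (.f (nat_lit 491) (nat_lit 462) (nat_lit 2507) (.d (nat_lit 459) (nat_lit 458) (nat_lit 3530) (nat_lit 460) (nat_lit 3531)))))))))))))))))) (.a (.p (nat_lit 464) (.a (.f (nat_lit 431) (nat_lit 463) (nat_lit 7599) (.f (nat_lit 432) (nat_lit 399) (nat_lit 7567) (.f (nat_lit 401) (nat_lit 433) (nat_lit 6544) (.d (nat_lit 400) (nat_lit 369) (nat_lit 6512) (nat_lit 527) (nat_lit 5519))))) (.a s35328 (.a (.f (nat_lit 433) (nat_lit 465) (nat_lit 6576) (.f (nat_lit 432) (nat_lit 401) (nat_lit 6544) (.f (nat_lit 400) (nat_lit 527) (nat_lit 5519) (.f (nat_lit 368) (nat_lit 463) (nat_lit 5487) (.d (nat_lit 367) (nat_lit 335) (nat_lit 7503) (nat_lit 399) (nat_lit 7535)))))) (.a (.p (nat_lit 432) (.a (.d (nat_lit 431) (nat_lit 399) (nat_lit 7567) (nat_lit 463) (nat_lit 7599)) (.a (.f (nat_lit 400) (nat_lit 527) (nat_lit 5519) (.f (nat_lit 368) (nat_lit 463) (nat_lit 5487) (.d (nat_lit 367) (nat_lit 335) (nat_lit 7503) (nat_lit 399) (nat_lit 7535)))) (.a (.f (nat_lit 400) (nat_lit 527) (nat_lit 5519) (.d (nat_lit 399) (nat_lit 367) (nat_lit 7535) (nat_lit 431) (nat_lit 7567))) (.f (nat_lit 463) (nat_lit 431) (nat_lit 7599) (.d (nat_lit 400) (nat_lit 368) (nat_lit 5487) (nat_lit 527) (nat_lit 5519))))))) (.a (.f (nat_lit 433) (nat_lit 465) (nat_lit 6576) (.f (nat_lit 432) (nat_lit 401) (nat_lit 6544) (.f (nat_lit 400) (nat_lit 527) (nat_lit 5519) (.d (nat_lit 399) (nat_lit 367) (nat_lit 7535) (nat_lit 431) (nat_lit 7567))))) (.p (nat_lit 497) (.a (.f (nat_lit 463) (nat_lit 431) (nat_lit 7599) (.d (nat_lit 498) (nat_lit 462) (nat_lit 3534) (nat_lit 499) (nat_lit 3535))) (.a (.f (nat_lit 465) (nat_lit 433) (nat_lit 6576) (.f (nat_lit 494) (nat_lit 493) (nat_lit 2509) (.f (nat_lit 462) (nat_lit 461) (nat_lit 3533) (.f (nat_lit 498) (nat_lit 463) (nat_lit 462) (.d (nat_lit 527) (nat_lit 499) (nat_lit 1519) (nat_lit 526) (nat_lit 1518)))))) (.a (.f (nat_lit 465) (nat_lit 433) (nat_lit 6576) (.f (nat_lit 494) (nat_lit 493) (nat_lit 2509) (.f (nat_lit 526) (nat_lit 525) (nat_lit 1517) (.f (nat_lit 498) (nat_lit 527) (nat_lit 1518) (.f (nat_lit 499) (nat_lit 500) (nat_lit 3536) (.d (nat_lit 531) (nat_lit 530) (nat_lit 495) (nat_lit 532) (nat_lit 496))))))) (.a (.f (nat_lit 463) (nat_lit 431) (nat_lit 7599) (.d (nat_lit 462) (nat_lit 461) (nat_lit 461) (nat_lit 498) (nat_lit 3534))) (.f (nat_lit 463) (nat_lit 431) (nat_lit 7599) (.f (nat_lit 462) (nat_lit 461) (nat_lit 461) (.f (nat_lit 465) (nat_lit 433) (nat_lit 6576) (.f (nat_lit 494) (nat_lit 493) (nat_lit 1485) (.f (nat_lit 430) (nat_lit 429) (nat_lit 3501) (.d (nat_lit 398) (nat_lit 366) (nat_lit 4462) (nat_lit 527) (nat_lit 4494)))))))))))))))))) (.a (.p (nat_lit 464) (.a (.f (nat_lit 431) (nat_lit 463) (nat_lit 7599) (.f (nat_lit 432) (nat_lit 399) (nat_lit 7567) (.f (nat_lit 401) (nat_lit 433) (nat_lit 6544) (.d (nat_lit 400) (nat_lit 369) (nat_lit 6512) (nat_lit 527) (nat_lit 5519))))) (.a s35328 (.a (.f (nat_lit 433) (nat_lit 465) (nat_lit 6576) (.f (nat_lit 432) (nat_lit 401) (nat_lit 6544) (.f (nat_lit 400) (nat_lit 527) (nat_lit 5519) (.f (nat_lit 368) (nat_lit 463) (nat_lit 5487) (.d (nat_lit 367) (nat_lit 335) (nat_lit 7503) (nat_lit 399) (nat_lit 7535)))))) (.a (.p (nat_lit 432) (.a (.d (nat_lit 431) (nat_lit 399) (nat_lit 7567) (nat_lit 463) (nat_lit 7599)) (.a (.f (nat_lit 400) (nat_lit 527) (nat_lit 5519) (.f (nat_lit 368) (nat_lit 463) (nat_lit 5487) (.d (nat_lit 367) (nat_lit 335) (nat_lit 7503) (nat_lit 399) (nat_lit 7535)))) (.a (.f (nat_lit 400) (nat_lit 527) (nat_lit 5519) (.d (nat_lit 399) (nat_lit 367) (nat_lit 7535) (nat_lit 431) (nat_lit 7567))) (.f (nat_lit 463) (nat_lit 431) (nat_lit 7599) (.d (nat_lit 400) (nat_lit 368) (nat_lit 5487) (nat_lit 527) (nat_lit 5519))))))) (.a (.f (nat_lit 433) (nat_lit 465) (nat_lit 6576) (.f (nat_lit 432) (nat_lit 401) (nat_lit 6544) (.f (nat_lit 400) (nat_lit 527) (nat_lit 5519) (.d (nat_lit 399) (nat_lit 367) (nat_lit 7535) (nat_lit 431) (nat_lit 7567))))) (.f (nat_lit 463) (nat_lit 431) (nat_lit 7599) (.f (nat_lit 465) (nat_lit 433) (nat_lit 6576) (.d (nat_lit 466) (nat_lit 467) (nat_lit 1487) (nat_lit 494) (nat_lit 1486)))))))))) (.a (.p (nat_lit 464) (.a (.f (nat_lit 431) (nat_lit 463) (nat_lit 7599) (.f (nat_lit 432) (nat_lit 399) (nat_lit 7567) (.f (nat_lit 401) (nat_lit 433) (nat_lit 6544) (.d (nat_lit 400) (nat_lit 369) (nat_lit 6512) (nat_lit 527) (nat_lit 5519))))) (.a s35328 (.a (.f (nat_lit 433) (nat_lit 465) (nat_lit 6576) (.f (nat_lit 432) (nat_lit 401) (nat_lit 6544) (.f (nat_lit 400) (nat_lit 527) (nat_lit 5519) (.f (nat_lit 368) (nat_lit 463) (nat_lit 5487) (.d (nat_lit 367) (nat_lit 335) (nat_lit 7503) (nat_lit 399) (nat_lit 7535)))))) (.a (.p (nat_lit 432) (.a (.d (nat_lit 431) (nat_lit 399) (nat_lit 7567) (nat_lit 463) (nat_lit 7599)) (.a (.f (nat_lit 400) (nat_lit 527) (nat_lit 5519) (.f (nat_lit 368) (nat_lit 463) (nat_lit 5487) (.d (nat_lit 367) (nat_lit 335) (nat_lit 7503) (nat_lit 399) (nat_lit 7535)))) (.a (.f (nat_lit 400) (nat_lit 527) (nat_lit 5519) (.d (nat_lit 399) (nat_lit 367) (nat_lit 7535) (nat_lit 431) (nat_lit 7567))) (.f (nat_lit 463) (nat_lit 431) (nat_lit 7599) (.d (nat_lit 400) (nat_lit 368) (nat_lit 5487) (nat_lit 527) (nat_lit 5519))))))) (.a (.f (nat_lit 433) (nat_lit 465) (nat_lit 6576) (.f (nat_lit 432) (nat_lit 401) (nat_lit 6544) (.f (nat_lit 400) (nat_lit 527) (nat_lit 5519) (.d (nat_lit 399) (nat_lit 367) (nat_lit 7535) (nat_lit 431) (nat_lit 7567))))) (.f (nat_lit 463) (nat_lit 431) (nat_lit 7599) (.f (nat_lit 465) (nat_lit 433) (nat_lit 6576) (.f (nat_lit 466) (nat_lit 467) (nat_lit 1487) (.f (nat_lit 498) (nat_lit 499) (nat_lit 463) (.f (nat_lit 462) (nat_lit 497) (nat_lit 462) (.f (nat_lit 461) (nat_lit 460) (nat_lit 460) (.d (nat_lit 429) (nat_lit 428) (nat_lit 3500) (nat_lit 430) (nat_lit 3501)))))))))))))) (.p (nat_lit 464) (.a (.f (nat_lit 463) (nat_lit 431) (nat_lit 7599) (.f (nat_lit 465) (nat_lit 433) (nat_lit 6576) (.d (nat_lit 494) (nat_lit 466) (nat_lit 1486) (nat_lit 493) (nat_lit 2509)))) (.a s35328 (.a (.f (nat_lit 465) (nat_lit 433) (nat_lit 6576) (.f (nat_lit 494) (nat_lit 493) (nat_lit 2509) (.d (nat_lit 466) (nat_lit 463) (nat_lit 1486) (nat_lit 467) (nat_lit 1487)))) (.a (.p (nat_lit 497) (.a (.f (nat_lit 463) (nat_lit 431) (nat_lit 7599) (.d (nat_lit 498) (nat_lit 462) (nat_lit 3534) (nat_lit 499) (nat_lit 3535))) (.a (.p (nat_lit 498) (.a (.f (nat_lit 467) (nat_lit 466) (nat_lit 2511) (.f (nat_lit 499) (nat_lit 468) (nat_lit 2512) (.d (nat_lit 531) (nat_lit 530) (nat_lit 495) (nat_lit 532) (nat_lit 496)))) (.a (.f (nat_lit 463) (nat_lit 462) (nat_lit 3534) (.f (nat_lit 466) (nat_lit 467) (nat_lit 2511) (.f (nat_lit 494) (nat_lit 465) (nat_lit 2510) (.f (nat_lit 493) (nat_lit 492) (nat_lit 2508) (.d (nat_lit 525) (nat_lit 524) (nat_lit 1516) (nat_lit 526) (nat_lit 1517)))))) (.d (nat_lit 463) (nat_lit 462) (nat_lit 3534) (nat_lit 499) (nat_lit 3535))))) (.a (.p (nat_lit 498) (.a (.f (nat_lit 467) (nat_lit 466) (nat_lit 2511) (.f (nat_lit 499) (nat_lit 468) (nat_lit 2512) (.d (nat_lit 531) (nat_lit 530) (nat_lit 495) (nat_lit 532) (nat_lit 496)))) (.a (.f (nat_lit 466) (nat_lit 467) (nat_lit 2511) (.f (nat_lit 494) (nat_lit 465) (nat_lit 2510) (.f (nat_lit 461) (nat_lit 462) (nat_lit 3533) (.f (nat_lit 493) (nat_lit 460) (nat_lit 3532) (.d (nat_lit 525) (nat_lit 524) (nat_lit 1516) (nat_lit 526) (nat_lit 1517)))))) (.a (.f (nat_lit 531) (nat_lit 530) (nat_lit 495) (.f (nat_lit 499) (nat_lit 532) (nat_lit 496) (.f (nat_lit 468) (nat_lit 467) (nat_lit 2512) (.d (nat_lit 500) (nat_lit 465) (nat_lit 3536) (nat_lit 469) (nat_lit 2513))))) (.f (nat_lit 531) (nat_lit 530) (nat_lit 495) (.f (nat_lit 499) (nat_lit 532) (nat_lit 496) (.f (nat_lit 465) (nat_lit 500) (nat_lit 3536) (.d (nat_lit 494) (nat_lit 466) (nat_lit 2510) (nat_lit 493) (nat_lit 2509))))))))) (.a (.f (nat_lit 463) (nat_lit 431) (nat_lit 7599) (.d (nat_lit 462) (nat_lit 461) (nat_lit 461) (nat_lit 498) (nat_lit 3534))) (.a (.p (nat_lit 494) (.a (.f (nat_lit 461) (nat_lit 462) (nat_lit 3533) (.f (nat_lit 493) (nat_lit 460) (nat_lit 3532) (.d (nat_lit 525) (nat_lit 524) (nat_lit 1516) (nat_lit 526) (nat_lit 1517)))) (.a (.d (nat_lit 465) (nat_lit 466) (nat_lit 2510) (nat_lit 493) (nat_lit 2509)) (.f (nat_lit 431) (nat_lit 463) (nat_lit 7599) (.f (nat_lit 399) (nat_lit 432) (nat_lit 7567) (.f (nat_lit 462) (nat_lit 461) (nat_lit 3533) (.d (nat_lit 526) (nat_lit 430) (nat_lit 6542) (nat_lit 525) (nat_lit 1517)))))))) (.f (nat_lit 463) (nat_lit 431) (nat_lit 7599) (.f (nat_lit 498) (nat_lit 499) (nat_lit 3535) (.f (nat_lit 466) (nat_lit 467) (nat_lit 2511) (.f (nat_lit 494) (nat_lit 465) (nat_lit 2510) (.f (nat_lit 493) (nat_lit 492) (nat_lit 2508) (.d (nat_lit 525) (nat_lit 524) (nat_lit 1516) (nat_lit 526) (nat_lit 1517))))))))))))) (.f (nat_lit 465) (nat_lit 433) (nat_lit 6576) (.f (nat_lit 494) (nat_lit 493) (nat_lit 2509) (.d (nat_lit 466) (nat_lit 467) (nat_lit 1487) (nat_lit 497) (nat_lit 2510)))))))))))))))))))))) (.p (nat_lit 497) (.a (.f (nat_lit 465) (nat_lit 592) (nat_lit 6608) (.d (nat_lit 433) (nat_lit 401) (nat_lit 5520) (nat_lit 464) (nat_lit 6576))) (.a (.f (nat_lit 592) (nat_lit 465) (nat_lit 6608) (.f (nat_lit 495) (nat_lit 463) (nat_lit 7631) (.f (nat_lit 527) (nat_lit 624) (nat_lit 7663) (.d (nat_lit 526) (nat_lit 498) (nat_lit 1518) (nat_lit 525) (nat_lit 2541))))) (.a (.p (nat_lit 495) (.a (.p (nat_lit 494) (.a (.f (nat_lit 526) (nat_lit 525) (nat_lit 1517) (.f (nat_lit 498) (nat_lit 527) (nat_lit 1518) (.f (nat_lit 467) (nat_lit 466) (nat_lit 2511) (.f (nat_lit 499) (nat_lit 468) (nat_lit 2512) (.d (nat_lit 531) (nat_lit 530) (nat_lit 495) (nat_lit 532) (nat_lit 496)))))) (.a (.f (nat_lit 525) (nat_lit 526) (nat_lit 1517) (.f (nat_lit 493) (nat_lit 524) (nat_lit 1516) (.d (nat_lit 461) (nat_lit 460) (nat_lit 3532) (nat_lit 462) (nat_lit 3533)))) (.a (.f (nat_lit 461) (nat_lit 462) (nat_lit 3533) (.f (nat_lit 493) (nat_lit 460) (nat_lit 3532) (.f (nat_lit 527) (nat_lit 492) (nat_lit 492) (.d (nat_lit 498) (nat_lit 499) (nat_lit 1519) (nat_lit 526) (nat_lit 1518))))) (.f (nat_lit 461) (nat_lit 462) (nat_lit 3533) (.f (nat_lit 493) (nat_lit 460) (nat_lit 3532) (.f (nat_lit 524) (nat_lit 525) (nat_lit 1516) (.d (nat_lit 492) (nat_lit 523) (nat_lit 1515) (nat_lit 527) (nat_lit 492))))))))) (.a (.p (nat_lit 498) (.a (.f (nat_lit 531) (nat_lit 530) (nat_lit 495) (.f (nat_lit 499) (nat_lit 532) (nat_lit 496) (.d (nat_lit 467) (nat_lit 466) (nat_lit 2511) (nat_lit 468) (nat_lit 2512)))) (.f (nat_lit 463) (nat_lit 462) (nat_lit 3534) (.d (nat_lit 431) (nat_lit 399) (nat_lit 4495) (nat_lit 464) (nat_lit 7599))))) (.a (.p (nat_lit 494) (.a (.f (nat_lit 526) (nat_lit 525) (nat_lit 1517) (.f (nat_lit 527) (nat_lit 498) (nat_lit 1518) (.f (nat_lit 493) (nat_lit 492) (nat_lit 492) (.d (nat_lit 461) (nat_lit 460) (nat_lit 3532) (nat_lit 462) (nat_lit 3533))))) (.a (.f (nat_lit 525) (nat_lit 526) (nat_lit 1517) (.f (nat_lit 493) (nat_lit 524) (nat_lit 1516) (.d (nat_lit 461) (nat_lit 460) (nat_lit 3532) (nat_lit 462) (nat_lit 3533)))) (.a (.f (nat_lit 462) (nat_lit 461) (nat_lit 3533) (.f (nat_lit 463) (nat_lit 498) (nat_lit 3534) (.d (nat_lit 431) (nat_lit 399) (nat_lit 4495) (nat_lit 464) (nat_lit 7599)))) (.a (.f (nat_lit 525) (nat_lit 526) (nat_lit 1517) (.f (nat_lit 493) (nat_lit 524) (nat_lit 1516) (.f (nat_lit 492) (nat_lit 527) (nat_lit 492) (.d (nat_lit 460) (nat_lit 459) (nat_lit 3531) (nat_lit 461) (nat_lit 3532))))) (.f (nat_lit 526) (nat_lit 525) (nat_lit 1517) (.f (nat_lit 498) (nat_lit 527) (nat_lit 1518) (.f (nat_lit 463) (nat_lit 462) (nat_lit 3534) (.d (nat_lit 431) (nat_lit 399) (nat_lit 4495) (nat_lit 464) (nat_lit 7599)))))))))) (.f (nat_lit 463) (nat_lit 592) (nat_lit 7631) (.d (nat_lit 431) (nat_lit 399) (nat_lit 4495) (nat_lit 464) (nat_lit 7599))))))) (.p (nat_lit 498) (.a (.f (nat_lit 527) (nat_lit 499) (nat_lit 1519) (.d (nat_lit 526) (nat_lit 495) (nat_lit 1518) (nat_lit 525) (nat_lit 2541))) (.a s33607 (.a (.f (nat_lit 499) (nat_lit 527) (nat_lit 1519) (.f (nat_lit 532) (nat_lit 531) (nat_lit 496) (.f (nat_lit 500) (nat_lit 533) (nat_lit 497) (.d (nat_lit 468) (nat_lit 467) (nat_lit 2512) (nat_lit 469) (nat_lit 2513))))) (.p (nat_lit 495) (.a (.f (nat_lit 466) (nat_lit 467) (nat_lit 2511) (.f (nat_lit 465) (nat_lit 494) (nat_lit 2510) (.d (nat_lit 433) (nat_lit 401) (nat_lit 5520) (nat_lit 464) (nat_lit 6576)))) (.a (.f (nat_lit 526) (nat_lit 527) (nat_lit 1518) (.f (nat_lit 494) (nat_lit 525) (nat_lit 1517) (.d (nat_lit 466) (nat_lit 465) (nat_lit 2510) (nat_lit 467) (nat_lit 2511)))) (.f (nat_lit 527) (nat_lit 526) (nat_lit 1518) (.d (nat_lit 463) (nat_lit 431) (nat_lit 4527) (nat_lit 462) (nat_lit 3534)))))))))))))))))))))))))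
end Vale.Agent.Lib.P062.Part4
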