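import Vale.Agent.Lib.P062.Part4.K_0

set_option maxRecDepth 100000
set_option linter.all false

namespace Vale.Agent.Lib.P062.Part4
open Vale.Agent.Lib.P062 Vale.Agent.Lib.P062.V2

noncomputable def s16613 : Cert := .r (nat_lit 5660943638550353179107408936758928289799009328340392220191824088972173227751847569341540049774019602319201837101786659136820201688014610644787746989163257497368183963648) (.p (nat_lit 561) (.a (.d (nat_lit 526) (nat_lit 525) (nat_lit 525) (nat_lit 562) (nat_lit 3598)) (.a (.f (nat_lit 562) (nat_lit 563) (nat_lit 3599) (.f (nat_lit 591) (nat_lit 590) (nat_lit 1582) (.f (nat_lit 623) (nat_lit 655) (nat_lit 6671) (.f (nat_lit 624) (nat_lit 656) (nat_lit 4623) (.f (nat_lit 592) (nat_lit 495) (nat_lit 7663) (.p (nat_lit 593) (.a (.d (nat_lit 558) (nat_lit 557) (nat_lit 557) (nat_lit 594) (nat_lit 558)) (.d (nat_lit 622) (nat_lit 621) (nat_lit 2637) (nat_lit 654) (nat_lit 5646))))))))) (.f (nat_lit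 526) (nat_lit 525) (nat_lit 525) (.p (nat_lit 558) (.a (.f (nat_lit 557) (nat_lit 556) (nat_lit 2572) (.d (nat_lit 593) (nat_lit 592) (nat_lit 557) (nat_lit 594) (nat_lit 558))) (.f (nat_lit 590) (nat_lit 589) (nat_lit 1581) (.d (nat_lit 495) (nat_lit 463) (nat_lit 5582) (nat_lit 622) (nat_lit 6638)))))))))
noncomputable def s16637 : Cert := .r (nat_lit 13208868488193435883590518098735466071632851769173273076944236689463421552536145273513793500129337137402138587163314348936361370947864195909910615492028649584666974617600) (.f (nat_lit 526) (nat_lit 525) (nat_lit 525) (.p (nat_lit 558) (.a (.f (nat_lit 557) (nat_lit 556) (nat_lit 2572) (.d (nat_lit 593) (nat_lit 592) (nat_lit 557) (nat_lit 594) (nat_lit 558))) (.a (.f (nat_lit 590) (nat_lit 589) (nat_lit 1581) (.f (nat_lit 495) (nat_lit 463) (nat_lit 5582) (.f (nat_lit 592) (nat_lit 624) (nat_lit 7663) (.d (nat_lit 593) (nat_lit 557) (nat_lit 557) (nat_lit 594)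 (nat_lit 558))))) (.a (.f (nat_lit 557) (nat_lit 556) (nat_lit 2572) (.d (nat_lit 589) (nat_lit 588) (nat_lit 1580) (nat_lit 590) (nat_lit 1581))) (.f (nat_lit 590) (nat_lit 589) (nat_lit 1581) (.f (nat_lit 495) (nat_lit 463) (nat_lit 5582) (.p (nat_lit 494) (.a (.d (nat_lit 493) (nat_lit 461) (nat_lit 7629) (nat_lit 492) (nat_lit 492)) (.d (nat_lit 462) (nat_lit 430) (nat_lit 4526) (nat_lit 591) (nat_lit 4558)))))))))))
noncomputable def s16656 : Cert := .r (nat_lit 5660943638550353179107408936758928289799009328340392220191824088972173227751847569341540049774019602319201837101786659136820201688014610644787746989163257497368183963648) (.p (nat_lit 495) (.a (.d (nat_lit 463) (nat_lit 431) (nat_lit 4527) (nat_lit 592) (nat_lit 4559)) (.a (.d (nat_lit 592) (nat_lit 463) (nat_lit 4559) (nat_lit 624) (nat_lit 7663)) (.a (.f (nat_lit 463) (nat_lit 431) (nat_lit 4527) (.f (nat_lit 590) (nat_lit 558) (nat_lit 5582) (.f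 (nat_lit 591) (nat_lit 622) (nat_lit 5614) (.d (nat_lit 462) (nat_lit 430) (nat_lit 7598) (nat_lit 494) (nat_lit 7630))))) (.f (nat_lit 592) (nat_lit 624) (nat_lit 7663) (.p (nat_lit 591) (.a (.f (nat_lit 590) (nat_lit 622) (nat_lit 5614) (.d (nat_lit 561) (nat_lit 562) (nat_lit 1582) (nat_lit 589) (nat_lit 2605))) (.a (.p (nat_lit 561) (.a (.d (nat_lit 562) (nat_lit 563) (nat_lit 3599) (nat_lit 590) (nat_lit 1582)) (.a (.d (nat_lit 526) (nat_lit 525) (nat_lit 525) (nat_lit 562) (nat_lit 3598)) (.f (nat_lit 526) (nat_lit 525) (nat_lit 525) (.d (nat_lit 494) (nat_lit 462) (nat_lit 7630) (nat_lit 623) (nat_lit 7662)))))) (.f (nat_lit 623) (nat_lit 655) (nat_lit 6671) (.d (nat_lit 494) (nat_lit 462) (nat_lit 7630) (nat_lit 526) (nat_lit 7662)))))))))))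
noncomputable def s16665 : Cert := .r (nat_lit 5660943638550353179107408936758928289799009328340392220191824088972173227751847569341540049774019602319201837101786659136820201688014610644787746989163257497368183963648) (.p (nat_lit 526) (.a (.d (nat_lit 525) (nat_lit 524) (nat_lit 524) (nat_lit 561) (nat_lit 525)) (.a (.f (nat_lit 561) (nat_lit 562) (nat_lit 3598) (.p (nat_lit 558) (.a (.f (nat_lit 557) (nat_lit 556) (nat_lit 2572) (.d (nat_lit 593) (nat_lit 592) (nat_lit 557) (nat_lit 594) (nat_lit 558))) (.f (nat_lit 590) (nat_lit 589) (nat_lit 1581) (.d (nat_lit 495) (nat_lit 463) (nat_lit 5582) (nat_lit 622) (nat_lit 6638)))))) (.f (nat_lit 525) (nat_lit 524) (nat_lit 524) (.f (nat_lit 557) (nat_lit 556) (nat_lit 1548) (.f (nat_lit 493) (nat_lit 492) (nat_lit 3564) (.p (nat_lit 558) (.a (.d (nat_lit 461) (nat_lit 429) (nat_lit 4525) (nat_lit 590) (nat_lit 4557)) (.f (nat_lit 589) (nat_lit 588) (nat_lit 1580)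 (.d (nat_lit 494) (nat_lit 462) (nat_lit 5581) (nat_lit 621) (nat_lit 6637)))))))))))
noncomputable def s16700 : Cert := .r (nat_lit 16209045197074067685951975828345584717461294842083858091002657156152025371573705884943043381989296764831106976927964554989184444530847674670768518571649102491235188907935862358016) (.p (nat_lit 493) (.a (.f (nat_lit 492) (nat_lit 494) (nat_lit 492) (.f (nat_lit 460) (nat_lit 589) (nat_lit 7628) (.d (nat_lit 428) (nat_lit 396) (nat_lit 4492) (nat_lit 524) (nat_lit 4524)))) (.a (.p (nat_lit 461) (.a (.p (nat_lit 429) (.a (.d (nat_lit 556) (nat_lit 524) (nat_lit 5548) (nat_lit 588) (nat_lit 5580)) (.d (nat_lit 428) (nat_lit 396) (nat_lit 7564) (nat_lit 460) (nat_lit 7596)))) (.f (nat_lit 462) (nat_lit 430) (nat_lit 6573) (.d (nat_lit 494) (nat_lit 589) (nat_lit 6605) (nat_lit 591) (nat_lit 7630))))) (.a (.p (nat_lit 461) (.a (.p (nat_lit 429) (.a (.d (nat_lit 556) (nat_lit 524) (nat_lit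 5548) (nat_lit 588) (nat_lit 5580)) (.d (nat_lit 428) (nat_lit 396) (nat_lit 7564) (nat_lit 460) (nat_lit 7596)))) (.a (.f (nat_lit 460) (nat_lit 428) (nat_lit 7596) (.p (nat_lit 429) (.a (.p (nat_lit 397) (.a (.d (nat_lit 398) (nat_lit 366) (nat_lit 6509) (nat_lit 430) (nat_lit 6541)) (.d (nat_lit 492) (nat_lit 524) (nat_lit 5516) (nat_lit 589) (nat_lit 7628)))) (.a (.d (nat_lit 430) (nat_lit 398) (nat_lit 6541) (nat_lit 462) (nat_lit 6573)) (.f (nat_lit 492) (nat_lit 589) (nat_lit 7628) (.d (nat_lit 397) (nat_lit 365) (nat_lit 5484) (nat_lit 524) (nat_lit 5516))))))) (.a (.p (nat_lit 589) (.a (.d (nat_lit 588) (nat_lit 556) (nat_lit 5580) (nat_lit 620) (nat_lit 5612)) (.d (nat_lit 460) (nat_lit 428) (nat_lit 7596) (nat_lit 492) (nat_lit 7628)))) (.p (nat_lit 429) (.a (.d (nat_lit 556) (nat_lit 524) (nat_lit 5548) (nat_lit 588) (nat_lit 5580)) (.d (nat_lit 430) (nat_lit 398) (nat_lit 6541) (nat_lit 462) (nat_lit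 6573)))))))) (.f (nat_lit 494) (nat_lit 492) (nat_lit 492) (.f (nat_lit 462) (nat_lit 591) (nat_lit 7630) (.d (nat_lit 430) (nat_lit 398) (nat_lit 5517) (nat_lit 461) (nat_lit 6573))))))))
noncomputable def s16708 : Cert := .r (nat_lit 16209045196602322382739446396753300639398050817933940646974291137802706697492691449297056084544168427349938676734697735230702222936112657863433967684583456908804917449821847027712) (.p (nat_lit 525) (.a (.d (nat_lit 526) (nat_lit 524) (nat_lit 524) (nat_lit 561) (nat_lit 525)) (.a (.p (nat_lit 557) (.a (.d (nat_lit 558) (nat_lit 556) (nat_lit 2572) (nat_lit 593) (nat_lit 557)) (.a (.d (nat_lit 558) (nat_lit 524) (nat_lit 3596) (nat_lit 593) (nat_lit 557)) s16700))) (.f (nat_lit 526) (nat_lit 561) (nat_lit 525) (.f (nat_lit 557) (nat_lit 556) (nat_lit 1548) (.p (nat_lit 494) (.a (.f (nat_lit 558) (nat_lit 593) (nat_lit 557) (.d (nat_lit 589) (nat_lit 588) (nat_lit 1580) (nat_lit 621)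 (nat_lit 6637))) (.d (nat_lit 462) (nat_lit 430) (nat_lit 4526) (nat_lit 591) (nat_lit 7630)))))))))
noncomputable def s16710 : Cert := .r (nat_lit 5660943638550353179107408936758928289799009328340392220191824088972173227751847569341540049774019602319201837101786659136820201688014610644787746989163257497368183963648) (.p (nat_lit 495) (.a (.d (nat_lit 463) (nat_lit 431) (nat_lit 4527) (nat_lit 592) (nat_lit 4559)) (.a (.d (nat_lit 592) (nat_lit 463) (nat_lit 4559) (nat_lit 624) (nat_lit 7663)) (.a (.f (nat_lit 463) (nat_lit 431) (nat_lit 4527) (.f (nat_lit 462) (nat_lit 430) (nat_lit 7598) (.f (nat_lit 494) (nat_lit 591) (nat_lit 7630) (.f (nat_lit 493) (nat_lit 492) (nat_lit 492) (.d (nat_lit 464) (nat_lit 432) (nat_lit 6575) (nat_lit 465) (nat_lit 1485)))))) (.f (nat_lit 592) (nat_lit 624) (nat_lit 7663) s16708)))))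
noncomputable def s16716 : Cert := .r (nat_lit 5660943638550353179107408936758928289799009328340392220191824088972173227751847569341540049774019602319201837101786659136820201688014610644787746989163257497368183963648) (.p (nat_lit 495) (.a (.d (nat_lit 463) (nat_lit 431) (nat_lit 4527) (nat_lit 592) (nat_lit 4559)) (.a (.d (nat_lit 592) (nat_lit 463) (nat_lit 4559) (nat_lit 624) (nat_lit 7663)) (.a (.f (nat_lit 463) (nat_lit 431) (nat_lit 4527) (.f (nat_lit 462) (nat_lit 430) (nat_lit 7598) (.f (nat_lit 591) (nat_lit 494) (nat_lit 7630) (.f (nat_lit 623) (nat_lit 655) (nat_lit 6671) (.d (nat_lit 622) (nat_lit 590) (nat_lit 5614) (nat_lit 654) (nat_lit 5646)))))) (.f (nat_lit 592) (nat_lit 624) (nat_lit 7663) (.p (nat_lit 591) (.a (.f (nat_lit 590) (nat_lit 622) (nat_lit 5614) (.d (nat_lit 561) (nat_lit 562) (nat_lit 1582) (nat_lit 589) (nat_lit 2605))) (.a (.p (nat_lit 561) (.a (.d (nat_lit 562) (nat_lit 563) (nat_lit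 3599) (nat_lit 590) (nat_lit 1582)) (.a (.d (nat_lit 526) (nat_lit 525) (nat_lit 525) (nat_lit 562) (nat_lit 3598)) (.f (nat_lit 526) (nat_lit 525) (nat_lit 525) (.d (nat_lit 494) (nat_lit 462) (nat_lit 7630) (nat_lit 623) (nat_lit 7662)))))) (.f (nat_lit 623) (nat_lit 655) (nat_lit 6671) (.d (nat_lit 494) (nat_lit 462) (nat_lit 7630) (nat_lit 526) (nat_lit 7662)))))))))))
noncomputable def s16762 : Cert := .r (nat_lit 16209045196602322382739446396753300639398050817933940646974291137802706697492691449297056084544168427349938676734697735230702222936112657863433967684583456908804917449821847027712) (.p (nat_lit 558) (.a (.d (nat_lit 557) (nat_lit 556) (nat_lit 2572) (nat_lit 593) (nat_lit 557)) (.a (.f (nat_lit 593) (nat_lit 557) (nat_lit 557) (.d (nat_lit 594) (nat_lit 561) (nat_lit 558) (nat_lit 595) (nat_lit 3631))) (.a (.p (nat_lit 561) (.a (.f (nat_lit 562) (nat_lit 563) (nat_lit 3599) (.d (nat_lit 594) (nat_lit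 593) (nat_lit 558) (nat_lit 595) (nat_lit 559))) (.a (.f (nat_lit 590) (nat_lit 589) (nat_lit 1581) (.d (nat_lit 562) (nat_lit 563) (nat_lit 3599) (nat_lit 591) (nat_lit 1582))) (.a (.f (nat_lit 590) (nat_lit 589) (nat_lit 1581) (.d (nat_lit 591) (nat_lit 562) (nat_lit 1582) (nat_lit 622) (nat_lit 5614))) (.f (nat_lit 590) (nat_lit 589) (nat_lit 1581) (.d (nat_lit 622) (nat_lit 591) (nat_lit 5614) (nat_lit 654) (nat_lit 6670))))))) (.f (nat_lit 557) (nat_lit 556) (nat_lit 2572) (.f (nat_lit 589) (nat_lit 588) (nat_lit 1580) (.f (nat_lit 590) (nat_lit 561) (nat_lit 1581) (.d (nat_lit 622) (nat_lit 591) (nat_lit 5614) (nat_lit 654) (nat_lit 6670)))))))))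
noncomputable def s16764 : Cert := .r (nat_lit 5660943638550353179107408936758928289799009328340392220191824088972173227751847569341540049774019602319201837101786659136820201688014610644787746989163257497368183963648) (.p (nat_lit 495) (.a (.d (nat_lit 463) (nat_lit 431) (nat_lit 4527) (nat_lit 592) (nat_lit 4559)) (.a (.d (nat_lit 592) (nat_lit 463) (nat_lit 4559) (nat_lit 624) (nat_lit 7663)) (.a (.f (nat_lit 463) (nat_lit 431) (nat_lit 4527) (.f (nat_lit 558) (nat_lit 590) (nat_lit 5582) (.f (nat_lit 557) (nat_lit 556) (nat_lit 2572) (.f (nat_lit 462) (nat_lit 430) (nat_lit 7598) (.f (nat_lit 494) (nat_lit 591) (nat_lit 7630) (.f (nat_lit 493) (nat_lit 492) (nat_lit 492) (.d (nat_lit 464) (nat_lit 432) (nat_lit 6575) (nat_lit 465) (nat_lit 1485)))))))) (.f (nat_lit 592) (nat_lit 624) (nat_lit 7663) s16762)))))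
noncomputable def s16777 : Cert := .r (nat_lit 13208868488413109408714697609614886897203456352125895006548822462564044383230082655382518493797259045903305132922587830900888758405052099525901548094031018489982656446464) (.p (nat_lit 591) (.a (.d (nat_lit 623) (nat_lit 494) (nat_lit 7662) (nat_lit 655) (nat_lit 6671)) (.a (.f (nat_lit 494) (nat_lit 623) (nat_lit 7662) (.d (nat_lit 462) (nat_lit 430) (nat_lit 4526) (nat_lit 558) (nat_lit 4558))) (.a (.f (nat_lit 623) (nat_lit 655) (nat_lit 6671) (.f (nat_lit 622) (nat_lit 654) (nat_lit 5646) (.f (nat_lit 590) (nat_lit 495) (nat_lit 5614) (.d (nat_lit 589) (nat_lit 558) (nat_lit 1581) (nat_lit 588) (nat_lit 2604))))) (.p (nat_lit 495) (.a (.f (nat_lit 590) (nat_lit 622) (nat_lit 5614) (.d (nat_lit 589) (nat_lit 558) (nat_lit 1581) (nat_lit 588) (nat_lit 2604))) (.f (nat_lit 462) (nat_lit 494) (nat_lit 7630) (.d (nat_lit 463) (nat_lit 430) (nat_lit 7598) (nat_lit 431)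 (nat_lit 4527)))))))))
noncomputable def s16788 : Cert := .r (nat_lit 5660943638550353179107408936758928289799009328340392220191824088972173227751847569341540049774019602319201837101786659136820201688014610644787746989163257497368183963648) (.p (nat_lit 526) (.a (.d (nat_lit 525) (nat_lit 524) (nat_lit 524) (nat_lit 561) (nat_lit 525)) (.a (.f (nat_lit 561) (nat_lit 562) (nat_lit 3598) s16777) (.f (nat_lit 525) (nat_lit 524) (nat_lit 524) (.f (nat_lit 557) (nat_lit 556) (nat_lit 1548) (.f (nat_lit 493) (nat_lit 492) (nat_lit 3564) (.p (nat_lit 494) (.a (.f (nat_lit 589) (nat_lit 621) (nat_lit 6637) (.d (nat_lit 588) (nat_lit 558) (nat_lit 1580) (nat_lit 620) (nat_lit 5612))) (.a (.d (nat_lit 462) (nat_lit 430) (nat_lit 5549) (nat_lit 589) (nat_lit 6605)) (.f (nat_lit 462) (nat_lit 430) (nat_lit 4526) (.d (nat_lit 591) (nat_lit 495) (nat_lit 7630) (nat_lit 558) (nat_lit 4558))))))))))))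
noncomputable def s16793 : Cert := .r (nat_lit 5660943638550353179107408936758928289799009328340392220191824088972173227751847569341540049774019602319201837101786659136820201688014610644787746989163257497368183963648) (.p (nat_lit 561) (.a (.d (nat_lit 526) (nat_lit 525) (nat_lit 525) (nat_lit 562) (nat_lit 3598)) (.a (.f (nat_lit 562) (nat_lit 563) (nat_lit 3599) (.f (nat_lit 591) (nat_lit 590) (nat_lit 1582) (.f (nat_lit 623) (nat_lit 655) (nat_lit 6671) (.f (nat_lit 624) (nat_lit 656) (nat_lit 4623) (.f (nat_lit 592) (nat_lit 495) (nat_lit 7663) (.p (nat_lit 593) (.a (.d (nat_lit 558) (nat_lit 557) (nat_lit 557) (nat_lit 594) (nat_lit 558)) (.d (nat_lit 622) (nat_lit 621) (nat_lit 2637) (nat_lit 654) (nat_lit 5646))))))))) (.f (nat_lit 526) (nat_lit 525) (nat_lit 525) (.p (nat_lit 558) (.a (.f (nat_lit 590) (nat_lit 589) (nat_lit 1581) (.d (nat_lit 622) (nat_lit 495) (nat_lit 6638) (nat_lit 654) (nat_lit 6670)))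 (.f (nat_lit 557) (nat_lit 556) (nat_lit 2572) (.d (nat_lit 593) (nat_lit 592) (nat_lit 557) (nat_lit 594) (nat_lit 558)))))))))
noncomputable def s16844 : Cert := .r (nat_lit 5660943638550353179107408936758928289799009328340392220191824088972173227751847569341540049774019602319201837101786659136820201688014610644787746989163257497368183963648) (.p (nat_lit 495) (.a (.d (nat_lit 463) (nat_lit 431) (nat_lit 4527) (nat_lit 592) (nat_lit 4559)) (.a (.d (nat_lit 592) (nat_lit 463) (nat_lit 4559) (nat_lit 624) (nat_lit 7663)) (.a (.f (nat_lit 463) (nat_lit 431) (nat_lit 4527) (.f (nat_lit 558) (nat_lit 590) (nat_lit 5582) (.f (nat_lit 557) (nat_lit 556) (nat_lit 2572) (.f (nat_lit 462) (nat_lit 430) (nat_lit 7598) (.f (nat_lit 494) (nat_lit 591) (nat_lit 7630) (.d (nat_lit 589) (nat_lit 526) (nat_lit 5581) (nat_lit 588) (nat_lit 1580))))))) (.f (nat_lit 592) (nat_lit 624) (nat_lit 7663) (.p (nat_lit 591) (.a (.f (nat_lit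 623) (nat_lit 655) (nat_lit 6671) (.d (nat_lit 622) (nat_lit 590) (nat_lit 5614) (nat_lit 654) (nat_lit 5646))) (.a (.f (nat_lit 623) (nat_lit 655) (nat_lit 6671) (.d (nat_lit 494) (nat_lit 462) (nat_lit 7630) (nat_lit 526) (nat_lit 7662))) (.a (.f (nat_lit 494) (nat_lit 462) (nat_lit 7630) (.f (nat_lit 590) (nat_lit 622) (nat_lit 5614) (.f (nat_lit 526) (nat_lit 623) (nat_lit 7662) (.p (nat_lit 558) (.a (.d (nat_lit 593) (nat_lit 557) (nat_lit 557) (nat_lit 594) (nat_lit 3630)) (.a (.d (nat_lit 557) (nat_lit 556) (nat_lit 2572) (nat_lit 593) (nat_lit 557)) (.d (nat_lit 589) (nat_lit 588) (nat_lit 2604) (nat_lit 621) (nat_lit 5613)))))))) (.f (nat_lit 590) (nat_lit 622) (nat_lit 5614) (.f (nat_lit 589) (nat_lit 588) (nat_lit 2604) (.f (nat_lit 557) (nat_lit 556) (nat_lit 3628) (.f (nat_lit 558) (nat_lit 593) (nat_lit 557) (.p (nat_lit 526) (.a (.d (nat_lit 621) (nat_lit 494) (nat_lit 5613) (nat_lit 620) (nat_lit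 1612)) (.a (.p (nat_lit 493) (.a (.d (nat_lit 492) (nat_lit 494) (nat_lit 492) (nat_lit 525) (nat_lit 3564)) (.a (.d (nat_lit 525) (nat_lit 461) (nat_lit 4557) (nat_lit 524) (nat_lit 3596)) (.d (nat_lit 494) (nat_lit 462) (nat_lit 4558) (nat_lit 492) (nat_lit 492))))) (.d (nat_lit 621) (nat_lit 620) (nat_lit 1612) (nat_lit 653) (nat_lit 6669))))))))))))))))))
noncomputable def s16877 : Cert := .r (nat_lit 5660943638550353179107408936758928289799009328340392220191824088972173227751847569341540049774019602319201837101786659136820201688014610644787746989163257497368183963648) (.p (nat_lit 561) (.a (.d (nat_lit 526) (nat_lit 525) (nat_lit 525) (nat_lit 562) (nat_lit 3598)) (.a (.f (nat_lit 562) (nat_lit 563) (nat_lit 3599) (.f (nat_lit 591) (nat_lit 590) (nat_lit 1582) (.f (nat_lit 623) (nat_lit 655) (nat_lit 6671) (.f (nat_lit 624) (nat_lit 656) (nat_lit 4623) (.f (nat_lit 592) (nat_lit 495) (nat_lit 7663) (.p (nat_lit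 593) (.a (.d (nat_lit 558) (nat_lit 557) (nat_lit 557) (nat_lit 594) (nat_lit 558)) (.d (nat_lit 622) (nat_lit 621) (nat_lit 2637) (nat_lit 654) (nat_lit 5646))))))))) (.f (nat_lit 526) (nat_lit 525) (nat_lit 525) (.p (nat_lit 495) (.a (.d (nat_lit 463) (nat_lit 431) (nat_lit 4527) (nat_lit 592) (nat_lit 4559)) (.a (.d (nat_lit 592) (nat_lit 463) (nat_lit 4559) (nat_lit 624) (nat_lit 7663)) (.a (.f (nat_lit 463) (nat_lit 431) (nat_lit 4527) (.f (nat_lit 590) (nat_lit 558) (nat_lit 5582) (.f (nat_lit 591) (nat_lit 622) (nat_lit 5614) (.d (nat_lit 623) (nat_lit 494) (nat_lit 7662) (nat_lit 655) (nat_lit 6671))))) (.f (nat_lit 592) (nat_lit 624) (nat_lit 7663) (.p (nat_lit 591) (.a (.d (nat_lit 590) (nat_lit 589) (nat_lit 2605) (nat_lit 622) (nat_lit 5614)) (.d (nat_lit 623) (nat_lit 494) (nat_lit 7662) (nat_lit 655) (nat_lit 6671)))))))))))))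
noncomputable def s16896 : Cert := .r (nat_lit 5660943638550353179107408936758928289799009328340392220191824088972173227751847569341540049774019602319201837101786659136820201688014610644787746989163257497368183963648) (.p (nat_lit 495) (.a (.d (nat_lit 463) (nat_lit 431) (nat_lit 4527) (nat_lit 592) (nat_lit 4559)) (.a (.d (nat_lit 592) (nat_lit 463) (nat_lit 4559) (nat_lit 624) (nat_lit 7663)) (.a (.f (nat_lit 463) (nat_lit 431) (nat_lit 4527) (.f (nat_lit 558) (nat_lit 590) (nat_lit 5582) (.f (nat_lit 557) (nat_lit 556) (nat_lit 2572) (.f (nat_lit 525) (nat_lit 524) (nat_lit 3596) (.f (nat_lit 526) (nat_lit 561) (nat_lit 525) (.f (nat_lit 589) (nat_lit 588) (nat_lit 1580) (.d (nat_lit 621) (nat_lit 494) (nat_lit 6637) (nat_lit 653) (nat_lit 6669)))))))) (.f (nat_lit 592) (nat_lit 624) (nat_lit 7663) (.p (nat_lit 561) (.a (.d (nat_lit 526) (nat_lit 525) (nat_lit 525) (nat_lit 562) (nat_lit 3598)) (.a (.f (nat_lit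 562) (nat_lit 563) (nat_lit 3599) (.f (nat_lit 590) (nat_lit 591) (nat_lit 1582) (.f (nat_lit 558) (nat_lit 589) (nat_lit 1581) (.d (nat_lit 557) (nat_lit 556) (nat_lit 2572) (nat_lit 593) (nat_lit 557))))) (.f (nat_lit 526) (nat_lit 525) (nat_lit 525) (.p (nat_lit 558) (.a (.d (nat_lit 557) (nat_lit 556) (nat_lit 2572) (nat_lit 593) (nat_lit 557)) (.d (nat_lit 590) (nat_lit 589) (nat_lit 1581) (nat_lit 622) (nat_lit 6638)))))))))))))
noncomputable def s16901 : Cert := .r (nat_lit 5660943638550353179107408936758928289799009328340392220191824088972173227751847569341540049774019602319201837101786659136820201688014610644787746989163257497368183963648) (.p (nat_lit 561) (.a (.d (nat_lit 526) (nat_lit 525) (nat_lit 525) (nat_lit 562) (nat_lit 3598)) (.a (.f (nat_lit 562) (nat_lit 563) (nat_lit 3599) (.f (nat_lit 590) (nat_lit 591) (nat_lit 1582) (.f (nat_lit 558) (nat_lit 589) (nat_lit 1581) (.d (nat_lit 594) (nat_lit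 593) (nat_lit 558) (nat_lit 595) (nat_lit 559))))) (.f (nat_lit 526) (nat_lit 525) (nat_lit 525) (.p (nat_lit 558) (.a (.f (nat_lit 557) (nat_lit 556) (nat_lit 2572) (.d (nat_lit 593) (nat_lit 592) (nat_lit 557) (nat_lit 594) (nat_lit 558))) (.f (nat_lit 590) (nat_lit 589) (nat_lit 1581) (.d (nat_lit 495) (nat_lit 463) (nat_lit 5582) (nat_lit 622) (nat_lit 6638)))))))))
noncomputable def s16952 : Cert := .r (nat_lit 104425978491718945752371426602280861290731341299691179253599769475430838103671260203025305628592282052171511785429211117528565403339811295826715662390393305616874326590436008497372660236288) (.p (nat_lit 625) (.a (.f (nat_lit 593) (nat_lit 657) (nat_lit 7696) (.f (nat_lit 594) (nat_lit 558) (nat_lit 558) (.d (nat_lit 595) (nat_lit 596) (nat_lit 1616) (nat_lit 626) (nat_lit 2639)))) (.a (.f (nat_lit 657) (nat_lit 593) (nat_lit 7696) (.f (nat_lit 658) (nat_lit 622) (nat_lit 622) (.d (nat_lit 659) (nat_lit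 626) (nat_lit 623) (nat_lit 656) (nat_lit 3695)))) (.a (.f (nat_lit 593) (nat_lit 657) (nat_lit 7696) (.d (nat_lit 594) (nat_lit 558) (nat_lit 558) (nat_lit 622) (nat_lit 2638))) (.a (.p (nat_lit 626) (.a (.p (nat_lit 627) (.a (.d (nat_lit 659) (nat_lit 658) (nat_lit 623) (nat_lit 660) (nat_lit 624)) (.d (nat_lit 655) (nat_lit 654) (nat_lit 1646) (nat_lit 656) (nat_lit 1647)))) (.a (.p (nat_lit 622) (.a (.d (nat_lit 658) (nat_lit 657) (nat_lit 622) (nat_lit 659) (nat_lit 623)) (.d (nat_lit 654) (nat_lit 653) (nat_lit 1645) (nat_lit 655) (nat_lit 1646)))) (.a (.p (nat_lit 627) (.a (.d (nat_lit 655) (nat_lit 654) (nat_lit 1646) (nat_lit 656) (nat_lit 1647)) (.d (nat_lit 595) (nat_lit 594) (nat_lit 2639) (nat_lit 596) (nat_lit 2640)))) (.f (nat_lit 658) (nat_lit 659) (nat_lit 623) (.p (nat_lit 627) (.a (.d (nat_lit 595) (nat_lit 594) (nat_lit 2639) (nat_lit 596) (nat_lit 2640)) (.a (.p (nat_lit 628) (.a (.d (nat_lit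 596) (nat_lit 595) (nat_lit 2640) (nat_lit 597) (nat_lit 2641)) (.d (nat_lit 657) (nat_lit 622) (nat_lit 622) (nat_lit 656) (nat_lit 1648)))) (.f (nat_lit 657) (nat_lit 622) (nat_lit 622) (.d (nat_lit 628) (nat_lit 629) (nat_lit 1649) (nat_lit 656) (nat_lit 1648))))))))))) (.p (nat_lit 626) (.a (.p (nat_lit 627) (.a (.d (nat_lit 659) (nat_lit 658) (nat_lit 623) (nat_lit 660) (nat_lit 624)) (.d (nat_lit 655) (nat_lit 654) (nat_lit 1646) (nat_lit 656) (nat_lit 1647)))) (.f (nat_lit 594) (nat_lit 595) (nat_lit 2639) (.d (nat_lit 593) (nat_lit 558) (nat_lit 558) (nat_lit 622) (nat_lit 2638))))))))))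
noncomputable def s16965 : Cert := .r (nat_lit 5660943638550353179107408936758928289799009328340392220191824088972173227751847569341540049774019602319201837101786659136820201688014610644787746989163257497368183963648) (.p (nat_lit 561) (.a (.d (nat_lit 526) (nat_lit 525) (nat_lit 525) (nat_lit 562) (nat_lit 3598)) (.a (.f (nat_lit 562) (nat_lit 563) (nat_lit 3599) (.f (nat_lit 594) (nat_lit 595) (nat_lit 559) (.f (nat_lit 593) (nat_lit 558) (nat_lit 558) (.f (nat_lit 625) (nat_lit 657) (nat_lit 7696) (.d (nat_lit 530) (nat_lit 498) (nat_lit 5617) (nat_lit 531) (nat_lit 2575)))))) (.f (nat_lit 526) (nat_lit 525) (nat_lit 525) (.p (nat_lit 624) (.a (.d (nat_lit 592) (nat_lit 495) (nat_lit 7663) (nat_lit 656) (nat_lit 7695)) (.a (.p (nat_lit 623) (.a (.d (nat_lit 591) (nat_lit 655) (nat_lit 6671) (nat_lit 656) (nat_lit 4623)) (.a s16952 (.a (.d (nat_lit 591) (nat_lit 494) (nat_lit 7662) (nat_lit 656) (nat_lit 4623))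 (.d (nat_lit 591) (nat_lit 494) (nat_lit 7662) (nat_lit 655) (nat_lit 6671)))))) (.f (nat_lit 592) (nat_lit 495) (nat_lit 7663) (.f (nat_lit 623) (nat_lit 655) (nat_lit 5647) (.p (nat_lit 593) (.a (.d (nat_lit 558) (nat_lit 557) (nat_lit 557) (nat_lit 594) (nat_lit 558)) (.f (nat_lit 625) (nat_lit 657) (nat_lit 4624) (.f (nat_lit 591) (nat_lit 494) (nat_lit 7662) (.d (nat_lit 622) (nat_lit 621) (nat_lit 2637) (nat_lit 654) (nat_lit 5646)))))))))))))))
noncomputable def s16989 : Cert := .r (nat_lit 5660943638550353179107408936758928289799009328340392220191824088972173227751847569341540049774019602319201837101786659136820201688014610644787746989163257497368183963648) (.p (nat_lit 592) (.a (.d (nat_lit 495) (nat_lit 463) (nat_lit 4559) (nat_lit 624) (nat_lit 7663)) (.a (.f (nat_lit 495) (nat_lit 463) (nat_lit 4559) (.p (nat_lit 591) (.a (.f (nat_lit 590) (nat_lit 622) (nat_lit 5614) (.d (nat_lit 561) (nat_lit 562)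 (nat_lit 1582) (nat_lit 589) (nat_lit 2605))) (.a (.f (nat_lit 623) (nat_lit 655) (nat_lit 6671) (.f (nat_lit 526) (nat_lit 494) (nat_lit 7662) (.d (nat_lit 525) (nat_lit 524) (nat_lit 524) (nat_lit 561) (nat_lit 525)))) (.f (nat_lit 623) (nat_lit 655) (nat_lit 6671) (.d (nat_lit 622) (nat_lit 590) (nat_lit 5614) (nat_lit 654) (nat_lit 5646))))))) (.a (.d (nat_lit 624) (nat_lit 495) (nat_lit 7663) (nat_lit 656) (nat_lit 7695)) (.f (nat_lit 624) (nat_lit 656) (nat_lit 7695) (.f (nat_lit 623) (nat_lit 655) (nat_lit 5647) (.f (nat_lit 625) (nat_lit 657) (nat_lit 4624) (.p (nat_lit 591) (.a (.d (nat_lit 590) (nat_lit 589) (nat_lit 589) (nat_lit 626) (nat_lit 3662)) (.f (nat_lit 622) (nat_lit 654) (nat_lit 5646) (.d (nat_lit 593) (nat_lit 594) (nat_lit 1614) (nat_lit 621) (nat_lit 2637))))))))))))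
noncomputable def s16999 : Cert := .r (nat_lit 5660943638550353179107408936758928289799009328340392220191824088972173227751847569341540049774019602319201837101786659136820201688014610644787746989163257497368183963648) (.p (nat_lit 592) (.a (.d (nat_lit 495) (nat_lit 463) (nat_lit 4559) (nat_lit 624) (nat_lit 7663)) (.a (.f (nat_lit 495) (nat_lit 463) (nat_lit 4559) s16762) (.a (.d (nat_lit 624) (nat_lit 495) (nat_lit 7663) (nat_lit 656) (nat_lit 7695)) (.f (nat_lit 624) (nat_lit 656) (nat_lit 7695) (.f (nat_lit 623) (nat_lit 655) (nat_lit 5647) (.f (nat_lit 625) (nat_lit 657) (nat_lit 4624) (.p (nat_lit 593) (.a (.f (nat_lit 594) (nat_lit 595) (nat_lit 3631) (.d (nat_lit 558) (nat_lit 557) (nat_lit 557) (nat_lit 561) (nat_lit 558))) (.f (nat_lit 622) (nat_lit 621) (nat_lit 2637) (.d (nat_lit 654) (nat_lit 591) (nat_lit 5646) (nat_lit 653) (nat_lit 1645))))))))))))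
noncomputable def s17039 : Cert := .r (nat_lit 5660943638550353179107408936758928289799009328340392220191824088972173227751847569341540049774019602319201837101786659136820201688014610644787746989163257497368183963648) (.p (nat_lit 592) (.a (.d (nat_lit 495) (nat_lit 463) (nat_lit 4559) (nat_lit 624) (nat_lit 7663)) (.a (.f (nat_lit 495) (nat_lit 463) (nat_lit 4559) (.p (nat_lit 558) (.a (.d (nat_lit 557) (nat_lit 556) (nat_lit 2572) (nat_lit 593) (nat_lit 557)) (.a (.f (nat_lit 593) (nat_lit 557) (nat_lit 557) (.d (nat_lit 594) (nat_lit 561) (nat_lit 558) (nat_lit 595) (nat_lit 3631))) (.p (nat_lit 526) (.a (.d (nat_lit 525) (nat_lit 524) (nat_lit 524) (nat_lit 561) (nat_lit 525)) (.a (.f (nat_lit 590) (nat_lit 622) (nat_lit 6638) (.f (nat_lit 589) (nat_lit 561) (nat_lit 1581) (.d (nat_lit 588) (nat_lit 587) (nat_lit 2603) (nat_lit 591) (nat_lit 2604)))) (.f (nat_lit 590) (nat_lit 622) (nat_lit 6638) (.f (nat_lit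 525) (nat_lit 524) (nat_lit 524) (.p (nat_lit 494) (.a (.d (nat_lit 493) (nat_lit 461) (nat_lit 7629) (nat_lit 492) (nat_lit 3564)) (.f (nat_lit 591) (nat_lit 623) (nat_lit 7662) (.d (nat_lit 589) (nat_lit 588) (nat_lit 2604) (nat_lit 621) (nat_lit 5613)))))))))))))) (.a (.d (nat_lit 624) (nat_lit 495) (nat_lit 7663) (nat_lit 656) (nat_lit 7695)) (.f (nat_lit 624) (nat_lit 656) (nat_lit 7695) (.f (nat_lit 623) (nat_lit 655) (nat_lit 5647) (.f (nat_lit 625) (nat_lit 657) (nat_lit 4624) (.p (nat_lit 591) (.a (.d (nat_lit 590) (nat_lit 589) (nat_lit 589) (nat_lit 626) (nat_lit 3662)) (.f (nat_lit 622) (nat_lit 654) (nat_lit 5646) (.d (nat_lit 593) (nat_lit 594) (nat_lit 1614) (nat_lit 621) (nat_lit 2637))))))))))))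
noncomputable def s17096 : Cert := .r (nat_lit 13208868487754088833342159076976624420491642603268029217735065143262175891148270509776343512793493320399805495644767385007306596033488388677928750288023911774035610959872) (.p (nat_lit 562) (.a (.d (nat_lit 527) (nat_lit 526) (nat_lit 3598) (nat_lit 563) (nat_lit 3599)) (.a (.f (nat_lit 527) (nat_lit 526) (nat_lit 3598) (.f (nat_lit 591) (nat_lit 590) (nat_lit 1582) (.f (nat_lit 594) (nat_lit 595) (nat_lit 559) (.f (nat_lit 593) (nat_lit 558) (nat_lit 558) (.f (nat_lit 530) (nat_lit 531) (nat_lit 2575) (.d (nat_lit 498) (nat_lit 466) (nat_lit 5585) (nat_lit 625) (nat_lit 5617))))))) (.a (.f (nat_lit 563) (nat_lit 527) (nat_lit 3599) (.d (nat_lit 595) (nat_lit 594) (nat_lit 559) (nat_lit 596) (nat_lit 560))) (.f (nat_lit 591) (nat_lit 590) (nat_lit 1582) (.f (nat_lit 563) (nat_lit 592) (nat_lit 1583) (.d (nat_lit 595) (nat_lit 594) (nat_lit 559) (nat_lit 596) (nat_lit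 560))))))))
noncomputable def s17122 : Cert := .r (nat_lit 16209045204150247232602202626360589312254009425338387670759793924159705071084562604775291170585146871373178120318801031051503394700181214580471456565697258013672678442436319510528) (.p (nat_lit 494) (.a (.d (nat_lit 462) (nat_lit 430) (nat_lit 4526) (nat_lit 591) (nat_lit 7630)) (.a (.f (nat_lit 591) (nat_lit 623) (nat_lit 7662) (.p (nat_lit 558) (.a (.d (nat_lit 557) (nat_lit 556) (nat_lit 2572) (nat_lit 593) (nat_lit 557)) (.f (nat_lit 590) (nat_lit 589) (nat_lit 1581) (.d (nat_lit 493) (nat_lit 461) (nat_lit 7629) (nat_lit 492) (nat_lit 492)))))) (.f (nat_lit 462) (nat_lit 430) (nat_lit 4526) (.p (nat_lit 558) (.a (.d (nat_lit 557) (nat_lit 556) (nat_lit 2572) (nat_lit 593) (nat_lit 557)) (.a (.d (nat_lit 557) (nat_lit 589) (nat_lit 5581) (nat_lit 593) (nat_lit 557)) (.f (nat_lit 461) (nat_lit 429) (nat_lit 7597) (.d (nat_lit 493) (nat_lit 492) (nat_lit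 492) (nat_lit 590) (nat_lit 7629))))))))))
noncomputable def s17144 : Cert := .r (nat_lit 13208868487754088833342159076976624420491642603268029217735065143262175891148270509776343512793493320399805495644767385007306596033488388677928750288023911774035610959872) (.p (nat_lit 562) (.a (.d (nat_lit 527) (nat_lit 526) (nat_lit 3598) (nat_lit 563) (nat_lit 3599)) (.a (.f (nat_lit 527) (nat_lit 526) (nat_lit 3598) (.f (nat_lit 594) (nat_lit 595) (nat_lit 559) (.f (nat_lit 593) (nat_lit 558) (nat_lit 558) (.f (nat_lit 530) (nat_lit 531) (nat_lit 2575) (.d (nat_lit 498) (nat_lit 466) (nat_lit 5585) (nat_lit 625) (nat_lit 5617)))))) (.a (.f (nat_lit 563) (nat_lit 527) (nat_lit 3599) (.d (nat_lit 595) (nat_lit 594) (nat_lit 559) (nat_lit 596) (nat_lit 560))) (.f (nat_lit 594) (nat_lit 595) (nat_lit 559) (.f (nat_lit 593) (nat_lit 558) (nat_lit 558) (.f (nat_lit 530) (nat_lit 531) (nat_lit 2575) (.d (nat_lit 498) (nat_lit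 466) (nat_lit 5585) (nat_lit 625) (nat_lit 5617)))))))))
noncomputable def s17146 : Cert := .r (nat_lit 13208868487754088833342159076976624420491642603268029217735065143262175891148270509776343512793493320399805495644767385007306596033488388677928750288023911774035610959872) (.p (nat_lit 562) (.a (.d (nat_lit 527) (nat_lit 526) (nat_lit 3598) (nat_lit 563) (nat_lit 3599)) (.a (.f (nat_lit 527) (nat_lit 526) (nat_lit 3598) (.f (nat_lit 591) (nat_lit 590) (nat_lit 1582) (.p (nat_lit 624) (.a (.d (nat_lit 592) (nat_lit 495) (nat_lit 7663) (nat_lit 656) (nat_lit 7695)) (.a (.d (nat_lit 623) (nat_lit 655) (nat_lit 6671) (nat_lit 656) (nat_lit 4623)) (.f (nat_lit 495) (nat_lit 592) (nat_lit 7663) (.f (nat_lit 462) (nat_lit 494) (nat_lit 7630) (.d (nat_lit 463) (nat_lit 430) (nat_lit 7598) (nat_lit 431) (nat_lit 4527))))))))) (.a (.f (nat_lit 563) (nat_lit 527) (nat_lit 3599) (.d (nat_lit 595) (nat_lit 594) (nat_lit 559)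 (nat_lit 596) (nat_lit 560))) (.f (nat_lit 591) (nat_lit 590) (nat_lit 1582) (.f (nat_lit 563) (nat_lit 592) (nat_lit 1583) (.d (nat_lit 595) (nat_lit 594) (nat_lit 559) (nat_lit 596) (nat_lit 560))))))))
noncomputable def s17259 : Cert := .r (nat_lit 243660616480677540071254837420771197133522493009622990162232765817863291373341280587579166397079900769809840355409459959535681287614627087305450076583167832623876070519368247040142515109888) (.p (nat_lit 626) (.a (.p (nat_lit 627) (.a (.d (nat_lit 659) (nat_lit 658) (nat_lit 623) (nat_lit 660) (nat_lit 624)) (.d (nat_lit 655) (nat_lit 654) (nat_lit 1646) (nat_lit 656) (nat_lit 1647)))) (.a (.p (nat_lit 622) (.a (.d (nat_lit 658) (nat_lit 657) (nat_lit 622) (nat_lit 659) (nat_lit 623)) (.d (nat_lit 654) (nat_lit 653) (nat_lit 1645) (nat_lit 655) (nat_lit 1646)))) (.a (.p (nat_lit 627) (.a (.d (nat_lit 655) (nat_lit 654) (nat_lit 1646) (nat_lit 656) (nat_lit 1647))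 (.d (nat_lit 595) (nat_lit 594) (nat_lit 2639) (nat_lit 596) (nat_lit 2640)))) (.f (nat_lit 659) (nat_lit 658) (nat_lit 623) (.f (nat_lit 595) (nat_lit 594) (nat_lit 2639) (.d (nat_lit 627) (nat_lit 596) (nat_lit 2640) (nat_lit 660) (nat_lit 624))))))))
noncomputable def s17273 : Cert := .r (nat_lit 69617318994479297172650573897658277330161420192829169568238910612355052878137217686810397654809568441828184869356206506826914170252587979095738569940932489138921439692026597027825842126848) (.p (nat_lit 623) (.a (.d (nat_lit 591) (nat_lit 655) (nat_lit 6671) (nat_lit 656) (nat_lit 4623)) (.a (.p (nat_lit 625) (.a (.f (nat_lit 593) (nat_lit 657) (nat_lit 7696) (.d (nat_lit 594) (nat_lit 558) (nat_lit 558) (nat_lit 622) (nat_lit 2638))) (.a (.p (nat_lit 626) (.a (.f (nat_lit 593) (nat_lit 657) (nat_lit 7696) (.d (nat_lit 594) (nat_lit 558) (nat_lit 558) (nat_lit 595) (nat_lit 2639))) (.p (nat_lit 627) (.a (.d (nat_lit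 659) (nat_lit 658) (nat_lit 623) (nat_lit 660) (nat_lit 624)) (.d (nat_lit 655) (nat_lit 654) (nat_lit 1646) (nat_lit 656) (nat_lit 1647)))))) (.a (.f (nat_lit 657) (nat_lit 593) (nat_lit 7696) (.f (nat_lit 658) (nat_lit 622) (nat_lit 622) (.d (nat_lit 659) (nat_lit 626) (nat_lit 623) (nat_lit 656) (nat_lit 3695)))) (.a s17259 (.p (nat_lit 594) (.a (.d (nat_lit 593) (nat_lit 558) (nat_lit 558) (nat_lit 622) (nat_lit 2638)) (.a (.f (nat_lit 595) (nat_lit 626) (nat_lit 2639) (.d (nat_lit 593) (nat_lit 558) (nat_lit 558) (nat_lit 596) (nat_lit 3632))) (.a (.f (nat_lit 595) (nat_lit 626) (nat_lit 2639) (.d (nat_lit 593) (nat_lit 596) (nat_lit 1616) (nat_lit 622) (nat_lit 2638))) (.f (nat_lit 626) (nat_lit 595) (nat_lit 2639) (.p (nat_lit 627) (.a (.d (nat_lit 659) (nat_lit 658) (nat_lit 623) (nat_lit 660) (nat_lit 624)) (.d (nat_lit 655) (nat_lit 654) (nat_lit 1646) (nat_lit 656) (nat_lit 1647)))))))))))))) (.a (.d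 (nat_lit 591) (nat_lit 494) (nat_lit 7662) (nat_lit 656) (nat_lit 4623)) (.d (nat_lit 591) (nat_lit 494) (nat_lit 7662) (nat_lit 655) (nat_lit 6671))))))
noncomputable def s17365 : Cert := .r (nat_lit 5660943638550353179107408936758928289799009328340392220191824088972173227751847569341540049774019602319201837101786659136820201688014610644787746989163257497368183963648) (.p (nat_lit 561) (.a (.d (nat_lit 526) (nat_lit 525) (nat_lit 525) (nat_lit 562) (nat_lit 3598)) (.a (.f (nat_lit 562) (nat_lit 563) (nat_lit 3599) (.f (nat_lit 591) (nat_lit 590) (nat_lit 1582) (.f (nat_lit 623) (nat_lit 655) (nat_lit 6671) (.f (nat_lit 594) (nat_lit 595) (nat_lit 559) (.f (nat_lit 593) (nat_lit 558) (nat_lit 558) (.f (nat_lit 625) (nat_lit 657) (nat_lit 7696) (.d (nat_lit 530) (nat_lit 498) (nat_lit 5617) (nat_lit 531) (nat_lit 2575)))))))) (.f (nat_lit 526) (nat_lit 525) (nat_lit 525) s16777))))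
noncomputable def s17381 : Cert := .r (nat_lit 5660943638550353179107408936758928289799009328340392220191824088972173227751847569341540049774019602319201837101786659136820201688014610644787746989163257497368183963648) (.p (nat_lit 495) (.a (.d (nat_lit 463) (nat_lit 431) (nat_lit 4527) (nat_lit 592) (nat_lit 4559)) (.a (.d (nat_lit 592) (nat_lit 463) (nat_lit 4559) (nat_lit 624) (nat_lit 7663)) (.a (.f (nat_lit 463) (nat_lit 431) (nat_lit 4527) (.f (nat_lit 462) (nat_lit 430) (nat_lit 7598) (.f (nat_lit 494) (nat_lit 591) (nat_lit 7630) (.f (nat_lit 493) (nat_lit 492) (nat_lit 492) (.d (nat_lit 464) (nat_lit 432) (nat_lit 6575) (nat_lit 465) (nat_lit 1485)))))) (.f (nat_lit 592) (nat_lit 624) (nat_lit 7663) (.p (nat_lit 591) (.a (.f (nat_lit 623) (nat_lit 655) (nat_lit 6671) (.d (nat_lit 622) (nat_lit 590) (nat_lit 5614) (nat_lit 654) (nat_lit 5646))) (.a (.f (nat_lit 623) (nat_lit 655) (nat_lit 6671) (.d (nat_lit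 494) (nat_lit 462) (nat_lit 7630) (nat_lit 526) (nat_lit 7662))) (.f (nat_lit 590) (nat_lit 622) (nat_lit 5614) (.d (nat_lit 589) (nat_lit 561) (nat_lit 2605) (nat_lit 588) (nat_lit 2604)))))))))))
noncomputable def s17445 : Cert := .r (nat_lit 5660943638550353179107408936758928289799009328340392220191824088972173227751847569341540049774019602319201837101786659136820201688014610644787746989163257497368183963648) (.p (nat_lit 495) (.a (.d (nat_lit 463) (nat_lit 431) (nat_lit 4527) (nat_lit 592) (nat_lit 4559)) (.a (.d (nat_lit 592) (nat_lit 463) (nat_lit 4559) (nat_lit 624) (nat_lit 7663)) (.a (.f (nat_lit 463) (nat_lit 431) (nat_lit 4527) (.f (nat_lit 558) (nat_lit 590) (nat_lit 5582) (.f (nat_lit 557) (nat_lit 556) (nat_lit 2572) (.f (nat_lit 525) (nat_lit 524) (nat_lit 3596) (.f (nat_lit 526) (nat_lit 561) (nat_lit 525) (.p (nat_lit 494) (.a (.d (nat_lit 589) (nat_lit 588) (nat_lit 1580) (nat_lit 621) (nat_lit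 6637)) (.d (nat_lit 462) (nat_lit 430) (nat_lit 4526) (nat_lit 591) (nat_lit 4558))))))))) (.f (nat_lit 592) (nat_lit 624) (nat_lit 7663) (.p (nat_lit 591) (.a (.f (nat_lit 590) (nat_lit 622) (nat_lit 5614) (.d (nat_lit 561) (nat_lit 562) (nat_lit 1582) (nat_lit 589) (nat_lit 2605))) (.a (.p (nat_lit 561) (.a (.d (nat_lit 562) (nat_lit 563) (nat_lit 3599) (nat_lit 590) (nat_lit 1582)) (.a (.d (nat_lit 526) (nat_lit 525) (nat_lit 525) (nat_lit 562) (nat_lit 3598)) (.f (nat_lit 526) (nat_lit 525) (nat_lit 525) (.d (nat_lit 494) (nat_lit 462) (nat_lit 7630) (nat_lit 623) (nat_lit 7662)))))) (.f (nat_lit 623) (nat_lit 655) (nat_lit 6671) (.d (nat_lit 494) (nat_lit 462) (nat_lit 7630) (nat_lit 526) (nat_lit 7662)))))))))))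
noncomputable def s17584 : Cert := .r (nat_lit 5660943638550353179107408936758928289799009328340392220191824088972173227751847569341540049774019602319201837101786659136820201688014610644787746989163257497368183963648) (.p (nat_lit 561) (.a (.d (nat_lit 526) (nat_lit 525) (nat_lit 525) (nat_lit 562) (nat_lit 3598)) (.a (.f (nat_lit 562) (nat_lit 563) (nat_lit 3599) (.f (nat_lit 591) (nat_lit 590) (nat_lit 1582) (.f (nat_lit 594) (nat_lit 595) (nat_lit 559) (.f (nat_lit 593) (nat_lit 558) (nat_lit 558) (.f (nat_lit 530) (nat_lit 531) (nat_lit 2575) (.d (nat_lit 498) (nat_lit 466) (nat_lit 5585) (nat_lit 625) (nat_lit 5617))))))) (.f (nat_lit 526) (nat_lit 525) (nat_lit 525) (.p (nat_lit 558) (.a (.f (nat_lit 557) (nat_lit 556) (nat_lit 2572) (.d (nat_lit 593) (nat_lit 592) (nat_lit 557) (nat_lit 594) (nat_lit 558))) (.f (nat_lit 590) (nat_lit 589) (nat_lit 1581) (.d (nat_lit 495) (nat_lit 463) (nat_lit 5582) (nat_lit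 622) (nat_lit 6638)))))))))
noncomputable def s17585 : Cert := .r (nat_lit 5660943638550353179107408936758928289799009328340392220191824088972173227751847569341540049774019602319201837101786659136820201688014610644787746989163257497368183963648) (.p (nat_lit 561) (.a (.d (nat_lit 526) (nat_lit 525) (nat_lit 525) (nat_lit 562) (nat_lit 3598)) (.a (.f (nat_lit 562) (nat_lit 563) (nat_lit 3599) (.f (nat_lit 594) (nat_lit 595) (nat_lit 559) (.f (nat_lit 558) (nat_lit 593) (nat_lit 558) (.f (nat_lit 557) (nat_lit 556) (nat_lit 2572) (.d (nat_lit 589) (nat_lit 588) (nat_lit 1580) (nat_lit 590) (nat_lit 1581)))))) (.f (nat_lit 526) (nat_lit 525) (nat_lit 525) (.p (nat_lit 558) (.a (.f (nat_lit 557) (nat_lit 556) (nat_lit 2572) (.d (nat_lit 593) (nat_lit 592) (nat_lit 557) (nat_lit 594) (nat_lit 558))) (.f (nat_lit 590) (nat_lit 589) (nat_lit 1581) (.d (nat_lit 495) (nat_lit 463) (nat_lit 5582) (nat_lit 622) (nat_lit 6638)))))))))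
noncomputable def s17586 : Cert := .r (nat_lit 5660943638550353179107408936758928289799009328340392220191824088972173227751847569341540049774019602319201837101786659136820201688014610644787746989163257497368183963648) (.p (nat_lit 495) (.a (.d (nat_lit 463) (nat_lit 431) (nat_lit 4527) (nat_lit 592) (nat_lit 4559)) (.a (.d (nat_lit 592) (nat_lit 463) (nat_lit 4559) (nat_lit 624) (nat_lit 7663)) (.a (.f (nat_lit 463) (nat_lit 431) (nat_lit 4527) (.f (nat_lit 558) (nat_lit 590) (nat_lit 5582) (.f (nat_lit 557) (nat_lit 556) (nat_lit 2572) (.f (nat_lit 525) (nat_lit 524) (nat_lit 3596) (.f (nat_lit 526) (nat_lit 561) (nat_lit 525) (.p (nat_lit 494) (.a (.d (nat_lit 589) (nat_lit 588) (nat_lit 1580) (nat_lit 621) (nat_lit 6637)) (.d (nat_lit 462) (nat_lit 430) (nat_lit 4526) (nat_lit 591) (nat_lit 4558))))))))) (.f (nat_lit 592) (nat_lit 624) (nat_lit 7663) (.p (nat_lit 591) (.a (.f (nat_lit 590) (nat_lit 622) (nat_lit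 5614) (.d (nat_lit 561) (nat_lit 562) (nat_lit 1582) (nat_lit 589) (nat_lit 2605))) (.f (nat_lit 623) (nat_lit 655) (nat_lit 6671) (.d (nat_lit 494) (nat_lit 462) (nat_lit 7630) (nat_lit 526) (nat_lit 7662))))))))))
noncomputable def s17587 : Cert := .r (nat_lit 5660943638550353179107408936758928289799009328340392220191824088972173227751847569341540049774019602319201837101786659136820201688014610644787746989163257497368183963648) (.p (nat_lit 495) (.a (.d (nat_lit 463) (nat_lit 431) (nat_lit 4527) (nat_lit 592) (nat_lit 4559)) (.a (.d (nat_lit 592) (nat_lit 463) (nat_lit 4559) (nat_lit 624) (nat_lit 7663)) (.a (.f (nat_lit 463) (nat_lit 431) (nat_lit 4527) (.f (nat_lit 558) (nat_lit 590) (nat_lit 5582) (.f (nat_lit 557) (nat_lit 556) (nat_lit 2572) (.f (nat_lit 525) (nat_lit 524) (nat_lit 3596) (.f (nat_lit 526) (nat_lit 561) (nat_lit 525) (.p (nat_lit 494) (.a (.d (nat_lit 589) (nat_lit 588) (nat_lit 1580) (nat_lit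 621) (nat_lit 6637)) (.d (nat_lit 462) (nat_lit 430) (nat_lit 4526) (nat_lit 591) (nat_lit 4558))))))))) (.f (nat_lit 592) (nat_lit 624) (nat_lit 7663) (.p (nat_lit 591) (.a (.f (nat_lit 623) (nat_lit 655) (nat_lit 6671) (.d (nat_lit 622) (nat_lit 590) (nat_lit 5614) (nat_lit 654) (nat_lit 5646))) (.a (.f (nat_lit 623) (nat_lit 655) (nat_lit 6671) (.d (nat_lit 494) (nat_lit 462) (nat_lit 7630) (nat_lit 526) (nat_lit 7662))) (.f (nat_lit 590) (nat_lit 622) (nat_lit 5614) (.d (nat_lit 589) (nat_lit 561) (nat_lit 2605) (nat_lit 588) (nat_lit 2604)))))))))))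
noncomputable def s17595 : Cert := .r (nat_lit 13208868488413109408714697609614886897203456352125895006548822462564044383230082655382518493797259045903305132922587830900888758405052099525901548094031018489982656446464) (.p (nat_lit 558) (.a (.f (nat_lit 557) (nat_lit 556) (nat_lit 2572) (.d (nat_lit 593) (nat_lit 592) (nat_lit 557) (nat_lit 594) (nat_lit 558))) (.a (.f (nat_lit 590) (nat_lit 589) (nat_lit 1581) (.f (nat_lit 593) (nat_lit 594) (nat_lit 558) (.p (nat_lit 591) (.a (.d (nat_lit 494) (nat_lit 462) (nat_lit 4558) (nat_lit 623) (nat_lit 7662)) (.a (.d (nat_lit 623) (nat_lit 494) (nat_lit 7662) (nat_lit 655) (nat_lit 6671)) (.f (nat_lit 592) (nat_lit 557) (nat_lit 557) (.d (nat_lit 625) (nat_lit 626) (nat_lit 590) (nat_lit 657) (nat_lit 7696)))))))) (.a (.f (nat_lit 557) (nat_lit 556) (nat_lit 2572) (.d (nat_lit 589) (nat_lit 588) (nat_lit 1580) (nat_lit 590) (nat_lit 1581))) (.f (nat_lit 590) (nat_lit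 589) (nat_lit 1581) (.f (nat_lit 622) (nat_lit 654) (nat_lit 6670) (.f (nat_lit 623) (nat_lit 655) (nat_lit 4622) (.f (nat_lit 591) (nat_lit 494) (nat_lit 7662) (.p (nat_lit 592) (.a (.d (nat_lit 593) (nat_lit 594) (nat_lit 3630) (nat_lit 621) (nat_lit 1613)) (.a (.d (nat_lit 621) (nat_lit 593) (nat_lit 1613) (nat_lit 653) (nat_lit 5645)) (.a (.f (nat_lit 593) (nat_lit 594) (nat_lit 558) (.d (nat_lit 625) (nat_lit 626) (nat_lit 590) (nat_lit 657) (nat_lit 7696))) (.d (nat_lit 621) (nat_lit 620) (nat_lit 2636) (nat_lit 653) (nat_lit 5645))))))))))))))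
noncomputable def s17631 : Cert := .r (nat_lit 13208868487754088833342159076976624420491642603268029217735065143262175891148270509776343512793493320399805495644767385007306596033488388677928750288023911774035610959872) (.p (nat_lit 562) (.a (.d (nat_lit 527) (nat_lit 526) (nat_lit 3598) (nat_lit 563) (nat_lit 3599)) (.a (.f (nat_lit 527) (nat_lit 526) (nat_lit 3598) (.f (nat_lit 591) (nat_lit 590) (nat_lit 1582) (.f (nat_lit 623) (nat_lit 655) (nat_lit 6671) (.f (nat_lit 594) (nat_lit 595) (nat_lit 559) (.f (nat_lit 530) (nat_lit 531) (nat_lit 2575) (.p (nat_lit 593) (.a (.d (nat_lit 622) (nat_lit 592) (nat_lit 1614) (nat_lit 654) (nat_lit 5646)) (.d (nat_lit 498) (nat_lit 466) (nat_lit 5585) (nat_lit 625) (nat_lit 5617))))))))) (.a (.f (nat_lit 563) (nat_lit 527) (nat_lit 3599) (.d (nat_lit 595) (nat_lit 594) (nat_lit 559) (nat_lit 596) (nat_lit 560))) (.f (nat_lit 591) (nat_lit 590) (nat_lit 1582) (.f (nat_lit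 563) (nat_lit 592) (nat_lit 1583) (.d (nat_lit 595) (nat_lit 594) (nat_lit 559) (nat_lit 596) (nat_lit 560))))))))
noncomputable def s17637 : Cert := .r (nat_lit 13208868487754088833342159076976624420491642603268029217735065143262175891148270509776343512793493320399805495644767385007306596033488388677928750288023911774035610959872) (.p (nat_lit 558) (.a (.f (nat_lit 526) (nat_lit 525) (nat_lit 3597) (.f (nat_lit 590) (nat_lit 589) (nat_lit 1581) (.d (nat_lit 562) (nat_lit 527) (nat_lit 3598) (nat_lit 591) (nat_lit 1582)))) (.a (.f (nat_lit 526) (nat_lit 525) (nat_lit 3597) (.f (nat_lit 527) (nat_lit 562) (nat_lit 3598) (.f (nat_lit 590) (nat_lit 589) (nat_lit 1581) (.d (nat_lit 495) (nat_lit 463) (nat_lit 5582) (nat_lit 622) (nat_lit 6638))))) (.a (.f (nat_lit 526) (nat_lit 525) (nat_lit 3597) (.f (nat_lit 527) (nat_lit 562) (nat_lit 3598) (.f (nat_lit 557) (nat_lit 556) (nat_lit 2572) (.d (nat_lit 593) (nat_lit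 592) (nat_lit 557) (nat_lit 594) (nat_lit 558))))) (.f (nat_lit 593) (nat_lit 594) (nat_lit 558) (.f (nat_lit 557) (nat_lit 592) (nat_lit 557) (.d (nat_lit 589) (nat_lit 588) (nat_lit 1580) (nat_lit 590) (nat_lit 1581))))))))
noncomputable def s17667 : Cert := .r (nat_lit 14152359093959474171402547722223691643220872908372139324829116718323581931746307722797875194087908012285172589402458346232249242190969586836069108850882085784947959791616) (.f (nat_lit 526) (nat_lit 525) (nat_lit 3597) (.f (nat_lit 590) (nat_lit 589) (nat_lit 1581) (.p (nat_lit 527) (.a (.d (nat_lit 495) (nat_lit 463) (nat_lit 5582) (nat_lit 622) (nat_lit 6638)) (.a (.f (nat_lit 495) (nat_lit 463) (nat_lit 5582) (.p (nat_lit 494) (.a (.d (nat_lit 493) (nat_lit 461) (nat_lit 7629) (nat_lit 492) (nat_lit 492)) (.d (nat_lit 462) (nat_lit 430) (nat_lit 4526) (nat_lit 591) (nat_lit 4558))))) (.a (.d (nat_lit 622) (nat_lit 495) (nat_lit 6638) (nat_lit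 654) (nat_lit 6670)) (.f (nat_lit 622) (nat_lit 654) (nat_lit 6670) (.f (nat_lit 623) (nat_lit 655) (nat_lit 4622) (.f (nat_lit 494) (nat_lit 591) (nat_lit 7662) (.f (nat_lit 461) (nat_lit 493) (nat_lit 7629) (.d (nat_lit 462) (nat_lit 429) (nat_lit 7597) (nat_lit 430) (nat_lit 4526))))))))))))
noncomputable def s17802 : Cert := .r (nat_lit 17404329752672085594200205282674956751641445403462127944460670773242091428623138544054628592907507166411193341447484071116960978013067331975761035419451812124631121093896544053765123080192) (.p (nat_lit 655) (.a (.f (nat_lit 623) (nat_lit 526) (nat_lit 4622) (.d (nat_lit 687) (nat_lit 654) (nat_lit 4654) (nat_lit 719) (nat_lit 7758))) (.a (.f (nat_lit 623) (nat_lit 526) (nat_lit 4622) (.f (nat_lit 624) (nat_lit 592) (nat_lit 5647) (.f (nat_lit 589) (nat_lit 625) (nat_lit 3661) (.d (nat_lit 588) (nat_lit 587) (nat_lit 587) (nat_lit 621) (nat_lit 3660))))) (.a (.f (nat_lit 654)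 (nat_lit 687) (nat_lit 4654) (.f (nat_lit 653) (nat_lit 685) (nat_lit 5677) (.p (nat_lit 623) (.a (.d (nat_lit 624) (nat_lit 592) (nat_lit 5647) (nat_lit 652) (nat_lit 2668)) (.a (.p (nat_lit 620) (.a (.d (nat_lit 621) (nat_lit 619) (nat_lit 619) (nat_lit 656) (nat_lit 620)) (.a (.d (nat_lit 652) (nat_lit 619) (nat_lit 3691) (nat_lit 651) (nat_lit 2667)) (.f (nat_lit 656) (nat_lit 621) (nat_lit 620) (.f (nat_lit 657) (nat_lit 658) (nat_lit 3694) (.d (nat_lit 689) (nat_lit 688) (nat_lit 653) (nat_lit 690) (nat_lit 654))))))) (.d (nat_lit 624) (nat_lit 592) (nat_lit 5647) (nat_lit 625) (nat_lit 1645))))))) (.f (nat_lit 654) (nat_lit 687) (nat_lit 4654) (.f (nat_lit 653) (nat_lit 685) (nat_lit 5677) (.f (nat_lit 621) (nat_lit 526) (nat_lit 5645) (.d (nat_lit 620) (nat_lit 619) (nat_lit 619) (nat_lit 656) (nat_lit 3692)))))))))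
noncomputable def s17999 : Cert := .r (nat_lit 6604434244316391466919438560247153861387030467539258468076704117832333606962010018625621743732590477202235839340930656432708072931120001570946240348016693697649169137664) (.p (nat_lit 557) (.a (.f (nat_lit 525) (nat_lit 524) (nat_lit 3596) (.f (nat_lit 589) (nat_lit 588) (nat_lit 1580) (.d (nat_lit 561) (nat_lit 526) (nat_lit 3597) (nat_lit 590) (nat_lit 1581)))) (.a (.f (nat_lit 525) (nat_lit 524) (nat_lit 3596) (.f (nat_lit 589) (nat_lit 588) (nat_lit 1580) (.f (nat_lit 526) (nat_lit 561) (nat_lit 3597) (.d (nat_lit 494) (nat_lit 462) (nat_lit 5581) (nat_lit 621) (nat_lit 6637))))) (.a (.f (nat_lit 525) (nat_lit 524) (nat_lit 3596) (.f (nat_lit 561) (nat_lit 526) (nat_lit 3597) (.d (nat_lit 593) (nat_lit 592) (nat_lit 557) (nat_lit 594) (nat_lit 558)))) (.a (.f (nat_lit 589) (nat_lit 588) (nat_lit 1580) (.f (nat_lit 525) (nat_lit 524) (nat_lit 3596) (.f (nat_lit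 590) (nat_lit 561) (nat_lit 1581) (.d (nat_lit 493) (nat_lit 461) (nat_lit 4557) (nat_lit 622) (nat_lit 4589))))) (.a (.f (nat_lit 589) (nat_lit 588) (nat_lit 1580) (.f (nat_lit 561) (nat_lit 590) (nat_lit 1581) (.d (nat_lit 593) (nat_lit 592) (nat_lit 557) (nat_lit 594) (nat_lit 558)))) (.f (nat_lit 525) (nat_lit 524) (nat_lit 3596) (.f (nat_lit 589) (nat_lit 588) (nat_lit 1580) (.p (nat_lit 493) (.a (.d (nat_lit 590) (nat_lit 461) (nat_lit 4557) (nat_lit 622) (nat_lit 4589)) (.a (.f (nat_lit 461) (nat_lit 590) (nat_lit 4557) (.d (nat_lit 462) (nat_lit 430) (nat_lit 6573) (nat_lit 494) (nat_lit 6605))) (.f (nat_lit 494) (nat_lit 462) (nat_lit 6605) (.f (nat_lit 621) (nat_lit 526) (nat_lit 6637) (.p (nat_lit 653) (.a (.d (nat_lit 654) (nat_lit 622) (nat_lit 4621) (nat_lit 686) (nat_lit 4653)) (.d (nat_lit 652) (nat_lit 620) (nat_lit 5644) (nat_lit 684) (nat_lit 5676)))))))))))))))))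
noncomputable def s18062 : Cert := .r (nat_lit 16209045204621992535595058532854267243562021232277178576342003631281130488049665653395179299974801260470836031970926852647008260558130146150364666891531480810865310628463782133760) (.p (nat_lit 461) (.a (.p (nat_lit 429) (.a (.d (nat_lit 556) (nat_lit 524) (nat_lit 5548) (nat_lit 588) (nat_lit 5580)) (.d (nat_lit 428) (nat_lit 396) (nat_lit 7564) (nat_lit 460) (nat_lit 7596)))) (.a (.f (nat_lit 428) (nat_lit 460) (nat_lit 7596) (.f (nat_lit 429) (nat_lit 396) (nat_lit 7564) (.d (nat_lit 430) (nat_lit 398) (nat_lit 6541) (nat_lit 462) (nat_lit 6573)))) (.a (.p (nat_lit 589) (.a (.d (nat_lit 588) (nat_lit 556) (nat_lit 5580) (nat_lit 620) (nat_lit 5612)) (.d (nat_lit 460) (nat_lit 428) (nat_lit 7596) (nat_lit 492) (nat_lit 7628)))) (.p (nat_lit 429) (.a (.d (nat_lit 556) (nat_lit 524) (nat_lit 5548) (nat_lit 588) (nat_lit 5580)) (.d (nat_lit 430) (nat_lit 398) (nat_lit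 6541) (nat_lit 462) (nat_lit 6573))))))))
noncomputable def s18261 : Cert := .r (nat_lit 522129892458594728701473734207889112589292920843637144505218487122890970179310782855217325229234197408539510689071426040285605379573088488676919930493706893318689678738247126067234719399936) (.f (nat_lit 594) (nat_lit 595) (nat_lit 2639) (.p (nat_lit 593) (.a (.d (nat_lit 561) (nat_lit 558) (nat_lit 558) (nat_lit 657) (nat_lit 7696)) (.a (.f (nat_lit 657) (nat_lit 561) (nat_lit 7696) (.d (nat_lit 562) (nat_lit 530) (nat_lit 5649) (nat_lit 689) (nat_lit 6705))) (.a (.f (nat_lit 561) (nat_lit 558) (nat_lit 558) (.f (nat_lit 562) (nat_lit 563) (nat_lit 3599) (.d (nat_lit 530) (nat_lit 498) (nat_lit 5617) (nat_lit 531) (nat_lit 2575)))) (.p (nat_lit 627) (.a (.d (nat_lit 655) (nat_lit 654) (nat_lit 1646) (nat_lit 656) (nat_lit 1647)) (.f (nat_lit 628) (nat_lit 629) (nat_lit 3665) (.d (nat_lit 660) (nat_lit 659) (nat_lit 624) (nat_lit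 661) (nat_lit 625))))))))))
noncomputable def s18771 : Cert := .r (nat_lit 104425978507927990943312805346469954508274939545833547348296788616038874547775372747606978075466137712121135981867484112103959111083542354715042909686826410437631997243018749916909806813184) (.f (nat_lit 625) (nat_lit 657) (nat_lit 4624) (.p (nat_lit 626) (.a (.p (nat_lit 593) (.a (.d (nat_lit 558) (nat_lit 557) (nat_lit 557) (nat_lit 594) (nat_lit 558)) (.f (nat_lit 627) (nat_lit 628) (nat_lit 3664) (.d (nat_lit 659) (nat_lit 658) (nat_lit 623) (nat_lit 660) (nat_lit 624))))) (.a (.p (nat_lit 627) (.a (.d (nat_lit 659) (nat_lit 658) (nat_lit 623) (nat_lit 660) (nat_lit 624)) (.f (nat_lit 596) (nat_lit 595) (nat_lit 2640) (.d (nat_lit 628) (nat_lit 593) (nat_lit 3664) (nat_lit 597) (nat_lit 2641))))) (.a (.f (nat_lit 594) (nat_lit 595) (nat_lit 2639) (.d (nat_lit 593) (nat_lit 558) (nat_lit 558) (nat_lit 622) (nat_lit 2638))) (.f (nat_lit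 659) (nat_lit 658) (nat_lit 623) (.f (nat_lit 595) (nat_lit 594) (nat_lit 2639) (.d (nat_lit 627) (nat_lit 596) (nat_lit 2640) (nat_lit 660) (nat_lit 624)))))))))
noncomputable def s18822 : Cert := .r (nat_lit 16209045197074067686171649353469764228340715667654462673955279085756611144674328715636980763858021758499028885429131100748457926495375062127956422187640035093237557813251544186880) (.f (nat_lit 493) (nat_lit 492) (nat_lit 3564) (.p (nat_lit 461) (.a (.p (nat_lit 429) (.a (.d (nat_lit 428) (nat_lit 396) (nat_lit 7564) (nat_lit 460) (nat_lit 7596)) (.a (.f (nat_lit 396) (nat_lit 428) (nat_lit 7564) (.d (nat_lit 397) (nat_lit 364) (nat_lit 7532) (nat_lit 494) (nat_lit 4493))) (.f (nat_lit 397) (nat_lit 494) (nat_lit 4493) (.d (nat_lit 398) (nat_lit 366) (nat_lit 6509) (nat_lit 430) (nat_lit 6541)))))) (.a (.f (nat_lit 462) (nat_lit 430) (nat_lit 6573) (.d (nat_lit 494) (nat_lit 589) (nat_lit 6605) (nat_lit 591)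 (nat_lit 7630))) (.a (.f (nat_lit 428) (nat_lit 460) (nat_lit 7596) (.f (nat_lit 429) (nat_lit 396) (nat_lit 7564) (.d (nat_lit 430) (nat_lit 398) (nat_lit 6541) (nat_lit 462) (nat_lit 6573)))) (.p (nat_lit 494) (.a (.f (nat_lit 428) (nat_lit 460) (nat_lit 7596) (.d (nat_lit 429) (nat_lit 396) (nat_lit 7564) (nat_lit 397) (nat_lit 4493))) (.d (nat_lit 591) (nat_lit 462) (nat_lit 7630) (nat_lit 623) (nat_lit 7662)))))))))
noncomputable def s18847 : Cert := .r (nat_lit 13208868487754088833342159076976624420491642603268029217735065143262175891148270509776343512793493320399805495644767385007306596033488388677928750288023911774035610959872) (.p (nat_lit 562) (.a (.d (nat_lit 527) (nat_lit 526) (nat_lit 3598) (nat_lit 563) (nat_lit 3599)) (.a (.f (nat_lit 527) (nat_lit 526) (nat_lit 3598) (.f (nat_lit 591) (nat_lit 590) (nat_lit 1582) (.f (nat_lit 623) (nat_lit 655) (nat_lit 6671) (.f (nat_lit 624) (nat_lit 656) (nat_lit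 4623) (.f (nat_lit 592) (nat_lit 495) (nat_lit 7663) (.p (nat_lit 593) (.a (.d (nat_lit 594) (nat_lit 595) (nat_lit 3631) (nat_lit 622) (nat_lit 1614)) (.a (.f (nat_lit 625) (nat_lit 657) (nat_lit 4624) (.f (nat_lit 530) (nat_lit 531) (nat_lit 2575) (.d (nat_lit 498) (nat_lit 466) (nat_lit 5585) (nat_lit 594) (nat_lit 5617)))) (.d (nat_lit 622) (nat_lit 621) (nat_lit 2637) (nat_lit 654) (nat_lit 5646)))))))))) (.a (.f (nat_lit 563) (nat_lit 527) (nat_lit 3599) (.d (nat_lit 595) (nat_lit 594) (nat_lit 559) (nat_lit 596) (nat_lit 560))) (.f (nat_lit 591) (nat_lit 590) (nat_lit 1582) (.f (nat_lit 563) (nat_lit 592) (nat_lit 1583) (.d (nat_lit 595) (nat_lit 594) (nat_lit 559) (nat_lit 596) (nat_lit 560))))))))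
noncomputable def s18866 : Cert := .r (nat_lit 28304718187040254242308377400929699984159327484933790931239890344244672540716865918120850413504128390565678995767822764606388934553187559208174487293754695948633192267776) (.f (nat_lit 527) (nat_lit 526) (nat_lit 3598) (.f (nat_lit 530) (nat_lit 531) (nat_lit 2575) (.f (nat_lit 594) (nat_lit 595) (nat_lit 559) (.p (nat_lit 625) (.a (.d (nat_lit 593) (nat_lit 498) (nat_lit 5617) (nat_lit 657) (nat_lit 6673)) (.a (.d (nat_lit 657) (nat_lit 593) (nat_lit 6673) (nat_lit 626) (nat_lit 5649)) (.a (.f (nat_lit 626) (nat_lit 657) (nat_lit 5649) (.p (nat_lit 624) (.a (.d (nat_lit 592) (nat_lit 495) (nat_lit 7663) (nat_lit 656) (nat_lit 7695)) (.f (nat_lit 659) (nat_lit 627) (nat_lit 4626) (.d (nat_lit 658) (nat_lit 623) (nat_lit 623) (nat_lit 691) (nat_lit 4658)))))) (.f (nat_lit 498) (nat_lit 593) (nat_lit 5617) (.p (nat_lit 495) (.a (.d (nat_lit 463) (nat_lit 431) (nat_lit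 4527) (nat_lit 592) (nat_lit 4559)) (.a (.d (nat_lit 592) (nat_lit 463) (nat_lit 4559) (nat_lit 624) (nat_lit 7663)) (.p (nat_lit 466) (.a (.d (nat_lit 467) (nat_lit 435) (nat_lit 6578) (nat_lit 499) (nat_lit 6610)) (.d (nat_lit 465) (nat_lit 433) (nat_lit 7601) (nat_lit 497) (nat_lit 7633)))))))))))))))
noncomputable def s18885 : Cert := .r (nat_lit 28304718187040254242308377400929699984159327484933790931239890344244672540716865918120850413504128390565678995767822764606388934553187559208174487293754695948633192267776) (.f (nat_lit 591) (nat_lit 590) (nat_lit 1582) (.f (nat_lit 623) (nat_lit 655) (nat_lit 6671) (.f (nat_lit 594) (nat_lit 595) (nat_lit 559) (.f (nat_lit 530) (nat_lit 531) (nat_lit 2575) (.p (nat_lit 625) (.a (.d (nat_lit 593) (nat_lit 498) (nat_lit 5617) (nat_lit 657) (nat_lit 6673)) (.a (.d (nat_lit 657) (nat_lit 593) (nat_lit 6673) (nat_lit 626) (nat_lit 5649)) (.a (.p (nat_lit 624) (.a (.d (nat_lit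 657) (nat_lit 592) (nat_lit 4624) (nat_lit 626) (nat_lit 5649)) (.a (.f (nat_lit 657) (nat_lit 626) (nat_lit 5649) (.f (nat_lit 527) (nat_lit 656) (nat_lit 4623) (.d (nat_lit 622) (nat_lit 654) (nat_lit 5646) (nat_lit 658) (nat_lit 622)))) (.a (.f (nat_lit 527) (nat_lit 656) (nat_lit 4623) (.d (nat_lit 592) (nat_lit 495) (nat_lit 7663) (nat_lit 657) (nat_lit 4624))) (.f (nat_lit 656) (nat_lit 527) (nat_lit 4623) (.d (nat_lit 688) (nat_lit 592) (nat_lit 7727) (nat_lit 720) (nat_lit 7759))))))) (.f (nat_lit 593) (nat_lit 498) (nat_lit 5617) (.d (nat_lit 622) (nat_lit 592) (nat_lit 1614) (nat_lit 624) (nat_lit 2638)))))))))))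
noncomputable def s18898 : Cert := .r (nat_lit 28304718187040254242308377400929699984159327484933790931239890344244672540716865918120850413504128390565678995767822764606388934553187559208174487293754695948633192267776) (.f (nat_lit 527) (nat_lit 526) (nat_lit 3598) (.f (nat_lit 591) (nat_lit 590) (nat_lit 1582) (.f (nat_lit 623) (nat_lit 655) (nat_lit 6671) (.f (nat_lit 530) (nat_lit 531) (nat_lit 2575) (.f (nat_lit 594) (nat_lit 595) (nat_lit 559) (.p (nat_lit 625) (.a (.d (nat_lit 593) (nat_lit 498) (nat_lit 5617) (nat_lit 657) (nat_lit 6673)) (.a (.d (nat_lit 657) (nat_lit 593) (nat_lit 6673) (nat_lit 626) (nat_lit 5649)) (.a (.f (nat_lit 626) (nat_lit 657) (nat_lit 5649) (.f (nat_lit 624) (nat_lit 656) (nat_lit 4623) (.d (nat_lit 659) (nat_lit 627) (nat_lit 4626) (nat_lit 658) (nat_lit 623)))) (.f (nat_lit 593) (nat_lit 498) (nat_lit 5617) (.d (nat_lit 622) (nat_lit 624) (nat_lit 2638) (nat_lit 654) (nat_lit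 5646))))))))))))
noncomputable def s18919 : Cert := .r (nat_lit 24313567814716786303763241118974427248398848210783977539776951930112000771257272647086877027035740876635027779271204839287150821778899789291199275890330897743692464421486792278016) (.f (nat_lit 594) (nat_lit 595) (nat_lit 559) (.p (nat_lit 626) (.a (.f (nat_lit 627) (nat_lit 593) (nat_lit 591) (.d (nat_lit 530) (nat_lit 531) (nat_lit 2575) (nat_lit 659) (nat_lit 4626))) (.a (.f (nat_lit 593) (nat_lit 627) (nat_lit 591) (.f (nat_lit 657) (nat_lit 625) (nat_lit 7696) (.d (nat_lit 658) (nat_lit 689) (nat_lit 5681) (nat_lit 690) (nat_lit 7729)))) (.a (.p (nat_lit 658) (.a (.f (nat_lit 689) (nat_lit 657) (nat_lit 5681) (.d (nat_lit 690) (nat_lit 593) (nat_lit 7729) (nat_lit 721) (nat_lit 5713))) (.a (.f (nat_lit 530) (nat_lit 531) (nat_lit 2575) (.d (nat_lit 657) (nat_lit 625) (nat_lit 5649) (nat_lit 689) (nat_lit 5681))) (.f (nat_lit 690) (nat_lit 593)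 (nat_lit 7729) (.d (nat_lit 691) (nat_lit 659) (nat_lit 4658) (nat_lit 723) (nat_lit 4690)))))) (.f (nat_lit 530) (nat_lit 531) (nat_lit 2575) (.p (nat_lit 658) (.a (.d (nat_lit 659) (nat_lit 627) (nat_lit 4626) (nat_lit 691) (nat_lit 4658)) (.d (nat_lit 657) (nat_lit 625) (nat_lit 5649) (nat_lit 689) (nat_lit 5681))))))))))
noncomputable def s18923 : Cert := .r (nat_lit 28304718187040254242308377400929699984159327484933790931239890344244672540716865918120850413504128390565678995767822764606388934553187559208174487293754695948633192267776) (.f (nat_lit 527) (nat_lit 526) (nat_lit 3598) (.f (nat_lit 591) (nat_lit 590) (nat_lit 1582) (.p (nat_lit 495) (.a (.d (nat_lit 463) (nat_lit 431) (nat_lit 4527) (nat_lit 592) (nat_lit 4559)) (.a (.d (nat_lit 592) (nat_lit 463) (nat_lit 4559) (nat_lit 624) (nat_lit 7663)) (.a (.f (nat_lit 462) (nat_lit 494) (nat_lit 7630) (.d (nat_lit 463) (nat_lit 430) (nat_lit 7598) (nat_lit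 431) (nat_lit 4527))) (.f (nat_lit 592) (nat_lit 624) (nat_lit 7663) s18919)))))))
noncomputable def s18931 : Cert := .r (nat_lit 28304718187040254242308377400929699984159327484933790931239890344244672540716865918120850413504128390565678995767822764606388934553187559208174487293754695948633192267776) (.f (nat_lit 591) (nat_lit 590) (nat_lit 1582) (.f (nat_lit 530) (nat_lit 531) (nat_lit 2575) (.f (nat_lit 594) (nat_lit 595) (nat_lit 559) (.f (nat_lit 623) (nat_lit 655) (nat_lit 6671) (.p (nat_lit 625) (.a (.d (nat_lit 593) (nat_lit 498) (nat_lit 5617) (nat_lit 657) (nat_lit 6673)) (.a (.d (nat_lit 657) (nat_lit 593) (nat_lit 6673) (nat_lit 626) (nat_lit 5649)) (.a (.f (nat_lit 626) (nat_lit 657) (nat_lit 5649) (.f (nat_lit 659) (nat_lit 627) (nat_lit 4626) (.d (nat_lit 658) (nat_lit 624) (nat_lit 623) (nat_lit 691) (nat_lit 4658)))) (.f (nat_lit 593) (nat_lit 498) (nat_lit 5617) (.d (nat_lit 622) (nat_lit 592)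 (nat_lit 1614) (nat_lit 624) (nat_lit 2638)))))))))))
noncomputable def s18973 : Cert := .r (nat_lit 104425978507927990943312805345810933932902401013195284871584974867181008758961615428305109583384325566514961000863718386600459473805721908821460747315262699589659199437011643200962761326592) (.f (nat_lit 625) (nat_lit 657) (nat_lit 4624) (.f (nat_lit 527) (nat_lit 495) (nat_lit 7663) (.f (nat_lit 526) (nat_lit 525) (nat_lit 525) (.p (nat_lit 626) (.a (.p (nat_lit 593) (.a (.f (nat_lit 594) (nat_lit 595) (nat_lit 3631) (.d (nat_lit 658) (nat_lit 659) (nat_lit 623) (nat_lit 690) (nat_lit 7729))) (.a (.f (nat_lit 627) (nat_lit 628) (nat_lit 3664) (.d (nat_lit 659) (nat_lit 658) (nat_lit 623) (nat_lit 660) (nat_lit 624))) (.d (nat_lit 594) (nat_lit 595) (nat_lit 1615) (nat_lit 622) (nat_lit 2638))))) (.a (.f (nat_lit 659) (nat_lit 658) (nat_lit 623) (.f (nat_lit 595) (nat_lit 594) (nat_lit 2639) (.d (nat_lit 627) (nat_lit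 596) (nat_lit 2640) (nat_lit 660) (nat_lit 624)))) (.a (.p (nat_lit 627) (.a (.d (nat_lit 659) (nat_lit 658) (nat_lit 623) (nat_lit 660) (nat_lit 624)) (.f (nat_lit 596) (nat_lit 595) (nat_lit 2640) (.d (nat_lit 628) (nat_lit 593) (nat_lit 3664) (nat_lit 597) (nat_lit 2641))))) (.a (.f (nat_lit 594) (nat_lit 595) (nat_lit 2639) (.f (nat_lit 593) (nat_lit 622) (nat_lit 2638) (.d (nat_lit 658) (nat_lit 659) (nat_lit 623) (nat_lit 690) (nat_lit 7729)))) (.a (.p (nat_lit 622) (.a (.d (nat_lit 593) (nat_lit 594) (nat_lit 2638) (nat_lit 621) (nat_lit 2637)) (.a (.f (nat_lit 589) (nat_lit 590) (nat_lit 3661) (.d (nat_lit 621) (nat_lit 588) (nat_lit 3660) (nat_lit 593) (nat_lit 2637))) (.a (.d (nat_lit 594) (nat_lit 593) (nat_lit 2638) (nat_lit 595) (nat_lit 2639)) (.p (nat_lit 621) (.a (.d (nat_lit 653) (nat_lit 652) (nat_lit 1644) (nat_lit 654) (nat_lit 1645)) (.d (nat_lit 589) (nat_lit 588) (nat_lit 3660) (nat_lit 590)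 (nat_lit 3661)))))))) (.p (nat_lit 593) (.a (.d (nat_lit 622) (nat_lit 594) (nat_lit 2638) (nat_lit 621) (nat_lit 2637)) (.f (nat_lit 627) (nat_lit 628) (nat_lit 3664) (.d (nat_lit 659) (nat_lit 658) (nat_lit 623) (nat_lit 660) (nat_lit 624))))))))))))))
noncomputable def s18998 : Cert := .r (nat_lit 104425978491718945752371426601621840715358802767052916776887955726572972314857502883723437136510469906565336804425445392025065766061990849933133500018829594768901528784428901781425614749696) (.p (nat_lit 592) (.a (.d (nat_lit 527) (nat_lit 495) (nat_lit 7663) (nat_lit 656) (nat_lit 7695)) (.a s18973 (.a (.f (nat_lit 625) (nat_lit 657) (nat_lit 4624) (.p (nat_lit 593) (.a (.d (nat_lit 656) (nat_lit 527) (nat_lit 7695) (nat_lit 688) (nat_lit 6704)) (.d (nat_lit 594) (nat_lit 595) (nat_lit 1615) (nat_lit 622) (nat_lit 2638))))) (.f (nat_lit 625) (nat_lit 657) (nat_lit 4624) (.p (nat_lit 622) (.a (.f (nat_lit 621) (nat_lit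 593) (nat_lit 2637) (.d (nat_lit 653) (nat_lit 652) (nat_lit 1644) (nat_lit 654) (nat_lit 1645))) (.a (.p (nat_lit 626) (.a (.p (nat_lit 627) (.a (.d (nat_lit 659) (nat_lit 658) (nat_lit 623) (nat_lit 660) (nat_lit 624)) (.a (.f (nat_lit 628) (nat_lit 593) (nat_lit 3664) (.d (nat_lit 660) (nat_lit 659) (nat_lit 624) (nat_lit 661) (nat_lit 625))) (.f (nat_lit 596) (nat_lit 595) (nat_lit 2640) (.d (nat_lit 628) (nat_lit 593) (nat_lit 3664) (nat_lit 597) (nat_lit 2641)))))) (.a (.d (nat_lit 594) (nat_lit 593) (nat_lit 2638) (nat_lit 595) (nat_lit 2639)) (.a (.f (nat_lit 593) (nat_lit 594) (nat_lit 2638) (.f (nat_lit 627) (nat_lit 628) (nat_lit 3664) (.d (nat_lit 659) (nat_lit 658) (nat_lit 623) (nat_lit 660) (nat_lit 624)))) (.f (nat_lit 659) (nat_lit 658) (nat_lit 623) (.f (nat_lit 595) (nat_lit 594) (nat_lit 2639) (.d (nat_lit 627) (nat_lit 596) (nat_lit 2640) (nat_lit 660) (nat_lit 624)))))))) (.p (nat_lit 621)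 (.a (.d (nat_lit 653) (nat_lit 652) (nat_lit 1644) (nat_lit 654) (nat_lit 1645)) (.d (nat_lit 589) (nat_lit 588) (nat_lit 3660) (nat_lit 590) (nat_lit 3661))))))))))))
noncomputable def s19161 : Cert := .r (nat_lit 13208868487754088833342159076976624420491642603268029217735065143262175891148270509776343512793493320399805495644767385007306596033488388677928750288023911774035610959872) (.p (nat_lit 562) (.a (.d (nat_lit 527) (nat_lit 526) (nat_lit 3598) (nat_lit 563) (nat_lit 3599)) (.a s18923 (.a (.f (nat_lit 563) (nat_lit 527) (nat_lit 3599) (.d (nat_lit 595) (nat_lit 594) (nat_lit 559) (nat_lit 596) (nat_lit 560))) (.f (nat_lit 591) (nat_lit 590) (nat_lit 1582) (.f (nat_lit 563) (nat_lit 592) (nat_lit 1583) (.d (nat_lit 595) (nat_lit 594) (nat_lit 559) (nat_lit 596) (nat_lit 560))))))))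
noncomputable def s19183 : Cert := .r (nat_lit 13208868488413109408714697609614886897203456352125895006548822462564044383230082655382518493797259045903305132922587830900888758405052099525901548094031018489982656446464) (.p (nat_lit 495) (.a (.d (nat_lit 463) (nat_lit 431) (nat_lit 4527) (nat_lit 592) (nat_lit 4559)) (.a (.d (nat_lit 592) (nat_lit 463) (nat_lit 4559) (nat_lit 624) (nat_lit 7663)) (.a (.f (nat_lit 463) (nat_lit 431) (nat_lit 4527) (.f (nat_lit 462) (nat_lit 430) (nat_lit 7598) (.f (nat_lit 494) (nat_lit 591) (nat_lit 7630) (.f (nat_lit 464) (nat_lit 432) (nat_lit 6575) (.d (nat_lit 465) (nat_lit 466) (nat_lit 1486) (nat_lit 493) (nat_lit 1485)))))) (.f (nat_lit 624) (nat_lit 592) (nat_lit 7663) s17273)))))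
noncomputable def s19184 : Cert := .r (nat_lit 5660943638770026704231588447638349115369613911293014149796409862072796058445784951210265043441941510820368382861060141101347589145202514260778679591165626402683865792512) (.f (nat_lit 561) (nat_lit 562) (nat_lit 3598) s19183)
noncomputable def s19409 : Cert := .r (nat_lit 13208868487754088833342159076976624420491642603268029217735065143262175891148270509776343512793493320399805495644767385007306596033488388677928750288023911774035610959872) (.p (nat_lit 562) (.a (.d (nat_lit 527) (nat_lit 526) (nat_lit 3598) (nat_lit 563) (nat_lit 3599)) (.a (.f (nat_lit 527) (nat_lit 526) (nat_lit 3598) (.f (nat_lit 591) (nat_lit 590) (nat_lit 1582) (.f (nat_lit 623) (nat_lit 655) (nat_lit 6671) (.f (nat_lit 624) (nat_lit 656) (nat_lit 4623) (.f (nat_lit 592) (nat_lit 495) (nat_lit 7663) (.p (nat_lit 593) (.a (.d (nat_lit 558) (nat_lit 557) (nat_lit 557) (nat_lit 594) (nat_lit 558))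 (.d (nat_lit 622) (nat_lit 621) (nat_lit 2637) (nat_lit 654) (nat_lit 5646))))))))) (.a (.f (nat_lit 563) (nat_lit 527) (nat_lit 3599) (.d (nat_lit 595) (nat_lit 594) (nat_lit 559) (nat_lit 596) (nat_lit 560))) (.f (nat_lit 591) (nat_lit 590) (nat_lit 1582) (.f (nat_lit 563) (nat_lit 592) (nat_lit 1583) (.d (nat_lit 595) (nat_lit 594) (nat_lit 559) (nat_lit 596) (nat_lit 560))))))))
noncomputable def s19922 : Cert := .r (nat_lit 104425978499823468340294191124073304619647492728147563042402622856044109680157146555523025035163100032367895452289264354229825869872328689577755954407196561914157495607854880403895397384192) (.p (nat_lit 622) (.a (.d (nat_lit 527) (nat_lit 654) (nat_lit 5646) (nat_lit 656) (nat_lit 4623)) (.a (.f (nat_lit 656) (nat_lit 527) (nat_lit 4623) (.f (nat_lit 621) (nat_lit 657) (nat_lit 621) (.p (nat_lit 620) (.a (.d (nat_lit 652) (nat_lit 651) (nat_lit 1643) (nat_lit 653) (nat_lit 1644)) (.d (nat_lit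 588) (nat_lit 587) (nat_lit 3659) (nat_lit 589) (nat_lit 3660)))))) (.a (.f (nat_lit 654) (nat_lit 527) (nat_lit 5646) (.f (nat_lit 625) (nat_lit 653) (nat_lit 1645) (.f (nat_lit 594) (nat_lit 593) (nat_lit 2638) (.f (nat_lit 626) (nat_lit 595) (nat_lit 2639) (.d (nat_lit 658) (nat_lit 657) (nat_lit 622) (nat_lit 659) (nat_lit 623)))))) (.p (nat_lit 621) (.a (.p (nat_lit 620) (.a (.d (nat_lit 652) (nat_lit 651) (nat_lit 1643) (nat_lit 653) (nat_lit 1644)) (.d (nat_lit 588) (nat_lit 587) (nat_lit 3659) (nat_lit 589) (nat_lit 3660)))) (.a (.f (nat_lit 653) (nat_lit 652) (nat_lit 1644) (.f (nat_lit 625) (nat_lit 654) (nat_lit 1645) (.d (nat_lit 657) (nat_lit 656) (nat_lit 621) (nat_lit 658) (nat_lit 622)))) (.f (nat_lit 588) (nat_lit 589) (nat_lit 3660) (.f (nat_lit 620) (nat_lit 587) (nat_lit 3659) (.f (nat_lit 657) (nat_lit 656) (nat_lit 621) (.f (nat_lit 625) (nat_lit 658) (nat_lit 622) (.d (nat_lit 593) (nat_lit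 561) (nat_lit 7696) (nat_lit 594) (nat_lit 2638)))))))))))))
noncomputable def s19985 : Cert := .r (nat_lit 104425978499823468340294191124073304619647492728147563042402622856044109680157146555523025035163100032367895452289264354229825869872328689577755954407196561914157495607854880403895397384192) (.p (nat_lit 625) (.a (.f (nat_lit 592) (nat_lit 657) (nat_lit 4624) (.f (nat_lit 626) (nat_lit 627) (nat_lit 3663) (.f (nat_lit 594) (nat_lit 595) (nat_lit 2639) (.f (nat_lit 593) (nat_lit 558) (nat_lit 3630) (.p (nat_lit 561) (.a (.d (nat_lit 658) (nat_lit 659) (nat_lit 623) (nat_lit 690) (nat_lit 7729)) (.f (nat_lit 562) (nat_lit 563) (nat_lit 1583) (.d (nat_lit 530) (nat_lit 498) (nat_lit 5617) (nat_lit 531) (nat_lit 2575))))))))) (.a (.f (nat_lit 657) (nat_lit 592) (nat_lit 4624) (.f (nat_lit 658) (nat_lit 622) (nat_lit 622) (.d (nat_lit 659) (nat_lit 626) (nat_lit 623) (nat_lit 656) (nat_lit 3695)))) (.a (.f (nat_lit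 592) (nat_lit 657) (nat_lit 4624) (.p (nat_lit 594) (.a (.d (nat_lit 593) (nat_lit 558) (nat_lit 3630) (nat_lit 595) (nat_lit 3631)) (.a (.d (nat_lit 593) (nat_lit 595) (nat_lit 3631) (nat_lit 622) (nat_lit 1614)) (.a (.d (nat_lit 593) (nat_lit 558) (nat_lit 3630) (nat_lit 622) (nat_lit 1614)) (.d (nat_lit 626) (nat_lit 595) (nat_lit 2639) (nat_lit 627) (nat_lit 3663))))))) (.a (.p (nat_lit 593) (.a (.f (nat_lit 561) (nat_lit 657) (nat_lit 7696) (.f (nat_lit 594) (nat_lit 558) (nat_lit 558) (.d (nat_lit 595) (nat_lit 562) (nat_lit 559) (nat_lit 596) (nat_lit 3632)))) (.a (.f (nat_lit 657) (nat_lit 561) (nat_lit 7696) (.f (nat_lit 658) (nat_lit 622) (nat_lit 622) (.d (nat_lit 659) (nat_lit 626) (nat_lit 623) (nat_lit 656) (nat_lit 3695)))) (.f (nat_lit 594) (nat_lit 622) (nat_lit 2638) (.d (nat_lit 595) (nat_lit 596) (nat_lit 1616) (nat_lit 626) (nat_lit 2639)))))) (.a (.f (nat_lit 657) (nat_lit 592) (nat_lit 4624)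 (.f (nat_lit 622) (nat_lit 658) (nat_lit 622) (.d (nat_lit 593) (nat_lit 561) (nat_lit 7696) (nat_lit 594) (nat_lit 2638)))) (.p (nat_lit 594) (.a (.f (nat_lit 595) (nat_lit 626) (nat_lit 2639) (.d (nat_lit 593) (nat_lit 592) (nat_lit 1615) (nat_lit 596) (nat_lit 1616))) (.a (.f (nat_lit 593) (nat_lit 622) (nat_lit 2638) (.d (nat_lit 558) (nat_lit 561) (nat_lit 558) (nat_lit 592) (nat_lit 3630))) (.a (.f (nat_lit 595) (nat_lit 626) (nat_lit 2639) (.d (nat_lit 593) (nat_lit 596) (nat_lit 1616) (nat_lit 622) (nat_lit 2638))) (.f (nat_lit 626) (nat_lit 595) (nat_lit 2639) (.f (nat_lit 627) (nat_lit 592) (nat_lit 3663) (.d (nat_lit 659) (nat_lit 658) (nat_lit 623) (nat_lit 660) (nat_lit 624))))))))))))))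
noncomputable def s19999 : Cert := .r (nat_lit 8104522601131633010205552737630849038071270686006309732739166583034708815061763789800900635578902160657312282604565599455105224651929050421855355823184717111449890396505393594368) (.f (nat_lit 623) (nat_lit 655) (nat_lit 6671) (.p (nat_lit 527) (.a (.f (nat_lit 624) (nat_lit 656) (nat_lit 4623) (.f (nat_lit 495) (nat_lit 592) (nat_lit 7663) (.d (nat_lit 622) (nat_lit 590) (nat_lit 5614) (nat_lit 654) (nat_lit 5646)))) (.a (.f (nat_lit 624) (nat_lit 656) (nat_lit 4623) (.f (nat_lit 592) (nat_lit 495) (nat_lit 7663) (.f (nat_lit 625) (nat_lit 657) (nat_lit 4624) (.d (nat_lit 590) (nat_lit 589) (nat_lit 589) (nat_lit 626) (nat_lit 3662))))) (.a (.f (nat_lit 622) (nat_lit 654) (nat_lit 5646) (.f (nat_lit 495) (nat_lit 590) (nat_lit 5614) (.d (nat_lit 463) (nat_lit 431) (nat_lit 4527) (nat_lit 592) (nat_lit 4559)))) (.a (.f (nat_lit 624) (nat_lit 656) (nat_lit 4623) (.f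 (nat_lit 592) (nat_lit 495) (nat_lit 7663) (.f (nat_lit 622) (nat_lit 654) (nat_lit 5646) (.d (nat_lit 593) (nat_lit 594) (nat_lit 1614) (nat_lit 621) (nat_lit 2637))))) (.a (.f (nat_lit 622) (nat_lit 654) (nat_lit 5646) (.f (nat_lit 590) (nat_lit 495) (nat_lit 5614) (.f (nat_lit 624) (nat_lit 656) (nat_lit 4623) (.d (nat_lit 589) (nat_lit 588) (nat_lit 588) (nat_lit 625) (nat_lit 3661))))) (.f (nat_lit 624) (nat_lit 656) (nat_lit 4623) (.f (nat_lit 622) (nat_lit 654) (nat_lit 5646) (.p (nat_lit 590) (.a (.f (nat_lit 561) (nat_lit 562) (nat_lit 1582) (.d (nat_lit 589) (nat_lit 588) (nat_lit 2604) (nat_lit 592) (nat_lit 2605))) (.a (.f (nat_lit 625) (nat_lit 626) (nat_lit 3662) (.d (nat_lit 657) (nat_lit 592) (nat_lit 4624) (nat_lit 658) (nat_lit 622))) (.d (nat_lit 589) (nat_lit 588) (nat_lit 588) (nat_lit 625) (nat_lit 3661))))))))))))))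
noncomputable def s20073 : Cert := .r (nat_lit 34808659509396432478587830400875410002688963162965626828479335558992823393101549531360935649973431016162639306977531221790167449863445811015953163574410700725365060940063905753853014835200) (.f (nat_lit 561) (nat_lit 562) (nat_lit 1582) (.p (nat_lit 622) (.a (.d (nat_lit 527) (nat_lit 495) (nat_lit 5614) (nat_lit 654) (nat_lit 5646)) (.a (.f (nat_lit 589) (nat_lit 588) (nat_lit 2604) (.f (nat_lit 624) (nat_lit 625) (nat_lit 3661) (.d (nat_lit 527) (nat_lit 495) (nat_lit 5614) (nat_lit 656) (nat_lit 4623)))) (.a (.d (nat_lit 654) (nat_lit 527) (nat_lit 5646) (nat_lit 686) (nat_lit 6702)) (.p (nat_lit 624) (.a (.p (nat_lit 621) (.a (.f (nat_lit 589) (nat_lit 588) (nat_lit 2604) (.f (nat_lit 654) (nat_lit 686) (nat_lit 6702) (.f (nat_lit 620) (nat_lit 619) (nat_lit 2635) (.d (nat_lit 652) (nat_lit 651) (nat_lit 1643) (nat_lit 653) (nat_lit 1644))))) (.a (.f (nat_lit 620)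 (nat_lit 619) (nat_lit 2635) (.d (nat_lit 652) (nat_lit 651) (nat_lit 1643) (nat_lit 653) (nat_lit 1644))) (.a (.f (nat_lit 589) (nat_lit 588) (nat_lit 2604) (.f (nat_lit 686) (nat_lit 654) (nat_lit 6702) (.f (nat_lit 653) (nat_lit 652) (nat_lit 1644) (.d (nat_lit 685) (nat_lit 717) (nat_lit 6733) (nat_lit 718) (nat_lit 4685))))) (.f (nat_lit 588) (nat_lit 589) (nat_lit 2604) (.d (nat_lit 620) (nat_lit 587) (nat_lit 3659) (nat_lit 619) (nat_lit 2635))))))) (.a (.d (nat_lit 589) (nat_lit 588) (nat_lit 588) (nat_lit 625) (nat_lit 3661)) (.f (nat_lit 625) (nat_lit 626) (nat_lit 3662) (.d (nat_lit 657) (nat_lit 593) (nat_lit 7696) (nat_lit 658) (nat_lit 622)))))))))))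
noncomputable def s20209 : Cert := .r (nat_lit 6604434244316391466919438560247153861387030467539258468076704117832333606962010018625621743732590477202235839340930656432708072931120001570946240348016693697649169137664) (.p (nat_lit 557) (.a (.f (nat_lit 525) (nat_lit 524) (nat_lit 3596) (.f (nat_lit 526) (nat_lit 561) (nat_lit 3597) (.f (nat_lit 556) (nat_lit 527) (nat_lit 1548) (.d (nat_lit 588) (nat_lit 587) (nat_lit 1579) (nat_lit 589) (nat_lit 1580))))) (.a (.f (nat_lit 525) (nat_lit 524) (nat_lit 3596) (.f (nat_lit 589) (nat_lit 588) (nat_lit 1580) (.d (nat_lit 561) (nat_lit 526) (nat_lit 3597) (nat_lit 590) (nat_lit 1581)))) (.a (.f (nat_lit 556) (nat_lit 527) (nat_lit 2572) (.d (nat_lit 524) (nat_lit 523) (nat_lit 3595) (nat_lit 525) (nat_lit 3596))) (.f (nat_lit 556) (nat_lit 527) (nat_lit 2572) (.d (nat_lit 588) (nat_lit 587) (nat_lit 1579) (nat_lit 589) (nat_lit 1580)))))))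
noncomputable def s20339 : Cert := .r (nat_lit 6604434244316391466919438560247153861387030467539258468076704117832333606962010018625621743732590477202235839340930656432708072931120001570946240348016693697649169137664) (.p (nat_lit 589) (.a (.f (nat_lit 590) (nat_lit 561) (nat_lit 1581) (.d (nat_lit 588) (nat_lit 557) (nat_lit 1580) (nat_lit 591) (nat_lit 2604))) (.a (.f (nat_lit 557) (nat_lit 588) (nat_lit 1580) (.f (nat_lit 525) (nat_lit 524) (nat_lit 3596) (.d (nat_lit 561) (nat_lit 526) (nat_lit 3597) (nat_lit 590) (nat_lit 1581)))) (.a (.f (nat_lit 557) (nat_lit 588) (nat_lit 1580) (.f (nat_lit 525) (nat_lit 524) (nat_lit 3596) (.f (nat_lit 526) (nat_lit 561) (nat_lit 3597) (.d (nat_lit 494) (nat_lit 462) (nat_lit 5581) (nat_lit 621) (nat_lit 6637))))) (.a (.f (nat_lit 590) (nat_lit 561) (nat_lit 1581) (.d (nat_lit 588) (nat_lit 587) (nat_lit 2603) (nat_lit 591) (nat_lit 2604))) (.a (.f (nat_lit 590) (nat_lit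 561) (nat_lit 1581) (.p (nat_lit 526) (.a (.f (nat_lit 494) (nat_lit 621) (nat_lit 5613) (.d (nat_lit 591) (nat_lit 462) (nat_lit 4558) (nat_lit 623) (nat_lit 4590))) (.a (.f (nat_lit 621) (nat_lit 494) (nat_lit 5613) (.d (nat_lit 653) (nat_lit 557) (nat_lit 6669) (nat_lit 622) (nat_lit 5645))) (.a (.p (nat_lit 494) (.a (.d (nat_lit 591) (nat_lit 462) (nat_lit 4558) (nat_lit 623) (nat_lit 4590)) (.a (.f (nat_lit 623) (nat_lit 591) (nat_lit 4590) (.f (nat_lit 622) (nat_lit 655) (nat_lit 4622) (.d (nat_lit 493) (nat_lit 461) (nat_lit 7629) (nat_lit 525) (nat_lit 7661)))) (.f (nat_lit 462) (nat_lit 557) (nat_lit 5581) (.d (nat_lit 463) (nat_lit 431) (nat_lit 6574) (nat_lit 495) (nat_lit 6606)))))) (.p (nat_lit 622) (.a (.f (nat_lit 525) (nat_lit 493) (nat_lit 7661) (.d (nat_lit 524) (nat_lit 523) (nat_lit 523) (nat_lit 557) (nat_lit 3596))) (.a (.f (nat_lit 621) (nat_lit 653) (nat_lit 5645) (.f (nat_lit 655) (nat_lit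 623) (nat_lit 4622) (.f (nat_lit 654) (nat_lit 687) (nat_lit 4654) (.d (nat_lit 557) (nat_lit 525) (nat_lit 4621) (nat_lit 686) (nat_lit 7725))))) (.f (nat_lit 655) (nat_lit 623) (nat_lit 4622) (.f (nat_lit 654) (nat_lit 687) (nat_lit 4654) (.d (nat_lit 653) (nat_lit 621) (nat_lit 5645) (nat_lit 685) (nat_lit 5677)))))))))))) (.f (nat_lit 557) (nat_lit 588) (nat_lit 1580) (.f (nat_lit 525) (nat_lit 524) (nat_lit 3596) (.p (nat_lit 493) (.a (.d (nat_lit 590) (nat_lit 461) (nat_lit 4557) (nat_lit 622) (nat_lit 4589)) (.a (.f (nat_lit 461) (nat_lit 590) (nat_lit 4557) (.d (nat_lit 462) (nat_lit 430) (nat_lit 6573) (nat_lit 494) (nat_lit 6605))) (.f (nat_lit 494) (nat_lit 462) (nat_lit 6605) (.f (nat_lit 621) (nat_lit 526) (nat_lit 6637) (.p (nat_lit 653) (.a (.d (nat_lit 654) (nat_lit 622) (nat_lit 4621) (nat_lit 686) (nat_lit 4653)) (.d (nat_lit 652) (nat_lit 620) (nat_lit 5644) (nat_lit 684) (nat_lit 5676)))))))))))))))))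
noncomputable def s20407 : Cert := .r (nat_lit 14152359093959474171402547722223691643220872908372139324829116718323581931746307722797875194087908012285172589402458346232249242190969586836069108850882085784947959791616) (.f (nat_lit 526) (nat_lit 525) (nat_lit 3597) (.f (nat_lit 590) (nat_lit 589) (nat_lit 1581) (.p (nat_lit 591) (.a (.d (nat_lit 494) (nat_lit 462) (nat_lit 4558) (nat_lit 623) (nat_lit 4590)) (.a (.d (nat_lit 623) (nat_lit 494) (nat_lit 4590) (nat_lit 655) (nat_lit 7694)) (.a (.f (nat_lit 623) (nat_lit 655) (nat_lit 6671) (.p (nat_lit 527) (.a (.f (nat_lit 495) (nat_lit 463) (nat_lit 5582) (.d (nat_lit 624) (nat_lit 592) (nat_lit 4591) (nat_lit 656) (nat_lit 4623))) (.a (.d (nat_lit 495) (nat_lit 463) (nat_lit 5582) (nat_lit 622) (nat_lit 5614)) (.a (.d (nat_lit 622) (nat_lit 495) (nat_lit 5614) (nat_lit 654) (nat_lit 5646)) (.f (nat_lit 622) (nat_lit 654) (nat_lit 5646) (.f (nat_lit 621) (nat_lit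 653) (nat_lit 5645) (.d (nat_lit 620) (nat_lit 592) (nat_lit 2636) (nat_lit 619) (nat_lit 2635))))))))) (.f (nat_lit 494) (nat_lit 462) (nat_lit 4558) (.f (nat_lit 495) (nat_lit 463) (nat_lit 6606) (.f (nat_lit 527) (nat_lit 622) (nat_lit 5614) (.d (nat_lit 493) (nat_lit 461) (nat_lit 7629) (nat_lit 492) (nat_lit 492)))))))))))
noncomputable def s20615 : Cert := .r (nat_lit 7076179547419084135949632882870687472751645620091313521623729905363036627261028625136387584379797823144919386219776137045179396009860600650016419629445780703105343553536) (.f (nat_lit 589) (nat_lit 588) (nat_lit 1580) (.f (nat_lit 590) (nat_lit 561) (nat_lit 1581) (.p (nat_lit 591) (.a (.d (nat_lit 556) (nat_lit 555) (nat_lit 555) (nat_lit 592) (nat_lit 556)) (.a (.f (nat_lit 623) (nat_lit 655) (nat_lit 6671) (.f (nat_lit 526) (nat_lit 494) (nat_lit 4590) (.f (nat_lit 621) (nat_lit 653) (nat_lit 6669) (.f (nat_lit 620) (nat_lit 592) (nat_lit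 1612) (.d (nat_lit 619) (nat_lit 618) (nat_lit 2634) (nat_lit 622) (nat_lit 2635)))))) (.f (nat_lit 655) (nat_lit 623) (nat_lit 6671) (.p (nat_lit 654) (.a (.p (nat_lit 653) (.a (.d (nat_lit 621) (nat_lit 526) (nat_lit 6669) (nat_lit 685) (nat_lit 6701)) (.a (.p (nat_lit 652) (.a (.p (nat_lit 651) (.a (.d (nat_lit 687) (nat_lit 686) (nat_lit 651) (nat_lit 688) (nat_lit 652)) (.d (nat_lit 683) (nat_lit 682) (nat_lit 1674) (nat_lit 684) (nat_lit 1675)))) (.a (.p (nat_lit 651) (.a (.d (nat_lit 683) (nat_lit 682) (nat_lit 1674) (nat_lit 684) (nat_lit 1675)) (.d (nat_lit 619) (nat_lit 618) (nat_lit 3690) (nat_lit 620) (nat_lit 3691)))) (.a (.p (nat_lit 651) (.a (.d (nat_lit 687) (nat_lit 686) (nat_lit 651) (nat_lit 688) (nat_lit 652)) (.d (nat_lit 619) (nat_lit 618) (nat_lit 3690) (nat_lit 620) (nat_lit 3691)))) (.p (nat_lit 656) (.a (.d (nat_lit 688) (nat_lit 687) (nat_lit 652) (nat_lit 689) (nat_lit 653)) (.d (nat_lit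 684) (nat_lit 683) (nat_lit 1675) (nat_lit 685) (nat_lit 1676)))))))) (.d (nat_lit 621) (nat_lit 526) (nat_lit 6669) (nat_lit 686) (nat_lit 4653))))) (.a (.d (nat_lit 622) (nat_lit 686) (nat_lit 6702) (nat_lit 687) (nat_lit 4654)) (.a (.p (nat_lit 653) (.a (.d (nat_lit 622) (nat_lit 685) (nat_lit 5677) (nat_lit 687) (nat_lit 4654)) (.a (.d (nat_lit 621) (nat_lit 526) (nat_lit 6669) (nat_lit 685) (nat_lit 6701)) (.f (nat_lit 621) (nat_lit 526) (nat_lit 6669) (.d (nat_lit 556) (nat_lit 524) (nat_lit 7692) (nat_lit 555) (nat_lit 555)))))) (.p (nat_lit 653) (.a (.d (nat_lit 621) (nat_lit 526) (nat_lit 6669) (nat_lit 685) (nat_lit 6701)) (.a (.d (nat_lit 622) (nat_lit 685) (nat_lit 5677) (nat_lit 686) (nat_lit 6702)) (.d (nat_lit 621) (nat_lit 526) (nat_lit 6669) (nat_lit 686) (nat_lit 4653)))))))))))))))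
noncomputable def s20632 : Cert := .r (nat_lit 7076179547419084135949632882870687472751645620091313521623729905363036627261028625136387584379797823144919386219776137045179396009860600650016419629445780703105343553536) (.f (nat_lit 589) (nat_lit 588) (nat_lit 1580) (.f (nat_lit 525) (nat_lit 524) (nat_lit 3596) (.p (nat_lit 590) (.a (.d (nat_lit 493) (nat_lit 461) (nat_lit 4557) (nat_lit 622) (nat_lit 4589)) (.a (.f (nat_lit 493) (nat_lit 461) (nat_lit 4557) (.f (nat_lit 494) (nat_lit 462) (nat_lit 6605) (.f (nat_lit 526) (nat_lit 621) (nat_lit 5613) (.f (nat_lit 591) (nat_lit 623) (nat_lit 4590) (.d (nat_lit 556) (nat_lit 555) (nat_lit 555) (nat_lit 592) (nat_lit 556)))))) (.f (nat_lit 622) (nat_lit 654) (nat_lit 7693) (.p (nat_lit 621) (.a (.d (nat_lit 526) (nat_lit 494) (nat_lit 5613) (nat_lit 653) (nat_lit 5645)) (.a (.d (nat_lit 653) (nat_lit 526) (nat_lit 6669) (nat_lit 685) (nat_lit 6701)) (.p (nat_lit 591)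 (.a (.d (nat_lit 556) (nat_lit 555) (nat_lit 555) (nat_lit 592) (nat_lit 556)) (.a (.d (nat_lit 620) (nat_lit 592) (nat_lit 1612) (nat_lit 652) (nat_lit 5644)) (.d (nat_lit 620) (nat_lit 619) (nat_lit 2635) (nat_lit 652) (nat_lit 5644))))))))))))))
noncomputable def s20820 : Cert := .r (nat_lit 34808659505344171180852485714828136698303063601430034804805080773840814282075521395215517538254967101175233257867962973146319022927513046293871351750302424520175643276918220398968728190976) (.p (nat_lit 527) (.a (.f (nat_lit 624) (nat_lit 656) (nat_lit 4623) (.f (nat_lit 495) (nat_lit 592) (nat_lit 7663) (.d (nat_lit 622) (nat_lit 590) (nat_lit 5614) (nat_lit 654) (nat_lit 5646)))) (.a (.f (nat_lit 624) (nat_lit 656) (nat_lit 4623) (.f (nat_lit 592) (nat_lit 495) (nat_lit 7663) (.f (nat_lit 625) (nat_lit 657) (nat_lit 4624) (.d (nat_lit 590) (nat_lit 589) (nat_lit 589) (nat_lit 626) (nat_lit 3662))))) (.a (.f (nat_lit 622)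 (nat_lit 654) (nat_lit 5646) (.f (nat_lit 495) (nat_lit 590) (nat_lit 5614) (.d (nat_lit 463) (nat_lit 431) (nat_lit 4527) (nat_lit 592) (nat_lit 4559)))) (.a (.f (nat_lit 624) (nat_lit 656) (nat_lit 4623) (.f (nat_lit 592) (nat_lit 495) (nat_lit 7663) (.f (nat_lit 622) (nat_lit 654) (nat_lit 5646) (.d (nat_lit 593) (nat_lit 594) (nat_lit 1614) (nat_lit 621) (nat_lit 2637))))) (.a (.f (nat_lit 622) (nat_lit 654) (nat_lit 5646) (.f (nat_lit 590) (nat_lit 495) (nat_lit 5614) (.f (nat_lit 589) (nat_lit 588) (nat_lit 2604) (.d (nat_lit 624) (nat_lit 625) (nat_lit 3661) (nat_lit 656) (nat_lit 4623))))) (.f (nat_lit 624) (nat_lit 656) (nat_lit 4623) (.f (nat_lit 622) (nat_lit 654) (nat_lit 5646) (.p (nat_lit 592) (.a (.d (nat_lit 593) (nat_lit 594) (nat_lit 1614) (nat_lit 621) (nat_lit 2637)) (.a (.d (nat_lit 621) (nat_lit 593) (nat_lit 2637) (nat_lit 620) (nat_lit 2636)) (.f (nat_lit 625) (nat_lit 657) (nat_lit 4624)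 (.d (nat_lit 590) (nat_lit 589) (nat_lit 589) (nat_lit 626) (nat_lit 3662))))))))))))))
noncomputable def s21022 : Cert := .r (nat_lit 13208868487754088833342159076976624420491642603268029217735065143262175891148270509776343512793493320399805495644767385007306596033488388677928750288023911774035610959872) (.p (nat_lit 558) (.a (.f (nat_lit 526) (nat_lit 525) (nat_lit 3597) (.f (nat_lit 590) (nat_lit 589) (nat_lit 1581) (.d (nat_lit 562) (nat_lit 527) (nat_lit 3598) (nat_lit 591) (nat_lit 1582)))) (.a (.f (nat_lit 526) (nat_lit 525) (nat_lit 3597) (.f (nat_lit 593) (nat_lit 594) (nat_lit 558) (.f (nat_lit 557) (nat_lit 592) (nat_lit 557) (.d (nat_lit 589) (nat_lit 588) (nat_lit 1580) (nat_lit 590) (nat_lit 1581))))) (.a (.f (nat_lit 526) (nat_lit 525) (nat_lit 3597) (.f (nat_lit 527) (nat_lit 562) (nat_lit 3598) (.f (nat_lit 557) (nat_lit 556) (nat_lit 2572) (.d (nat_lit 593) (nat_lit 592) (nat_lit 557) (nat_lit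 594) (nat_lit 558))))) (.f (nat_lit 593) (nat_lit 594) (nat_lit 558) (.f (nat_lit 557) (nat_lit 592) (nat_lit 557) (.d (nat_lit 589) (nat_lit 588) (nat_lit 1580) (nat_lit 590) (nat_lit 1581))))))))
noncomputable def s21395 : Cert := .r (nat_lit 34808659505344171180852485715267483748551422623188876455946289939746058141284692941416763199642841864912683245203806790148652114446060010222926126664678231752157508480922958209600091848704) (.f (nat_lit 526) (nat_lit 494) (nat_lit 7662) (.f (nat_lit 525) (nat_lit 524) (nat_lit 524) (.f (nat_lit 557) (nat_lit 556) (nat_lit 1548) (.f (nat_lit 622) (nat_lit 654) (nat_lit 5646) (.p (nat_lit 590) (.a (.d (nat_lit 493) (nat_lit 492) (nat_lit 3564) (nat_lit 558) (nat_lit 7661)) (.a (.p (nat_lit 621) (.a (.d (nat_lit 592) (nat_lit 593) (nat_lit 1613) (nat_lit 620) (nat_lit 2636)) (.a (.f (nat_lit 588) (nat_lit 589) (nat_lit 2604) (.d (nat_lit 620) (nat_lit 587) (nat_lit 3659) (nat_lit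 619) (nat_lit 2635))) (.f (nat_lit 624) (nat_lit 656) (nat_lit 4623) (.d (nat_lit 653) (nat_lit 558) (nat_lit 5645) (nat_lit 652) (nat_lit 1644)))))) (.d (nat_lit 493) (nat_lit 492) (nat_lit 3564) (nat_lit 589) (nat_lit 4589)))))))))
noncomputable def s21440 : Cert := .r (nat_lit 34808659505344171180852485715267483748551422623188876455946289939746058141284692941416763199642841864912683245203806790148652114446060010222926126664678231752157508480922958209600091848704) (.f (nat_lit 624) (nat_lit 656) (nat_lit 4623) (.p (nat_lit 558) (.a (.f (nat_lit 526) (nat_lit 494) (nat_lit 7662) (.f (nat_lit 557) (nat_lit 556) (nat_lit 2572) (.f (nat_lit 525) (nat_lit 524) (nat_lit 524) (.f (nat_lit 493) (nat_lit 492) (nat_lit 3564) (.d (nat_lit 461) (nat_lit 429) (nat_lit 4525) (nat_lit 590) (nat_lit 4557)))))) (.a (.f (nat_lit 494) (nat_lit 526) (nat_lit 7662) (.f (nat_lit 495) (nat_lit 462) (nat_lit 7630) (.d (nat_lit 463)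 (nat_lit 431) (nat_lit 4527) (nat_lit 590) (nat_lit 5582)))) (.a (.f (nat_lit 557) (nat_lit 556) (nat_lit 2572) (.f (nat_lit 494) (nat_lit 526) (nat_lit 7662) (.f (nat_lit 462) (nat_lit 495) (nat_lit 7630) (.f (nat_lit 525) (nat_lit 524) (nat_lit 3596) (.d (nat_lit 589) (nat_lit 493) (nat_lit 6605) (nat_lit 588) (nat_lit 1580)))))) (.a (.f (nat_lit 557) (nat_lit 556) (nat_lit 2572) (.f (nat_lit 525) (nat_lit 524) (nat_lit 3596) (.p (nat_lit 493) (.a (.f (nat_lit 590) (nat_lit 461) (nat_lit 4557) (.f (nat_lit 492) (nat_lit 526) (nat_lit 3564) (.d (nat_lit 589) (nat_lit 460) (nat_lit 7628) (nat_lit 588) (nat_lit 588)))) (.a (.f (nat_lit 492) (nat_lit 526) (nat_lit 3564) (.d (nat_lit 589) (nat_lit 460) (nat_lit 7628) (nat_lit 588) (nat_lit 1580))) (.a (.f (nat_lit 461) (nat_lit 590) (nat_lit 4557) (.f (nat_lit 428) (nat_lit 460) (nat_lit 7596) (.d (nat_lit 429) (nat_lit 396) (nat_lit 7564) (nat_lit 526) (nat_lit 4525))))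 (.a (.f (nat_lit 589) (nat_lit 588) (nat_lit 1580) (.f (nat_lit 460) (nat_lit 492) (nat_lit 7628) (.d (nat_lit 461) (nat_lit 428) (nat_lit 7596) (nat_lit 590) (nat_lit 4557)))) (.f (nat_lit 461) (nat_lit 590) (nat_lit 4557) (.d (nat_lit 526) (nat_lit 429) (nat_lit 4525) (nat_lit 492) (nat_lit 3564)))))))))) (.f (nat_lit 557) (nat_lit 556) (nat_lit 2572) (.f (nat_lit 525) (nat_lit 524) (nat_lit 3596) (.f (nat_lit 589) (nat_lit 588) (nat_lit 1580) (.p (nat_lit 493) (.a (.f (nat_lit 460) (nat_lit 492) (nat_lit 7628) (.d (nat_lit 461) (nat_lit 428) (nat_lit 7596) (nat_lit 590) (nat_lit 4557))) (.a (.p (nat_lit 461) (.a (.d (nat_lit 460) (nat_lit 428) (nat_lit 7596) (nat_lit 492) (nat_lit 7628)) (.d (nat_lit 462) (nat_lit 430) (nat_lit 6573) (nat_lit 494) (nat_lit 6605)))) (.a (.f (nat_lit 494) (nat_lit 462) (nat_lit 6605) (.d (nat_lit 492) (nat_lit 460) (nat_lit 7628) (nat_lit 495) (nat_lit 492))) (.f (nat_lit 461)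 (nat_lit 590) (nat_lit 4557) (.d (nat_lit 462) (nat_lit 430) (nat_lit 6573) (nat_lit 494) (nat_lit 6605))))))))))))))))
noncomputable def s21464 : Cert := .r (nat_lit 34808659505344171180852485715267483748551422623188876455946289939746058141284692941416763199642841864912683245203806790148652114446060010222926126664678231752157508480922958209600091848704) (.f (nat_lit 624) (nat_lit 656) (nat_lit 4623) (.f (nat_lit 526) (nat_lit 494) (nat_lit 7662) (.f (nat_lit 525) (nat_lit 524) (nat_lit 524) (.f (nat_lit 493) (nat_lit 492) (nat_lit 3564) (.p (nat_lit 461) (.a (.f (nat_lit 557) (nat_lit 556) (nat_lit 1548) (.d (nat_lit 558) (nat_lit 429) (nat_lit 4525) (nat_lit 590) (nat_lit 4557))) (.a (.p (nat_lit 590) (.a (.d (nat_lit 558) (nat_lit 429) (nat_lit 4525) (nat_lit 557) (nat_lit 4557)) (.f (nat_lit 589) (nat_lit 588) (nat_lit 2604) (.d (nat_lit 625) (nat_lit 592) (nat_lit 589) (nat_lit 626) (nat_lit 3662))))) (.a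 (.f (nat_lit 557) (nat_lit 556) (nat_lit 1548) (.f (nat_lit 428) (nat_lit 460) (nat_lit 7596) (.d (nat_lit 429) (nat_lit 396) (nat_lit 7564) (nat_lit 558) (nat_lit 4525)))) (.a (.f (nat_lit 557) (nat_lit 556) (nat_lit 1548) (.f (nat_lit 428) (nat_lit 460) (nat_lit 7596) (.f (nat_lit 429) (nat_lit 396) (nat_lit 7564) (.d (nat_lit 430) (nat_lit 398) (nat_lit 6541) (nat_lit 462) (nat_lit 6573))))) (.a (.p (nat_lit 590) (.a (.d (nat_lit 557) (nat_lit 556) (nat_lit 1548) (nat_lit 558) (nat_lit 4557)) (.f (nat_lit 589) (nat_lit 588) (nat_lit 2604) (.d (nat_lit 625) (nat_lit 592) (nat_lit 589) (nat_lit 626) (nat_lit 3662))))) (.f (nat_lit 429) (nat_lit 558) (nat_lit 4525) (.p (nat_lit 397) (.a (.d (nat_lit 398) (nat_lit 366) (nat_lit 6509) (nat_lit 430) (nat_lit 6541)) (.d (nat_lit 396) (nat_lit 364) (nat_lit 7532) (nat_lit 428) (nat_lit 7564)))))))))))))))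
noncomputable def s21491 : Cert := .r (nat_lit 104425978507927990935764880496167851228419291851218747089751132426348127902209202827813861258600027862342707550508400851517522723744194219021919578055413114324536330934146251113663970672640) (.f (nat_lit 625) (nat_lit 657) (nat_lit 4624) (.f (nat_lit 527) (nat_lit 495) (nat_lit 7663) (.p (nat_lit 622) (.a (.d (nat_lit 593) (nat_lit 594) (nat_lit 2638) (nat_lit 621) (nat_lit 2637)) (.a (.f (nat_lit 621) (nat_lit 593) (nat_lit 2637) (.d (nat_lit 653) (nat_lit 652) (nat_lit 1644) (nat_lit 654) (nat_lit 1645))) (.a (.f (nat_lit 593) (nat_lit 594) (nat_lit 2638) (.f (nat_lit 558) (nat_lit 557) (nat_lit 557) (.d (nat_lit 654) (nat_lit 590) (nat_lit 6670) (nat_lit 653) (nat_lit 1645)))) (.p (nat_lit 621) (.a (.d (nat_lit 653) (nat_lit 652) (nat_lit 1644) (nat_lit 654) (nat_lit 1645)) (.d (nat_lit 589) (nat_lit 588) (nat_lit 3660) (nat_lit 590) (nat_lit 3661))))))))))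
noncomputable def s21517 : Cert := .r (nat_lit 104425978507927990935764880496167851228419291851218747089751132426348127902209202827813861258600027862342707550508400851517522723744194219021919578055413114324536330934146251113663970672640) (.f (nat_lit 625) (nat_lit 657) (nat_lit 4624) (.p (nat_lit 622) (.a (.f (nat_lit 621) (nat_lit 593) (nat_lit 2637) (.d (nat_lit 653) (nat_lit 652) (nat_lit 1644) (nat_lit 654) (nat_lit 1645))) (.a (.p (nat_lit 626) (.a (.p (nat_lit 627) (.a (.d (nat_lit 659) (nat_lit 658) (nat_lit 623) (nat_lit 660) (nat_lit 624)) (.a (.f (nat_lit 628) (nat_lit 593) (nat_lit 3664) (.d (nat_lit 660) (nat_lit 659) (nat_lit 624) (nat_lit 661) (nat_lit 625))) (.f (nat_lit 596) (nat_lit 595) (nat_lit 2640) (.d (nat_lit 628) (nat_lit 593) (nat_lit 3664) (nat_lit 597) (nat_lit 2641)))))) (.a (.d (nat_lit 594) (nat_lit 593) (nat_lit 2638) (nat_lit 595) (nat_lit 2639)) (.a (.f (nat_lit 593) (nat_lit 594)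 (nat_lit 2638) (.f (nat_lit 627) (nat_lit 628) (nat_lit 3664) (.d (nat_lit 659) (nat_lit 658) (nat_lit 623) (nat_lit 660) (nat_lit 624)))) (.f (nat_lit 659) (nat_lit 658) (nat_lit 623) (.f (nat_lit 595) (nat_lit 594) (nat_lit 2639) (.d (nat_lit 627) (nat_lit 596) (nat_lit 2640) (nat_lit 660) (nat_lit 624)))))))) (.p (nat_lit 621) (.a (.d (nat_lit 653) (nat_lit 652) (nat_lit 1644) (nat_lit 654) (nat_lit 1645)) (.d (nat_lit 589) (nat_lit 588) (nat_lit 3660) (nat_lit 590) (nat_lit 3661))))))))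
noncomputable def s21772 : Cert := .r (nat_lit 34808659505344171181324231018480013180169280065382263351285115039928269838644922664627914108983417885720888595681074407350169437588726515132849596820833112270981196409749474757484847562752) (.p (nat_lit 492) (.a (.d (nat_lit 460) (nat_lit 428) (nat_lit 7596) (nat_lit 589) (nat_lit 7628)) (.a (.p (nat_lit 429) (.a (.d (nat_lit 556) (nat_lit 524) (nat_lit 5548) (nat_lit 588) (nat_lit 5580)) (.d (nat_lit 428) (nat_lit 396) (nat_lit 7564) (nat_lit 460) (nat_lit 7596)))) (.a (.p (nat_lit 429) (.a (.d (nat_lit 556) (nat_lit 524) (nat_lit 5548) (nat_lit 588) (nat_lit 5580)) (.a (.f (nat_lit 396) (nat_lit 428) (nat_lit 7564) (.d (nat_lit 397) (nat_lit 364) (nat_lit 7532) (nat_lit 524) (nat_lit 5516))) (.p (nat_lit 397) (.a (.d (nat_lit 398) (nat_lit 366) (nat_lit 6509) (nat_lit 430) (nat_lit 6541)) (.d (nat_lit 396) (nat_lit 364) (nat_lit 7532) (nat_lit 428) (nat_lit 7564)))))))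 (.p (nat_lit 524) (.a (.d (nat_lit 589) (nat_lit 460) (nat_lit 7628) (nat_lit 621) (nat_lit 7660)) (.d (nat_lit 556) (nat_lit 429) (nat_lit 5548) (nat_lit 588) (nat_lit 5580))))))))
noncomputable def s21883 : Cert := .r (nat_lit 34808659505344171181324231018480013180143706701252120480096207383774424159634011615497777635288829162357811582684975090341918934204542231817661143472012782639223154063353229667714107179008) (.f (nat_lit 556) (nat_lit 558) (nat_lit 2572) (.p (nat_lit 493) (.a (.f (nat_lit 588) (nat_lit 461) (nat_lit 5580) (.d (nat_lit 620) (nat_lit 589) (nat_lit 5612) (nat_lit 652) (nat_lit 6668))) (.a (.p (nat_lit 589) (.a (.p (nat_lit 621) (.a (.d (nat_lit 620) (nat_lit 588) (nat_lit 5612) (nat_lit 652) (nat_lit 5644)) (.a (.f (nat_lit 622) (nat_lit 654) (nat_lit 5646) (.d (nat_lit 624) (nat_lit 588) (nat_lit 3660) (nat_lit 656) (nat_lit 4623))) (.p (nat_lit 653) (.a (.d (nat_lit 654) (nat_lit 622) (nat_lit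 4621) (nat_lit 686) (nat_lit 4653)) (.d (nat_lit 652) (nat_lit 620) (nat_lit 5644) (nat_lit 684) (nat_lit 5676))))))) (.f (nat_lit 494) (nat_lit 462) (nat_lit 6605) (.d (nat_lit 492) (nat_lit 460) (nat_lit 7628) (nat_lit 495) (nat_lit 492))))) (.a (.f (nat_lit 461) (nat_lit 588) (nat_lit 5580) (.f (nat_lit 428) (nat_lit 460) (nat_lit 7596) (.f (nat_lit 429) (nat_lit 396) (nat_lit 7564) (.d (nat_lit 430) (nat_lit 398) (nat_lit 6541) (nat_lit 462) (nat_lit 6573))))) (.p (nat_lit 494) (.a (.f (nat_lit 492) (nat_lit 495) (nat_lit 492) (.f (nat_lit 460) (nat_lit 589) (nat_lit 7628) (.d (nat_lit 428) (nat_lit 396) (nat_lit 4492) (nat_lit 461) (nat_lit 7596)))) (.a (.d (nat_lit 495) (nat_lit 462) (nat_lit 7630) (nat_lit 492) (nat_lit 492)) (.a (.d (nat_lit 462) (nat_lit 495) (nat_lit 7630) (nat_lit 589) (nat_lit 6605)) (.f (nat_lit 462) (nat_lit 589) (nat_lit 6605) (.d (nat_lit 430) (nat_lit 398) (nat_lit 5517) (nat_lit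 461) (nat_lit 6573))))))))))))
noncomputable def s21890 : Cert := .r (nat_lit 34808659505344171180852485715267483748551422623188876455946289939746058141284692941416763199642841864912683245203806790148652114446060010222926126664678231752157508480922958209600091848704) (.p (nat_lit 525) (.a (.d (nat_lit 526) (nat_lit 494) (nat_lit 7662) (nat_lit 524) (nat_lit 524)) (.a (.f (nat_lit 524) (nat_lit 526) (nat_lit 524) (.f (nat_lit 557) (nat_lit 558) (nat_lit 3596) (.p (nat_lit 621) (.a (.f (nat_lit 589) (nat_lit 492) (nat_lit 7660) (.f (nat_lit 653) (nat_lit 556) (nat_lit 7692) (.d (nat_lit 652) (nat_lit 620) (nat_lit 5644) (nat_lit 684) (nat_lit 5676)))) (.a (.f (nat_lit 589) (nat_lit 492) (nat_lit 7660) (.f (nat_lit 622) (nat_lit 654) (nat_lit 5646) (.d (nat_lit 624) (nat_lit 588) (nat_lit 3660) (nat_lit 656) (nat_lit 4623)))) (.a (.p (nat_lit 589) (.a (.f (nat_lit 653) (nat_lit 556) (nat_lit 7692) (.d (nat_lit 652)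 (nat_lit 620) (nat_lit 5644) (nat_lit 684) (nat_lit 5676))) (.f (nat_lit 622) (nat_lit 654) (nat_lit 5646) (.d (nat_lit 624) (nat_lit 588) (nat_lit 3660) (nat_lit 656) (nat_lit 4623))))) (.f (nat_lit 622) (nat_lit 654) (nat_lit 5646) (.p (nat_lit 652) (.a (.d (nat_lit 624) (nat_lit 653) (nat_lit 1644) (nat_lit 656) (nat_lit 4623)) (.f (nat_lit 620) (nat_lit 651) (nat_lit 1643) (.d (nat_lit 588) (nat_lit 556) (nat_lit 6668) (nat_lit 587) (nat_lit 3659)))))))))))) (.a (.p (nat_lit 557) (.a (.d (nat_lit 558) (nat_lit 524) (nat_lit 3596) (nat_lit 556) (nat_lit 2572)) (.a (.p (nat_lit 495) (.a (.f (nat_lit 462) (nat_lit 494) (nat_lit 7630) (.d (nat_lit 463) (nat_lit 430) (nat_lit 7598) (nat_lit 431) (nat_lit 4527))) (.a (.f (nat_lit 463) (nat_lit 431) (nat_lit 4527) (.p (nat_lit 589) (.a (.d (nat_lit 558) (nat_lit 524) (nat_lit 3596) (nat_lit 588) (nat_lit 1580)) (.a (.p (nat_lit 621) (.a (.f (nat_lit 492) (nat_lit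 524) (nat_lit 7660) (.d (nat_lit 493) (nat_lit 460) (nat_lit 7628) (nat_lit 494) (nat_lit 492))) (.f (nat_lit 622) (nat_lit 654) (nat_lit 5646) (.d (nat_lit 624) (nat_lit 588) (nat_lit 3660) (nat_lit 656) (nat_lit 4623))))) (.a (.p (nat_lit 492) (.a (.d (nat_lit 493) (nat_lit 460) (nat_lit 7628) (nat_lit 494) (nat_lit 492)) (.d (nat_lit 524) (nat_lit 558) (nat_lit 3596) (nat_lit 621) (nat_lit 7660)))) (.p (nat_lit 493) (.a (.d (nat_lit 588) (nat_lit 558) (nat_lit 1580) (nat_lit 620) (nat_lit 5612)) (.d (nat_lit 492) (nat_lit 460) (nat_lit 7628) (nat_lit 494) (nat_lit 492))))))))) (.a (.f (nat_lit 462) (nat_lit 494) (nat_lit 7630) (.p (nat_lit 589) (.a (.d (nat_lit 558) (nat_lit 524) (nat_lit 3596) (nat_lit 588) (nat_lit 1580)) (.a (.p (nat_lit 621) (.a (.p (nat_lit 493) (.a (.d (nat_lit 620) (nat_lit 588) (nat_lit 5612) (nat_lit 652) (nat_lit 5644)) (.d (nat_lit 430) (nat_lit 461) (nat_lit 6573) (nat_lit 463) (nat_lit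 7598)))) (.a (.f (nat_lit 622) (nat_lit 654) (nat_lit 5646) (.d (nat_lit 624) (nat_lit 588) (nat_lit 3660) (nat_lit 656) (nat_lit 4623))) (.p (nat_lit 493) (.a (.d (nat_lit 430) (nat_lit 461) (nat_lit 6573) (nat_lit 463) (nat_lit 7598)) (.d (nat_lit 492) (nat_lit 460) (nat_lit 7628) (nat_lit 524) (nat_lit 7660))))))) (.a (.p (nat_lit 621) (.a (.d (nat_lit 524) (nat_lit 492) (nat_lit 7660) (nat_lit 558) (nat_lit 3596)) (.a (.p (nat_lit 493) (.a (.d (nat_lit 430) (nat_lit 461) (nat_lit 6573) (nat_lit 463) (nat_lit 7598)) (.d (nat_lit 492) (nat_lit 460) (nat_lit 7628) (nat_lit 524) (nat_lit 7660)))) (.p (nat_lit 653) (.a (.d (nat_lit 654) (nat_lit 622) (nat_lit 4621) (nat_lit 686) (nat_lit 4653)) (.d (nat_lit 652) (nat_lit 620) (nat_lit 5644) (nat_lit 684) (nat_lit 5676))))))) (.p (nat_lit 493) (.a (.d (nat_lit 588) (nat_lit 558) (nat_lit 1580) (nat_lit 620) (nat_lit 5612)) (.d (nat_lit 430) (nat_lit 461) (nat_lit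 6573) (nat_lit 463) (nat_lit 7598))))))))) (.a (.f (nat_lit 463) (nat_lit 431) (nat_lit 4527) (.p (nat_lit 589) (.a (.d (nat_lit 558) (nat_lit 524) (nat_lit 3596) (nat_lit 588) (nat_lit 1580)) (.a (.p (nat_lit 621) (.a (.f (nat_lit 620) (nat_lit 652) (nat_lit 5644) (.f (nat_lit 493) (nat_lit 588) (nat_lit 5612) (.d (nat_lit 492) (nat_lit 460) (nat_lit 7628) (nat_lit 524) (nat_lit 7660)))) (.a (.f (nat_lit 622) (nat_lit 654) (nat_lit 5646) (.d (nat_lit 624) (nat_lit 588) (nat_lit 3660) (nat_lit 656) (nat_lit 4623))) (.p (nat_lit 653) (.a (.d (nat_lit 654) (nat_lit 622) (nat_lit 4621) (nat_lit 686) (nat_lit 4653)) (.d (nat_lit 652) (nat_lit 620) (nat_lit 5644) (nat_lit 684) (nat_lit 5676))))))) (.a (.p (nat_lit 621) (.a (.d (nat_lit 524) (nat_lit 492) (nat_lit 7660) (nat_lit 558) (nat_lit 3596)) (.p (nat_lit 653) (.a (.d (nat_lit 654) (nat_lit 622) (nat_lit 4621) (nat_lit 686) (nat_lit 4653)) (.d (nat_lit 652) (nat_lit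 620) (nat_lit 5644) (nat_lit 684) (nat_lit 5676)))))) (.f (nat_lit 588) (nat_lit 558) (nat_lit 1580) (.f (nat_lit 620) (nat_lit 493) (nat_lit 5612) (.d (nat_lit 652) (nat_lit 621) (nat_lit 5644) (nat_lit 684) (nat_lit 6700))))))))) (.f (nat_lit 494) (nat_lit 462) (nat_lit 7630) (.p (nat_lit 589) (.a (.d (nat_lit 558) (nat_lit 524) (nat_lit 3596) (nat_lit 588) (nat_lit 1580)) (.a (.p (nat_lit 621) (.a (.d (nat_lit 492) (nat_lit 493) (nat_lit 492) (nat_lit 524) (nat_lit 7660)) (.f (nat_lit 622) (nat_lit 654) (nat_lit 5646) (.d (nat_lit 624) (nat_lit 588) (nat_lit 3660) (nat_lit 656) (nat_lit 4623))))) (.a (.f (nat_lit 492) (nat_lit 493) (nat_lit 492) (.d (nat_lit 524) (nat_lit 558) (nat_lit 3596) (nat_lit 621) (nat_lit 7660))) (.f (nat_lit 493) (nat_lit 492) (nat_lit 492) (.d (nat_lit 588) (nat_lit 558) (nat_lit 1580) (nat_lit 620) (nat_lit 5612))))))))))))) (.a (.p (nat_lit 493) (.a (.p (nat_lit 461) (.a s21772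 (.a (.f (nat_lit 462) (nat_lit 430) (nat_lit 6573) (.d (nat_lit 494) (nat_lit 495) (nat_lit 7630) (nat_lit 589) (nat_lit 6605))) (.a (.f (nat_lit 462) (nat_lit 430) (nat_lit 6573) (.p (nat_lit 463) (.a (.d (nat_lit 495) (nat_lit 431) (nat_lit 4527) (nat_lit 494) (nat_lit 7630)) (.f (nat_lit 428) (nat_lit 460) (nat_lit 7596) (.d (nat_lit 429) (nat_lit 396) (nat_lit 7564) (nat_lit 464) (nat_lit 3500)))))) (.p (nat_lit 492) (.a (.d (nat_lit 460) (nat_lit 428) (nat_lit 7596) (nat_lit 589) (nat_lit 7628)) (.a (.p (nat_lit 429) (.a (.d (nat_lit 556) (nat_lit 524) (nat_lit 5548) (nat_lit 588) (nat_lit 5580)) (.d (nat_lit 428) (nat_lit 396) (nat_lit 7564) (nat_lit 460) (nat_lit 7596)))) (.f (nat_lit 494) (nat_lit 495) (nat_lit 492) (.f (nat_lit 462) (nat_lit 589) (nat_lit 6605) (.d (nat_lit 463) (nat_lit 464) (nat_lit 1484) (nat_lit 491) (nat_lit 2507))))))))))) (.a (.p (nat_lit 461) (.a s21772 (.a (.p (nat_lit 589) (.a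 (.d (nat_lit 460) (nat_lit 428) (nat_lit 7596) (nat_lit 492) (nat_lit 7628)) (.p (nat_lit 621) (.a (.d (nat_lit 620) (nat_lit 588) (nat_lit 5612) (nat_lit 652) (nat_lit 5644)) (.a (.f (nat_lit 622) (nat_lit 654) (nat_lit 5646) (.d (nat_lit 624) (nat_lit 588) (nat_lit 3660) (nat_lit 656) (nat_lit 4623))) (.p (nat_lit 653) (.a (.d (nat_lit 654) (nat_lit 622) (nat_lit 4621) (nat_lit 686) (nat_lit 4653)) (.d (nat_lit 652) (nat_lit 620) (nat_lit 5644) (nat_lit 684) (nat_lit 5676))))))))) (.a (.p (nat_lit 429) (.a (.d (nat_lit 556) (nat_lit 524) (nat_lit 5548) (nat_lit 588) (nat_lit 5580)) (.d (nat_lit 428) (nat_lit 396) (nat_lit 7564) (nat_lit 460) (nat_lit 7596)))) (.a (.f (nat_lit 556) (nat_lit 588) (nat_lit 5580) (.f (nat_lit 429) (nat_lit 524) (nat_lit 5548) (.p (nat_lit 397) (.a (.d (nat_lit 398) (nat_lit 366) (nat_lit 6509) (nat_lit 430) (nat_lit 6541)) (.d (nat_lit 396) (nat_lit 364) (nat_lit 7532) (nat_lit 428)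 (nat_lit 7564)))))) (.a (.f (nat_lit 588) (nat_lit 556) (nat_lit 5580) (.f (nat_lit 589) (nat_lit 620) (nat_lit 5612) (.p (nat_lit 621) (.a (.d (nat_lit 492) (nat_lit 460) (nat_lit 7628) (nat_lit 524) (nat_lit 7660)) (.d (nat_lit 622) (nat_lit 624) (nat_lit 3660) (nat_lit 654) (nat_lit 5646)))))) (.f (nat_lit 428) (nat_lit 460) (nat_lit 7596) (.f (nat_lit 429) (nat_lit 396) (nat_lit 7564) (.p (nat_lit 397) (.a (.d (nat_lit 524) (nat_lit 492) (nat_lit 5516) (nat_lit 556) (nat_lit 5548)) (.d (nat_lit 398) (nat_lit 366) (nat_lit 6509) (nat_lit 430) (nat_lit 6541)))))))))))) (.a (.p (nat_lit 494) (.a (.f (nat_lit 492) (nat_lit 495) (nat_lit 492) (.f (nat_lit 460) (nat_lit 589) (nat_lit 7628) (.d (nat_lit 428) (nat_lit 396) (nat_lit 4492) (nat_lit 524) (nat_lit 4524)))) (.a (.d (nat_lit 462) (nat_lit 495) (nat_lit 7630) (nat_lit 589) (nat_lit 6605)) (.a (.d (nat_lit 495) (nat_lit 462) (nat_lit 7630) (nat_lit 492) (nat_lit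 492)) (.f (nat_lit 589) (nat_lit 462) (nat_lit 6605) (.f (nat_lit 492) (nat_lit 460) (nat_lit 7628) (.f (nat_lit 621) (nat_lit 524) (nat_lit 7660) (.d (nat_lit 620) (nat_lit 588) (nat_lit 5612) (nat_lit 652) (nat_lit 5644))))))))) (.a (.p (nat_lit 461) (.a (.p (nat_lit 429) (.a (.d (nat_lit 556) (nat_lit 524) (nat_lit 5548) (nat_lit 588) (nat_lit 5580)) (.d (nat_lit 428) (nat_lit 396) (nat_lit 7564) (nat_lit 460) (nat_lit 7596)))) (.f (nat_lit 462) (nat_lit 430) (nat_lit 6573) (.d (nat_lit 494) (nat_lit 495) (nat_lit 7630) (nat_lit 589) (nat_lit 6605))))) (.a (.p (nat_lit 461) (.a (.p (nat_lit 429) (.a (.d (nat_lit 556) (nat_lit 524) (nat_lit 5548) (nat_lit 588) (nat_lit 5580)) (.d (nat_lit 428) (nat_lit 396) (nat_lit 7564) (nat_lit 460) (nat_lit 7596)))) (.a (.f (nat_lit 462) (nat_lit 430) (nat_lit 6573) (.p (nat_lit 463) (.a (.d (nat_lit 495) (nat_lit 431) (nat_lit 4527) (nat_lit 494) (nat_lit 7630)) (.f (nat_lit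 428) (nat_lit 460) (nat_lit 7596) (.d (nat_lit 429) (nat_lit 396) (nat_lit 7564) (nat_lit 464) (nat_lit 3500)))))) (.a (.f (nat_lit 462) (nat_lit 430) (nat_lit 6573) (.p (nat_lit 463) (.a (.d (nat_lit 495) (nat_lit 431) (nat_lit 4527) (nat_lit 494) (nat_lit 7630)) (.f (nat_lit 460) (nat_lit 428) (nat_lit 7596) (.d (nat_lit 492) (nat_lit 464) (nat_lit 1484) (nat_lit 491) (nat_lit 1483)))))) (.a (.f (nat_lit 462) (nat_lit 430) (nat_lit 6573) (.p (nat_lit 463) (.a (.d (nat_lit 495) (nat_lit 431) (nat_lit 4527) (nat_lit 494) (nat_lit 7630)) (.p (nat_lit 429) (.a (.d (nat_lit 556) (nat_lit 524) (nat_lit 5548) (nat_lit 588) (nat_lit 5580)) (.d (nat_lit 428) (nat_lit 396) (nat_lit 7564) (nat_lit 464) (nat_lit 3500))))))) (.f (nat_lit 462) (nat_lit 430) (nat_lit 6573) (.p (nat_lit 463) (.a (.d (nat_lit 495) (nat_lit 431) (nat_lit 4527) (nat_lit 494) (nat_lit 7630)) (.a (.f (nat_lit 464) (nat_lit 492) (nat_lit 1484) (.d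 (nat_lit 495) (nat_lit 432) (nat_lit 6575) (nat_lit 494) (nat_lit 7630))) (.a (.p (nat_lit 432) (.a (.d (nat_lit 495) (nat_lit 431) (nat_lit 4527) (nat_lit 464) (nat_lit 6575)) (.a (.d (nat_lit 464) (nat_lit 492) (nat_lit 1484) (nat_lit 495) (nat_lit 6575)) (.a (.d (nat_lit 431) (nat_lit 460) (nat_lit 2476) (nat_lit 495) (nat_lit 4527)) (.d (nat_lit 464) (nat_lit 433) (nat_lit 2477) (nat_lit 492) (nat_lit 1484)))))) (.f (nat_lit 492) (nat_lit 464) (nat_lit 1484) (.d (nat_lit 491) (nat_lit 490) (nat_lit 2506) (nat_lit 494) (nat_lit 2507))))))))))))) (.a (.p (nat_lit 462) (.a (.d (nat_lit 494) (nat_lit 495) (nat_lit 7630) (nat_lit 589) (nat_lit 6605)) (.a (.p (nat_lit 588) (.a (.d (nat_lit 461) (nat_lit 430) (nat_lit 6573) (nat_lit 556) (nat_lit 5580)) (.f (nat_lit 589) (nat_lit 620) (nat_lit 5612) (.f (nat_lit 622) (nat_lit 654) (nat_lit 5646) (.d (nat_lit 624) (nat_lit 621) (nat_lit 3660) (nat_lit 656) (nat_lit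 4623)))))) (.f (nat_lit 430) (nat_lit 461) (nat_lit 6573) (.d (nat_lit 495) (nat_lit 463) (nat_lit 7598) (nat_lit 494) (nat_lit 7630)))))) (.p (nat_lit 494) (.a (.f (nat_lit 492) (nat_lit 495) (nat_lit 492) (.f (nat_lit 460) (nat_lit 589) (nat_lit 7628) (.d (nat_lit 428) (nat_lit 396) (nat_lit 4492) (nat_lit 524) (nat_lit 4524)))) (.a (.d (nat_lit 462) (nat_lit 495) (nat_lit 7630) (nat_lit 589) (nat_lit 6605)) (.a (.d (nat_lit 495) (nat_lit 462) (nat_lit 7630) (nat_lit 492) (nat_lit 492)) (.f (nat_lit 462) (nat_lit 589) (nat_lit 6605) (.d (nat_lit 430) (nat_lit 398) (nat_lit 5517) (nat_lit 461) (nat_lit 6573)))))))))))))) s21883)))) (.p (nat_lit 557) (.a (.d (nat_lit 556) (nat_lit 526) (nat_lit 1548) (nat_lit 558) (nat_lit 2572)) (.a (.f (nat_lit 494) (nat_lit 526) (nat_lit 7662) (.f (nat_lit 462) (nat_lit 495) (nat_lit 7630) (.f (nat_lit 493) (nat_lit 589) (nat_lit 6605) (.d (nat_lit 430) (nat_lit 398) (nat_lit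 5517) (nat_lit 461) (nat_lit 6573))))) s21883)))))))
noncomputable def s21906 : Cert := .r (nat_lit 34808659505344171180852485715267483748551422623188876455946289939746058141284692941416763199642841864912683245203806790148652114446060010222926126664678231752157508480922958209600091848704) (.f (nat_lit 624) (nat_lit 656) (nat_lit 4623) (.f (nat_lit 622) (nat_lit 654) (nat_lit 5646) (.f (nat_lit 526) (nat_lit 494) (nat_lit 7662) (.f (nat_lit 525) (nat_lit 524) (nat_lit 524) (.p (nat_lit 621) (.a (.d (nat_lit 592) (nat_lit 593) (nat_lit 2637) (nat_lit 620) (nat_lit 2636)) (.a (.p (nat_lit 620) (.a (.d (nat_lit 652) (nat_lit 651) (nat_lit 1643) (nat_lit 653) (nat_lit 1644)) (.d (nat_lit 588) (nat_lit 587) (nat_lit 3659) (nat_lit 589) (nat_lit 3660)))) (.p (nat_lit 625) (.a (.d (nat_lit 657) (nat_lit 592) (nat_lit 4624) (nat_lit 658) (nat_lit 622)) (.a (.d (nat_lit 592) (nat_lit 593) (nat_lit 2637) (nat_lit 657) (nat_lit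 4624)) (.a (.f (nat_lit 594) (nat_lit 593) (nat_lit 2638) (.f (nat_lit 626) (nat_lit 595) (nat_lit 2639) (.d (nat_lit 658) (nat_lit 657) (nat_lit 622) (nat_lit 659) (nat_lit 623)))) (.d (nat_lit 593) (nat_lit 592) (nat_lit 2637) (nat_lit 594) (nat_lit 2638)))))))))))))
noncomputable def s22577 : Cert := .r (nat_lit 149502054158244092924433911189739505228060785896923359527442672069744321587466079925854867719571207959692858922905416732844555488595202941729201552356906756711610948325506270735197707316484672323584) (.f (nat_lit 594) (nat_lit 593) (nat_lit 558) (.p (nat_lit 624) (.a (.p (nat_lit 656) (.a (.d (nat_lit 592) (nat_lit 623) (nat_lit 5647) (nat_lit 687) (nat_lit 5679)) (.a (.f (nat_lit 562) (nat_lit 595) (nat_lit 559) (.p (nat_lit 658) (.a (.p (nat_lit 626) (.a (.d (nat_lit 657) (nat_lit 627) (nat_lit 2671) (nat_lit 689) (nat_lit 5681)) (.d (nat_lit 531) (nat_lit 530) (nat_lit 2575) (nat_lit 563) (nat_lit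 6674)))) (.a (.p (nat_lit 657) (.a (.d (nat_lit 626) (nat_lit 627) (nat_lit 2671) (nat_lit 689) (nat_lit 5681)) (.a (.f (nat_lit 626) (nat_lit 689) (nat_lit 5681) (.d (nat_lit 691) (nat_lit 659) (nat_lit 4658) (nat_lit 690) (nat_lit 655))) (.a (.p (nat_lit 654) (.a (.d (nat_lit 690) (nat_lit 689) (nat_lit 654) (nat_lit 691) (nat_lit 655)) (.d (nat_lit 686) (nat_lit 685) (nat_lit 1677) (nat_lit 687) (nat_lit 1678)))) (.f (nat_lit 626) (nat_lit 627) (nat_lit 2671) (.d (nat_lit 691) (nat_lit 659) (nat_lit 4658) (nat_lit 690) (nat_lit 655))))))) (.a (.p (nat_lit 626) (.a (.d (nat_lit 531) (nat_lit 530) (nat_lit 2575) (nat_lit 563) (nat_lit 6674)) (.f (nat_lit 657) (nat_lit 689) (nat_lit 5681) (.d (nat_lit 691) (nat_lit 659) (nat_lit 4658) (nat_lit 690) (nat_lit 655))))) (.a (.p (nat_lit 657) (.a (.p (nat_lit 654) (.a (.d (nat_lit 690) (nat_lit 689) (nat_lit 654) (nat_lit 691) (nat_lit 655)) (.d (nat_lit 686) (nat_lit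 685) (nat_lit 1677) (nat_lit 687) (nat_lit 1678)))) (.a (.f (nat_lit 659) (nat_lit 623) (nat_lit 3695) (.d (nat_lit 691) (nat_lit 690) (nat_lit 655) (nat_lit 692) (nat_lit 656))) (.f (nat_lit 659) (nat_lit 623) (nat_lit 3695) (.d (nat_lit 687) (nat_lit 686) (nat_lit 1678) (nat_lit 688) (nat_lit 1679)))))) (.f (nat_lit 531) (nat_lit 530) (nat_lit 2575) (.d (nat_lit 563) (nat_lit 532) (nat_lit 2576) (nat_lit 626) (nat_lit 6674))))))))) (.a (.f (nat_lit 562) (nat_lit 595) (nat_lit 559) (.p (nat_lit 657) (.a (.d (nat_lit 592) (nat_lit 623) (nat_lit 5647) (nat_lit 689) (nat_lit 4656)) (.a (.p (nat_lit 658) (.a (.d (nat_lit 626) (nat_lit 627) (nat_lit 2671) (nat_lit 689) (nat_lit 5681)) (.a (.f (nat_lit 531) (nat_lit 530) (nat_lit 2575) (.d (nat_lit 563) (nat_lit 532) (nat_lit 2576) (nat_lit 626) (nat_lit 6674))) (.f (nat_lit 659) (nat_lit 623) (nat_lit 3695) (.d (nat_lit 691) (nat_lit 690) (nat_lit 655) (nat_lit 692)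 (nat_lit 656)))))) (.a (.f (nat_lit 689) (nat_lit 592) (nat_lit 4656) (.f (nat_lit 658) (nat_lit 626) (nat_lit 5681) (.d (nat_lit 690) (nat_lit 654) (nat_lit 654) (nat_lit 691) (nat_lit 655)))) (.p (nat_lit 658) (.a (.d (nat_lit 623) (nat_lit 592) (nat_lit 5647) (nat_lit 659) (nat_lit 3695)) (.f (nat_lit 531) (nat_lit 530) (nat_lit 2575) (.d (nat_lit 563) (nat_lit 532) (nat_lit 2576) (nat_lit 626) (nat_lit 6674)))))))))) (.f (nat_lit 562) (nat_lit 595) (nat_lit 559) (.p (nat_lit 657) (.a (.d (nat_lit 592) (nat_lit 687) (nat_lit 5679) (nat_lit 689) (nat_lit 4656)) (.a (.p (nat_lit 658) (.a (.d (nat_lit 626) (nat_lit 627) (nat_lit 2671) (nat_lit 689) (nat_lit 5681)) (.a (.f (nat_lit 531) (nat_lit 530) (nat_lit 2575) (.d (nat_lit 563) (nat_lit 532) (nat_lit 2576) (nat_lit 626) (nat_lit 6674))) (.p (nat_lit 654) (.a (.d (nat_lit 690) (nat_lit 689) (nat_lit 654) (nat_lit 691) (nat_lit 655)) (.d (nat_lit 686) (nat_lit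 685) (nat_lit 1677) (nat_lit 687) (nat_lit 1678))))))) (.a (.f (nat_lit 689) (nat_lit 592) (nat_lit 4656) (.f (nat_lit 658) (nat_lit 626) (nat_lit 5681) (.d (nat_lit 690) (nat_lit 654) (nat_lit 654) (nat_lit 691) (nat_lit 655)))) (.p (nat_lit 658) (.a (.d (nat_lit 687) (nat_lit 592) (nat_lit 5679) (nat_lit 686) (nat_lit 1678)) (.f (nat_lit 531) (nat_lit 530) (nat_lit 2575) (.d (nat_lit 563) (nat_lit 532) (nat_lit 2576) (nat_lit 626) (nat_lit 6674)))))))))))))) (.a (.f (nat_lit 592) (nat_lit 623) (nat_lit 5647) (.f (nat_lit 656) (nat_lit 687) (nat_lit 5679) (.d (nat_lit 657) (nat_lit 625) (nat_lit 4624) (nat_lit 689) (nat_lit 4656)))) (.a (.p (nat_lit 626) (.a (.f (nat_lit 562) (nat_lit 595) (nat_lit 559) (.f (nat_lit 531) (nat_lit 530) (nat_lit 2575) (.d (nat_lit 563) (nat_lit 532) (nat_lit 2576) (nat_lit 658) (nat_lit 6674)))) (.a (.f (nat_lit 595) (nat_lit 562) (nat_lit 559) (.f (nat_lit 625) (nat_lit 623) (nat_lit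 2639) (.d (nat_lit 596) (nat_lit 597) (nat_lit 1617) (nat_lit 627) (nat_lit 2640)))) (.a (.p (nat_lit 656) (.a (.p (nat_lit 658) (.a (.f (nat_lit 657) (nat_lit 627) (nat_lit 2671) (.f (nat_lit 562) (nat_lit 689) (nat_lit 5681) (.d (nat_lit 691) (nat_lit 659) (nat_lit 4658) (nat_lit 690) (nat_lit 655)))) (.a (.p (nat_lit 657) (.a (.f (nat_lit 562) (nat_lit 689) (nat_lit 5681) (.d (nat_lit 691) (nat_lit 659) (nat_lit 4658) (nat_lit 690) (nat_lit 655))) (.a (.f (nat_lit 562) (nat_lit 689) (nat_lit 5681) (.d (nat_lit 531) (nat_lit 530) (nat_lit 2575) (nat_lit 563) (nat_lit 6674))) (.a (.p (nat_lit 654) (.a (.d (nat_lit 690) (nat_lit 689) (nat_lit 654) (nat_lit 691) (nat_lit 655)) (.d (nat_lit 686) (nat_lit 685) (nat_lit 1677) (nat_lit 687) (nat_lit 1678)))) (.p (nat_lit 562) (.a (.d (nat_lit 691) (nat_lit 659) (nat_lit 4658) (nat_lit 690) (nat_lit 655)) (.d (nat_lit 531) (nat_lit 530) (nat_lit 2575) (nat_lit 563) (nat_lit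 6674)))))))) (.a (.f (nat_lit 657) (nat_lit 627) (nat_lit 2671) (.f (nat_lit 562) (nat_lit 689) (nat_lit 5681) (.d (nat_lit 531) (nat_lit 530) (nat_lit 2575) (nat_lit 563) (nat_lit 6674)))) (.a (.p (nat_lit 691) (.a (.f (nat_lit 562) (nat_lit 659) (nat_lit 4658) (.d (nat_lit 531) (nat_lit 530) (nat_lit 2575) (nat_lit 563) (nat_lit 6674))) (.a (.f (nat_lit 659) (nat_lit 562) (nat_lit 4658) (.d (nat_lit 723) (nat_lit 627) (nat_lit 7762) (nat_lit 690) (nat_lit 4690))) (.f (nat_lit 690) (nat_lit 723) (nat_lit 4690) (.d (nat_lit 689) (nat_lit 688) (nat_lit 3727) (nat_lit 721) (nat_lit 5713)))))) (.a (.f (nat_lit 657) (nat_lit 627) (nat_lit 2671) (.p (nat_lit 654) (.a (.d (nat_lit 690) (nat_lit 689) (nat_lit 654) (nat_lit 691) (nat_lit 655)) (.d (nat_lit 686) (nat_lit 685) (nat_lit 1677) (nat_lit 687) (nat_lit 1678))))) (.f (nat_lit 657) (nat_lit 627) (nat_lit 2671) (.p (nat_lit 562) (.a (.d (nat_lit 691) (nat_lit 659)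 (nat_lit 4658) (nat_lit 690) (nat_lit 655)) (.d (nat_lit 531) (nat_lit 530) (nat_lit 2575) (nat_lit 563) (nat_lit 6674))))))))))) (.a (.f (nat_lit 625) (nat_lit 627) (nat_lit 1647) (.d (nat_lit 654) (nat_lit 623) (nat_lit 1646) (nat_lit 653) (nat_lit 2669))) (.a (.p (nat_lit 654) (.a (.p (nat_lit 653) (.a (.f (nat_lit 620) (nat_lit 621) (nat_lit 3692) (.d (nat_lit 652) (nat_lit 619) (nat_lit 3691) (nat_lit 623) (nat_lit 2668))) (.a (.f (nat_lit 652) (nat_lit 623) (nat_lit 2668) (.d (nat_lit 688) (nat_lit 687) (nat_lit 652) (nat_lit 689) (nat_lit 653))) (.p (nat_lit 657) (.a (.d (nat_lit 689) (nat_lit 688) (nat_lit 653) (nat_lit 690) (nat_lit 654)) (.d (nat_lit 685) (nat_lit 684) (nat_lit 1676) (nat_lit 686) (nat_lit 1677))))))) (.a (.d (nat_lit 625) (nat_lit 623) (nat_lit 1646) (nat_lit 653) (nat_lit 2669)) (.a (.d (nat_lit 625) (nat_lit 623) (nat_lit 1646) (nat_lit 657) (nat_lit 2670)) (.d (nat_lit 625) (nat_lit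 653) (nat_lit 2669) (nat_lit 657) (nat_lit 2670)))))) (.p (nat_lit 658) (.a (.f (nat_lit 657) (nat_lit 627) (nat_lit 2671) (.f (nat_lit 562) (nat_lit 689) (nat_lit 5681) (.d (nat_lit 691) (nat_lit 659) (nat_lit 4658) (nat_lit 690) (nat_lit 655)))) (.a (.p (nat_lit 657) (.a (.f (nat_lit 562) (nat_lit 689) (nat_lit 5681) (.d (nat_lit 691) (nat_lit 659) (nat_lit 4658) (nat_lit 690) (nat_lit 655))) (.a (.f (nat_lit 562) (nat_lit 689) (nat_lit 5681) (.d (nat_lit 530) (nat_lit 531) (nat_lit 2575) (nat_lit 625) (nat_lit 5649))) (.f (nat_lit 659) (nat_lit 623) (nat_lit 3695) (.d (nat_lit 691) (nat_lit 690) (nat_lit 655) (nat_lit 692) (nat_lit 656)))))) (.a (.d (nat_lit 627) (nat_lit 625) (nat_lit 1647) (nat_lit 657) (nat_lit 2671)) (.p (nat_lit 659) (.a (.f (nat_lit 562) (nat_lit 691) (nat_lit 4658) (.d (nat_lit 530) (nat_lit 531) (nat_lit 2575) (nat_lit 627) (nat_lit 4626))) (.a (.d (nat_lit 625) (nat_lit 623) (nat_lit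 623) (nat_lit 627) (nat_lit 1647)) (.f (nat_lit 562) (nat_lit 691) (nat_lit 4658) (.d (nat_lit 531) (nat_lit 530) (nat_lit 2575) (nat_lit 563) (nat_lit 6674)))))))))))))) (.p (nat_lit 625) (.a (.d (nat_lit 623) (nat_lit 595) (nat_lit 2639) (nat_lit 654) (nat_lit 1646)) (.a (.f (nat_lit 656) (nat_lit 627) (nat_lit 1647) (.d (nat_lit 654) (nat_lit 623) (nat_lit 1646) (nat_lit 653) (nat_lit 2669))) (.a (.f (nat_lit 627) (nat_lit 656) (nat_lit 1647) (.d (nat_lit 595) (nat_lit 596) (nat_lit 2640) (nat_lit 623) (nat_lit 2639))) (.f (nat_lit 627) (nat_lit 656) (nat_lit 1647) (.p (nat_lit 628) (.a (.d (nat_lit 660) (nat_lit 659) (nat_lit 624) (nat_lit 661) (nat_lit 625)) (.d (nat_lit 596) (nat_lit 595) (nat_lit 2640) (nat_lit 597) (nat_lit 2641))))))))))))) (.a (.f (nat_lit 562) (nat_lit 595) (nat_lit 559) (.f (nat_lit 530) (nat_lit 531) (nat_lit 2575) (.p (nat_lit 625) (.a (.d (nat_lit 592) (nat_lit 623) (nat_lit 5647)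 (nat_lit 657) (nat_lit 4624)) (.a (.f (nat_lit 626) (nat_lit 657) (nat_lit 5649) (.f (nat_lit 623) (nat_lit 654) (nat_lit 1646) (.d (nat_lit 659) (nat_lit 627) (nat_lit 4626) (nat_lit 658) (nat_lit 623)))) (.a (.f (nat_lit 623) (nat_lit 592) (nat_lit 5647) (.f (nat_lit 626) (nat_lit 654) (nat_lit 1646) (.d (nat_lit 659) (nat_lit 627) (nat_lit 4626) (nat_lit 658) (nat_lit 623)))) (.d (nat_lit 657) (nat_lit 592) (nat_lit 4624) (nat_lit 626) (nat_lit 5649)))))))) (.a (.f (nat_lit 562) (nat_lit 595) (nat_lit 559) (.f (nat_lit 623) (nat_lit 592) (nat_lit 5647) (.p (nat_lit 626) (.a (.f (nat_lit 531) (nat_lit 530) (nat_lit 2575) (.d (nat_lit 563) (nat_lit 532) (nat_lit 2576) (nat_lit 658) (nat_lit 6674))) (.a (.f (nat_lit 625) (nat_lit 654) (nat_lit 1646) (.f (nat_lit 627) (nat_lit 656) (nat_lit 1647) (.d (nat_lit 659) (nat_lit 530) (nat_lit 4626) (nat_lit 658) (nat_lit 623)))) (.a (.f (nat_lit 530) (nat_lit 531) (nat_lit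 2575) (.f (nat_lit 625) (nat_lit 654) (nat_lit 1646) (.d (nat_lit 627) (nat_lit 656) (nat_lit 1647) (nat_lit 659) (nat_lit 4626)))) (.f (nat_lit 625) (nat_lit 654) (nat_lit 1646) (.f (nat_lit 627) (nat_lit 656) (nat_lit 1647) (.d (nat_lit 659) (nat_lit 658) (nat_lit 623) (nat_lit 660) (nat_lit 624)))))))))) (.f (nat_lit 562) (nat_lit 595) (nat_lit 559) (.p (nat_lit 657) (.a (.p (nat_lit 656) (.a (.d (nat_lit 592) (nat_lit 687) (nat_lit 5679) (nat_lit 689) (nat_lit 4656)) (.a (.p (nat_lit 658) (.a (.d (nat_lit 626) (nat_lit 627) (nat_lit 2671) (nat_lit 689) (nat_lit 5681)) (.a (.f (nat_lit 531) (nat_lit 530) (nat_lit 2575) (.d (nat_lit 563) (nat_lit 532) (nat_lit 2576) (nat_lit 626) (nat_lit 6674))) (.p (nat_lit 654) (.a (.d (nat_lit 690) (nat_lit 689) (nat_lit 654) (nat_lit 691) (nat_lit 655)) (.d (nat_lit 686) (nat_lit 685) (nat_lit 1677) (nat_lit 687) (nat_lit 1678))))))) (.a (.f (nat_lit 689) (nat_lit 592) (nat_lit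 4656) (.f (nat_lit 658) (nat_lit 626) (nat_lit 5681) (.d (nat_lit 690) (nat_lit 654) (nat_lit 654) (nat_lit 691) (nat_lit 655)))) (.p (nat_lit 658) (.a (.d (nat_lit 687) (nat_lit 592) (nat_lit 5679) (nat_lit 686) (nat_lit 1678)) (.f (nat_lit 531) (nat_lit 530) (nat_lit 2575) (.d (nat_lit 563) (nat_lit 532) (nat_lit 2576) (nat_lit 626) (nat_lit 6674))))))))) (.a (.p (nat_lit 656) (.a (.d (nat_lit 592) (nat_lit 687) (nat_lit 5679) (nat_lit 689) (nat_lit 4656)) (.a (.p (nat_lit 626) (.a (.d (nat_lit 658) (nat_lit 627) (nat_lit 2671) (nat_lit 689) (nat_lit 5681)) (.d (nat_lit 625) (nat_lit 530) (nat_lit 5649) (nat_lit 654) (nat_lit 2670)))) (.d (nat_lit 592) (nat_lit 625) (nat_lit 4624) (nat_lit 687) (nat_lit 5679))))) (.a (.f (nat_lit 625) (nat_lit 592) (nat_lit 4624) (.d (nat_lit 530) (nat_lit 531) (nat_lit 2575) (nat_lit 626) (nat_lit 5649))) (.a (.p (nat_lit 626) (.a (.f (nat_lit 658) (nat_lit 689) (nat_lit 5681)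 (.d (nat_lit 531) (nat_lit 530) (nat_lit 2575) (nat_lit 563) (nat_lit 6674))) (.a (.f (nat_lit 625) (nat_lit 530) (nat_lit 5649) (.d (nat_lit 656) (nat_lit 627) (nat_lit 1647) (nat_lit 654) (nat_lit 2670))) (.f (nat_lit 658) (nat_lit 689) (nat_lit 5681) (.p (nat_lit 625) (.a (.d (nat_lit 656) (nat_lit 627) (nat_lit 1647) (nat_lit 654) (nat_lit 2670)) (.d (nat_lit 659) (nat_lit 660) (nat_lit 3696) (nat_lit 691) (nat_lit 4658)))))))) (.p (nat_lit 656) (.a (.d (nat_lit 592) (nat_lit 687) (nat_lit 5679) (nat_lit 689) (nat_lit 4656)) (.a (.p (nat_lit 654) (.a (.p (nat_lit 653) (.a (.d (nat_lit 689) (nat_lit 688) (nat_lit 653) (nat_lit 690) (nat_lit 654)) (.d (nat_lit 685) (nat_lit 684) (nat_lit 1676) (nat_lit 686) (nat_lit 1677)))) (.a (.f (nat_lit 653) (nat_lit 625) (nat_lit 2669) (.d (nat_lit 685) (nat_lit 684) (nat_lit 1676) (nat_lit 686) (nat_lit 1677))) (.a (.p (nat_lit 658) (.a (.d (nat_lit 690) (nat_lit 689)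 (nat_lit 654) (nat_lit 691) (nat_lit 655)) (.d (nat_lit 686) (nat_lit 685) (nat_lit 1677) (nat_lit 687) (nat_lit 1678)))) (.f (nat_lit 653) (nat_lit 625) (nat_lit 2669) (.d (nat_lit 689) (nat_lit 688) (nat_lit 653) (nat_lit 690) (nat_lit 654))))))) (.a (.d (nat_lit 592) (nat_lit 625) (nat_lit 4624) (nat_lit 689) (nat_lit 4656)) (.d (nat_lit 592) (nat_lit 625) (nat_lit 4624) (nat_lit 687) (nat_lit 5679)))))))))))))))))))
noncomputable def s22746 : Cert := .r (nat_lit 149502054158244092924433911189739505228060785896923359527442672069744321587466079925854867719571207959692858922905416732844555488595202941729201552356906756711610948325506270735197707316484672323584) (.p (nat_lit 562) (.a (.d (nat_lit 594) (nat_lit 593) (nat_lit 558) (nat_lit 595) (nat_lit 559)) (.a (.f (nat_lit 531) (nat_lit 530) (nat_lit 2575) (.p (nat_lit 657) (.a (.f (nat_lit 563) (nat_lit 532) (nat_lit 2576) (.p (nat_lit 656) (.a (.p (nat_lit 687)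 (.a (.f (nat_lit 686) (nat_lit 658) (nat_lit 1678) (.d (nat_lit 685) (nat_lit 654) (nat_lit 1677) (nat_lit 684) (nat_lit 2700))) (.p (nat_lit 564) (.a (.d (nat_lit 596) (nat_lit 595) (nat_lit 560) (nat_lit 597) (nat_lit 561)) (.d (nat_lit 592) (nat_lit 593) (nat_lit 1584) (nat_lit 624) (nat_lit 5679)))))) (.a (.p (nat_lit 654) (.a (.p (nat_lit 653) (.a (.d (nat_lit 689) (nat_lit 688) (nat_lit 653) (nat_lit 690) (nat_lit 654)) (.d (nat_lit 685) (nat_lit 684) (nat_lit 1676) (nat_lit 686) (nat_lit 1677)))) (.f (nat_lit 590) (nat_lit 589) (nat_lit 1581) (.d (nat_lit 622) (nat_lit 621) (nat_lit 3693) (nat_lit 687) (nat_lit 4654))))) (.a (.f (nat_lit 596) (nat_lit 595) (nat_lit 560) (.p (nat_lit 592) (.a (.d (nat_lit 564) (nat_lit 593) (nat_lit 1584) (nat_lit 597) (nat_lit 561)) (.d (nat_lit 624) (nat_lit 687) (nat_lit 5679) (nat_lit 689) (nat_lit 4656))))) (.p (nat_lit 689) (.a (.p (nat_lit 564) (.a (.d (nat_lit 596)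 (nat_lit 595) (nat_lit 560) (nat_lit 597) (nat_lit 561)) (.d (nat_lit 592) (nat_lit 593) (nat_lit 1584) (nat_lit 624) (nat_lit 4656)))) (.f (nat_lit 690) (nat_lit 654) (nat_lit 654) (.d (nat_lit 691) (nat_lit 658) (nat_lit 655) (nat_lit 688) (nat_lit 3727)))))))))) (.a (.f (nat_lit 563) (nat_lit 532) (nat_lit 2576) (.p (nat_lit 592) (.a (.f (nat_lit 596) (nat_lit 595) (nat_lit 560) (.d (nat_lit 564) (nat_lit 593) (nat_lit 1584) (nat_lit 597) (nat_lit 561))) (.a (.d (nat_lit 625) (nat_lit 593) (nat_lit 7696) (nat_lit 624) (nat_lit 4624)) (.f (nat_lit 624) (nat_lit 625) (nat_lit 4624) (.d (nat_lit 656) (nat_lit 687) (nat_lit 5679) (nat_lit 689) (nat_lit 4656))))))) (.a (.f (nat_lit 563) (nat_lit 532) (nat_lit 2576) (.p (nat_lit 564) (.a (.d (nat_lit 596) (nat_lit 595) (nat_lit 560) (nat_lit 597) (nat_lit 561)) (.d (nat_lit 593) (nat_lit 592) (nat_lit 1584) (nat_lit 625) (nat_lit 7696))))) (.a (.f (nat_lit 590) (nat_lit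 589) (nat_lit 1581) (.p (nat_lit 654) (.a (.f (nat_lit 622) (nat_lit 687) (nat_lit 4654) (.f (nat_lit 526) (nat_lit 525) (nat_lit 3597) (.d (nat_lit 653) (nat_lit 621) (nat_lit 5645) (nat_lit 685) (nat_lit 5677)))) (.a (.p (nat_lit 656) (.a (.p (nat_lit 653) (.a (.d (nat_lit 689) (nat_lit 688) (nat_lit 653) (nat_lit 690) (nat_lit 654)) (.d (nat_lit 685) (nat_lit 684) (nat_lit 1676) (nat_lit 686) (nat_lit 1677)))) (.d (nat_lit 625) (nat_lit 593) (nat_lit 7696) (nat_lit 626) (nat_lit 2670)))) (.p (nat_lit 656) (.a (.d (nat_lit 622) (nat_lit 621) (nat_lit 3693) (nat_lit 687) (nat_lit 4654)) (.d (nat_lit 625) (nat_lit 593) (nat_lit 7696) (nat_lit 626) (nat_lit 2670)))))))) (.f (nat_lit 590) (nat_lit 589) (nat_lit 1581) (.p (nat_lit 654) (.a (.f (nat_lit 622) (nat_lit 687) (nat_lit 4654) (.f (nat_lit 526) (nat_lit 525) (nat_lit 3597) (.d (nat_lit 653) (nat_lit 621) (nat_lit 5645) (nat_lit 685) (nat_lit 5677)))) (.a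 (.p (nat_lit 656) (.a (.p (nat_lit 653) (.a (.d (nat_lit 689) (nat_lit 688) (nat_lit 653) (nat_lit 690) (nat_lit 654)) (.d (nat_lit 685) (nat_lit 684) (nat_lit 1676) (nat_lit 686) (nat_lit 1677)))) (.a (.p (nat_lit 624) (.a (.d (nat_lit 592) (nat_lit 687) (nat_lit 5679) (nat_lit 689) (nat_lit 4656)) (.d (nat_lit 625) (nat_lit 626) (nat_lit 2670) (nat_lit 653) (nat_lit 2669)))) (.a (.p (nat_lit 658) (.a (.d (nat_lit 690) (nat_lit 689) (nat_lit 654) (nat_lit 691) (nat_lit 655)) (.d (nat_lit 686) (nat_lit 685) (nat_lit 1677) (nat_lit 687) (nat_lit 1678)))) (.f (nat_lit 625) (nat_lit 626) (nat_lit 2670) (.d (nat_lit 624) (nat_lit 592) (nat_lit 4624) (nat_lit 653) (nat_lit 2669))))))) (.a (.p (nat_lit 656) (.a (.d (nat_lit 622) (nat_lit 621) (nat_lit 3693) (nat_lit 687) (nat_lit 4654)) (.a (.p (nat_lit 658) (.a (.d (nat_lit 690) (nat_lit 689) (nat_lit 654) (nat_lit 691) (nat_lit 655)) (.d (nat_lit 686) (nat_lit 685)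 (nat_lit 1677) (nat_lit 687) (nat_lit 1678)))) (.p (nat_lit 658) (.a (.d (nat_lit 690) (nat_lit 689) (nat_lit 654) (nat_lit 691) (nat_lit 655)) (.d (nat_lit 626) (nat_lit 625) (nat_lit 2670) (nat_lit 627) (nat_lit 2671))))))) (.a (.p (nat_lit 656) (.a (.f (nat_lit 622) (nat_lit 621) (nat_lit 3693) (.d (nat_lit 685) (nat_lit 653) (nat_lit 5677) (nat_lit 686) (nat_lit 1677))) (.a (.p (nat_lit 624) (.a (.d (nat_lit 689) (nat_lit 592) (nat_lit 4656) (nat_lit 690) (nat_lit 654)) (.d (nat_lit 625) (nat_lit 626) (nat_lit 2670) (nat_lit 653) (nat_lit 2669)))) (.p (nat_lit 658) (.a (.d (nat_lit 690) (nat_lit 689) (nat_lit 654) (nat_lit 691) (nat_lit 655)) (.d (nat_lit 626) (nat_lit 625) (nat_lit 2670) (nat_lit 627) (nat_lit 2671))))))) (.p (nat_lit 656) (.a (.d (nat_lit 622) (nat_lit 621) (nat_lit 3693) (nat_lit 687) (nat_lit 4654)) (.a (.p (nat_lit 624) (.a (.d (nat_lit 592) (nat_lit 687) (nat_lit 5679) (nat_lit 689) (nat_lit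 4656)) (.d (nat_lit 625) (nat_lit 626) (nat_lit 2670) (nat_lit 653) (nat_lit 2669)))) (.p (nat_lit 624) (.a (.d (nat_lit 689) (nat_lit 592) (nat_lit 4656) (nat_lit 690) (nat_lit 654)) (.d (nat_lit 625) (nat_lit 626) (nat_lit 2670) (nat_lit 653) (nat_lit 2669))))))))))))))))))) (.a (.f (nat_lit 593) (nat_lit 594) (nat_lit 558) (.f (nat_lit 531) (nat_lit 530) (nat_lit 2575) (.p (nat_lit 656) (.a (.p (nat_lit 592) (.a (.d (nat_lit 563) (nat_lit 532) (nat_lit 2576) (nat_lit 564) (nat_lit 1584)) (.d (nat_lit 624) (nat_lit 687) (nat_lit 5679) (nat_lit 688) (nat_lit 6704)))) (.a (.f (nat_lit 657) (nat_lit 625) (nat_lit 7696) (.p (nat_lit 654) (.a (.p (nat_lit 653) (.a (.d (nat_lit 689) (nat_lit 688) (nat_lit 653) (nat_lit 690) (nat_lit 654)) (.d (nat_lit 685) (nat_lit 684) (nat_lit 1676) (nat_lit 686) (nat_lit 1677)))) (.f (nat_lit 590) (nat_lit 589) (nat_lit 1581) (.d (nat_lit 622) (nat_lit 621) (nat_lit 3693) (nat_lit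 687) (nat_lit 4654)))))) (.a (.f (nat_lit 657) (nat_lit 625) (nat_lit 7696) (.p (nat_lit 592) (.a (.d (nat_lit 624) (nat_lit 687) (nat_lit 5679) (nat_lit 689) (nat_lit 4656)) (.d (nat_lit 563) (nat_lit 532) (nat_lit 2576) (nat_lit 564) (nat_lit 1584))))) (.f (nat_lit 657) (nat_lit 625) (nat_lit 7696) (.p (nat_lit 689) (.a (.f (nat_lit 563) (nat_lit 532) (nat_lit 2576) (.d (nat_lit 592) (nat_lit 564) (nat_lit 1584) (nat_lit 624) (nat_lit 4656))) (.f (nat_lit 690) (nat_lit 654) (nat_lit 654) (.d (nat_lit 691) (nat_lit 658) (nat_lit 655) (nat_lit 688) (nat_lit 3727)))))))))))) (.f (nat_lit 595) (nat_lit 594) (nat_lit 559) (.f (nat_lit 563) (nat_lit 596) (nat_lit 560) (.d (nat_lit 531) (nat_lit 530) (nat_lit 2575) (nat_lit 532) (nat_lit 2576))))))))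
noncomputable def s23065 : Cert := .r (nat_lit 3773962425700235452738272624505952193199339552226928146794549392648115485167898379561026699849346401546134558067857772757880134458676407096525164659442171664912122642432) (.p (nat_lit 559) (.a (.p (nat_lit 527) (.a s16613 (.a (.p (nat_lit 561) (.a (.d (nat_lit 526) (nat_lit 525) (nat_lit 525) (nat_lit 562) (nat_lit 3598)) (.a (.f (nat_lit 562) (nat_lit 563) (nat_lit 3599) (.f (nat_lit 591) (nat_lit 590) (nat_lit 1582) (.f (nat_lit 594) (nat_lit 595) (nat_lit 559) (.f (nat_lit 558) (nat_lit 593) (nat_lit 558) (.f (nat_lit 557) (nat_lit 556) (nat_lit 2572) (.p (nat_lit 624) (.a (.d (nat_lit 592) (nat_lit 495) (nat_lit 7663) (nat_lit 656) (nat_lit 7695)) (.a (.d (nat_lit 623) (nat_lit 655) (nat_lit 6671) (nat_lit 656) (nat_lit 4623)) (.f (nat_lit 495) (nat_lit 592) (nat_lit 7663) (.f (nat_lit 462) (nat_lit 494) (nat_lit 7630) (.d (nat_lit 463) (nat_lit 430) (nat_lit 7598) (nat_lit 431) (nat_lit 4527)))))))))))) s16637))) (.a s16656 (.a s16665 (.a s16710 (.a s16716 (.a (.p (nat_lit 495) (.a (.d (nat_lit 463) (nat_lit 431) (nat_lit 4527) (nat_lit 592) (nat_lit 4559)) (.a (.d (nat_lit 592) (nat_lit 463) (nat_lit 4559) (nat_lit 624) (nat_lit 7663)) (.a (.f (nat_lit 463) (nat_lit 431) (nat_lit 4527) (.f (nat_lit 558) (nat_lit 590) (nat_lit 5582) (.f (nat_lit 462) (nat_lit 430) (nat_lit 7598) (.f (nat_lit 494) (nat_lit 591) (nat_lit 7630) (.f (nat_lit 464) (nat_lit 432) (nat_lit 6575) (.d (nat_lit 465) (nat_lit 466) (nat_lit 1486) (nat_lit 493) (nat_lit 1485))))))) (.f (nat_lit 592) (nat_lit 624) (nat_lit 7663) (.p (nat_lit 591) (.a (.f (nat_lit 623) (nat_lit 655) (nat_lit 6671) (.d (nat_lit 622) (nat_lit 590) (nat_lit 5614) (nat_lit 654) (nat_lit 5646))) (.a (.f (nat_lit 623) (nat_lit 655) (nat_lit 6671) (.d (nat_lit 494) (nat_lit 462) (nat_lit 7630) (nat_lit 526) (nat_lit 7662))) (.a (.f (nat_lit 494) (nat_lit 462) (nat_lit 7630) (.f (nat_lit 526) (nat_lit 623) (nat_lit 7662) (.d (nat_lit 525) (nat_lit 524) (nat_lit 524) (nat_lit 561) (nat_lit 525)))) (.f (nat_lit 590) (nat_lit 622) (nat_lit 5614) (.f (nat_lit 561) (nat_lit 562) (nat_lit 1582) (.p (nat_lit 558) (.a (.d (nat_lit 557) (nat_lit 556) (nat_lit 2572) (nat_lit 593) (nat_lit 557)) (.a (.d (nat_lit 593) (nat_lit 557) (nat_lit 557) (nat_lit 594) (nat_lit 558)) (.f (nat_lit 494) (nat_lit 462) (nat_lit 7630) (.f (nat_lit 493) (nat_lit 492) (nat_lit 492) (.d (nat_lit 526) (nat_lit 461) (nat_lit 7629) (nat_lit 525) (nat_lit 3597)))))))))))))))))) (.a s16764 (.a s16788 (.a s16793 (.a (.p (nat_lit 561) (.a (.d (nat_lit 526) (nat_lit 525) (nat_lit 525) (nat_lit 562) (nat_lit 3598)) (.a (.f (nat_lit 562) (nat_lit 563) (nat_lit 3599) (.f (nat_lit 591) (nat_lit 590) (nat_lit 1582) (.f (nat_lit 623) (nat_lit 655) (nat_lit 6671) (.f (nat_lit 594) (nat_lit 595) (nat_lit 559) (.f (nat_lit 593) (nat_lit 558) (nat_lit 558) (.d (nat_lit 622) (nat_lit 592) (nat_lit 1614) (nat_lit 654) (nat_lit 5646))))))) (.f (nat_lit 526) (nat_lit 525) (nat_lit 525) (.p (nat_lit 558) (.a (.f (nat_lit 557) (nat_lit 556) (nat_lit 2572) (.d (nat_lit 593) (nat_lit 592) (nat_lit 557) (nat_lit 594) (nat_lit 558))) (.a (.f (nat_lit 590) (nat_lit 589) (nat_lit 1581) (.f (nat_lit 622) (nat_lit 654) (nat_lit 6670) (.f (nat_lit 623) (nat_lit 655) (nat_lit 4622) (.f (nat_lit 591) (nat_lit 494) (nat_lit 7662) (.p (nat_lit 592) (.a (.d (nat_lit 593) (nat_lit 557) (nat_lit 3629) (nat_lit 621) (nat_lit 1613)) (.a (.d (nat_lit 593) (nat_lit 557) (nat_lit 557) (nat_lit 594) (nat_lit 558)) (.a (.d (nat_lit 593) (nat_lit 594) (nat_lit 3630) (nat_lit 621) (nat_lit 1613)) (.d (nat_lit 621) (nat_lit 620) (nat_lit 2636) (nat_lit 653) (nat_lit 5645)))))))))) (.a (.f (nat_lit 557) (nat_lit 556) (nat_lit 2572) (.d (nat_lit 589) (nat_lit 588) (nat_lit 1580) (nat_lit 590) (nat_lit 1581))) (.f (nat_lit 590) (nat_lit 589) (nat_lit 1581) (.f (nat_lit 622) (nat_lit 654) (nat_lit 6670) (.f (nat_lit 623) (nat_lit 655) (nat_lit 4622) (.f (nat_lit 591) (nat_lit 494) (nat_lit 7662) (.f (nat_lit 621) (nat_lit 653) (nat_lit 5645) (.d (nat_lit 593) (nat_lit 592) (nat_lit 1613) (nat_lit 594) (nat_lit 558))))))))))))))) s16844)))))))))))) (.a (.p (nat_lit 527) (.a s16613 (.a (.p (nat_lit 561) (.a (.d (nat_lit 526) (nat_lit 525) (nat_lit 525) (nat_lit 562) (nat_lit 3598)) (.a (.f (nat_lit 562) (nat_lit 563) (nat_lit 3599) (.f (nat_lit 591) (nat_lit 590) (nat_lit 1582) (.f (nat_lit 594) (nat_lit 595) (nat_lit 559) (.f (nat_lit 593) (nat_lit 558) (nat_lit 558) (.f (nat_lit 530) (nat_lit 531) (nat_lit 2575) (.d (nat_lit 498) (nat_lit 466) (nat_lit 5585) (nat_lit 625) (nat_lit 5617))))))) (.f (nat_lit 526) (nat_lit 525) (nat_lit 525) (.p (nat_lit 558) (.a (.f (nat_lit 557) (nat_lit 556) (nat_lit 2572) (.d (nat_lit 593) (nat_lit 592) (nat_lit 557) (nat_lit 594) (nat_lit 558))) (.a (.f (nat_lit 593) (nat_lit 594) (nat_lit 558) (.f (nat_lit 592) (nat_lit 557) (nat_lit 557) (.d (nat_lit 495) (nat_lit 463) (nat_lit 4559) (nat_lit 624) (nat_lit 7663)))) (.a (.f (nat_lit 557) (nat_lit 556) (nat_lit 2572) (.d (nat_lit 589) (nat_lit 588) (nat_lit 1580) (nat_lit 590) (nat_lit 1581))) (.f (nat_lit 590) (nat_lit 589) (nat_lit 1581) (.f (nat_lit 495) (nat_lit 463) (nat_lit 5582) (.f (nat_lit 592) (nat_lit 624) (nat_lit 7663) (.p (nat_lit 591) (.a (.d (nat_lit 623) (nat_lit 494) (nat_lit 7662) (nat_lit 655) (nat_lit 6671)) (.f (nat_lit 593) (nat_lit 594) (nat_lit 558) (.d (nat_lit 625) (nat_lit 626) (nat_lit 590) (nat_lit 657) (nat_lit 7696)))))))))))))))) (.a s16877 (.a s16896 (.a s16901 (.a (.p (nat_lit 561) (.a (.d (nat_lit 526) (nat_lit 525) (nat_lit 525) (nat_lit 562) (nat_lit 3598)) (.a (.f (nat_lit 562) (nat_lit 563) (nat_lit 3599) (.f (nat_lit 594) (nat_lit 595) (nat_lit 559) (.f (nat_lit 558) (nat_lit 593) (nat_lit 558) (.f (nat_lit 557) (nat_lit 556) (nat_lit 2572) (.d (nat_lit 589) (nat_lit 588) (nat_lit 1580) (nat_lit 590) (nat_lit 1581)))))) (.p (nat_lit 558) (.a (.f (nat_lit 525) (nat_lit 526) (nat_lit 525) (.d (nat_lit 557) (nat_lit 524) (nat_lit 3596) (nat_lit 556) (nat_lit 2572))) (.a (.f (nat_lit 525) (nat_lit 526) (nat_lit 525) (.f (nat_lit 557) (nat_lit 524) (nat_lit 3596) (.d (nat_lit 593) (nat_lit 592) (nat_lit 557) (nat_lit 594) (nat_lit 558)))) (.a (.f (nat_lit 557) (nat_lit 556) (nat_lit 2572) (.d (nat_lit 593) (nat_lit 592) (nat_lit 557) (nat_lit 594) (nat_lit 558))) (.f (nat_lit 526) (nat_lit 525) (nat_lit 525) (.f (nat_lit 590) (nat_lit 589) (nat_lit 1581) (.d (nat_lit 495) (nat_lit 463) (nat_lit 5582) (nat_lit 622) (nat_lit 6638))))))))))) (.a s16965 (.a (.p (nat_lit 592) (.a (.d (nat_lit 495) (nat_lit 463) (nat_lit 4559) (nat_lit 624) (nat_lit 7663)) (.a (.f (nat_lit 495) (nat_lit 463) (nat_lit 4559) (.p (nat_lit 561) (.a (.d (nat_lit 526) (nat_lit 525) (nat_lit 525) (nat_lit 562) (nat_lit 3598)) (.a (.f (nat_lit 562) (nat_lit 563) (nat_lit 3599) (.f (nat_lit 591) (nat_lit 590) (nat_lit 1582) (.f (nat_lit 623) (nat_lit 655) (nat_lit 6671) (.f (nat_lit 594) (nat_lit 595) (nat_lit 559) (.d (nat_lit 622) (nat_lit 593) (nat_lit 1614) (nat_lit 654) (nat_lit 5646)))))) (.f (nat_lit 526) (nat_lit 525) (nat_lit 525) (.p (nat_lit 591) (.a (.d (nat_lit 590) (nat_lit 589) (nat_lit 2605) (nat_lit 622) (nat_lit 5614)) (.d (nat_lit 623) (nat_lit 494) (nat_lit 7662) (nat_lit 655) (nat_lit 6671))))))))) (.a (.d (nat_lit 624) (nat_lit 495) (nat_lit 7663) (nat_lit 656) (nat_lit 7695)) (.f (nat_lit 624) (nat_lit 656) (nat_lit 7695) (.f (nat_lit 623) (nat_lit 655) (nat_lit 5647) (.f (nat_lit 625) (nat_lit 657) (nat_lit 4624) (.p (nat_lit 591) (.a (.d (nat_lit 590) (nat_lit 589) (nat_lit 589) (nat_lit 626) (nat_lit 3662)) (.f (nat_lit 622) (nat_lit 654) (nat_lit 5646) (.d (nat_lit 593) (nat_lit 594) (nat_lit 1614) (nat_lit 621) (nat_lit 2637)))))))))))) (.a s16989 (.a s16999 (.a (.p (nat_lit 561) (.a (.d (nat_lit 526) (nat_lit 525) (nat_lit 525) (nat_lit 562) (nat_lit 3598)) (.a (.f (nat_lit 562) (nat_lit 563) (nat_lit 3599) (.f (nat_lit 590) (nat_lit 591) (nat_lit 1582) (.f (nat_lit 558) (nat_lit 589) (nat_lit 1581) (.d (nat_lit 594) (nat_lit 593) (nat_lit 558) (nat_lit 595) (nat_lit 559))))) (.f (nat_lit 525) (nat_lit 526) (nat_lit 525) (.p (nat_lit 558) (.a (.d (nat_lit 557) (nat_lit 524) (nat_lit 3596) (nat_lit 556) (nat_lit 2572)) (.f (nat_lit 590) (nat_lit 589) (nat_lit 1581) (.f (nat_lit 622) (nat_lit 654) (nat_lit 6670) (.d (nat_lit 495) (nat_lit 463) (nat_lit 5582) (nat_lit 591) (nat_lit 5614)))))))))) (.a (.p (nat_lit 495) (.a (.d (nat_lit 463) (nat_lit 431) (nat_lit 4527) (nat_lit 592) (nat_lit 4559)) (.a (.d (nat_lit 592) (nat_lit 463) (nat_lit 4559) (nat_lit 624) (nat_lit 7663)) (.a (.f (nat_lit 463) (nat_lit 431) (nat_lit 4527) (.f (nat_lit 558) (nat_lit 590) (nat_lit 5582) (.f (nat_lit 557) (nat_lit 556) (nat_lit 2572) (.f (nat_lit 525) (nat_lit 524) (nat_lit 3596) (.f (nat_lit 526) (nat_lit 561) (nat_lit 525) (.f (nat_lit 589) (nat_lit 588) (nat_lit 1580) (.d (nat_lit 621) (nat_lit 494) (nat_lit 6637) (nat_lit 653) (nat_lit 6669)))))))) (.f (nat_lit 624) (nat_lit 592) (nat_lit 7663) (.p (nat_lit 526) (.a (.d (nat_lit 525) (nat_lit 524) (nat_lit 524) (nat_lit 561) (nat_lit 525)) (.a (.f (nat_lit 561) (nat_lit 562) (nat_lit 3598) (.p (nat_lit 591) (.a (.d (nat_lit 623) (nat_lit 655) (nat_lit 6671) (nat_lit 656) (nat_lit 4623)) (.a (.d (nat_lit 623) (nat_lit 494) (nat_lit 7662) (nat_lit 656) (nat_lit 4623)) (.a (.d (nat_lit 623) (nat_lit 494) (nat_lit 7662) (nat_lit 655) (nat_lit 6671)) (.f (nat_lit 590) (nat_lit 622) (nat_lit 5614) (.d (nat_lit 589) (nat_lit 558) (nat_lit 1581) (nat_lit 588) (nat_lit 2604)))))))) (.f (nat_lit 525) (nat_lit 524) (nat_lit 524) (.f (nat_lit 493) (nat_lit 492) (nat_lit 3564) (.f (nat_lit 557) (nat_lit 556) (nat_lit 1548) (.p (nat_lit 590) (.a (.f (nat_lit 558) (nat_lit 461) (nat_lit 4557) (.f (nat_lit 589) (nat_lit 588) (nat_lit 1580) (.d (nat_lit 621) (nat_lit 494) (nat_lit 6637) (nat_lit 653) (nat_lit 6669)))) (.a (.d (nat_lit 622) (nat_lit 589) (nat_lit 4589) (nat_lit 591) (nat_lit 5614)) (.d (nat_lit 622) (nat_lit 558) (nat_lit 6638) (nat_lit 591) (nat_lit 5614)))))))))))))))) (.a s17039 (.a (.p (nat_lit 561) (.a (.d (nat_lit 526) (nat_lit 525) (nat_lit 525) (nat_lit 562) (nat_lit 3598)) (.a (.f (nat_lit 562) (nat_lit 563) (nat_lit 3599) (.f (nat_lit 591) (nat_lit 590) (nat_lit 1582) (.f (nat_lit 623) (nat_lit 655) (nat_lit 6671) (.f (nat_lit 594) (nat_lit 595) (nat_lit 559) (.f (nat_lit 593) (nat_lit 558) (nat_lit 558) (.d (nat_lit 622) (nat_lit 592) (nat_lit 1614) (nat_lit 654) (nat_lit 5646))))))) (.f (nat_lit 526) (nat_lit 525) (nat_lit 525) (.p (nat_lit 558) (.a (.f (nat_lit 557) (nat_lit 556) (nat_lit 2572) (.d (nat_lit 593) (nat_lit 592) (nat_lit 557) (nat_lit 594) (nat_lit 558))) (.a (.f (nat_lit 590) (nat_lit 589) (nat_lit 1581) (.f (nat_lit 593) (nat_lit 594) (nat_lit 558) (.f (nat_lit 592) (nat_lit 557) (nat_lit 557) (.p (nat_lit 623) (.a (.d (nat_lit 655) (nat_lit 591) (nat_lit 6671) (nat_lit 624) (nat_lit 5647)) (.a (.d (nat_lit 591) (nat_lit 494) (nat_lit 7662) (nat_lit 655) (nat_lit 6671)) (.a (.d (nat_lit 624) (nat_lit 655) (nat_lit 5647) (nat_lit 656) (nat_lit 7695)) (.f (nat_lit 591) (nat_lit 494) (nat_lit 7662) (.d (nat_lit 625) (nat_lit 626) (nat_lit 590) (nat_lit 657) (nat_lit 7696)))))))))) (.a (.f (nat_lit 557) (nat_lit 556) (nat_lit 2572) (.d (nat_lit 589) (nat_lit 588) (nat_lit 1580) (nat_lit 590) (nat_lit 1581))) (.f (nat_lit 590) (nat_lit 589) (nat_lit 1581) (.f (nat_lit 622) (nat_lit 654) (nat_lit 6670) (.f (nat_lit 623) (nat_lit 655) (nat_lit 4622) (.f (nat_lit 591) (nat_lit 494) (nat_lit 7662) (.p (nat_lit 592) (.a (.d (nat_lit 593) (nat_lit 594) (nat_lit 3630) (nat_lit 621) (nat_lit 1613)) (.a (.d (nat_lit 621) (nat_lit 593) (nat_lit 1613) (nat_lit 653) (nat_lit 5645)) (.a (.f (nat_lit 593) (nat_lit 594) (nat_lit 558) (.d (nat_lit 625) (nat_lit 626) (nat_lit 590) (nat_lit 657) (nat_lit 7696))) (.d (nat_lit 621) (nat_lit 620) (nat_lit 2636) (nat_lit 653) (nat_lit 5645)))))))))))))))))) (.p (nat_lit 592) (.a (.d (nat_lit 495) (nat_lit 463) (nat_lit 4559) (nat_lit 624) (nat_lit 7663)) (.a (.f (nat_lit 495) (nat_lit 463) (nat_lit 4559) (.p (nat_lit 591) (.a (.f (nat_lit 623) (nat_lit 655) (nat_lit 6671) (.d (nat_lit 622) (nat_lit 590) (nat_lit 5614) (nat_lit 654) (nat_lit 5646))) (.a (.f (nat_lit 623) (nat_lit 655) (nat_lit 6671) (.f (nat_lit 526) (nat_lit 494) (nat_lit 7662) (.f (nat_lit 525) (nat_lit 524) (nat_lit 524) (.f (nat_lit 557) (nat_lit 556) (nat_lit 1548) (.f (nat_lit 558) (nat_lit 593) (nat_lit 557) (.f (nat_lit 493) (nat_lit 492) (nat_lit 3564) (.d (nat_lit 461) (nat_lit 429) (nat_lit 4525) (nat_lit 590) (nat_lit 4557)))))))) (.a (.f (nat_lit 623) (nat_lit 655) (nat_lit 6671) (.f (nat_lit 622) (nat_lit 654) (nat_lit 5646) (.f (nat_lit 593) (nat_lit 594) (nat_lit 1614) (.f (nat_lit 526) (nat_lit 494) (nat_lit 7662) (.f (nat_lit 525) (nat_lit 524) (nat_lit 524) (.d (nat_lit 557) (nat_lit 556) (nat_lit 1548) (nat_lit 558) (nat_lit 557))))))) (.a (.f (nat_lit 590) (nat_lit 622) (nat_lit 5614) (.f (nat_lit 589) (nat_lit 588) (nat_lit 2604) (.f (nat_lit 557) (nat_lit 556) (nat_lit 3628) (.f (nat_lit 558) (nat_lit 593) (nat_lit 557) (.p (nat_lit 526) (.a (.d (nat_lit 494) (nat_lit 621) (nat_lit 5613) (nat_lit 623) (nat_lit 4590)) (.a (.p (nat_lit 493) (.a (.d (nat_lit 492) (nat_lit 494) (nat_lit 492) (nat_lit 525) (nat_lit 3564)) (.a (.d (nat_lit 525) (nat_lit 461) (nat_lit 4557) (nat_lit 524) (nat_lit 3596)) (.d (nat_lit 494) (nat_lit 492) (nat_lit 492) (nat_lit 623) (nat_lit 7662))))) (.d (nat_lit 621) (nat_lit 620) (nat_lit 1612) (nat_lit 653) (nat_lit 6669))))))))) (.f (nat_lit 590) (nat_lit 622) (nat_lit 5614) (.f (nat_lit 589) (nat_lit 588) (nat_lit 2604) (.f (nat_lit 557) (nat_lit 556) (nat_lit 3628) (.f (nat_lit 558) (nat_lit 593) (nat_lit 557) (.p (nat_lit 526) (.a (.d (nat_lit 621) (nat_lit 494) (nat_lit 5613) (nat_lit 620) (nat_lit 1612)) (.a (.p (nat_lit 493) (.a (.d (nat_lit 492) (nat_lit 494) (nat_lit 492) (nat_lit 525) (nat_lit 3564)) (.a (.d (nat_lit 525) (nat_lit 461) (nat_lit 4557) (nat_lit 524) (nat_lit 3596)) (.d (nat_lit 494) (nat_lit 461) (nat_lit 7629) (nat_lit 492) (nat_lit 492))))) (.d (nat_lit 621) (nat_lit 620) (nat_lit 1612) (nat_lit 653) (nat_lit 6669))))))))))))))) (.a (.d (nat_lit 624) (nat_lit 495) (nat_lit 7663) (nat_lit 656) (nat_lit 7695)) (.f (nat_lit 624) (nat_lit 656) (nat_lit 7695) (.f (nat_lit 623) (nat_lit 655) (nat_lit 5647) (.f (nat_lit 625) (nat_lit 657) (nat_lit 4624) (.p (nat_lit 591) (.a (.d (nat_lit 590) (nat_lit 589) (nat_lit 589) (nat_lit 626) (nat_lit 3662)) (.f (nat_lit 622) (nat_lit 654) (nat_lit 5646) (.d (nat_lit 593) (nat_lit 594) (nat_lit 1614) (nat_lit 621) (nat_lit 2637))))))))))))))))))))))))))) (.a (.p (nat_lit 561) (.a (.p (nat_lit 562) (.a (.d (nat_lit 527) (nat_lit 526) (nat_lit 3598) (nat_lit 563) (nat_lit 3599)) (.a (.f (nat_lit 527) (nat_lit 526) (nat_lit 3598) (.f (nat_lit 591) (nat_lit 590) (nat_lit 1582) (.f (nat_lit 594) (nat_lit 595) (nat_lit 559) (.f (nat_lit 558) (nat_lit 593) (nat_lit 558) (.f (nat_lit 557) (nat_lit 556) (nat_lit 2572) (.p (nat_lit 624) (.a (.d (nat_lit 592) (nat_lit 495) (nat_lit 7663) (nat_lit 656) (nat_lit 7695)) (.a (.d (nat_lit 623) (nat_lit 655) (nat_lit 6671) (nat_lit 656) (nat_lit 4623)) (.f (nat_lit 495) (nat_lit 592) (nat_lit 7663) (.f (nat_lit 462) (nat_lit 494) (nat_lit 7630) (.d (nat_lit 463) (nat_lit 430) (nat_lit 7598) (nat_lit 431) (nat_lit 4527)))))))))))) (.a (.f (nat_lit 563) (nat_lit 527) (nat_lit 3599) (.d (nat_lit 595) (nat_lit 594) (nat_lit 559) (nat_lit 596) (nat_lit 560))) (.f (nat_lit 591) (nat_lit 590) (nat_lit 1582) (.f (nat_lit 563) (nat_lit 592) (nat_lit 1583) (.d (nat_lit 595) (nat_lit 594) (nat_lit 559) (nat_lit 596) (nat_lit 560)))))))) (.a s17096 (.a (.p (nat_lit 527) (.a (.d (nat_lit 526) (nat_lit 525) (nat_lit 525) (nat_lit 562) (nat_lit 3598)) (.a (.f (nat_lit 562) (nat_lit 563) (nat_lit 3599) (.f (nat_lit 591) (nat_lit 590) (nat_lit 1582) (.p (nat_lit 624) (.a (.d (nat_lit 592) (nat_lit 495) (nat_lit 7663) (nat_lit 656) (nat_lit 7695)) (.a (.d (nat_lit 623) (nat_lit 655) (nat_lit 6671) (nat_lit 656) (nat_lit 4623)) (.f (nat_lit 495) (nat_lit 592) (nat_lit 7663) (.f (nat_lit 462) (nat_lit 494) (nat_lit 7630) (.d (nat_lit 463) (nat_lit 430) (nat_lit 7598) (nat_lit 431) (nat_lit 4527))))))))) (.f (nat_lit 526) (nat_lit 525) (nat_lit 525) (.p (nat_lit 495) (.a (.d (nat_lit 463) (nat_lit 431) (nat_lit 4527) (nat_lit 592) (nat_lit 4559)) (.a (.d (nat_lit 592) (nat_lit 463) (nat_lit 4559) (nat_lit 624) (nat_lit 7663)) (.a (.f (nat_lit 463) (nat_lit 431) (nat_lit 4527) (.f (nat_lit 558) (nat_lit 590) (nat_lit 5582) (.f (nat_lit 462) (nat_lit 430) (nat_lit 7598) (.f (nat_lit 494) (nat_lit 591) (nat_lit 4558) (.d (nat_lit 557) (nat_lit 556) (nat_lit 2572) (nat_lit 589) (nat_lit 5581)))))) (.f (nat_lit 592) (nat_lit 624) (nat_lit 7663) s17122))))))))) (.a (.p (nat_lit 527) (.a (.d (nat_lit 526) (nat_lit 525) (nat_lit 525) (nat_lit 562) (nat_lit 3598)) (.a (.f (nat_lit 562) (nat_lit 563) (nat_lit 3599) (.f (nat_lit 594) (nat_lit 595) (nat_lit 559) (.f (nat_lit 558) (nat_lit 593) (nat_lit 558) (.f (nat_lit 557) (nat_lit 556) (nat_lit 2572) (.d (nat_lit 589) (nat_lit 588) (nat_lit 1580) (nat_lit 590) (nat_lit 1581)))))) (.f (nat_lit 526) (nat_lit 525) (nat_lit 525) (.p (nat_lit 558) (.a (.f (nat_lit 557) (nat_lit 556) (nat_lit 2572) (.d (nat_lit 593) (nat_lit 592) (nat_lit 557) (nat_lit 594) (nat_lit 558))) (.a (.f (nat_lit 593) (nat_lit 594) (nat_lit 558) (.f (nat_lit 592) (nat_lit 557) (nat_lit 557) (.d (nat_lit 495) (nat_lit 463) (nat_lit 4559) (nat_lit 624) (nat_lit 7663)))) (.a (.f (nat_lit 557) (nat_lit 556) (nat_lit 2572) (.d (nat_lit 589) (nat_lit 588) (nat_lit 1580) (nat_lit 590) (nat_lit 1581))) (.f (nat_lit 590) (nat_lit 589) (nat_lit 1581) (.f (nat_lit 593) (nat_lit 594) (nat_lit 558) (.p (nat_lit 494) (.a (.f (nat_lit 495) (nat_lit 463) (nat_lit 5582) (.d (nat_lit 493) (nat_lit 461) (nat_lit 7629) (nat_lit 492) (nat_lit 492))) (.a (.f (nat_lit 463) (nat_lit 495) (nat_lit 5582) (.d (nat_lit 462) (nat_lit 430) (nat_lit 4526) (nat_lit 431) (nat_lit 6574))) (.f (nat_lit 461) (nat_lit 493) (nat_lit 7629) (.d (nat_lit 462) (nat_lit 429) (nat_lit 7597) (nat_lit 430) (nat_lit 4526)))))))))))))))) (.a s17144 (.a s17146 (.a (.p (nat_lit 558) (.a (.f (nat_lit 526) (nat_lit 525) (nat_lit 3597) (.f (nat_lit 527) (nat_lit 562) (nat_lit 3598) (.f (nat_lit 557) (nat_lit 556) (nat_lit 2572) (.d (nat_lit 593) (nat_lit 592) (nat_lit 557) (nat_lit 594) (nat_lit 558))))) (.a (.f (nat_lit 526) (nat_lit 525) (nat_lit 3597) (.f (nat_lit 562) (nat_lit 527) (nat_lit 3598) (.d (nat_lit 594) (nat_lit 593) (nat_lit 558) (nat_lit 595) (nat_lit 559)))) (.a (.f (nat_lit 526) (nat_lit 525) (nat_lit 3597) (.f (nat_lit 527) (nat_lit 562) (nat_lit 3598) (.f (nat_lit 557) (nat_lit 556) (nat_lit 2572) (.d (nat_lit 589) (nat_lit 588) (nat_lit 1580) (nat_lit 590) (nat_lit 1581))))) (.f (nat_lit 593) (nat_lit 594) (nat_lit 558) (.f (nat_lit 557) (nat_lit 592) (nat_lit 557) (.d (nat_lit 589) (nat_lit 588) (nat_lit 1580) (nat_lit 590) (nat_lit 1581)))))))) (.a (.p (nat_lit 562) (.a (.f (nat_lit 563) (nat_lit 527) (nat_lit 3599) (.d (nat_lit 595) (nat_lit 594) (nat_lit 559) (nat_lit 596) (nat_lit 560))) (.a (.f (nat_lit 563) (nat_lit 527) (nat_lit 3599) (.d (nat_lit 591) (nat_lit 590) (nat_lit 1582) (nat_lit 592) (nat_lit 1583))) (.f (nat_lit 594) (nat_lit 595) (nat_lit 559) (.f (nat_lit 593) (nat_lit 558) (nat_lit 558) (.f (nat_lit 530) (nat_lit 531) (nat_lit 2575) (.d (nat_lit 498) (nat_lit 466) (nat_lit 5585) (nat_lit 625) (nat_lit 5617)))))))) (.a (.p (nat_lit 558) (.a (.f (nat_lit 526) (nat_lit 525) (nat_lit 3597) (.f (nat_lit 593) (nat_lit 594) (nat_lit 558) (.f (nat_lit 557) (nat_lit 592) (nat_lit 557) (.d (nat_lit 589) (nat_lit 588) (nat_lit 1580) (nat_lit 590) (nat_lit 1581))))) (.a (.f (nat_lit 526) (nat_lit 525) (nat_lit 3597) (.f (nat_lit 589) (nat_lit 590) (nat_lit 1581) (.f (nat_lit 557) (nat_lit 588) (nat_lit 1580) (.f (nat_lit 556) (nat_lit 527) (nat_lit 2572) (.d (nat_lit 592) (nat_lit 591) (nat_lit 556) (nat_lit 593) (nat_lit 557)))))) (.a (.f (nat_lit 593) (nat_lit 594) (nat_lit 558) (.f (nat_lit 557) (nat_lit 592) (nat_lit 557) (.d (nat_lit 525) (nat_lit 524) (nat_lit 3596) (nat_lit 526) (nat_lit 3597)))) (.a (.f (nat_lit 593) (nat_lit 594) (nat_lit 558) (.f (nat_lit 557) (nat_lit 592) (nat_lit 557) (.d (nat_lit 589) (nat_lit 588) (nat_lit 1580) (nat_lit 590) (nat_lit 1581)))) (.f (nat_lit 526) (nat_lit 525) (nat_lit 3597) (.f (nat_lit 590) (nat_lit 589) (nat_lit 1581) (.p (nat_lit 494) (.a (.d (nat_lit 591) (nat_lit 462) (nat_lit 4558) (nat_lit 623) (nat_lit 4590)) (.a (.f (nat_lit 591) (nat_lit 623) (nat_lit 4590) (.f (nat_lit 495) (nat_lit 463) (nat_lit 6606) (.f (nat_lit 493) (nat_lit 461) (nat_lit 7629) (.f (nat_lit 492) (nat_lit 527) (nat_lit 492) (.p (nat_lit 491) (.a (.d (nat_lit 523) (nat_lit 522) (nat_lit 1514) (nat_lit 524) (nat_lit 1515)) (.d (nat_lit 459) (nat_lit 458) (nat_lit 3530) (nat_lit 460) (nat_lit 3531)))))))) (.f (nat_lit 463) (nat_lit 495) (nat_lit 6606) (.f (nat_lit 462) (nat_lit 431) (nat_lit 6574) (.d (nat_lit 461) (nat_lit 429) (nat_lit 7597) (nat_lit 493) (nat_lit 7629)))))))))))))) (.p (nat_lit 558) (.a (.f (nat_lit 590) (nat_lit 589) (nat_lit 1581) (.f (nat_lit 591) (nat_lit 562) (nat_lit 1582) (.f (nat_lit 623) (nat_lit 655) (nat_lit 6671) (.d (nat_lit 526) (nat_lit 494) (nat_lit 4590) (nat_lit 525) (nat_lit 3597))))) (.a (.f (nat_lit 593) (nat_lit 594) (nat_lit 558) (.f (nat_lit 557) (nat_lit 592) (nat_lit 557) (.d (nat_lit 589) (nat_lit 588) (nat_lit 1580) (nat_lit 590) (nat_lit 1581)))) (.f (nat_lit 593) (nat_lit 594) (nat_lit 558) (.f (nat_lit 557) (nat_lit 592) (nat_lit 557) (.d (nat_lit 525) (nat_lit 524) (nat_lit 3596) (nat_lit 526) (nat_lit 3597))))))))))))))))) (.a (.p (nat_lit 527) (.a s16656 (.a s16877 (.a (.p (nat_lit 561) (.a (.d (nat_lit 526) (nat_lit 525) (nat_lit 525) (nat_lit 562) (nat_lit 3598)) (.a (.f (nat_lit 562) (nat_lit 563) (nat_lit 3599) (.f (nat_lit 591) (nat_lit 590) (nat_lit 1582) (.f (nat_lit 594) (nat_lit 595) (nat_lit 559) (.f (nat_lit 593) (nat_lit 558) (nat_lit 558) (.f (nat_lit 530) (nat_lit 531) (nat_lit 2575) (.d (nat_lit 498) (nat_lit 466) (nat_lit 5585) (nat_lit 625) (nat_lit 5617))))))) (.f (nat_lit 526) (nat_lit 525) (nat_lit 525) (.p (nat_lit 495) (.a (.d (nat_lit 463) (nat_lit 431) (nat_lit 4527) (nat_lit 592) (nat_lit 4559)) (.a (.d (nat_lit 592) (nat_lit 463) (nat_lit 4559) (nat_lit 624) (nat_lit 7663)) (.a (.f (nat_lit 463) (nat_lit 431) (nat_lit 4527) (.f (nat_lit 558) (nat_lit 590) (nat_lit 5582) (.f (nat_lit 462) (nat_lit 430) (nat_lit 7598) (.f (nat_lit 494) (nat_lit 591) (nat_lit 4558) (.f (nat_lit 464) (nat_lit 432) (nat_lit 6575) (.d (nat_lit 465) (nat_lit 466) (nat_lit 1486) (nat_lit 493) (nat_lit 1485))))))) (.f (nat_lit 592) (nat_lit 624) (nat_lit 7663) (.p (nat_lit 591) (.a (.d (nat_lit 494) (nat_lit 462) (nat_lit 7630) (nat_lit 623) (nat_lit 7662)) (.a (.d (nat_lit 623) (nat_lit 494) (nat_lit 7662) (nat_lit 655) (nat_lit 6671)) (.f (nat_lit 590) (nat_lit 589) (nat_lit 2605) (.p (nat_lit 593) (.a (.d (nat_lit 558) (nat_lit 557) (nat_lit 557) (nat_lit 594) (nat_lit 558)) (.d (nat_lit 625) (nat_lit 626) (nat_lit 590) (nat_lit 657) (nat_lit 7696))))))))))))))))) (.a (.p (nat_lit 561) (.a (.d (nat_lit 526) (nat_lit 525) (nat_lit 525) (nat_lit 562) (nat_lit 3598)) (.a (.f (nat_lit 562) (nat_lit 563) (nat_lit 3599) (.f (nat_lit 591) (nat_lit 590) (nat_lit 1582) (.f (nat_lit 594) (nat_lit 595) (nat_lit 559) (.f (nat_lit 593) (nat_lit 558) (nat_lit 558) (.f (nat_lit 530) (nat_lit 531) (nat_lit 2575) (.d (nat_lit 498) (nat_lit 466) (nat_lit 5585) (nat_lit 625) (nat_lit 5617))))))) (.f (nat_lit 526) (nat_lit 525) (nat_lit 525) (.p (nat_lit 495) (.a (.d (nat_lit 463) (nat_lit 431) (nat_lit 4527) (nat_lit 592) (nat_lit 4559)) (.a (.f (nat_lit 463) (nat_lit 592) (nat_lit 4559) (.f (nat_lit 558) (nat_lit 590) (nat_lit 5582) (.f (nat_lit 462) (nat_lit 430) (nat_lit 7598) (.f (nat_lit 494) (nat_lit 591) (nat_lit 4558) (.f (nat_lit 464) (nat_lit 432) (nat_lit 6575) (.d (nat_lit 465) (nat_lit 466) (nat_lit 1486) (nat_lit 493) (nat_lit 1485))))))) (.a (.f (nat_lit 463) (nat_lit 431) (nat_lit 4527) (.f (nat_lit 558) (nat_lit 590) (nat_lit 5582) (.f (nat_lit 462) (nat_lit 430) (nat_lit 7598) (.f (nat_lit 494) (nat_lit 591) (nat_lit 4558) (.f (nat_lit 464) (nat_lit 432) (nat_lit 6575) (.d (nat_lit 465) (nat_lit 466) (nat_lit 1486) (nat_lit 493) (nat_lit 1485))))))) (.p (nat_lit 591) (.a (.d (nat_lit 494) (nat_lit 462) (nat_lit 7630) (nat_lit 623) (nat_lit 7662)) (.a (.d (nat_lit 623) (nat_lit 494) (nat_lit 7662) (nat_lit 655) (nat_lit 6671)) (.f (nat_lit 590) (nat_lit 622) (nat_lit 5614) (.d (nat_lit 589) (nat_lit 558) (nat_lit 1581) (nat_lit 588) (nat_lit 2604)))))))))))))) (.a (.p (nat_lit 561) (.a (.d (nat_lit 526) (nat_lit 525) (nat_lit 525) (nat_lit 562) (nat_lit 3598)) (.a (.f (nat_lit 562) (nat_lit 563) (nat_lit 3599) (.f (nat_lit 594) (nat_lit 595) (nat_lit 559) (.f (nat_lit 593) (nat_lit 558) (nat_lit 558) (.f (nat_lit 625) (nat_lit 657) (nat_lit 7696) (.d (nat_lit 530) (nat_lit 498) (nat_lit 5617) (nat_lit 531) (nat_lit 2575)))))) (.f (nat_lit 526) (nat_lit 525) (nat_lit 525) (.p (nat_lit 495) (.a (.d (nat_lit 463) (nat_lit 431) (nat_lit 4527) (nat_lit 592) (nat_lit 4559)) (.a (.d (nat_lit 592) (nat_lit 463) (nat_lit 4559) (nat_lit 624) (nat_lit 7663)) (.a (.f (nat_lit 463) (nat_lit 431) (nat_lit 4527) (.f (nat_lit 558) (nat_lit 590) (nat_lit 5582) (.f (nat_lit 462) (nat_lit 430) (nat_lit 7598) (.p (nat_lit 461) (.a (.f (nat_lit 494) (nat_lit 429) (nat_lit 7597) (.f (nat_lit 460) (nat_lit 459) (nat_lit 459) (.d (nat_lit 492) (nat_lit 491) (nat_lit 1483) (nat_lit 493) (nat_lit 492)))) (.a (.f (nat_lit 429) (nat_lit 494) (nat_lit 7597) (.d (nat_lit 464) (nat_lit 428) (nat_lit 3500) (nat_lit 432) (nat_lit 6575))) (.a (.p (nat_lit 460) (.a (.f (nat_lit 427) (nat_lit 428) (nat_lit 3499) (.d (nat_lit 459) (nat_lit 426) (nat_lit 3498) (nat_lit 494) (nat_lit 459))) (.a (.p (nat_lit 459) (.a (.d (nat_lit 491) (nat_lit 490) (nat_lit 1482) (nat_lit 492) (nat_lit 1483)) (.d (nat_lit 427) (nat_lit 426) (nat_lit 3498) (nat_lit 428) (nat_lit 3499)))) (.a (.f (nat_lit 459) (nat_lit 494) (nat_lit 459) (.d (nat_lit 491) (nat_lit 490) (nat_lit 1482) (nat_lit 492) (nat_lit 1483))) (.f (nat_lit 464) (nat_lit 432) (nat_lit 6575) (.d (nat_lit 492) (nat_lit 491) (nat_lit 1483) (nat_lit 493) (nat_lit 1484))))))) (.f (nat_lit 464) (nat_lit 432) (nat_lit 6575) (.p (nat_lit 460) (.a (.d (nat_lit 492) (nat_lit 491) (nat_lit 1483) (nat_lit 493) (nat_lit 1484)) (.d (nat_lit 428) (nat_lit 427) (nat_lit 3499) (nat_lit 429) (nat_lit 3500)))))))))))) (.f (nat_lit 592) (nat_lit 624) (nat_lit 7663) (.p (nat_lit 558) (.a (.d (nat_lit 593) (nat_lit 557) (nat_lit 557) (nat_lit 594) (nat_lit 558)) (.d (nat_lit 590) (nat_lit 589) (nat_lit 1581) (nat_lit 622) (nat_lit 6638))))))))))))) (.a (.p (nat_lit 495) (.a (.d (nat_lit 463) (nat_lit 431) (nat_lit 4527) (nat_lit 592) (nat_lit 4559)) (.a (.d (nat_lit 592) (nat_lit 463) (nat_lit 4559) (nat_lit 624) (nat_lit 7663)) (.a (.f (nat_lit 463) (nat_lit 431) (nat_lit 4527) (.f (nat_lit 462) (nat_lit 430) (nat_lit 7598) (.f (nat_lit 494) (nat_lit 591) (nat_lit 7630) (.f (nat_lit 493) (nat_lit 492) (nat_lit 492) (.d (nat_lit 464) (nat_lit 432) (nat_lit 6575) (nat_lit 465) (nat_lit 1485)))))) (.f (nat_lit 624) (nat_lit 592) (nat_lit 7663) (.p (nat_lit 561) (.a (.d (nat_lit 526) (nat_lit 525) (nat_lit 525) (nat_lit 562) (nat_lit 3598)) (.a (.f (nat_lit 562) (nat_lit 563) (nat_lit 3599) (.f (nat_lit 594) (nat_lit 595) (nat_lit 559) (.f (nat_lit 593) (nat_lit 558) (nat_lit 558) (.f (nat_lit 625) (nat_lit 657) (nat_lit 7696) (.d (nat_lit 530) (nat_lit 498) (nat_lit 5617) (nat_lit 531) (nat_lit 2575)))))) (.f (nat_lit 526) (nat_lit 525) (nat_lit 525) s17273))))))))) (.a s16716 (.a (.p (nat_lit 495) (.a (.d (nat_lit 463) (nat_lit 431) (nat_lit 4527) (nat_lit 592) (nat_lit 4559)) (.a (.d (nat_lit 592) (nat_lit 463) (nat_lit 4559) (nat_lit 624) (nat_lit 7663)) (.a (.f (nat_lit 463) (nat_lit 431) (nat_lit 4527) (.f (nat_lit 590) (nat_lit 558) (nat_lit 5582) (.f (nat_lit 591) (nat_lit 622) (nat_lit 5614) (.d (nat_lit 462) (nat_lit 430) (nat_lit 7598) (nat_lit 494) (nat_lit 7630))))) (.f (nat_lit 592) (nat_lit 624) (nat_lit 7663) (.p (nat_lit 591) (.a (.f (nat_lit 590) (nat_lit 622) (nat_lit 5614) (.d (nat_lit 561) (nat_lit 562) (nat_lit 1582) (nat_lit 589) (nat_lit 2605))) (.f (nat_lit 623) (nat_lit 655) (nat_lit 6671) (.d (nat_lit 494) (nat_lit 462) (nat_lit 7630) (nat_lit 526) (nat_lit 7662)))))))))) (.a (.p (nat_lit 561) (.a (.d (nat_lit 526) (nat_lit 525) (nat_lit 525) (nat_lit 562) (nat_lit 3598)) (.a (.f (nat_lit 562) (nat_lit 563) (nat_lit 3599) (.f (nat_lit 591) (nat_lit 590) (nat_lit 1582) (.f (nat_lit 623) (nat_lit 655) (nat_lit 6671) (.f (nat_lit 624) (nat_lit 656) (nat_lit 4623) (.f (nat_lit 592) (nat_lit 495) (nat_lit 7663) (.p (nat_lit 593) (.a (.d (nat_lit 558) (nat_lit 557) (nat_lit 557) (nat_lit 594) (nat_lit 558)) (.d (nat_lit 622) (nat_lit 621) (nat_lit 2637) (nat_lit 654) (nat_lit 5646))))))))) (.f (nat_lit 526) (nat_lit 525) (nat_lit 525) (.p (nat_lit 592) (.a (.d (nat_lit 495) (nat_lit 463) (nat_lit 4559) (nat_lit 624) (nat_lit 7663)) (.a (.f (nat_lit 495) (nat_lit 463) (nat_lit 4559) (.p (nat_lit 591) (.a (.d (nat_lit 590) (nat_lit 589) (nat_lit 2605) (nat_lit 622) (nat_lit 5614)) (.d (nat_lit 494) (nat_lit 462) (nat_lit 7630) (nat_lit 623) (nat_lit 7662))))) (.a (.d (nat_lit 624) (nat_lit 495) (nat_lit 7663) (nat_lit 656) (nat_lit 7695)) (.f (nat_lit 624) (nat_lit 656) (nat_lit 7695) (.f (nat_lit 623) (nat_lit 655) (nat_lit 5647) (.f (nat_lit 591) (nat_lit 494) (nat_lit 7662) (.p (nat_lit 593) (.a (.d (nat_lit 558) (nat_lit 557) (nat_lit 557) (nat_lit 594) (nat_lit 558)) (.d (nat_lit 622) (nat_lit 621) (nat_lit 2637) (nat_lit 654) (nat_lit 5646))))))))))))))) (.a (.p (nat_lit 561) (.a (.d (nat_lit 526) (nat_lit 525) (nat_lit 525) (nat_lit 562) (nat_lit 3598)) (.a (.f (nat_lit 562) (nat_lit 563) (nat_lit 3599) (.f (nat_lit 591) (nat_lit 590) (nat_lit 1582) (.f (nat_lit 623) (nat_lit 655) (nat_lit 6671) (.f (nat_lit 624) (nat_lit 656) (nat_lit 4623) (.f (nat_lit 592) (nat_lit 495) (nat_lit 7663) (.p (nat_lit 593) (.a (.d (nat_lit 558) (nat_lit 557) (nat_lit 557) (nat_lit 594) (nat_lit 558)) (.d (nat_lit 622) (nat_lit 621) (nat_lit 2637) (nat_lit 654) (nat_lit 5646))))))))) (.f (nat_lit 525) (nat_lit 526) (nat_lit 525) (.p (nat_lit 592) (.a (.d (nat_lit 495) (nat_lit 463) (nat_lit 4559) (nat_lit 624) (nat_lit 7663)) (.a (.f (nat_lit 495) (nat_lit 463) (nat_lit 4559) (.p (nat_lit 593) (.a (.d (nat_lit 558) (nat_lit 557) (nat_lit 557) (nat_lit 594) (nat_lit 558)) (.a (.f (nat_lit 558) (nat_lit 557) (nat_lit 557) (.f (nat_lit 590) (nat_lit 589) (nat_lit 1581) (.d (nat_lit 622) (nat_lit 591) (nat_lit 5614) (nat_lit 654) (nat_lit 6670)))) (.f (nat_lit 594) (nat_lit 595) (nat_lit 3631) (.p (nat_lit 591) (.a (.d (nat_lit 590) (nat_lit 589) (nat_lit 2605) (nat_lit 622) (nat_lit 5614)) (.a (.f (nat_lit 626) (nat_lit 627) (nat_lit 591) (.d (nat_lit 590) (nat_lit 589) (nat_lit 2605) (nat_lit 625) (nat_lit 590))) (.d (nat_lit 623) (nat_lit 622) (nat_lit 1614) (nat_lit 655) (nat_lit 6671)))))))))) (.a (.d (nat_lit 624) (nat_lit 495) (nat_lit 7663) (nat_lit 656) (nat_lit 7695)) (.f (nat_lit 624) (nat_lit 656) (nat_lit 7695) (.f (nat_lit 623) (nat_lit 655) (nat_lit 5647) (.f (nat_lit 625) (nat_lit 657) (nat_lit 4624) (.p (nat_lit 593) (.a (.d (nat_lit 558) (nat_lit 557) (nat_lit 557) (nat_lit 594) (nat_lit 558)) (.a (.p (nat_lit 590) (.a (.d (nat_lit 558) (nat_lit 557) (nat_lit 557) (nat_lit 589) (nat_lit 1581)) (.a (.d (nat_lit 591) (nat_lit 589) (nat_lit 589) (nat_lit 626) (nat_lit 590)) (.f (nat_lit 558) (nat_lit 557) (nat_lit 557) (.d (nat_lit 622) (nat_lit 621) (nat_lit 2637) (nat_lit 654) (nat_lit 6670)))))) (.d (nat_lit 594) (nat_lit 595) (nat_lit 1615) (nat_lit 622) (nat_lit 2638)))))))))))))))) (.a (.p (nat_lit 495) (.a (.d (nat_lit 463) (nat_lit 431) (nat_lit 4527) (nat_lit 592) (nat_lit 4559)) (.a (.d (nat_lit 592) (nat_lit 463) (nat_lit 4559) (nat_lit 624) (nat_lit 7663)) (.a (.f (nat_lit 463) (nat_lit 431) (nat_lit 4527) (.f (nat_lit 590) (nat_lit 558) (nat_lit 5582) (.f (nat_lit 591) (nat_lit 622) (nat_lit 5614) (.d (nat_lit 462) (nat_lit 430) (nat_lit 7598) (nat_lit 494) (nat_lit 7630))))) (.f (nat_lit 592) (nat_lit 624) (nat_lit 7663) (.p (nat_lit 590) (.a (.f (nat_lit 591) (nat_lit 622) (nat_lit 5614) (.d (nat_lit 561) (nat_lit 562) (nat_lit 1582) (nat_lit 589) (nat_lit 2605))) (.a (.p (nat_lit 561) (.a (.d (nat_lit 562) (nat_lit 563) (nat_lit 3599) (nat_lit 591) (nat_lit 1582)) (.a (.f (nat_lit 562) (nat_lit 563) (nat_lit 3599) (.f (nat_lit 558) (nat_lit 589) (nat_lit 1581) (.d (nat_lit 594) (nat_lit 593) (nat_lit 558) (nat_lit 595) (nat_lit 559)))) (.d (nat_lit 589) (nat_lit 558) (nat_lit 1581) (nat_lit 591) (nat_lit 2605))))) (.a (.p (nat_lit 558) (.a (.f (nat_lit 557) (nat_lit 593) (nat_lit 557) (.d (nat_lit 589) (nat_lit 561) (nat_lit 1581) (nat_lit 588) (nat_lit 1580))) (.a (.f (nat_lit 593) (nat_lit 557) (nat_lit 557) (.d (nat_lit 594) (nat_lit 561) (nat_lit 558) (nat_lit 595) (nat_lit 3631))) (.a (.f (nat_lit 561) (nat_lit 589) (nat_lit 1581) (.f (nat_lit 562) (nat_lit 563) (nat_lit 3599) (.d (nat_lit 594) (nat_lit 593) (nat_lit 558) (nat_lit 595) (nat_lit 559)))) (.a (.f (nat_lit 589) (nat_lit 561) (nat_lit 1581) (.d (nat_lit 588) (nat_lit 557) (nat_lit 1580) (nat_lit 587) (nat_lit 2603))) (.f (nat_lit 557) (nat_lit 593) (nat_lit 557) (.f (nat_lit 525) (nat_lit 524) (nat_lit 3596) (.f (nat_lit 589) (nat_lit 588) (nat_lit 1580) (.d (nat_lit 493) (nat_lit 461) (nat_lit 4557) (nat_lit 622) (nat_lit 4589)))))))))) (.a (.f (nat_lit 591) (nat_lit 622) (nat_lit 5614) (.f (nat_lit 561) (nat_lit 562) (nat_lit 1582) (.p (nat_lit 593) (.a (.d (nat_lit 558) (nat_lit 557) (nat_lit 557) (nat_lit 594) (nat_lit 558)) (.d (nat_lit 625) (nat_lit 626) (nat_lit 590) (nat_lit 657) (nat_lit 7696)))))) (.a (.f (nat_lit 591) (nat_lit 622) (nat_lit 5614) (.d (nat_lit 589) (nat_lit 561) (nat_lit 2605) (nat_lit 588) (nat_lit 2604))) (.f (nat_lit 622) (nat_lit 591) (nat_lit 5614) (.f (nat_lit 558) (nat_lit 654) (nat_lit 6670) (.f (nat_lit 557) (nat_lit 593) (nat_lit 557) (.f (nat_lit 589) (nat_lit 588) (nat_lit 1580) (.d (nat_lit 525) (nat_lit 493) (nat_lit 4589) (nat_lit 524) (nat_lit 3596))))))))))))))))) (.a s17365 (.a (.p (nat_lit 561) (.a (.d (nat_lit 526) (nat_lit 525) (nat_lit 525) (nat_lit 562) (nat_lit 3598)) (.a (.f (nat_lit 562) (nat_lit 563) (nat_lit 3599) (.f (nat_lit 591) (nat_lit 590) (nat_lit 1582) (.f (nat_lit 623) (nat_lit 655) (nat_lit 6671) (.f (nat_lit 624) (nat_lit 656) (nat_lit 4623) (.f (nat_lit 592) (nat_lit 495) (nat_lit 7663) (.p (nat_lit 593) (.a (.d (nat_lit 558) (nat_lit 557) (nat_lit 557) (nat_lit 594) (nat_lit 558)) (.d (nat_lit 622) (nat_lit 621) (nat_lit 2637) (nat_lit 654) (nat_lit 5646))))))))) (.f (nat_lit 526) (nat_lit 525) (nat_lit 525) (.p (nat_lit 591) (.a (.d (nat_lit 623) (nat_lit 494) (nat_lit 7662) (nat_lit 655) (nat_lit 6671)) (.a (.f (nat_lit 494) (nat_lit 623) (nat_lit 7662) (.d (nat_lit 462) (nat_lit 430) (nat_lit 4526) (nat_lit 558) (nat_lit 4558))) (.a (.f (nat_lit 623) (nat_lit 655) (nat_lit 6671) (.f (nat_lit 624) (nat_lit 656) (nat_lit 4623) (.f (nat_lit 592) (nat_lit 495) (nat_lit 7663) (.p (nat_lit 593) (.a (.d (nat_lit 558) (nat_lit 557) (nat_lit 557) (nat_lit 594) (nat_lit 558)) (.d (nat_lit 622) (nat_lit 621) (nat_lit 2637) (nat_lit 654) (nat_lit 5646))))))) (.p (nat_lit 592) (.a (.d (nat_lit 624) (nat_lit 495) (nat_lit 7663) (nat_lit 656) (nat_lit 7695)) (.f (nat_lit 590) (nat_lit 589) (nat_lit 2605) (.p (nat_lit 593) (.a (.d (nat_lit 558) (nat_lit 557) (nat_lit 557) (nat_lit 594) (nat_lit 558)) (.d (nat_lit 625) (nat_lit 626) (nat_lit 590) (nat_lit 657) (nat_lit 7696))))))))))))))) (.a s17381 (.a (.p (nat_lit 561) (.a (.d (nat_lit 526) (nat_lit 525) (nat_lit 525) (nat_lit 562) (nat_lit 3598)) (.a (.f (nat_lit 562) (nat_lit 563) (nat_lit 3599) (.f (nat_lit 591) (nat_lit 590) (nat_lit 1582) (.f (nat_lit 623) (nat_lit 655) (nat_lit 6671) (.f (nat_lit 594) (nat_lit 595) (nat_lit 559) (.f (nat_lit 593) (nat_lit 558) (nat_lit 558) (.d (nat_lit 622) (nat_lit 592) (nat_lit 1614) (nat_lit 654) (nat_lit 5646))))))) (.f (nat_lit 526) (nat_lit 525) (nat_lit 525) (.p (nat_lit 558) (.a (.f (nat_lit 590) (nat_lit 589) (nat_lit 1581) (.f (nat_lit 622) (nat_lit 654) (nat_lit 6670) (.f (nat_lit 623) (nat_lit 655) (nat_lit 4622) (.f (nat_lit 591) (nat_lit 494) (nat_lit 7662) (.p (nat_lit 592) (.a (.d (nat_lit 593) (nat_lit 557) (nat_lit 3629) (nat_lit 621) (nat_lit 1613)) (.a (.d (nat_lit 593) (nat_lit 557) (nat_lit 557) (nat_lit 594) (nat_lit 558)) (.a (.d (nat_lit 593) (nat_lit 594) (nat_lit 3630) (nat_lit 621) (nat_lit 1613)) (.d (nat_lit 621) (nat_lit 620) (nat_lit 2636) (nat_lit 653) (nat_lit 5645)))))))))) (.a (.f (nat_lit 593) (nat_lit 594) (nat_lit 558) (.f (nat_lit 592) (nat_lit 557) (nat_lit 557) (.f (nat_lit 624) (nat_lit 656) (nat_lit 7695) (.p (nat_lit 591) (.a (.d (nat_lit 494) (nat_lit 462) (nat_lit 4558) (nat_lit 623) (nat_lit 7662)) (.a (.d (nat_lit 623) (nat_lit 494) (nat_lit 7662) (nat_lit 655) (nat_lit 6671)) (.f (nat_lit 625) (nat_lit 657) (nat_lit 4624) (.d (nat_lit 590) (nat_lit 589) (nat_lit 2605) (nat_lit 626) (nat_lit 590))))))))) (.a (.f (nat_lit 590) (nat_lit 589) (nat_lit 1581) (.f (nat_lit 622) (nat_lit 654) (nat_lit 6670) (.f (nat_lit 623) (nat_lit 655) (nat_lit 4622) (.f (nat_lit 591) (nat_lit 494) (nat_lit 7662) (.p (nat_lit 592) (.a (.d (nat_lit 593) (nat_lit 557) (nat_lit 3629) (nat_lit 621) (nat_lit 1613)) (.a (.f (nat_lit 593) (nat_lit 557) (nat_lit 557) (.d (nat_lit 625) (nat_lit 626) (nat_lit 590) (nat_lit 657) (nat_lit 7696))) (.a (.d (nat_lit 621) (nat_lit 593) (nat_lit 1613) (nat_lit 653) (nat_lit 5645)) (.d (nat_lit 621) (nat_lit 620) (nat_lit 2636) (nat_lit 653) (nat_lit 5645)))))))))) (.a (.f (nat_lit 593) (nat_lit 594) (nat_lit 558) (.f (nat_lit 590) (nat_lit 589) (nat_lit 1581) (.f (nat_lit 622) (nat_lit 654) (nat_lit 6670) (.f (nat_lit 592) (nat_lit 557) (nat_lit 557) (.f (nat_lit 624) (nat_lit 656) (nat_lit 7695) (.d (nat_lit 621) (nat_lit 623) (nat_lit 2637) (nat_lit 653) (nat_lit 5645))))))) (.a (.f (nat_lit 593) (nat_lit 594) (nat_lit 558) (.f (nat_lit 592) (nat_lit 557) (nat_lit 557) (.f (nat_lit 624) (nat_lit 656) (nat_lit 7695) (.f (nat_lit 623) (nat_lit 655) (nat_lit 5647) (.f (nat_lit 591) (nat_lit 494) (nat_lit 7662) (.d (nat_lit 622) (nat_lit 621) (nat_lit 2637) (nat_lit 654) (nat_lit 5646))))))) (.a (.f (nat_lit 590) (nat_lit 589) (nat_lit 1581) (.f (nat_lit 622) (nat_lit 654) (nat_lit 6670) (.f (nat_lit 623) (nat_lit 655) (nat_lit 4622) (.f (nat_lit 494) (nat_lit 591) (nat_lit 7662) (.f (nat_lit 461) (nat_lit 493) (nat_lit 7629) (.d (nat_lit 462) (nat_lit 429) (nat_lit 7597) (nat_lit 430) (nat_lit 4526))))))) (.f (nat_lit 593) (nat_lit 594) (nat_lit 558) (.f (nat_lit 590) (nat_lit 589) (nat_lit 1581) (.f (nat_lit 592) (nat_lit 557) (nat_lit 557) (.f (nat_lit 625) (nat_lit 657) (nat_lit 7696) (.f (nat_lit 591) (nat_lit 626) (nat_lit 590) (.d (nat_lit 622) (nat_lit 621) (nat_lit 1613) (nat_lit 654) (nat_lit 6670)))))))))))))))))) (.p (nat_lit 495) (.a (.d (nat_lit 463) (nat_lit 431) (nat_lit 4527) (nat_lit 592) (nat_lit 4559)) (.a (.d (nat_lit 592) (nat_lit 463) (nat_lit 4559) (nat_lit 624) (nat_lit 7663)) (.a (.f (nat_lit 463) (nat_lit 431) (nat_lit 4527) (.f (nat_lit 462) (nat_lit 430) (nat_lit 7598) (.f (nat_lit 494) (nat_lit 591) (nat_lit 7630) (.f (nat_lit 493) (nat_lit 492) (nat_lit 492) (.d (nat_lit 464) (nat_lit 432) (nat_lit 6575) (nat_lit 465) (nat_lit 1485)))))) (.f (nat_lit 592) (nat_lit 624) (nat_lit 7663) (.p (nat_lit 591) (.a (.f (nat_lit 623) (nat_lit 655) (nat_lit 6671) (.d (nat_lit 622) (nat_lit 590) (nat_lit 5614) (nat_lit 654) (nat_lit 5646))) (.a (.f (nat_lit 623) (nat_lit 655) (nat_lit 6671) (.d (nat_lit 494) (nat_lit 462) (nat_lit 7630) (nat_lit 526) (nat_lit 7662))) (.a (.f (nat_lit 494) (nat_lit 462) (nat_lit 7630) (.f (nat_lit 590) (nat_lit 622) (nat_lit 5614) (.f (nat_lit 526) (nat_lit 623) (nat_lit 7662) (.p (nat_lit 558) (.a (.d (nat_lit 593) (nat_lit 557) (nat_lit 557) (nat_lit 594) (nat_lit 3630)) (.d (nat_lit 589) (nat_lit 588) (nat_lit 2604) (nat_lit 621) (nat_lit 5613))))))) (.f (nat_lit 590) (nat_lit 622) (nat_lit 5614) (.f (nat_lit 494) (nat_lit 462) (nat_lit 7630) (.f (nat_lit 589) (nat_lit 588) (nat_lit 2604) (.p (nat_lit 558) (.a (.d (nat_lit 593) (nat_lit 557) (nat_lit 557) (nat_lit 594) (nat_lit 3630)) (.d (nat_lit 621) (nat_lit 526) (nat_lit 5613) (nat_lit 620) (nat_lit 1612)))))))))))))))))))))))))))))))) (.a (.p (nat_lit 527) (.a s17445 (.a s16896 (.a (.p (nat_lit 495) (.a (.d (nat_lit 463) (nat_lit 431) (nat_lit 4527) (nat_lit 592) (nat_lit 4559)) (.a (.d (nat_lit 592) (nat_lit 463) (nat_lit 4559) (nat_lit 624) (nat_lit 7663)) (.a (.f (nat_lit 463) (nat_lit 431) (nat_lit 4527) (.f (nat_lit 558) (nat_lit 590) (nat_lit 5582) (.f (nat_lit 557) (nat_lit 556) (nat_lit 2572) (.f (nat_lit 525) (nat_lit 524) (nat_lit 3596) (.f (nat_lit 526) (nat_lit 561) (nat_lit 525) (.p (nat_lit 494) (.a (.d (nat_lit 589) (nat_lit 588) (nat_lit 1580) (nat_lit 621) (nat_lit 6637)) (.d (nat_lit 462) (nat_lit 430) (nat_lit 4526) (nat_lit 591) (nat_lit 4558))))))))) (.f (nat_lit 592) (nat_lit 624) (nat_lit 7663) (.p (nat_lit 561) (.a (.d (nat_lit 526) (nat_lit 525) (nat_lit 525) (nat_lit 562) (nat_lit 3598)) (.a (.f (nat_lit 562) (nat_lit 563) (nat_lit 3599) (.f (nat_lit 590) (nat_lit 591) (nat_lit 1582) (.f (nat_lit 558) (nat_lit 589) (nat_lit 1581) (.d (nat_lit 557) (nat_lit 556) (nat_lit 2572) (nat_lit 593) (nat_lit 557))))) (.f (nat_lit 526) (nat_lit 525) (nat_lit 525) s17122))))))))) (.a s16656 (.a (.p (nat_lit 526) (.a (.d (nat_lit 525) (nat_lit 524) (nat_lit 524) (nat_lit 561) (nat_lit 525)) (.a (.f (nat_lit 561) (nat_lit 562) (nat_lit 3598) (.p (nat_lit 495) (.a (.d (nat_lit 463) (nat_lit 431) (nat_lit 4527) (nat_lit 592) (nat_lit 4559)) (.a (.f (nat_lit 463) (nat_lit 592) (nat_lit 4559) (.f (nat_lit 558) (nat_lit 590) (nat_lit 5582) (.f (nat_lit 462) (nat_lit 430) (nat_lit 7598) (.f (nat_lit 494) (nat_lit 591) (nat_lit 4558) (.d (nat_lit 557) (nat_lit 556) (nat_lit 2572) (nat_lit 589) (nat_lit 5581)))))) (.a (.f (nat_lit 463) (nat_lit 431) (nat_lit 4527) (.f (nat_lit 558) (nat_lit 590) (nat_lit 5582) (.f (nat_lit 462) (nat_lit 430) (nat_lit 7598) (.f (nat_lit 494) (nat_lit 591) (nat_lit 4558) (.d (nat_lit 557) (nat_lit 556) (nat_lit 2572) (nat_lit 589) (nat_lit 5581)))))) (.p (nat_lit 591) (.a (.d (nat_lit 494) (nat_lit 462) (nat_lit 7630) (nat_lit 623) (nat_lit 7662)) (.a (.d (nat_lit 623) (nat_lit 494) (nat_lit 7662) (nat_lit 655) (nat_lit 6671)) (.f (nat_lit 590) (nat_lit 622) (nat_lit 5614) (.d (nat_lit 589) (nat_lit 558) (nat_lit 1581) (nat_lit 588) (nat_lit 2604))))))))))) (.f (nat_lit 525) (nat_lit 524) (nat_lit 524) (.f (nat_lit 557) (nat_lit 556) (nat_lit 1548) (.f (nat_lit 493) (nat_lit 492) (nat_lit 3564) (.p (nat_lit 558) (.a (.d (nat_lit 461) (nat_lit 429) (nat_lit 4525) (nat_lit 590) (nat_lit 4557)) (.f (nat_lit 589) (nat_lit 588) (nat_lit 1580) (.d (nat_lit 494) (nat_lit 462) (nat_lit 5581) (nat_lit 621) (nat_lit 6637))))))))))) (.a (.p (nat_lit 526) (.a (.d (nat_lit 525) (nat_lit 524) (nat_lit 524) (nat_lit 561) (nat_lit 525)) (.a (.f (nat_lit 561) (nat_lit 562) (nat_lit 3598) (.p (nat_lit 495) (.a (.d (nat_lit 463) (nat_lit 431) (nat_lit 4527) (nat_lit 592) (nat_lit 4559)) (.a (.d (nat_lit 592) (nat_lit 463) (nat_lit 4559) (nat_lit 624) (nat_lit 7663)) (.a (.f (nat_lit 463) (nat_lit 431) (nat_lit 4527) (.f (nat_lit 558) (nat_lit 590) (nat_lit 5582) (.f (nat_lit 557) (nat_lit 556) (nat_lit 2572) (.f (nat_lit 462) (nat_lit 430) (nat_lit 7598) (.d (nat_lit 589) (nat_lit 494) (nat_lit 5581) (nat_lit 588) (nat_lit 1580)))))) (.f (nat_lit 592) (nat_lit 624) (nat_lit 7663) (.p (nat_lit 558) (.a (.d (nat_lit 557) (nat_lit 556) (nat_lit 2572) (nat_lit 593) (nat_lit 557)) (.d (nat_lit 590) (nat_lit 589) (nat_lit 1581) (nat_lit 622) (nat_lit 6638)))))))))) (.f (nat_lit 525) (nat_lit 524) (nat_lit 524) (.f (nat_lit 557) (nat_lit 556) (nat_lit 1548) (.f (nat_lit 493) (nat_lit 492) (nat_lit 3564) (.p (nat_lit 558) (.a (.d (nat_lit 461) (nat_lit 429) (nat_lit 4525) (nat_lit 590) (nat_lit 4557)) (.f (nat_lit 589) (nat_lit 588) (nat_lit 1580) (.d (nat_lit 494) (nat_lit 462) (nat_lit 5581) (nat_lit 621) (nat_lit 6637))))))))))) (.a s16710 (.a (.p (nat_lit 495) (.a (.d (nat_lit 463) (nat_lit 431) (nat_lit 4527) (nat_lit 592) (nat_lit 4559)) (.a (.d (nat_lit 592) (nat_lit 463) (nat_lit 4559) (nat_lit 624) (nat_lit 7663)) (.a (.f (nat_lit 463) (nat_lit 431) (nat_lit 4527) (.f (nat_lit 462) (nat_lit 430) (nat_lit 7598) (.f (nat_lit 591) (nat_lit 494) (nat_lit 7630) (.f (nat_lit 623) (nat_lit 655) (nat_lit 6671) (.d (nat_lit 622) (nat_lit 590) (nat_lit 5614) (nat_lit 654) (nat_lit 5646)))))) (.p (nat_lit 591) (.a (.f (nat_lit 624) (nat_lit 592) (nat_lit 7663) (.d (nat_lit 623) (nat_lit 655) (nat_lit 6671) (nat_lit 656) (nat_lit 4623))) (.a (.f (nat_lit 590) (nat_lit 622) (nat_lit 5614) (.f (nat_lit 561) (nat_lit 562) (nat_lit 1582) (.d (nat_lit 589) (nat_lit 588) (nat_lit 2604) (nat_lit 592) (nat_lit 2605)))) (.f (nat_lit 623) (nat_lit 655) (nat_lit 6671) (.d (nat_lit 622) (nat_lit 590) (nat_lit 5614) (nat_lit 654) (nat_lit 5646)))))))))) (.a (.p (nat_lit 526) (.a (.d (nat_lit 525) (nat_lit 524) (nat_lit 524) (nat_lit 561) (nat_lit 525)) (.a (.f (nat_lit 561) (nat_lit 562) (nat_lit 3598) (.p (nat_lit 558) (.a (.f (nat_lit 590) (nat_lit 589) (nat_lit 1581) (.d (nat_lit 495) (nat_lit 463) (nat_lit 5582) (nat_lit 622) (nat_lit 6638))) (.a (.f (nat_lit 557) (nat_lit 556) (nat_lit 2572) (.d (nat_lit 589) (nat_lit 588) (nat_lit 1580) (nat_lit 590) (nat_lit 1581))) (.f (nat_lit 557) (nat_lit 556) (nat_lit 2572) (.f (nat_lit 592) (nat_lit 593) (nat_lit 557) (.d (nat_lit 495) (nat_lit 463) (nat_lit 4559) (nat_lit 624) (nat_lit 7663)))))))) (.f (nat_lit 525) (nat_lit 524) (nat_lit 524) (.f (nat_lit 557) (nat_lit 556) (nat_lit 1548) (.f (nat_lit 493) (nat_lit 492) (nat_lit 3564) (.p (nat_lit 558) (.a (.d (nat_lit 461) (nat_lit 429) (nat_lit 4525) (nat_lit 590) (nat_lit 4557)) (.f (nat_lit 589) (nat_lit 588) (nat_lit 1580) (.d (nat_lit 494) (nat_lit 462) (nat_lit 5581) (nat_lit 621) (nat_lit 6637))))))))))) (.a (.p (nat_lit 495) (.a (.d (nat_lit 463) (nat_lit 431) (nat_lit 4527) (nat_lit 592) (nat_lit 4559)) (.a (.d (nat_lit 592) (nat_lit 463) (nat_lit 4559) (nat_lit 624) (nat_lit 7663)) (.a (.f (nat_lit 463) (nat_lit 431) (nat_lit 4527) (.p (nat_lit 561) (.a (.d (nat_lit 526) (nat_lit 525) (nat_lit 525) (nat_lit 562) (nat_lit 3598)) (.a (.f (nat_lit 590) (nat_lit 558) (nat_lit 5582) (.d (nat_lit 562) (nat_lit 563) (nat_lit 3599) (nat_lit 591) (nat_lit 1582))) (.f (nat_lit 558) (nat_lit 590) (nat_lit 5582) (.f (nat_lit 525) (nat_lit 526) (nat_lit 525) (.d (nat_lit 557) (nat_lit 524) (nat_lit 3596) (nat_lit 556) (nat_lit 2572)))))))) (.f (nat_lit 592) (nat_lit 624) (nat_lit 7663) (.p (nat_lit 561) (.a (.d (nat_lit 526) (nat_lit 525) (nat_lit 525) (nat_lit 562) (nat_lit 3598)) (.a (.f (nat_lit 562) (nat_lit 563) (nat_lit 3599) (.f (nat_lit 590) (nat_lit 591) (nat_lit 1582) (.f (nat_lit 558) (nat_lit 589) (nat_lit 1581) (.d (nat_lit 557) (nat_lit 556) (nat_lit 2572) (nat_lit 593) (nat_lit 557))))) (.f (nat_lit 526) (nat_lit 525) (nat_lit 525) (.p (nat_lit 558) (.a (.d (nat_lit 557) (nat_lit 556) (nat_lit 2572) (nat_lit 593) (nat_lit 557)) (.d (nat_lit 590) (nat_lit 589) (nat_lit 1581) (nat_lit 622) (nat_lit 6638))))))))))))) (.a (.p (nat_lit 495) (.a (.d (nat_lit 463) (nat_lit 431) (nat_lit 4527) (nat_lit 592) (nat_lit 4559)) (.a (.d (nat_lit 592) (nat_lit 463) (nat_lit 4559) (nat_lit 624) (nat_lit 7663)) (.a (.f (nat_lit 463) (nat_lit 431) (nat_lit 4527) (.f (nat_lit 558) (nat_lit 590) (nat_lit 5582) (.f (nat_lit 462) (nat_lit 430) (nat_lit 7598) (.f (nat_lit 494) (nat_lit 591) (nat_lit 7630) (.f (nat_lit 464) (nat_lit 432) (nat_lit 6575) (.d (nat_lit 465) (nat_lit 466) (nat_lit 1486) (nat_lit 493) (nat_lit 1485))))))) (.f (nat_lit 592) (nat_lit 624) (nat_lit 7663) (.p (nat_lit 591) (.a (.f (nat_lit 623) (nat_lit 655) (nat_lit 6671) (.d (nat_lit 622) (nat_lit 590) (nat_lit 5614) (nat_lit 654) (nat_lit 5646))) (.a (.f (nat_lit 623) (nat_lit 655) (nat_lit 6671) (.d (nat_lit 494) (nat_lit 462) (nat_lit 7630) (nat_lit 526) (nat_lit 7662))) (.a (.f (nat_lit 494) (nat_lit 462) (nat_lit 7630) (.f (nat_lit 526) (nat_lit 623) (nat_lit 7662) (.d (nat_lit 525) (nat_lit 524) (nat_lit 524) (nat_lit 561) (nat_lit 525)))) (.f (nat_lit 590) (nat_lit 622) (nat_lit 5614) (.f (nat_lit 561) (nat_lit 562) (nat_lit 1582) (.f (nat_lit 526) (nat_lit 525) (nat_lit 525) (.p (nat_lit 558) (.a (.d (nat_lit 557) (nat_lit 556) (nat_lit 2572) (nat_lit 593) (nat_lit 557)) (.f (nat_lit 494) (nat_lit 462) (nat_lit 4558) (.d (nat_lit 493) (nat_lit 461) (nat_lit 7629) (nat_lit 492) (nat_lit 492))))))))))))))))) (.a s16788 (.a (.p (nat_lit 526) (.a (.d (nat_lit 525) (nat_lit 524) (nat_lit 524) (nat_lit 561) (nat_lit 525)) (.a (.f (nat_lit 561) (nat_lit 562) (nat_lit 3598) (.p (nat_lit 591) (.a (.d (nat_lit 623) (nat_lit 494) (nat_lit 7662) (nat_lit 655) (nat_lit 6671)) (.a (.f (nat_lit 494) (nat_lit 623) (nat_lit 7662) (.d (nat_lit 462) (nat_lit 430) (nat_lit 4526) (nat_lit 558) (nat_lit 4558))) (.a (.f (nat_lit 623) (nat_lit 655) (nat_lit 6671) (.f (nat_lit 624) (nat_lit 656) (nat_lit 4623) (.f (nat_lit 592) (nat_lit 495) (nat_lit 7663) (.f (nat_lit 590) (nat_lit 589) (nat_lit 2605) (.d (nat_lit 625) (nat_lit 626) (nat_lit 3662) (nat_lit 657) (nat_lit 4624)))))) (.p (nat_lit 592) (.a (.d (nat_lit 624) (nat_lit 495) (nat_lit 7663) (nat_lit 656) (nat_lit 7695)) (.a (.f (nat_lit 590) (nat_lit 589) (nat_lit 2605) (.f (nat_lit 622) (nat_lit 495) (nat_lit 5614) (.d (nat_lit 654) (nat_lit 558) (nat_lit 6670) (nat_lit 686) (nat_lit 6702)))) (.f (nat_lit 590) (nat_lit 589) (nat_lit 2605) (.f (nat_lit 624) (nat_lit 656) (nat_lit 7695) (.p (nat_lit 593) (.a (.f (nat_lit 558) (nat_lit 557) (nat_lit 557) (.d (nat_lit 622) (nat_lit 621) (nat_lit 1613) (nat_lit 654) (nat_lit 6670))) (.d (nat_lit 625) (nat_lit 626) (nat_lit 590) (nat_lit 657) (nat_lit 7696)))))))))))))) (.f (nat_lit 525) (nat_lit 524) (nat_lit 524) (.f (nat_lit 557) (nat_lit 556) (nat_lit 1548) (.f (nat_lit 493) (nat_lit 492) (nat_lit 3564) (.p (nat_lit 558) (.a (.d (nat_lit 461) (nat_lit 429) (nat_lit 4525) (nat_lit 590) (nat_lit 4557)) (.f (nat_lit 589) (nat_lit 588) (nat_lit 1580) (.d (nat_lit 494) (nat_lit 462) (nat_lit 5581) (nat_lit 621) (nat_lit 6637))))))))))) (.a (.p (nat_lit 526) (.a (.d (nat_lit 525) (nat_lit 524) (nat_lit 524) (nat_lit 561) (nat_lit 525)) (.a (.f (nat_lit 561) (nat_lit 562) (nat_lit 3598) (.p (nat_lit 558) (.a (.f (nat_lit 557) (nat_lit 556) (nat_lit 2572) (.d (nat_lit 589) (nat_lit 588) (nat_lit 1580) (nat_lit 590) (nat_lit 1581))) (.a (.f (nat_lit 590) (nat_lit 589) (nat_lit 1581) (.f (nat_lit 622) (nat_lit 654) (nat_lit 6670) (.f (nat_lit 623) (nat_lit 655) (nat_lit 4622) (.f (nat_lit 591) (nat_lit 494) (nat_lit 7662) (.p (nat_lit 592) (.a (.d (nat_lit 593) (nat_lit 557) (nat_lit 3629) (nat_lit 621) (nat_lit 1613)) (.a (.f (nat_lit 593) (nat_lit 557) (nat_lit 557) (.d (nat_lit 625) (nat_lit 626) (nat_lit 590) (nat_lit 657) (nat_lit 7696))) (.a (.d (nat_lit 621) (nat_lit 593) (nat_lit 1613) (nat_lit 653) (nat_lit 5645)) (.d (nat_lit 621) (nat_lit 620) (nat_lit 2636) (nat_lit 653) (nat_lit 5645)))))))))) (.a (.f (nat_lit 557) (nat_lit 556) (nat_lit 2572) (.f (nat_lit 589) (nat_lit 588) (nat_lit 1580) (.f (nat_lit 494) (nat_lit 462) (nat_lit 5581) (.f (nat_lit 592) (nat_lit 593) (nat_lit 557) (.f (nat_lit 624) (nat_lit 656) (nat_lit 7695) (.d (nat_lit 623) (nat_lit 591) (nat_lit 7662) (nat_lit 655) (nat_lit 5647))))))) (.a (.f (nat_lit 557) (nat_lit 556) (nat_lit 2572) (.f (nat_lit 592) (nat_lit 593) (nat_lit 557) (.f (nat_lit 624) (nat_lit 656) (nat_lit 7695) (.f (nat_lit 623) (nat_lit 655) (nat_lit 5647) (.f (nat_lit 591) (nat_lit 494) (nat_lit 7662) (.f (nat_lit 625) (nat_lit 657) (nat_lit 4624) (.d (nat_lit 626) (nat_lit 590) (nat_lit 3662) (nat_lit 627) (nat_lit 3663)))))))) (.f (nat_lit 590) (nat_lit 589) (nat_lit 1581) (.f (nat_lit 622) (nat_lit 654) (nat_lit 6670) (.f (nat_lit 623) (nat_lit 655) (nat_lit 4622) (.f (nat_lit 591) (nat_lit 494) (nat_lit 7662) (.p (nat_lit 592) (.a (.d (nat_lit 621) (nat_lit 593) (nat_lit 1613) (nat_lit 653) (nat_lit 5645)) (.f (nat_lit 624) (nat_lit 656) (nat_lit 7695) (.d (nat_lit 625) (nat_lit 626) (nat_lit 3662) (nat_lit 657) (nat_lit 4624))))))))))))))) (.f (nat_lit 525) (nat_lit 524) (nat_lit 524) (.f (nat_lit 557) (nat_lit 556) (nat_lit 1548) (.f (nat_lit 493) (nat_lit 492) (nat_lit 3564) (.p (nat_lit 558) (.a (.d (nat_lit 461) (nat_lit 429) (nat_lit 4525) (nat_lit 590) (nat_lit 4557)) (.f (nat_lit 589) (nat_lit 588) (nat_lit 1580) (.d (nat_lit 494) (nat_lit 462) (nat_lit 5581) (nat_lit 621) (nat_lit 6637))))))))))) (.p (nat_lit 495) (.a (.d (nat_lit 463) (nat_lit 431) (nat_lit 4527) (nat_lit 592) (nat_lit 4559)) (.a (.d (nat_lit 592) (nat_lit 463) (nat_lit 4559) (nat_lit 624) (nat_lit 7663)) (.a (.f (nat_lit 463) (nat_lit 431) (nat_lit 4527) (.f (nat_lit 558) (nat_lit 590) (nat_lit 5582) (.f (nat_lit 557) (nat_lit 556) (nat_lit 2572) (.f (nat_lit 462) (nat_lit 430) (nat_lit 7598) (.f (nat_lit 494) (nat_lit 591) (nat_lit 7630) (.d (nat_lit 589) (nat_lit 526) (nat_lit 5581) (nat_lit 588) (nat_lit 1580))))))) (.f (nat_lit 592) (nat_lit 624) (nat_lit 7663) (.p (nat_lit 591) (.a (.f (nat_lit 623) (nat_lit 655) (nat_lit 6671) (.d (nat_lit 622) (nat_lit 590) (nat_lit 5614) (nat_lit 654) (nat_lit 5646))) (.a (.f (nat_lit 623) (nat_lit 655) (nat_lit 6671) (.d (nat_lit 494) (nat_lit 462) (nat_lit 7630) (nat_lit 526) (nat_lit 7662))) (.a (.f (nat_lit 590) (nat_lit 622) (nat_lit 5614) (.f (nat_lit 494) (nat_lit 462) (nat_lit 7630) (.f (nat_lit 526) (nat_lit 623) (nat_lit 7662) (.p (nat_lit 557) (.a (.f (nat_lit 558) (nat_lit 593) (nat_lit 557) (.d (nat_lit 589) (nat_lit 588) (nat_lit 2604) (nat_lit 621) (nat_lit 5613))) (.d (nat_lit 525) (nat_lit 524) (nat_lit 524) (nat_lit 556) (nat_lit 1548))))))) (.f (nat_lit 590) (nat_lit 622) (nat_lit 5614) (.f (nat_lit 589) (nat_lit 588) (nat_lit 2604) (.f (nat_lit 557) (nat_lit 556) (nat_lit 3628) (.f (nat_lit 558) (nat_lit 593) (nat_lit 557) (.p (nat_lit 526) (.a (.d (nat_lit 621) (nat_lit 494) (nat_lit 5613) (nat_lit 620) (nat_lit 1612)) (.a (.p (nat_lit 493) (.a (.d (nat_lit 492) (nat_lit 494) (nat_lit 492) (nat_lit 525) (nat_lit 3564)) (.a (.d (nat_lit 525) (nat_lit 461) (nat_lit 4557) (nat_lit 524) (nat_lit 3596)) (.d (nat_lit 494) (nat_lit 462) (nat_lit 4558) (nat_lit 492) (nat_lit 492))))) (.d (nat_lit 621) (nat_lit 620) (nat_lit 1612) (nat_lit 653) (nat_lit 6669))))))))))))))))))))))))))))))))) (.a (.p (nat_lit 527) (.a (.p (nat_lit 495) (.a (.d (nat_lit 463) (nat_lit 431) (nat_lit 4527) (nat_lit 592) (nat_lit 4559)) (.a (.d (nat_lit 592) (nat_lit 463) (nat_lit 4559) (nat_lit 624) (nat_lit 7663)) (.a (.f (nat_lit 463) (nat_lit 431) (nat_lit 4527) (.f (nat_lit 558) (nat_lit 590) (nat_lit 5582) (.f (nat_lit 557) (nat_lit 556) (nat_lit 2572) (.f (nat_lit 525) (nat_lit 524) (nat_lit 3596) (.f (nat_lit 561) (nat_lit 526) (nat_lit 525) (.f (nat_lit 562) (nat_lit 563) (nat_lit 3599) (.d (nat_lit 594) (nat_lit 593) (nat_lit 558) (nat_lit 595) (nat_lit 559)))))))) (.f (nat_lit 592) (nat_lit 624) (nat_lit 7663) (.p (nat_lit 591) (.a (.f (nat_lit 590) (nat_lit 622) (nat_lit 5614) (.d (nat_lit 561) (nat_lit 562) (nat_lit 1582) (nat_lit 589) (nat_lit 2605))) (.a (.p (nat_lit 561) (.a (.d (nat_lit 562) (nat_lit 563) (nat_lit 3599) (nat_lit 590) (nat_lit 1582)) (.a (.d (nat_lit 526) (nat_lit 525) (nat_lit 525) (nat_lit 562) (nat_lit 3598)) (.p (nat_lit 558) (.a (.d (nat_lit 557) (nat_lit 556) (nat_lit 2572) (nat_lit 593) (nat_lit 557)) (.a (.d (nat_lit 593) (nat_lit 557) (nat_lit 557) (nat_lit 594) (nat_lit 558)) (.f (nat_lit 526) (nat_lit 525) (nat_lit 525) (.d (nat_lit 494) (nat_lit 462) (nat_lit 7630) (nat_lit 623) (nat_lit 7662))))))))) (.f (nat_lit 623) (nat_lit 655) (nat_lit 6671) (.d (nat_lit 494) (nat_lit 462) (nat_lit 7630) (nat_lit 526) (nat_lit 7662))))))))))) (.a s16613 (.a (.p (nat_lit 561) (.a (.d (nat_lit 526) (nat_lit 525) (nat_lit 525) (nat_lit 562) (nat_lit 3598)) (.a (.f (nat_lit 562) (nat_lit 563) (nat_lit 3599) (.f (nat_lit 591) (nat_lit 590) (nat_lit 1582) (.f (nat_lit 594) (nat_lit 595) (nat_lit 559) (.f (nat_lit 593) (nat_lit 558) (nat_lit 558) (.f (nat_lit 530) (nat_lit 531) (nat_lit 2575) (.d (nat_lit 498) (nat_lit 466) (nat_lit 5585) (nat_lit 625) (nat_lit 5617))))))) (.f (nat_lit 526) (nat_lit 525) (nat_lit 525) (.p (nat_lit 558) (.a (.f (nat_lit 557) (nat_lit 556) (nat_lit 2572) (.d (nat_lit 593) (nat_lit 592) (nat_lit 557) (nat_lit 594) (nat_lit 558))) (.a (.f (nat_lit 593) (nat_lit 594) (nat_lit 558) (.f (nat_lit 592) (nat_lit 557) (nat_lit 557) (.d (nat_lit 495) (nat_lit 463) (nat_lit 4559) (nat_lit 624) (nat_lit 7663)))) (.a (.f (nat_lit 557) (nat_lit 556) (nat_lit 2572) (.d (nat_lit 589) (nat_lit 588) (nat_lit 1580) (nat_lit 590) (nat_lit 1581))) (.f (nat_lit 590) (nat_lit 589) (nat_lit 1581) (.f (nat_lit 495) (nat_lit 463) (nat_lit 5582) (.p (nat_lit 591) (.a (.d (nat_lit 494) (nat_lit 462) (nat_lit 7630) (nat_lit 623) (nat_lit 7662)) (.a (.d (nat_lit 623) (nat_lit 494) (nat_lit 7662) (nat_lit 655) (nat_lit 6671)) (.a (.f (nat_lit 624) (nat_lit 592) (nat_lit 7663) (.d (nat_lit 623) (nat_lit 655) (nat_lit 6671) (nat_lit 656) (nat_lit 4623))) (.f (nat_lit 593) (nat_lit 594) (nat_lit 558) (.f (nat_lit 592) (nat_lit 624) (nat_lit 7663) (.d (nat_lit 625) (nat_lit 626) (nat_lit 590) (nat_lit 657) (nat_lit 7696)))))))))))))))))) (.a (.p (nat_lit 561) (.a (.d (nat_lit 526) (nat_lit 525) (nat_lit 525) (nat_lit 562) (nat_lit 3598)) (.a (.f (nat_lit 562) (nat_lit 563) (nat_lit 3599) (.f (nat_lit 591) (nat_lit 590) (nat_lit 1582) (.f (nat_lit 623) (nat_lit 655) (nat_lit 6671) (.f (nat_lit 624) (nat_lit 656) (nat_lit 4623) (.f (nat_lit 592) (nat_lit 495) (nat_lit 7663) (.p (nat_lit 593) (.a (.d (nat_lit 558) (nat_lit 557) (nat_lit 557) (nat_lit 594) (nat_lit 558)) (.d (nat_lit 622) (nat_lit 621) (nat_lit 2637) (nat_lit 654) (nat_lit 5646))))))))) (.f (nat_lit 526) (nat_lit 525) (nat_lit 525) (.p (nat_lit 495) (.a (.d (nat_lit 463) (nat_lit 431) (nat_lit 4527) (nat_lit 592) (nat_lit 4559)) (.a (.d (nat_lit 592) (nat_lit 463) (nat_lit 4559) (nat_lit 624) (nat_lit 7663)) (.a (.f (nat_lit 463) (nat_lit 431) (nat_lit 4527) (.f (nat_lit 590) (nat_lit 558) (nat_lit 5582) (.f (nat_lit 591) (nat_lit 622) (nat_lit 5614) (.d (nat_lit 462) (nat_lit 430) (nat_lit 7598) (nat_lit 494) (nat_lit 7630))))) (.f (nat_lit 592) (nat_lit 624) (nat_lit 7663) (.p (nat_lit 591) (.a (.d (nat_lit 590) (nat_lit 589) (nat_lit 2605) (nat_lit 622) (nat_lit 5614)) (.d (nat_lit 494) (nat_lit 462) (nat_lit 7630) (nat_lit 623) (nat_lit 7662))))))))))))) (.a s17445 (.a s17584 (.a s17585 (.a s16965 (.a s16716 (.a s17586 (.a s16999 (.a s17365 (.a s17587 (.a (.p (nat_lit 561) (.a (.d (nat_lit 526) (nat_lit 525) (nat_lit 525) (nat_lit 562) (nat_lit 3598)) (.a (.f (nat_lit 562) (nat_lit 563) (nat_lit 3599) (.f (nat_lit 591) (nat_lit 590) (nat_lit 1582) (.f (nat_lit 623) (nat_lit 655) (nat_lit 6671) (.f (nat_lit 594) (nat_lit 595) (nat_lit 559) (.f (nat_lit 593) (nat_lit 558) (nat_lit 558) (.d (nat_lit 622) (nat_lit 592) (nat_lit 1614) (nat_lit 654) (nat_lit 5646))))))) (.f (nat_lit 526) (nat_lit 525) (nat_lit 525) s17595)))) (.p (nat_lit 495) (.a (.d (nat_lit 463) (nat_lit 431) (nat_lit 4527) (nat_lit 592) (nat_lit 4559)) (.a (.d (nat_lit 592) (nat_lit 463) (nat_lit 4559) (nat_lit 624) (nat_lit 7663)) (.a (.f (nat_lit 463) (nat_lit 431) (nat_lit 4527) (.f (nat_lit 558) (nat_lit 590) (nat_lit 5582) (.f (nat_lit 557) (nat_lit 556) (nat_lit 2572) (.f (nat_lit 462) (nat_lit 430) (nat_lit 7598) (.f (nat_lit 494) (nat_lit 591) (nat_lit 7630) (.d (nat_lit 589) (nat_lit 526) (nat_lit 5581) (nat_lit 588) (nat_lit 1580))))))) (.f (nat_lit 592) (nat_lit 624) (nat_lit 7663) (.p (nat_lit 591) (.a (.f (nat_lit 623) (nat_lit 655) (nat_lit 6671) (.d (nat_lit 622) (nat_lit 590) (nat_lit 5614) (nat_lit 654) (nat_lit 5646))) (.a (.f (nat_lit 623) (nat_lit 655) (nat_lit 6671) (.d (nat_lit 494) (nat_lit 462) (nat_lit 7630) (nat_lit 526) (nat_lit 7662))) (.a (.f (nat_lit 590) (nat_lit 622) (nat_lit 5614) (.f (nat_lit 589) (nat_lit 588) (nat_lit 2604) (.f (nat_lit 557) (nat_lit 556) (nat_lit 3628) (.f (nat_lit 558) (nat_lit 593) (nat_lit 557) (.p (nat_lit 526) (.a (.d (nat_lit 494) (nat_lit 621) (nat_lit 5613) (nat_lit 623) (nat_lit 4590)) (.a (.d (nat_lit 494) (nat_lit 462) (nat_lit 7630) (nat_lit 623) (nat_lit 7662)) (.d (nat_lit 621) (nat_lit 620) (nat_lit 1612) (nat_lit 653) (nat_lit 6669))))))))) (.f (nat_lit 590) (nat_lit 622) (nat_lit 5614) (.f (nat_lit 589) (nat_lit 588) (nat_lit 2604) (.f (nat_lit 557) (nat_lit 556) (nat_lit 3628) (.f (nat_lit 558) (nat_lit 593) (nat_lit 557) (.f (nat_lit 621) (nat_lit 620) (nat_lit 1612) (.d (nat_lit 494) (nat_lit 462) (nat_lit 7630) (nat_lit 526) (nat_lit 5613))))))))))))))))))))))))))))))) (.a (.p (nat_lit 561) (.a (.p (nat_lit 562) (.a (.d (nat_lit 527) (nat_lit 526) (nat_lit 3598) (nat_lit 563) (nat_lit 3599)) (.a (.f (nat_lit 527) (nat_lit 526) (nat_lit 3598) (.f (nat_lit 591) (nat_lit 590) (nat_lit 1582) (.f (nat_lit 623) (nat_lit 655) (nat_lit 6671) (.f (nat_lit 594) (nat_lit 595) (nat_lit 559) (.f (nat_lit 593) (nat_lit 558) (nat_lit 558) (.d (nat_lit 622) (nat_lit 592) (nat_lit 1614) (nat_lit 654) (nat_lit 5646))))))) (.a (.f (nat_lit 563) (nat_lit 527) (nat_lit 3599) (.d (nat_lit 595) (nat_lit 594) (nat_lit 559) (nat_lit 596) (nat_lit 560))) (.f (nat_lit 591) (nat_lit 590) (nat_lit 1582) (.f (nat_lit 563) (nat_lit 592) (nat_lit 1583) (.d (nat_lit 595) (nat_lit 594) (nat_lit 559) (nat_lit 596) (nat_lit 560)))))))) (.a (.p (nat_lit 562) (.a (.d (nat_lit 527) (nat_lit 526) (nat_lit 3598) (nat_lit 563) (nat_lit 3599)) (.a (.f (nat_lit 526) (nat_lit 527) (nat_lit 3598) (.f (nat_lit 558) (nat_lit 525) (nat_lit 3597) (.d (nat_lit 594) (nat_lit 593) (nat_lit 558) (nat_lit 595) (nat_lit 559)))) (.a (.f (nat_lit 563) (nat_lit 527) (nat_lit 3599) (.d (nat_lit 595) (nat_lit 594) (nat_lit 559) (nat_lit 596) (nat_lit 560))) (.f (nat_lit 591) (nat_lit 590) (nat_lit 1582) (.f (nat_lit 563) (nat_lit 592) (nat_lit 1583) (.d (nat_lit 595) (nat_lit 594) (nat_lit 559) (nat_lit 596) (nat_lit 560)))))))) (.a (.p (nat_lit 562) (.a (.d (nat_lit 527) (nat_lit 526) (nat_lit 3598) (nat_lit 563) (nat_lit 3599)) (.a (.f (nat_lit 526) (nat_lit 527) (nat_lit 3598) (.f (nat_lit 558) (nat_lit 525) (nat_lit 3597) (.d (nat_lit 590) (nat_lit 589) (nat_lit 1581) (nat_lit 591) (nat_lit 1582)))) (.a (.f (nat_lit 563) (nat_lit 527) (nat_lit 3599) (.d (nat_lit 591) (nat_lit 590) (nat_lit 1582) (nat_lit 592) (nat_lit 1583))) (.f (nat_lit 591) (nat_lit 590) (nat_lit 1582) (.f (nat_lit 563) (nat_lit 592) (nat_lit 1583) (.d (nat_lit 531) (nat_lit 530) (nat_lit 2575) (nat_lit 532) (nat_lit 2576)))))))) (.a (.p (nat_lit 562) (.a (.d (nat_lit 527) (nat_lit 526) (nat_lit 3598) (nat_lit 563) (nat_lit 3599)) (.a (.f (nat_lit 526) (nat_lit 527) (nat_lit 3598) (.f (nat_lit 558) (nat_lit 525) (nat_lit 3597) (.d (nat_lit 594) (nat_lit 593) (nat_lit 558) (nat_lit 595) (nat_lit 559)))) (.a (.f (nat_lit 563) (nat_lit 527) (nat_lit 3599) (.d (nat_lit 595) (nat_lit 594) (nat_lit 559) (nat_lit 596) (nat_lit 560))) (.f (nat_lit 594) (nat_lit 595) (nat_lit 559) (.f (nat_lit 593) (nat_lit 558) (nat_lit 558) (.f (nat_lit 530) (nat_lit 531) (nat_lit 2575) (.d (nat_lit 498) (nat_lit 466) (nat_lit 5585) (nat_lit 625) (nat_lit 5617))))))))) (.a s17631 (.a s17637 (.a (.p (nat_lit 562) (.a (.f (nat_lit 563) (nat_lit 527) (nat_lit 3599) (.d (nat_lit 595) (nat_lit 594) (nat_lit 559) (nat_lit 596) (nat_lit 560))) (.a (.f (nat_lit 563) (nat_lit 527) (nat_lit 3599) (.d (nat_lit 591) (nat_lit 590) (nat_lit 1582) (nat_lit 592) (nat_lit 1583))) (.f (nat_lit 594) (nat_lit 595) (nat_lit 559) (.f (nat_lit 593) (nat_lit 558) (nat_lit 558) (.f (nat_lit 530) (nat_lit 531) (nat_lit 2575) (.d (nat_lit 498) (nat_lit 466) (nat_lit 5585) (nat_lit 625) (nat_lit 5617)))))))) (.a (.p (nat_lit 558) (.a (.f (nat_lit 526) (nat_lit 525) (nat_lit 3597) (.f (nat_lit 590) (nat_lit 589) (nat_lit 1581) (.p (nat_lit 591) (.a (.d (nat_lit 623) (nat_lit 494) (nat_lit 4590) (nat_lit 655) (nat_lit 7694)) (.a (.d (nat_lit 494) (nat_lit 462) (nat_lit 4558) (nat_lit 623) (nat_lit 4590)) (.a (.f (nat_lit 623) (nat_lit 655) (nat_lit 6671) (.f (nat_lit 593) (nat_lit 594) (nat_lit 558) (.p (nat_lit 527) (.a (.d (nat_lit 557) (nat_lit 556) (nat_lit 2572) (nat_lit 592) (nat_lit 557)) (.d (nat_lit 495) (nat_lit 463) (nat_lit 5582) (nat_lit 622) (nat_lit 5614)))))) (.f (nat_lit 593) (nat_lit 594) (nat_lit 558) (.f (nat_lit 557) (nat_lit 592) (nat_lit 557) (.d (nat_lit 556) (nat_lit 527) (nat_lit 2572) (nat_lit 555) (nat_lit 555)))))))))) (.a (.f (nat_lit 593) (nat_lit 594) (nat_lit 558) (.f (nat_lit 557) (nat_lit 592) (nat_lit 557) (.d (nat_lit 589) (nat_lit 588) (nat_lit 1580) (nat_lit 590) (nat_lit 1581)))) (.a (.f (nat_lit 526) (nat_lit 525) (nat_lit 3597) (.f (nat_lit 590) (nat_lit 589) (nat_lit 1581) (.p (nat_lit 591) (.a (.d (nat_lit 494) (nat_lit 462) (nat_lit 4558) (nat_lit 623) (nat_lit 4590)) (.a (.d (nat_lit 623) (nat_lit 494) (nat_lit 4590) (nat_lit 655) (nat_lit 7694)) (.a (.f (nat_lit 623) (nat_lit 655) (nat_lit 6671) (.p (nat_lit 622) (.a (.d (nat_lit 527) (nat_lit 495) (nat_lit 5614) (nat_lit 654) (nat_lit 5646)) (.p (nat_lit 592) (.a (.d (nat_lit 557) (nat_lit 556) (nat_lit 556) (nat_lit 593) (nat_lit 557)) (.a (.d (nat_lit 593) (nat_lit 557) (nat_lit 3629) (nat_lit 621) (nat_lit 1613)) (.a (.d (nat_lit 621) (nat_lit 593) (nat_lit 1613) (nat_lit 653) (nat_lit 5645)) (.d (nat_lit 621) (nat_lit 620) (nat_lit 2636) (nat_lit 653) (nat_lit 5645))))))))) (.f (nat_lit 494) (nat_lit 462) (nat_lit 4558) (.f (nat_lit 495) (nat_lit 463) (nat_lit 6606) (.f (nat_lit 527) (nat_lit 622) (nat_lit 5614) (.d (nat_lit 493) (nat_lit 461) (nat_lit 7629) (nat_lit 492) (nat_lit 492))))))))))) (.a (.f (nat_lit 593) (nat_lit 594) (nat_lit 558) (.f (nat_lit 557) (nat_lit 592) (nat_lit 557) (.d (nat_lit 525) (nat_lit 524) (nat_lit 3596) (nat_lit 526) (nat_lit 3597)))) s17667))))) (.p (nat_lit 558) (.a (.f (nat_lit 590) (nat_lit 589) (nat_lit 1581) (.f (nat_lit 591) (nat_lit 562) (nat_lit 1582) (.f (nat_lit 526) (nat_lit 525) (nat_lit 3597) (.d (nat_lit 494) (nat_lit 462) (nat_lit 4558) (nat_lit 623) (nat_lit 4590))))) (.a (.f (nat_lit 593) (nat_lit 594) (nat_lit 558) (.f (nat_lit 557) (nat_lit 592) (nat_lit 557) (.d (nat_lit 589) (nat_lit 588) (nat_lit 1580) (nat_lit 590) (nat_lit 1581)))) (.f (nat_lit 593) (nat_lit 594) (nat_lit 558) (.f (nat_lit 557) (nat_lit 592) (nat_lit 557) (.d (nat_lit 525) (nat_lit 524) (nat_lit 3596) (nat_lit 526) (nat_lit 3597)))))))))))))))) (.a (.p (nat_lit 558) (.a (.p (nat_lit 557) (.a (.f (nat_lit 525) (nat_lit 524) (nat_lit 3596) (.f (nat_lit 527) (nat_lit 556) (nat_lit 2572) (.f (nat_lit 561) (nat_lit 526) (nat_lit 525) (.d (nat_lit 593) (nat_lit 592) (nat_lit 557) (nat_lit 594) (nat_lit 558))))) (.a (.f (nat_lit 525) (nat_lit 524) (nat_lit 3596) (.f (nat_lit 561) (nat_lit 526) (nat_lit 3597) (.d (nat_lit 593) (nat_lit 592) (nat_lit 557) (nat_lit 594) (nat_lit 558)))) (.a (.f (nat_lit 525) (nat_lit 524) (nat_lit 3596) (.f (nat_lit 526) (nat_lit 561) (nat_lit 3597) (.f (nat_lit 527) (nat_lit 556) (nat_lit 1548) (.f (nat_lit 493) (nat_lit 492) (nat_lit 3564) (.d (nat_lit 461) (nat_lit 429) (nat_lit 4525) (nat_lit 590) (nat_lit 4557)))))) (.f (nat_lit 556) (nat_lit 527) (nat_lit 2572) (.d (nat_lit 588) (nat_lit 587) (nat_lit 1579) (nat_lit 589) (nat_lit 1580))))))) (.a (.p (nat_lit 561) (.a (.f (nat_lit 526) (nat_lit 525) (nat_lit 3597) (.f (nat_lit 562) (nat_lit 527) (nat_lit 3598) (.d (nat_lit 594) (nat_lit 593) (nat_lit 558) (nat_lit 595) (nat_lit 559)))) (.a (.f (nat_lit 526) (nat_lit 525) (nat_lit 3597) (.f (nat_lit 527) (nat_lit 562) (nat_lit 3598) (.f (nat_lit 590) (nat_lit 589) (nat_lit 1581) (.d (nat_lit 495) (nat_lit 463) (nat_lit 5582) (nat_lit 622) (nat_lit 6638))))) (.f (nat_lit 593) (nat_lit 594) (nat_lit 558) (.f (nat_lit 557) (nat_lit 592) (nat_lit 557) (.d (nat_lit 589) (nat_lit 588) (nat_lit 1580) (nat_lit 590) (nat_lit 1581))))))) (.a (.p (nat_lit 557) (.a (.f (nat_lit 525) (nat_lit 524) (nat_lit 3596) (.f (nat_lit 526) (nat_lit 561) (nat_lit 3597) (.f (nat_lit 527) (nat_lit 556) (nat_lit 1548) (.f (nat_lit 493) (nat_lit 492) (nat_lit 3564) (.d (nat_lit 461) (nat_lit 429) (nat_lit 4525) (nat_lit 590) (nat_lit 4557)))))) (.a (.f (nat_lit 525) (nat_lit 524) (nat_lit 3596) (.f (nat_lit 589) (nat_lit 588) (nat_lit 1580) (.d (nat_lit 561) (nat_lit 526) (nat_lit 3597) (nat_lit 590) (nat_lit 1581)))) (.f (nat_lit 556) (nat_lit 527) (nat_lit 2572) (.d (nat_lit 588) (nat_lit 587) (nat_lit 1579) (nat_lit 589) (nat_lit 1580)))))) (.a (.p (nat_lit 557) (.a (.f (nat_lit 556) (nat_lit 527) (nat_lit 2572) (.d (nat_lit 588) (nat_lit 587) (nat_lit 1579) (nat_lit 589) (nat_lit 1580))) (.f (nat_lit 525) (nat_lit 524) (nat_lit 3596) (.f (nat_lit 561) (nat_lit 526) (nat_lit 3597) (.d (nat_lit 593) (nat_lit 592) (nat_lit 557) (nat_lit 594) (nat_lit 558)))))) (.a (.p (nat_lit 527) (.a (.f (nat_lit 557) (nat_lit 556) (nat_lit 2572) (.f (nat_lit 525) (nat_lit 524) (nat_lit 3596) (.f (nat_lit 526) (nat_lit 561) (nat_lit 525) (.f (nat_lit 493) (nat_lit 492) (nat_lit 3564) (.d (nat_lit 461) (nat_lit 429) (nat_lit 4525) (nat_lit 590) (nat_lit 4557)))))) (.a (.p (nat_lit 561) (.a (.d (nat_lit 526) (nat_lit 525) (nat_lit 3597) (nat_lit 562) (nat_lit 3598)) (.f (nat_lit 593) (nat_lit 594) (nat_lit 558) (.f (nat_lit 592) (nat_lit 557) (nat_lit 557) (.d (nat_lit 495) (nat_lit 463) (nat_lit 4559) (nat_lit 624) (nat_lit 7663)))))) (.a (.f (nat_lit 557) (nat_lit 556) (nat_lit 2572) (.f (nat_lit 592) (nat_lit 593) (nat_lit 557) (.d (nat_lit 495) (nat_lit 463) (nat_lit 4559) (nat_lit 624) (nat_lit 7663)))) (.p (nat_lit 526) (.a (.d (nat_lit 525) (nat_lit 524) (nat_lit 524) (nat_lit 561) (nat_lit 525)) (.a (.f (nat_lit 561) (nat_lit 562) (nat_lit 3598) (.f (nat_lit 593) (nat_lit 594) (nat_lit 558) (.p (nat_lit 590) (.a (.d (nat_lit 495) (nat_lit 463) (nat_lit 5582) (nat_lit 622) (nat_lit 6638)) (.a (.p (nat_lit 494) (.a (.f (nat_lit 495) (nat_lit 463) (nat_lit 5582) (.d (nat_lit 493) (nat_lit 461) (nat_lit 7629) (nat_lit 492) (nat_lit 492))) (.a (.f (nat_lit 463) (nat_lit 495) (nat_lit 5582) (.d (nat_lit 462) (nat_lit 430) (nat_lit 4526) (nat_lit 431) (nat_lit 6574))) (.f (nat_lit 461) (nat_lit 493) (nat_lit 7629) (.d (nat_lit 462) (nat_lit 429) (nat_lit 7597) (nat_lit 430) (nat_lit 4526)))))) (.a (.d (nat_lit 622) (nat_lit 495) (nat_lit 6638) (nat_lit 654) (nat_lit 6670)) (.f (nat_lit 622) (nat_lit 654) (nat_lit 6670) (.f (nat_lit 623) (nat_lit 655) (nat_lit 4622) (.f (nat_lit 621) (nat_lit 653) (nat_lit 5645) (.f (nat_lit 624) (nat_lit 592) (nat_lit 2637) (.d (nat_lit 657) (nat_lit 625) (nat_lit 7696) (nat_lit 656) (nat_lit 621)))))))))))) (.p (nat_lit 495) (.a (.d (nat_lit 463) (nat_lit 431) (nat_lit 4527) (nat_lit 592) (nat_lit 4559)) (.a (.d (nat_lit 592) (nat_lit 463) (nat_lit 4559) (nat_lit 624) (nat_lit 7663)) (.a (.d (nat_lit 463) (nat_lit 431) (nat_lit 4527) (nat_lit 590) (nat_lit 5582)) (.f (nat_lit 525) (nat_lit 524) (nat_lit 524) (.f (nat_lit 493) (nat_lit 492) (nat_lit 3564) (.f (nat_lit 590) (nat_lit 622) (nat_lit 6638) (.d (nat_lit 461) (nat_lit 429) (nat_lit 4525) (nat_lit 494) (nat_lit 7629)))))))))))))))) (.a (.p (nat_lit 557) (.a (.f (nat_lit 556) (nat_lit 527) (nat_lit 2572) (.d (nat_lit 588) (nat_lit 587) (nat_lit 1579) (nat_lit 589) (nat_lit 1580))) (.a (.f (nat_lit 589) (nat_lit 588) (nat_lit 1580) (.f (nat_lit 525) (nat_lit 524) (nat_lit 3596) (.f (nat_lit 590) (nat_lit 561) (nat_lit 1581) (.d (nat_lit 493) (nat_lit 461) (nat_lit 4557) (nat_lit 622) (nat_lit 4589))))) (.f (nat_lit 556) (nat_lit 527) (nat_lit 2572) (.d (nat_lit 524) (nat_lit 523) (nat_lit 3595) (nat_lit 525) (nat_lit 3596)))))) (.a (.p (nat_lit 590) (.a (.f (nat_lit 561) (nat_lit 589) (nat_lit 1581) (.f (nat_lit 526) (nat_lit 525) (nat_lit 3597) (.f (nat_lit 527) (nat_lit 562) (nat_lit 3598) (.d (nat_lit 495) (nat_lit 463) (nat_lit 5582) (nat_lit 622) (nat_lit 6638))))) (.a (.f (nat_lit 561) (nat_lit 589) (nat_lit 1581) (.f (nat_lit 526) (nat_lit 525) (nat_lit 3597) (.f (nat_lit 562) (nat_lit 527) (nat_lit 3598) (.d (nat_lit 594) (nat_lit 593) (nat_lit 558) (nat_lit 595) (nat_lit 559))))) (.a (.p (nat_lit 526) (.a (.f (nat_lit 525) (nat_lit 561) (nat_lit 3597) (.d (nat_lit 524) (nat_lit 523) (nat_lit 523) (nat_lit 527) (nat_lit 524))) (.a (.p (nat_lit 527) (.a (.d (nat_lit 495) (nat_lit 463) (nat_lit 5582) (nat_lit 622) (nat_lit 6638)) (.a (.f (nat_lit 561) (nat_lit 562) (nat_lit 3598) (.f (nat_lit 593) (nat_lit 594) (nat_lit 558) (.p (nat_lit 494) (.a (.f (nat_lit 495) (nat_lit 463) (nat_lit 5582) (.d (nat_lit 493) (nat_lit 461) (nat_lit 7629) (nat_lit 492) (nat_lit 492))) (.a (.f (nat_lit 463) (nat_lit 495) (nat_lit 5582) (.d (nat_lit 462) (nat_lit 430) (nat_lit 4526) (nat_lit 431) (nat_lit 6574))) (.f (nat_lit 461) (nat_lit 493) (nat_lit 7629) (.d (nat_lit 462) (nat_lit 429) (nat_lit 7597) (nat_lit 430) (nat_lit 4526)))))))) (.a (.d (nat_lit 622) (nat_lit 495) (nat_lit 6638) (nat_lit 654) (nat_lit 6670)) (.f (nat_lit 561) (nat_lit 562) (nat_lit 3598) (.f (nat_lit 622) (nat_lit 654) (nat_lit 6670) (.f (nat_lit 593) (nat_lit 594) (nat_lit 558) (.f (nat_lit 623) (nat_lit 655) (nat_lit 4622) (.f (nat_lit 621) (nat_lit 653) (nat_lit 5645) (.f (nat_lit 624) (nat_lit 592) (nat_lit 2637) (.d (nat_lit 657) (nat_lit 625) (nat_lit 7696) (nat_lit 656) (nat_lit 621)))))))))))) (.a (.p (nat_lit 527) (.a (.d (nat_lit 495) (nat_lit 463) (nat_lit 5582) (nat_lit 622) (nat_lit 6638)) (.a (.f (nat_lit 495) (nat_lit 463) (nat_lit 5582) (.f (nat_lit 525) (nat_lit 524) (nat_lit 524) (.f (nat_lit 493) (nat_lit 492) (nat_lit 3564) (.d (nat_lit 461) (nat_lit 429) (nat_lit 4525) (nat_lit 494) (nat_lit 7629))))) (.a (.d (nat_lit 622) (nat_lit 495) (nat_lit 6638) (nat_lit 654) (nat_lit 6670)) (.f (nat_lit 525) (nat_lit 524) (nat_lit 524) (.d (nat_lit 493) (nat_lit 492) (nat_lit 3564) (nat_lit 622) (nat_lit 7661))))))) (.f (nat_lit 525) (nat_lit 561) (nat_lit 3597) (.f (nat_lit 493) (nat_lit 622) (nat_lit 7661) (.d (nat_lit 461) (nat_lit 429) (nat_lit 4525) (nat_lit 494) (nat_lit 7629)))))))) (.a (.f (nat_lit 561) (nat_lit 589) (nat_lit 1581) (.f (nat_lit 594) (nat_lit 593) (nat_lit 558) (.f (nat_lit 562) (nat_lit 595) (nat_lit 559) (.f (nat_lit 563) (nat_lit 527) (nat_lit 3599) (.d (nat_lit 531) (nat_lit 530) (nat_lit 2575) (nat_lit 532) (nat_lit 2576)))))) (.a (.f (nat_lit 561) (nat_lit 589) (nat_lit 1581) (.f (nat_lit 526) (nat_lit 525) (nat_lit 3597) (.f (nat_lit 593) (nat_lit 594) (nat_lit 558) (.p (nat_lit 622) (.a (.d (nat_lit 527) (nat_lit 495) (nat_lit 6638) (nat_lit 654) (nat_lit 6670)) (.a (.f (nat_lit 495) (nat_lit 527) (nat_lit 6638) (.f (nat_lit 623) (nat_lit 655) (nat_lit 4622) (.f (nat_lit 621) (nat_lit 653) (nat_lit 5645) (.f (nat_lit 624) (nat_lit 592) (nat_lit 2637) (.d (nat_lit 657) (nat_lit 625) (nat_lit 7696) (nat_lit 656) (nat_lit 621)))))) (.a (.f (nat_lit 654) (nat_lit 527) (nat_lit 6670) (.d (nat_lit 655) (nat_lit 623) (nat_lit 4622) (nat_lit 687) (nat_lit 4654))) (.f (nat_lit 655) (nat_lit 623) (nat_lit 4622) (.f (nat_lit 654) (nat_lit 687) (nat_lit 4654) (.d (nat_lit 653) (nat_lit 621) (nat_lit 5645) (nat_lit 685) (nat_lit 5677))))))))))) (.a (.p (nat_lit 622) (.a (.f (nat_lit 527) (nat_lit 654) (nat_lit 6670) (.d (nat_lit 495) (nat_lit 463) (nat_lit 5582) (nat_lit 526) (nat_lit 6638))) (.a (.p (nat_lit 526) (.a (.f (nat_lit 527) (nat_lit 495) (nat_lit 6638) (.d (nat_lit 525) (nat_lit 493) (nat_lit 7661) (nat_lit 524) (nat_lit 524))) (.a (.f (nat_lit 527) (nat_lit 495) (nat_lit 6638) (.f (nat_lit 621) (nat_lit 653) (nat_lit 5645) (.f (nat_lit 623) (nat_lit 655) (nat_lit 4622) (.f (nat_lit 589) (nat_lit 494) (nat_lit 5613) (.d (nat_lit 588) (nat_lit 587) (nat_lit 587) (nat_lit 624) (nat_lit 3660)))))) (.a (.f (nat_lit 525) (nat_lit 493) (nat_lit 7661) (.d (nat_lit 524) (nat_lit 523) (nat_lit 523) (nat_lit 527) (nat_lit 524))) (.f (nat_lit 621) (nat_lit 653) (nat_lit 5645) (.f (nat_lit 494) (nat_lit 589) (nat_lit 5613) (.d (nat_lit 493) (nat_lit 461) (nat_lit 7629) (nat_lit 525) (nat_lit 7661)))))))) (.a (.f (nat_lit 654) (nat_lit 527) (nat_lit 6670) (.f (nat_lit 655) (nat_lit 687) (nat_lit 4654) (.f (nat_lit 653) (nat_lit 685) (nat_lit 5677) (.p (nat_lit 623) (.a (.d (nat_lit 624) (nat_lit 592) (nat_lit 5647) (nat_lit 652) (nat_lit 2668)) (.a (.p (nat_lit 620) (.a (.d (nat_lit 621) (nat_lit 619) (nat_lit 619) (nat_lit 656) (nat_lit 620)) (.a (.d (nat_lit 652) (nat_lit 619) (nat_lit 3691) (nat_lit 651) (nat_lit 2667)) (.f (nat_lit 656) (nat_lit 621) (nat_lit 620) (.f (nat_lit 657) (nat_lit 658) (nat_lit 3694) (.d (nat_lit 689) (nat_lit 688) (nat_lit 653) (nat_lit 690) (nat_lit 654))))))) (.d (nat_lit 624) (nat_lit 592) (nat_lit 5647) (nat_lit 625) (nat_lit 1645)))))))) s17802)))) (.p (nat_lit 622) (.a (.f (nat_lit 561) (nat_lit 589) (nat_lit 1581) (.f (nat_lit 526) (nat_lit 525) (nat_lit 3597) (.f (nat_lit 655) (nat_lit 623) (nat_lit 4622) (.f (nat_lit 654) (nat_lit 687) (nat_lit 4654) (.d (nat_lit 653) (nat_lit 621) (nat_lit 5645) (nat_lit 685) (nat_lit 5677)))))) (.a (.f (nat_lit 561) (nat_lit 589) (nat_lit 1581) (.f (nat_lit 526) (nat_lit 525) (nat_lit 3597) (.f (nat_lit 593) (nat_lit 594) (nat_lit 558) (.f (nat_lit 655) (nat_lit 623) (nat_lit 4622) (.f (nat_lit 654) (nat_lit 687) (nat_lit 4654) (.f (nat_lit 685) (nat_lit 653) (nat_lit 5677) (.f (nat_lit 657) (nat_lit 625) (nat_lit 7696) (.d (nat_lit 686) (nat_lit 656) (nat_lit 1677) (nat_lit 717) (nat_lit 5709))))))))) (.a (.p (nat_lit 526) (.a (.d (nat_lit 561) (nat_lit 525) (nat_lit 3597) (nat_lit 589) (nat_lit 1581)) (.a (.d (nat_lit 525) (nat_lit 493) (nat_lit 7661) (nat_lit 561) (nat_lit 3597)) (.a (.f (nat_lit 589) (nat_lit 561) (nat_lit 1581) (.d (nat_lit 621) (nat_lit 494) (nat_lit 5613) (nat_lit 653) (nat_lit 5645))) (.f (nat_lit 621) (nat_lit 653) (nat_lit 5645) (.f (nat_lit 494) (nat_lit 589) (nat_lit 5613) (.d (nat_lit 493) (nat_lit 461) (nat_lit 7629) (nat_lit 525) (nat_lit 7661)))))))) (.a (.p (nat_lit 526) (.a (.d (nat_lit 525) (nat_lit 493) (nat_lit 7661) (nat_lit 561) (nat_lit 3597)) (.a (.f (nat_lit 561) (nat_lit 525) (nat_lit 3597) (.f (nat_lit 593) (nat_lit 594) (nat_lit 558) (.f (nat_lit 655) (nat_lit 623) (nat_lit 4622) (.f (nat_lit 654) (nat_lit 687) (nat_lit 4654) (.d (nat_lit 653) (nat_lit 621) (nat_lit 5645) (nat_lit 685) (nat_lit 5677)))))) (.f (nat_lit 655) (nat_lit 623) (nat_lit 4622) (.f (nat_lit 654) (nat_lit 687) (nat_lit 4654) (.d (nat_lit 653) (nat_lit 621) (nat_lit 5645) (nat_lit 685) (nat_lit 5677))))))) (.a (.f (nat_lit 589) (nat_lit 561) (nat_lit 1581) (.p (nat_lit 621) (.a (.f (nat_lit 588) (nat_lit 587) (nat_lit 2603) (.f (nat_lit 653) (nat_lit 685) (nat_lit 6701) (.p (nat_lit 620) (.a (.p (nat_lit 655) (.a (.d (nat_lit 619) (nat_lit 618) (nat_lit 2634) (nat_lit 654) (nat_lit 619)) (.d (nat_lit 623) (nat_lit 624) (nat_lit 3660) (nat_lit 656) (nat_lit 620)))) (.a (.p (nat_lit 655) (.a (.d (nat_lit 619) (nat_lit 618) (nat_lit 2634) (nat_lit 654) (nat_lit 619)) (.a (.p (nat_lit 651) (.a (.d (nat_lit 619) (nat_lit 618) (nat_lit 2634) (nat_lit 650) (nat_lit 1642)) (.d (nat_lit 623) (nat_lit 652) (nat_lit 1643) (nat_lit 656) (nat_lit 620)))) (.d (nat_lit 654) (nat_lit 656) (nat_lit 3692) (nat_lit 687) (nat_lit 4654))))) (.a (.p (nat_lit 651) (.a (.d (nat_lit 619) (nat_lit 618) (nat_lit 2634) (nat_lit 650) (nat_lit 1642)) (.a (.d (nat_lit 652) (nat_lit 623) (nat_lit 1643) (nat_lit 650) (nat_lit 2666)) (.d (nat_lit 623) (nat_lit 624) (nat_lit 3660) (nat_lit 652) (nat_lit 1643))))) (.a (.p (nat_lit 651) (.a (.d (nat_lit 619) (nat_lit 618) (nat_lit 2634) (nat_lit 650) (nat_lit 1642)) (.a (.f (nat_lit 556) (nat_lit 524) (nat_lit 4620) (.d (nat_lit 652) (nat_lit 650) (nat_lit 2666) (nat_lit 683) (nat_lit 5675))) (.p (nat_lit 683) (.a (.d (nat_lit 619) (nat_lit 618) (nat_lit 2634) (nat_lit 715) (nat_lit 6731)) (.d (nat_lit 556) (nat_lit 524) (nat_lit 4620) (nat_lit 652) (nat_lit 5675))))))) (.f (nat_lit 623) (nat_lit 624) (nat_lit 3660) (.f (nat_lit 655) (nat_lit 656) (nat_lit 620) (.d (nat_lit 687) (nat_lit 654) (nat_lit 4654) (nat_lit 719) (nat_lit 7758))))))))))) (.a (.f (nat_lit 588) (nat_lit 587) (nat_lit 2603) (.f (nat_lit 653) (nat_lit 685) (nat_lit 6701) (.f (nat_lit 623) (nat_lit 624) (nat_lit 3660) (.p (nat_lit 620) (.a (.f (nat_lit 619) (nat_lit 618) (nat_lit 2634) (.d (nat_lit 651) (nat_lit 650) (nat_lit 1642) (nat_lit 652) (nat_lit 1643))) (.a (.f (nat_lit 619) (nat_lit 618) (nat_lit 2634) (.d (nat_lit 655) (nat_lit 654) (nat_lit 619) (nat_lit 656) (nat_lit 620))) (.f (nat_lit 655) (nat_lit 656) (nat_lit 620) (.d (nat_lit 687) (nat_lit 654) (nat_lit 4654) (nat_lit 719) (nat_lit 7758))))))))) (.a (.f (nat_lit 588) (nat_lit 587) (nat_lit 2603) (.f (nat_lit 685) (nat_lit 653) (nat_lit 6701) (.p (nat_lit 654) (.a (.d (nat_lit 686) (nat_lit 717) (nat_lit 5709) (nat_lit 718) (nat_lit 7757)) (.f (nat_lit 655) (nat_lit 687) (nat_lit 4654) (.f (nat_lit 620) (nat_lit 619) (nat_lit 619) (.d (nat_lit 656) (nat_lit 623) (nat_lit 620) (nat_lit 657) (nat_lit 3693)))))))) (.a (.f (nat_lit 685) (nat_lit 653) (nat_lit 6701) (.p (nat_lit 686) (.a (.d (nat_lit 654) (nat_lit 717) (nat_lit 5709) (nat_lit 718) (nat_lit 7757)) (.a (.p (nat_lit 620) (.a (.f (nat_lit 587) (nat_lit 588) (nat_lit 2603) (.d (nat_lit 619) (nat_lit 586) (nat_lit 3658) (nat_lit 618) (nat_lit 2634))) (.a (.p (nat_lit 651) (.a (.d (nat_lit 619) (nat_lit 618) (nat_lit 2634) (nat_lit 650) (nat_lit 1642)) (.f (nat_lit 652) (nat_lit 623) (nat_lit 1643) (.d (nat_lit 684) (nat_lit 687) (nat_lit 3723) (nat_lit 716) (nat_lit 6732))))) (.f (nat_lit 588) (nat_lit 587) (nat_lit 2603) (.p (nat_lit 652) (.a (.d (nat_lit 684) (nat_lit 716) (nat_lit 6732) (nat_lit 717) (nat_lit 4684)) (.d (nat_lit 623) (nat_lit 624) (nat_lit 3660) (nat_lit 651) (nat_lit 1643)))))))) (.p (nat_lit 684) (.a (.p (nat_lit 719) (.a (.d (nat_lit 654) (nat_lit 687) (nat_lit 4686) (nat_lit 718) (nat_lit 7757)) (.a (.p (nat_lit 651) (.a (.d (nat_lit 683) (nat_lit 650) (nat_lit 3722) (nat_lit 718) (nat_lit 683)) (.d (nat_lit 687) (nat_lit 652) (nat_lit 3723) (nat_lit 720) (nat_lit 684)))) (.a (.d (nat_lit 718) (nat_lit 654) (nat_lit 7757) (nat_lit 683) (nat_lit 683)) (.d (nat_lit 687) (nat_lit 654) (nat_lit 4686) (nat_lit 720) (nat_lit 684)))))) (.a (.p (nat_lit 620) (.a (.f (nat_lit 587) (nat_lit 588) (nat_lit 2603) (.d (nat_lit 619) (nat_lit 586) (nat_lit 3658) (nat_lit 618) (nat_lit 2634))) (.a (.p (nat_lit 651) (.a (.d (nat_lit 619) (nat_lit 618) (nat_lit 2634) (nat_lit 650) (nat_lit 1642)) (.d (nat_lit 652) (nat_lit 623) (nat_lit 1643) (nat_lit 716) (nat_lit 6732)))) (.p (nat_lit 623) (.a (.d (nat_lit 588) (nat_lit 587) (nat_lit 3659) (nat_lit 624) (nat_lit 3660)) (.d (nat_lit 652) (nat_lit 651) (nat_lit 1643) (nat_lit 716) (nat_lit 6732))))))) (.p (nat_lit 719) (.a (.d (nat_lit 654) (nat_lit 687) (nat_lit 4686) (nat_lit 718) (nat_lit 7757)) (.a (.p (nat_lit 715) (.a (.d (nat_lit 683) (nat_lit 714) (nat_lit 1706) (nat_lit 718) (nat_lit 683)) (.d (nat_lit 687) (nat_lit 716) (nat_lit 1707) (nat_lit 720) (nat_lit 684)))) (.a (.d (nat_lit 718) (nat_lit 654) (nat_lit 7757) (nat_lit 683) (nat_lit 683)) (.d (nat_lit 687) (nat_lit 654) (nat_lit 4686) (nat_lit 720) (nat_lit 684))))))))))))) (.a (.p (nat_lit 623) (.a (.d (nat_lit 588) (nat_lit 587) (nat_lit 587) (nat_lit 624) (nat_lit 3660)) (.a (.p (nat_lit 620) (.a (.f (nat_lit 588) (nat_lit 587) (nat_lit 2603) (.f (nat_lit 653) (nat_lit 685) (nat_lit 6701) (.f (nat_lit 619) (nat_lit 618) (nat_lit 2634) (.d (nat_lit 651) (nat_lit 650) (nat_lit 1642) (nat_lit 652) (nat_lit 1643))))) (.a (.f (nat_lit 619) (nat_lit 618) (nat_lit 2634) (.d (nat_lit 651) (nat_lit 650) (nat_lit 1642) (nat_lit 652) (nat_lit 1643))) (.a (.f (nat_lit 587) (nat_lit 588) (nat_lit 2603) (.d (nat_lit 619) (nat_lit 586) (nat_lit 3658) (nat_lit 618) (nat_lit 2634))) (.f (nat_lit 588) (nat_lit 587) (nat_lit 2603) (.f (nat_lit 685) (nat_lit 653) (nat_lit 6701) (.f (nat_lit 652) (nat_lit 651) (nat_lit 1643) (.d (nat_lit 684) (nat_lit 716) (nat_lit 6732) (nat_lit 717) (nat_lit 4684))))))))) (.f (nat_lit 624) (nat_lit 625) (nat_lit 3661) (.d (nat_lit 653) (nat_lit 652) (nat_lit 1644) (nat_lit 685) (nat_lit 6701)))))) (.a (.f (nat_lit 588) (nat_lit 587) (nat_lit 2603) (.f (nat_lit 624) (nat_lit 623) (nat_lit 3660) (.p (nat_lit 654) (.a (.f (nat_lit 685) (nat_lit 653) (nat_lit 5677) (.d (nat_lit 686) (nat_lit 717) (nat_lit 5709) (nat_lit 718) (nat_lit 7757))) (.a (.f (nat_lit 687) (nat_lit 655) (nat_lit 4654) (.d (nat_lit 686) (nat_lit 718) (nat_lit 7757) (nat_lit 719) (nat_lit 4686))) (.f (nat_lit 653) (nat_lit 685) (nat_lit 5677) (.f (nat_lit 655) (nat_lit 687) (nat_lit 4654) (.d (nat_lit 656) (nat_lit 625) (nat_lit 2669) (nat_lit 657) (nat_lit 3693))))))))) (.a (.f (nat_lit 653) (nat_lit 685) (nat_lit 6701) (.p (nat_lit 623) (.a (.f (nat_lit 652) (nat_lit 624) (nat_lit 1644) (.d (nat_lit 651) (nat_lit 620) (nat_lit 1643) (nat_lit 650) (nat_lit 2666))) (.a (.p (nat_lit 620) (.a (.f (nat_lit 619) (nat_lit 618) (nat_lit 2634) (.d (nat_lit 651) (nat_lit 650) (nat_lit 1642) (nat_lit 652) (nat_lit 1643))) (.a (.f (nat_lit 619) (nat_lit 618) (nat_lit 2634) (.d (nat_lit 655) (nat_lit 654) (nat_lit 619) (nat_lit 656) (nat_lit 620))) (.f (nat_lit 655) (nat_lit 656) (nat_lit 620) (.d (nat_lit 687) (nat_lit 654) (nat_lit 4654) (nat_lit 719) (nat_lit 7758)))))) (.a (.d (nat_lit 624) (nat_lit 625) (nat_lit 3661) (nat_lit 652) (nat_lit 1644)) (.p (nat_lit 655) (.a (.d (nat_lit 687) (nat_lit 654) (nat_lit 4654) (nat_lit 719) (nat_lit 7758)) (.d (nat_lit 624) (nat_lit 592) (nat_lit 5647) (nat_lit 625) (nat_lit 3661))))))))) (.a (.f (nat_lit 588) (nat_lit 587) (nat_lit 2603) (.f (nat_lit 623) (nat_lit 624) (nat_lit 3660) (.p (nat_lit 620) (.a (.f (nat_lit 619) (nat_lit 618) (nat_lit 2634) (.d (nat_lit 651) (nat_lit 650) (nat_lit 1642) (nat_lit 652) (nat_lit 1643))) (.a (.f (nat_lit 619) (nat_lit 618) (nat_lit 2634) (.d (nat_lit 655) (nat_lit 654) (nat_lit 619) (nat_lit 656) (nat_lit 620))) (.f (nat_lit 655) (nat_lit 656) (nat_lit 620) (.d (nat_lit 687) (nat_lit 654) (nat_lit 4654) (nat_lit 719) (nat_lit 7758)))))))) (.f (nat_lit 588) (nat_lit 587) (nat_lit 2603) (.p (nat_lit 654) (.a (.f (nat_lit 653) (nat_lit 685) (nat_lit 5677) (.f (nat_lit 655) (nat_lit 687) (nat_lit 4654) (.d (nat_lit 620) (nat_lit 619) (nat_lit 619) (nat_lit 656) (nat_lit 3692)))) (.a (.f (nat_lit 685) (nat_lit 653) (nat_lit 5677) (.d (nat_lit 686) (nat_lit 717) (nat_lit 5709) (nat_lit 718) (nat_lit 7757))) (.f (nat_lit 687) (nat_lit 655) (nat_lit 4654) (.d (nat_lit 686) (nat_lit 718) (nat_lit 7757) (nat_lit 719) (nat_lit 4686))))))))))))))))) (.a (.f (nat_lit 589) (nat_lit 561) (nat_lit 1581) (.f (nat_lit 588) (nat_lit 587) (nat_lit 2603) (.p (nat_lit 623) (.a (.f (nat_lit 655) (nat_lit 526) (nat_lit 4622) (.d (nat_lit 687) (nat_lit 654) (nat_lit 4654) (nat_lit 719) (nat_lit 7758))) (.d (nat_lit 624) (nat_lit 621) (nat_lit 3660) (nat_lit 625) (nat_lit 3661)))))) s17802)))))))))))))) (.a (.p (nat_lit 557) (.a (.f (nat_lit 556) (nat_lit 527) (nat_lit 2572) (.d (nat_lit 588) (nat_lit 587) (nat_lit 1579) (nat_lit 589) (nat_lit 1580))) (.a (.f (nat_lit 589) (nat_lit 588) (nat_lit 1580) (.f (nat_lit 561) (nat_lit 590) (nat_lit 1581) (.d (nat_lit 593) (nat_lit 592) (nat_lit 557) (nat_lit 594) (nat_lit 558)))) (.a (.f (nat_lit 556) (nat_lit 527) (nat_lit 2572) (.f (nat_lit 593) (nat_lit 592) (nat_lit 557) (.f (nat_lit 561) (nat_lit 594) (nat_lit 558) (.f (nat_lit 523) (nat_lit 524) (nat_lit 3595) (.f (nat_lit 555) (nat_lit 522) (nat_lit 3594) (.d (nat_lit 587) (nat_lit 586) (nat_lit 1578) (nat_lit 588) (nat_lit 1579))))))) (.f (nat_lit 527) (nat_lit 556) (nat_lit 2572) (.f (nat_lit 592) (nat_lit 593) (nat_lit 557) (.d (nat_lit 495) (nat_lit 463) (nat_lit 4559) (nat_lit 624) (nat_lit 7663)))))))) (.a (.p (nat_lit 557) (.a (.f (nat_lit 556) (nat_lit 527) (nat_lit 2572) (.d (nat_lit 588) (nat_lit 587) (nat_lit 1579) (nat_lit 589) (nat_lit 1580))) (.a (.f (nat_lit 525) (nat_lit 524) (nat_lit 3596) (.f (nat_lit 589) (nat_lit 588) (nat_lit 1580) (.p (nat_lit 493) (.a (.d (nat_lit 590) (nat_lit 461) (nat_lit 4557) (nat_lit 622) (nat_lit 4589)) (.a (.f (nat_lit 461) (nat_lit 590) (nat_lit 4557) (.d (nat_lit 462) (nat_lit 430) (nat_lit 6573) (nat_lit 494) (nat_lit 6605))) (.f (nat_lit 494) (nat_lit 462) (nat_lit 6605) (.f (nat_lit 526) (nat_lit 621) (nat_lit 6637) (.d (nat_lit 492) (nat_lit 460) (nat_lit 7628) (nat_lit 527) (nat_lit 3564))))))))) (.a (.f (nat_lit 556) (nat_lit 527) (nat_lit 2572) (.d (nat_lit 524) (nat_lit 523) (nat_lit 3595) (nat_lit 525) (nat_lit 3596))) (.f (nat_lit 525) (nat_lit 524) (nat_lit 3596) (.f (nat_lit 589) (nat_lit 588) (nat_lit 1580) (.p (nat_lit 493) (.a (.d (nat_lit 590) (nat_lit 461) (nat_lit 4557) (nat_lit 622) (nat_lit 4589)) (.a (.f (nat_lit 461) (nat_lit 590) (nat_lit 4557) (.d (nat_lit 462) (nat_lit 430) (nat_lit 6573) (nat_lit 494) (nat_lit 6605))) (.f (nat_lit 494) (nat_lit 462) (nat_lit 6605) (.f (nat_lit 621) (nat_lit 526) (nat_lit 6637) (.p (nat_lit 653) (.a (.d (nat_lit 654) (nat_lit 622) (nat_lit 4621) (nat_lit 686) (nat_lit 4653)) (.d (nat_lit 652) (nat_lit 620) (nat_lit 5644) (nat_lit 684) (nat_lit 5676))))))))))))))) s17999)))))))))) (.a (.p (nat_lit 527) (.a s16710 (.a s16965 (.a (.p (nat_lit 561) (.a (.d (nat_lit 526) (nat_lit 525) (nat_lit 525) (nat_lit 562) (nat_lit 3598)) (.a (.f (nat_lit 562) (nat_lit 563) (nat_lit 3599) (.f (nat_lit 594) (nat_lit 595) (nat_lit 559) (.f (nat_lit 593) (nat_lit 558) (nat_lit 558) (.f (nat_lit 530) (nat_lit 531) (nat_lit 2575) (.d (nat_lit 498) (nat_lit 466) (nat_lit 5585) (nat_lit 625) (nat_lit 5617)))))) (.f (nat_lit 525) (nat_lit 526) (nat_lit 525) (.p (nat_lit 557) (.a (.d (nat_lit 558) (nat_lit 524) (nat_lit 3596) (nat_lit 556) (nat_lit 2572)) (.a (.f (nat_lit 558) (nat_lit 524) (nat_lit 3596) (.d (nat_lit 593) (nat_lit 592) (nat_lit 557) (nat_lit 594) (nat_lit 558))) (.a (.p (nat_lit 495) (.a (.d (nat_lit 463) (nat_lit 431) (nat_lit 4527) (nat_lit 592) (nat_lit 4559)) (.a (.f (nat_lit 463) (nat_lit 592) (nat_lit 4559) (.f (nat_lit 462) (nat_lit 430) (nat_lit 7598) (.f (nat_lit 494) (nat_lit 591) (nat_lit 7630) (.d (nat_lit 493) (nat_lit 492) (nat_lit 492) (nat_lit 589) (nat_lit 6605))))) (.a (.f (nat_lit 463) (nat_lit 431) (nat_lit 4527) (.f (nat_lit 462) (nat_lit 430) (nat_lit 7598) (.f (nat_lit 494) (nat_lit 591) (nat_lit 7630) (.d (nat_lit 493) (nat_lit 492) (nat_lit 492) (nat_lit 589) (nat_lit 6605))))) (.p (nat_lit 493) (.a (.f (nat_lit 492) (nat_lit 494) (nat_lit 492) (.f (nat_lit 460) (nat_lit 589) (nat_lit 7628) (.d (nat_lit 428) (nat_lit 396) (nat_lit 4492) (nat_lit 524) (nat_lit 4524)))) (.a (.p (nat_lit 461) (.a (.p (nat_lit 429) (.a (.d (nat_lit 556) (nat_lit 524) (nat_lit 5548) (nat_lit 588) (nat_lit 5580)) (.d (nat_lit 428) (nat_lit 396) (nat_lit 7564) (nat_lit 460) (nat_lit 7596)))) (.f (nat_lit 462) (nat_lit 430) (nat_lit 6573) (.d (nat_lit 494) (nat_lit 589) (nat_lit 6605) (nat_lit 591) (nat_lit 7630))))) (.a (.p (nat_lit 461) (.a (.p (nat_lit 429) (.a (.d (nat_lit 556) (nat_lit 524) (nat_lit 5548) (nat_lit 588) (nat_lit 5580)) (.d (nat_lit 428) (nat_lit 396) (nat_lit 7564) (nat_lit 460) (nat_lit 7596)))) (.a (.f (nat_lit 460) (nat_lit 428) (nat_lit 7596) (.p (nat_lit 429) (.a (.p (nat_lit 397) (.a (.d (nat_lit 398) (nat_lit 366) (nat_lit 6509) (nat_lit 430) (nat_lit 6541)) (.d (nat_lit 492) (nat_lit 524) (nat_lit 5516) (nat_lit 589) (nat_lit 7628)))) (.a (.d (nat_lit 430) (nat_lit 398) (nat_lit 6541) (nat_lit 462) (nat_lit 6573)) (.f (nat_lit 492) (nat_lit 589) (nat_lit 7628) (.d (nat_lit 397) (nat_lit 365) (nat_lit 5484) (nat_lit 524) (nat_lit 5516))))))) (.a (.p (nat_lit 589) (.a (.d (nat_lit 588) (nat_lit 556) (nat_lit 5580) (nat_lit 620) (nat_lit 5612)) (.d (nat_lit 460) (nat_lit 428) (nat_lit 7596) (nat_lit 492) (nat_lit 7628)))) (.p (nat_lit 429) (.a (.d (nat_lit 556) (nat_lit 524) (nat_lit 5548) (nat_lit 588) (nat_lit 5580)) (.d (nat_lit 430) (nat_lit 398) (nat_lit 6541) (nat_lit 462) (nat_lit 6573)))))))) (.f (nat_lit 494) (nat_lit 492) (nat_lit 492) (.f (nat_lit 462) (nat_lit 591) (nat_lit 7630) (.d (nat_lit 430) (nat_lit 398) (nat_lit 5517) (nat_lit 461) (nat_lit 6573)))))))))))) (.f (nat_lit 558) (nat_lit 556) (nat_lit 2572) (.d (nat_lit 593) (nat_lit 592) (nat_lit 557) (nat_lit 594) (nat_lit 558))))))))))) (.a (.p (nat_lit 561) (.a (.d (nat_lit 526) (nat_lit 525) (nat_lit 525) (nat_lit 562) (nat_lit 3598)) (.a (.f (nat_lit 562) (nat_lit 563) (nat_lit 3599) (.f (nat_lit 594) (nat_lit 595) (nat_lit 559) (.f (nat_lit 593) (nat_lit 558) (nat_lit 558) (.f (nat_lit 625) (nat_lit 657) (nat_lit 7696) (.d (nat_lit 530) (nat_lit 498) (nat_lit 5617) (nat_lit 531) (nat_lit 2575)))))) (.f (nat_lit 525) (nat_lit 526) (nat_lit 525) (.p (nat_lit 592) (.a (.d (nat_lit 495) (nat_lit 463) (nat_lit 4559) (nat_lit 624) (nat_lit 7663)) (.a (.f (nat_lit 495) (nat_lit 463) (nat_lit 4559) (.p (nat_lit 557) (.a (.d (nat_lit 558) (nat_lit 556) (nat_lit 2572) (nat_lit 593) (nat_lit 557)) (.a (.d (nat_lit 558) (nat_lit 524) (nat_lit 3596) (nat_lit 593) (nat_lit 557)) (.p (nat_lit 493) (.a (.f (nat_lit 492) (nat_lit 494) (nat_lit 492) (.f (nat_lit 460) (nat_lit 589) (nat_lit 7628) (.d (nat_lit 428) (nat_lit 396) (nat_lit 4492) (nat_lit 524) (nat_lit 4524)))) (.a (.p (nat_lit 461) (.a (.p (nat_lit 429) (.a (.d (nat_lit 556) (nat_lit 524) (nat_lit 5548) (nat_lit 588) (nat_lit 5580)) (.d (nat_lit 428) (nat_lit 396) (nat_lit 7564) (nat_lit 460) (nat_lit 7596)))) (.a (.f (nat_lit 462) (nat_lit 430) (nat_lit 6573) (.f (nat_lit 460) (nat_lit 428) (nat_lit 7596) (.d (nat_lit 494) (nat_lit 459) (nat_lit 459) (nat_lit 589) (nat_lit 6605)))) (.p (nat_lit 429) (.a (.d (nat_lit 556) (nat_lit 524) (nat_lit 5548) (nat_lit 588) (nat_lit 5580)) (.d (nat_lit 430) (nat_lit 398) (nat_lit 6541) (nat_lit 462) (nat_lit 6573))))))) (.a s18062 (.a (.p (nat_lit 461) (.a (.p (nat_lit 429) (.a (.d (nat_lit 556) (nat_lit 524) (nat_lit 5548) (nat_lit 588) (nat_lit 5580)) (.d (nat_lit 428) (nat_lit 396) (nat_lit 7564) (nat_lit 460) (nat_lit 7596)))) (.a (.f (nat_lit 494) (nat_lit 492) (nat_lit 492) (.f (nat_lit 428) (nat_lit 460) (nat_lit 7596) (.f (nat_lit 429) (nat_lit 396) (nat_lit 7564) (.d (nat_lit 430) (nat_lit 398) (nat_lit 6541) (nat_lit 462) (nat_lit 6573))))) (.a (.f (nat_lit 494) (nat_lit 492) (nat_lit 492) (.f (nat_lit 460) (nat_lit 428) (nat_lit 7596) (.d (nat_lit 462) (nat_lit 430) (nat_lit 6573) (nat_lit 459) (nat_lit 459)))) (.p (nat_lit 429) (.a (.d (nat_lit 556) (nat_lit 524) (nat_lit 5548) (nat_lit 588) (nat_lit 5580)) (.d (nat_lit 430) (nat_lit 398) (nat_lit 6541) (nat_lit 462) (nat_lit 6573)))))))) (.f (nat_lit 494) (nat_lit 492) (nat_lit 492) (.f (nat_lit 462) (nat_lit 589) (nat_lit 6605) (.d (nat_lit 430) (nat_lit 398) (nat_lit 5517) (nat_lit 461) (nat_lit 6573))))))))))))) (.a (.d (nat_lit 624) (nat_lit 495) (nat_lit 7663) (nat_lit 656) (nat_lit 7695)) (.f (nat_lit 624) (nat_lit 656) (nat_lit 7695) (.f (nat_lit 623) (nat_lit 655) (nat_lit 5647) (.f (nat_lit 625) (nat_lit 657) (nat_lit 4624) (.p (nat_lit 626) (.a (.p (nat_lit 593) (.a (.d (nat_lit 558) (nat_lit 557) (nat_lit 557) (nat_lit 594) (nat_lit 558)) (.f (nat_lit 627) (nat_lit 628) (nat_lit 3664) (.d (nat_lit 659) (nat_lit 658) (nat_lit 623) (nat_lit 660) (nat_lit 624))))) (.a (.p (nat_lit 627) (.a (.d (nat_lit 659) (nat_lit 658) (nat_lit 623) (nat_lit 660) (nat_lit 624)) (.f (nat_lit 596) (nat_lit 595) (nat_lit 2640) (.d (nat_lit 628) (nat_lit 593) (nat_lit 3664) (nat_lit 597) (nat_lit 2641))))) (.a (.f (nat_lit 594) (nat_lit 595) (nat_lit 2639) (.d (nat_lit 593) (nat_lit 558) (nat_lit 558) (nat_lit 622) (nat_lit 2638))) (.f (nat_lit 659) (nat_lit 658) (nat_lit 623) (.f (nat_lit 595) (nat_lit 594) (nat_lit 2639) (.d (nat_lit 627) (nat_lit 596) (nat_lit 2640) (nat_lit 660) (nat_lit 624))))))))))))))))))) (.a (.p (nat_lit 495) (.a (.d (nat_lit 463) (nat_lit 431) (nat_lit 4527) (nat_lit 592) (nat_lit 4559)) (.a (.d (nat_lit 592) (nat_lit 463) (nat_lit 4559) (nat_lit 624) (nat_lit 7663)) (.a (.f (nat_lit 463) (nat_lit 431) (nat_lit 4527) (.f (nat_lit 462) (nat_lit 430) (nat_lit 7598) (.f (nat_lit 494) (nat_lit 591) (nat_lit 7630) (.f (nat_lit 493) (nat_lit 492) (nat_lit 492) (.d (nat_lit 464) (nat_lit 432) (nat_lit 6575) (nat_lit 465) (nat_lit 1485)))))) (.f (nat_lit 624) (nat_lit 592) (nat_lit 7663) (.p (nat_lit 526) (.a (.d (nat_lit 525) (nat_lit 524) (nat_lit 524) (nat_lit 561) (nat_lit 525)) (.a (.f (nat_lit 561) (nat_lit 562) (nat_lit 3598) (.p (nat_lit 623) (.a (.d (nat_lit 591) (nat_lit 655) (nat_lit 6671) (nat_lit 656) (nat_lit 4623)) (.a (.p (nat_lit 625) (.a (.f (nat_lit 657) (nat_lit 593) (nat_lit 7696) (.f (nat_lit 658) (nat_lit 622) (nat_lit 622) (.d (nat_lit 659) (nat_lit 626) (nat_lit 623) (nat_lit 656) (nat_lit 3695)))) (.a (.p (nat_lit 626) (.a (.p (nat_lit 627) (.a (.d (nat_lit 659) (nat_lit 658) (nat_lit 623) (nat_lit 660) (nat_lit 624)) (.d (nat_lit 655) (nat_lit 654) (nat_lit 1646) (nat_lit 656) (nat_lit 1647)))) (.a (.f (nat_lit 593) (nat_lit 657) (nat_lit 7696) (.f (nat_lit 594) (nat_lit 595) (nat_lit 2639) (.d (nat_lit 658) (nat_lit 659) (nat_lit 623) (nat_lit 690) (nat_lit 7729)))) (.p (nat_lit 627) (.a (.d (nat_lit 655) (nat_lit 654) (nat_lit 1646) (nat_lit 656) (nat_lit 1647)) (.d (nat_lit 595) (nat_lit 594) (nat_lit 2639) (nat_lit 596) (nat_lit 2640))))))) (.a (.f (nat_lit 593) (nat_lit 657) (nat_lit 7696) (.f (nat_lit 594) (nat_lit 622) (nat_lit 2638) (.d (nat_lit 595) (nat_lit 596) (nat_lit 1616) (nat_lit 626) (nat_lit 2639)))) (.a (.f (nat_lit 657) (nat_lit 593) (nat_lit 7696) (.f (nat_lit 622) (nat_lit 658) (nat_lit 622) (.f (nat_lit 621) (nat_lit 656) (nat_lit 621) (.d (nat_lit 653) (nat_lit 652) (nat_lit 1644) (nat_lit 654) (nat_lit 1645))))) (.a s17259 (.p (nat_lit 626) (.a (.p (nat_lit 627) (.a (.d (nat_lit 659) (nat_lit 658) (nat_lit 623) (nat_lit 660) (nat_lit 624)) (.d (nat_lit 655) (nat_lit 654) (nat_lit 1646) (nat_lit 656) (nat_lit 1647)))) (.a (.p (nat_lit 622) (.a (.d (nat_lit 654) (nat_lit 653) (nat_lit 1645) (nat_lit 655) (nat_lit 1646)) (.d (nat_lit 594) (nat_lit 593) (nat_lit 2638) (nat_lit 595) (nat_lit 2639)))) (.f (nat_lit 594) (nat_lit 595) (nat_lit 2639) (.f (nat_lit 593) (nat_lit 622) (nat_lit 2638) (.d (nat_lit 658) (nat_lit 659) (nat_lit 623) (nat_lit 690) (nat_lit 7729))))))))))))) (.a (.d (nat_lit 591) (nat_lit 494) (nat_lit 7662) (nat_lit 656) (nat_lit 4623)) (.d (nat_lit 591) (nat_lit 494) (nat_lit 7662) (nat_lit 655) (nat_lit 6671))))))) (.f (nat_lit 525) (nat_lit 524) (nat_lit 524) (.f (nat_lit 557) (nat_lit 556) (nat_lit 1548) (.f (nat_lit 493) (nat_lit 492) (nat_lit 3564) (.p (nat_lit 461) (.a (.p (nat_lit 429) (.a (.d (nat_lit 428) (nat_lit 396) (nat_lit 7564) (nat_lit 460) (nat_lit 7596)) (.a (.f (nat_lit 396) (nat_lit 428) (nat_lit 7564) (.d (nat_lit 397) (nat_lit 364) (nat_lit 7532) (nat_lit 494) (nat_lit 4493))) (.f (nat_lit 397) (nat_lit 494) (nat_lit 4493) (.d (nat_lit 398) (nat_lit 366) (nat_lit 6509) (nat_lit 430) (nat_lit 6541)))))) (.a (.f (nat_lit 462) (nat_lit 430) (nat_lit 6573) (.d (nat_lit 494) (nat_lit 589) (nat_lit 6605) (nat_lit 591) (nat_lit 7630))) (.a (.f (nat_lit 428) (nat_lit 460) (nat_lit 7596) (.f (nat_lit 429) (nat_lit 396) (nat_lit 7564) (.d (nat_lit 430) (nat_lit 398) (nat_lit 6541) (nat_lit 462) (nat_lit 6573)))) (.p (nat_lit 494) (.a (.f (nat_lit 428) (nat_lit 460) (nat_lit 7596) (.d (nat_lit 429) (nat_lit 396) (nat_lit 7564) (nat_lit 397) (nat_lit 4493))) (.d (nat_lit 591) (nat_lit 462) (nat_lit 7630) (nat_lit 623) (nat_lit 7662))))))))))))))))))) (.a (.p (nat_lit 561) (.a (.d (nat_lit 526) (nat_lit 525) (nat_lit 525) (nat_lit 562) (nat_lit 3598)) (.a (.f (nat_lit 562) (nat_lit 563) (nat_lit 3599) (.f (nat_lit 594) (nat_lit 595) (nat_lit 559) (.f (nat_lit 593) (nat_lit 558) (nat_lit 558) (.f (nat_lit 625) (nat_lit 657) (nat_lit 7696) (.d (nat_lit 530) (nat_lit 498) (nat_lit 5617) (nat_lit 531) (nat_lit 2575)))))) (.f (nat_lit 525) (nat_lit 526) (nat_lit 525) (.p (nat_lit 558) (.a (.d (nat_lit 557) (nat_lit 524) (nat_lit 3596) (nat_lit 556) (nat_lit 2572)) (.a (.f (nat_lit 557) (nat_lit 524) (nat_lit 3596) (.d (nat_lit 593) (nat_lit 592) (nat_lit 557) (nat_lit 594) (nat_lit 558))) (.p (nat_lit 624) (.a (.d (nat_lit 592) (nat_lit 495) (nat_lit 7663) (nat_lit 656) (nat_lit 7695)) (.a (.p (nat_lit 623) (.a (.d (nat_lit 591) (nat_lit 655) (nat_lit 6671) (nat_lit 656) (nat_lit 4623)) (.a (.p (nat_lit 625) (.a (.d (nat_lit 593) (nat_lit 594) (nat_lit 558) (nat_lit 657) (nat_lit 7696)) (.a (.f (nat_lit 657) (nat_lit 593) (nat_lit 7696) (.f (nat_lit 658) (nat_lit 622) (nat_lit 622) (.d (nat_lit 659) (nat_lit 626) (nat_lit 623) (nat_lit 656) (nat_lit 3695)))) (.a (.p (nat_lit 626) (.a (.p (nat_lit 627) (.a (.d (nat_lit 659) (nat_lit 658) (nat_lit 623) (nat_lit 660) (nat_lit 624)) (.d (nat_lit 655) (nat_lit 654) (nat_lit 1646) (nat_lit 656) (nat_lit 1647)))) (.a (.p (nat_lit 622) (.a (.d (nat_lit 658) (nat_lit 657) (nat_lit 622) (nat_lit 659) (nat_lit 623)) (.d (nat_lit 654) (nat_lit 653) (nat_lit 1645) (nat_lit 655) (nat_lit 1646)))) (.a (.p (nat_lit 627) (.a (.d (nat_lit 655) (nat_lit 654) (nat_lit 1646) (nat_lit 656) (nat_lit 1647)) (.d (nat_lit 595) (nat_lit 594) (nat_lit 2639) (nat_lit 596) (nat_lit 2640)))) (.f (nat_lit 659) (nat_lit 658) (nat_lit 623) (.f (nat_lit 595) (nat_lit 594) (nat_lit 2639) (.d (nat_lit 627) (nat_lit 596) (nat_lit 2640) (nat_lit 660) (nat_lit 624)))))))) (.p (nat_lit 626) (.a (.d (nat_lit 594) (nat_lit 593) (nat_lit 558) (nat_lit 595) (nat_lit 2639)) (.p (nat_lit 627) (.a (.d (nat_lit 659) (nat_lit 658) (nat_lit 623) (nat_lit 660) (nat_lit 624)) (.d (nat_lit 655) (nat_lit 654) (nat_lit 1646) (nat_lit 656) (nat_lit 1647)))))))))) (.a (.f (nat_lit 593) (nat_lit 594) (nat_lit 558) (.p (nat_lit 622) (.a (.d (nat_lit 591) (nat_lit 654) (nat_lit 5646) (nat_lit 656) (nat_lit 4623)) (.a (.p (nat_lit 621) (.a (.p (nat_lit 620) (.a (.d (nat_lit 652) (nat_lit 651) (nat_lit 1643) (nat_lit 653) (nat_lit 1644)) (.d (nat_lit 588) (nat_lit 587) (nat_lit 3659) (nat_lit 589) (nat_lit 3660)))) (.d (nat_lit 657) (nat_lit 625) (nat_lit 7696) (nat_lit 656) (nat_lit 621)))) (.f (nat_lit 625) (nat_lit 657) (nat_lit 7696) (.d (nat_lit 654) (nat_lit 591) (nat_lit 5646) (nat_lit 653) (nat_lit 1645))))))) (.f (nat_lit 593) (nat_lit 594) (nat_lit 558) (.p (nat_lit 654) (.a (.d (nat_lit 591) (nat_lit 622) (nat_lit 5646) (nat_lit 655) (nat_lit 6671)) (.a (.f (nat_lit 655) (nat_lit 591) (nat_lit 6671) (.d (nat_lit 625) (nat_lit 626) (nat_lit 1646) (nat_lit 657) (nat_lit 7696))) (.a (.f (nat_lit 625) (nat_lit 657) (nat_lit 7696) (.f (nat_lit 653) (nat_lit 622) (nat_lit 1645) (.d (nat_lit 655) (nat_lit 626) (nat_lit 1646) (nat_lit 652) (nat_lit 2668)))) (.f (nat_lit 622) (nat_lit 591) (nat_lit 5646) (.d (nat_lit 625) (nat_lit 653) (nat_lit 1645) (nat_lit 657) (nat_lit 7696)))))))))))) (.f (nat_lit 592) (nat_lit 495) (nat_lit 7663) (.f (nat_lit 593) (nat_lit 594) (nat_lit 558) (.f (nat_lit 623) (nat_lit 655) (nat_lit 5647) (.f (nat_lit 625) (nat_lit 657) (nat_lit 4624) (.f (nat_lit 622) (nat_lit 621) (nat_lit 2637) (.d (nat_lit 654) (nat_lit 591) (nat_lit 5646) (nat_lit 653) (nat_lit 1645))))))))))))))))) (.a (.p (nat_lit 495) (.a (.d (nat_lit 463) (nat_lit 431) (nat_lit 4527) (nat_lit 592) (nat_lit 4559)) (.a (.d (nat_lit 592) (nat_lit 463) (nat_lit 4559) (nat_lit 624) (nat_lit 7663)) (.a (.f (nat_lit 463) (nat_lit 431) (nat_lit 4527) (.f (nat_lit 462) (nat_lit 430) (nat_lit 7598) (.f (nat_lit 494) (nat_lit 591) (nat_lit 7630) (.f (nat_lit 464) (nat_lit 432) (nat_lit 6575) (.d (nat_lit 465) (nat_lit 466) (nat_lit 1486) (nat_lit 493) (nat_lit 1485)))))) (.f (nat_lit 624) (nat_lit 592) (nat_lit 7663) (.p (nat_lit 623) (.a (.d (nat_lit 591) (nat_lit 655) (nat_lit 6671) (nat_lit 656) (nat_lit 4623)) (.a (.p (nat_lit 625) (.a (.p (nat_lit 626) (.a (.f (nat_lit 594) (nat_lit 595) (nat_lit 2639) (.p (nat_lit 657) (.a (.f (nat_lit 658) (nat_lit 659) (nat_lit 623) (.d (nat_lit 562) (nat_lit 530) (nat_lit 5649) (nat_lit 689) (nat_lit 5681))) (.a (.f (nat_lit 593) (nat_lit 561) (nat_lit 7696) (.d (nat_lit 562) (nat_lit 530) (nat_lit 5649) (nat_lit 689) (nat_lit 6705))) (.p (nat_lit 627) (.a (.d (nat_lit 659) (nat_lit 658) (nat_lit 623) (nat_lit 660) (nat_lit 624)) (.d (nat_lit 655) (nat_lit 654) (nat_lit 1646) (nat_lit 656) (nat_lit 1647)))))))) (.a (.f (nat_lit 658) (nat_lit 659) (nat_lit 623) (.f (nat_lit 657) (nat_lit 622) (nat_lit 622) (.p (nat_lit 627) (.a (.d (nat_lit 655) (nat_lit 654) (nat_lit 1646) (nat_lit 656) (nat_lit 1647)) (.a (.d (nat_lit 628) (nat_lit 629) (nat_lit 1649) (nat_lit 656) (nat_lit 1648)) (.p (nat_lit 563) (.a (.d (nat_lit 561) (nat_lit 562) (nat_lit 3599) (nat_lit 593) (nat_lit 7696)) (.d (nat_lit 595) (nat_lit 531) (nat_lit 5650) (nat_lit 596) (nat_lit 2640))))))))) (.a (.f (nat_lit 594) (nat_lit 595) (nat_lit 2639) (.p (nat_lit 657) (.a (.f (nat_lit 562) (nat_lit 530) (nat_lit 5649) (.d (nat_lit 561) (nat_lit 563) (nat_lit 3599) (nat_lit 593) (nat_lit 7696))) (.d (nat_lit 658) (nat_lit 622) (nat_lit 622) (nat_lit 659) (nat_lit 623))))) (.a (.f (nat_lit 594) (nat_lit 595) (nat_lit 2639) (.f (nat_lit 593) (nat_lit 622) (nat_lit 2638) (.d (nat_lit 561) (nat_lit 558) (nat_lit 558) (nat_lit 657) (nat_lit 7696)))) (.a (.f (nat_lit 658) (nat_lit 659) (nat_lit 623) (.f (nat_lit 657) (nat_lit 622) (nat_lit 622) (.p (nat_lit 656) (.a (.d (nat_lit 655) (nat_lit 627) (nat_lit 1647) (nat_lit 654) (nat_lit 1646)) (.p (nat_lit 562) (.a (.d (nat_lit 561) (nat_lit 563) (nat_lit 3599) (nat_lit 593) (nat_lit 7696)) (.d (nat_lit 594) (nat_lit 530) (nat_lit 5649) (nat_lit 689) (nat_lit 5681)))))))) (.a (.f (nat_lit 658) (nat_lit 659) (nat_lit 623) (.f (nat_lit 657) (nat_lit 622) (nat_lit 622) (.p (nat_lit 627) (.a (.d (nat_lit 655) (nat_lit 654) (nat_lit 1646) (nat_lit 656) (nat_lit 1647)) (.d (nat_lit 595) (nat_lit 594) (nat_lit 2639) (nat_lit 596) (nat_lit 2640)))))) (.f (nat_lit 594) (nat_lit 595) (nat_lit 2639) (.f (nat_lit 593) (nat_lit 622) (nat_lit 2638) (.f (nat_lit 561) (nat_lit 558) (nat_lit 558) (.d (nat_lit 658) (nat_lit 659) (nat_lit 623) (nat_lit 690) (nat_lit 7729)))))))))))) (.a (.p (nat_lit 626) (.a (.f (nat_lit 594) (nat_lit 595) (nat_lit 2639) (.p (nat_lit 657) (.a (.f (nat_lit 658) (nat_lit 659) (nat_lit 623) (.d (nat_lit 562) (nat_lit 530) (nat_lit 5649) (nat_lit 689) (nat_lit 5681))) (.a (.f (nat_lit 593) (nat_lit 561) (nat_lit 7696) (.d (nat_lit 562) (nat_lit 530) (nat_lit 5649) (nat_lit 689) (nat_lit 6705))) (.p (nat_lit 627) (.a (.d (nat_lit 659) (nat_lit 658) (nat_lit 623) (nat_lit 660) (nat_lit 624)) (.d (nat_lit 655) (nat_lit 654) (nat_lit 1646) (nat_lit 656) (nat_lit 1647)))))))) (.a (.p (nat_lit 627) (.a (.d (nat_lit 659) (nat_lit 658) (nat_lit 623) (nat_lit 660) (nat_lit 624)) (.d (nat_lit 655) (nat_lit 654) (nat_lit 1646) (nat_lit 656) (nat_lit 1647)))) (.a (.f (nat_lit 594) (nat_lit 595) (nat_lit 2639) (.p (nat_lit 562) (.a (.f (nat_lit 657) (nat_lit 530) (nat_lit 5649) (.d (nat_lit 561) (nat_lit 563) (nat_lit 3599) (nat_lit 593) (nat_lit 7696))) (.a (.f (nat_lit 657) (nat_lit 530) (nat_lit 5649) (.d (nat_lit 593) (nat_lit 561) (nat_lit 7696) (nat_lit 689) (nat_lit 6705))) (.a (.f (nat_lit 658) (nat_lit 659) (nat_lit 623) (.d (nat_lit 657) (nat_lit 530) (nat_lit 5649) (nat_lit 689) (nat_lit 5681))) (.a (.f (nat_lit 561) (nat_lit 563) (nat_lit 3599) (.f (nat_lit 530) (nat_lit 531) (nat_lit 2575) (.d (nat_lit 593) (nat_lit 498) (nat_lit 5617) (nat_lit 558) (nat_lit 558)))) (.f (nat_lit 658) (nat_lit 659) (nat_lit 623) (.d (nat_lit 563) (nat_lit 531) (nat_lit 6674) (nat_lit 561) (nat_lit 3599))))))))) (.a s18261 (.f (nat_lit 594) (nat_lit 595) (nat_lit 2639) (.p (nat_lit 561) (.a (.d (nat_lit 593) (nat_lit 558) (nat_lit 558) (nat_lit 657) (nat_lit 7696)) (.a (.f (nat_lit 657) (nat_lit 593) (nat_lit 7696) (.d (nat_lit 562) (nat_lit 530) (nat_lit 5649) (nat_lit 563) (nat_lit 3599))) (.a (.f (nat_lit 562) (nat_lit 563) (nat_lit 3599) (.d (nat_lit 530) (nat_lit 531) (nat_lit 2575) (nat_lit 657) (nat_lit 5649))) (.f (nat_lit 593) (nat_lit 558) (nat_lit 558) (.f (nat_lit 562) (nat_lit 563) (nat_lit 3599) (.d (nat_lit 530) (nat_lit 498) (nat_lit 5617) (nat_lit 531) (nat_lit 2575)))))))))))))) (.a (.p (nat_lit 626) (.a (.f (nat_lit 658) (nat_lit 659) (nat_lit 623) (.f (nat_lit 657) (nat_lit 622) (nat_lit 622) (.p (nat_lit 627) (.a (.d (nat_lit 655) (nat_lit 654) (nat_lit 1646) (nat_lit 656) (nat_lit 1647)) (.a (.d (nat_lit 628) (nat_lit 629) (nat_lit 1649) (nat_lit 656) (nat_lit 1648)) (.p (nat_lit 563) (.a (.d (nat_lit 561) (nat_lit 562) (nat_lit 3599) (nat_lit 593) (nat_lit 7696)) (.d (nat_lit 595) (nat_lit 531) (nat_lit 5650) (nat_lit 596) (nat_lit 2640))))))))) (.a (.p (nat_lit 627) (.a (.d (nat_lit 659) (nat_lit 658) (nat_lit 623) (nat_lit 660) (nat_lit 624)) (.d (nat_lit 655) (nat_lit 654) (nat_lit 1646) (nat_lit 656) (nat_lit 1647)))) (.a (.p (nat_lit 622) (.a (.d (nat_lit 658) (nat_lit 657) (nat_lit 622) (nat_lit 659) (nat_lit 623)) (.d (nat_lit 654) (nat_lit 653) (nat_lit 1645) (nat_lit 655) (nat_lit 1646)))) (.a (.f (nat_lit 655) (nat_lit 654) (nat_lit 1646) (.f (nat_lit 627) (nat_lit 656) (nat_lit 1647) (.p (nat_lit 628) (.a (.d (nat_lit 660) (nat_lit 659) (nat_lit 624) (nat_lit 661) (nat_lit 625)) (.d (nat_lit 596) (nat_lit 595) (nat_lit 2640) (nat_lit 597) (nat_lit 2641)))))) (.a (.f (nat_lit 658) (nat_lit 659) (nat_lit 623) (.f (nat_lit 657) (nat_lit 622) (nat_lit 622) (.p (nat_lit 627) (.a (.d (nat_lit 628) (nat_lit 629) (nat_lit 1649) (nat_lit 656) (nat_lit 1648)) (.p (nat_lit 563) (.a (.d (nat_lit 561) (nat_lit 562) (nat_lit 3599) (nat_lit 593) (nat_lit 7696)) (.d (nat_lit 595) (nat_lit 531) (nat_lit 5650) (nat_lit 596) (nat_lit 2640)))))))) (.p (nat_lit 657) (.a (.p (nat_lit 627) (.a (.d (nat_lit 655) (nat_lit 654) (nat_lit 1646) (nat_lit 656) (nat_lit 1647)) (.a (.f (nat_lit 628) (nat_lit 656) (nat_lit 1648) (.d (nat_lit 596) (nat_lit 595) (nat_lit 2640) (nat_lit 597) (nat_lit 2641))) (.p (nat_lit 628) (.a (.d (nat_lit 596) (nat_lit 595) (nat_lit 2640) (nat_lit 597) (nat_lit 2641)) (.a (.f (nat_lit 597) (nat_lit 596) (nat_lit 2641) (.d (nat_lit 629) (nat_lit 598) (nat_lit 2642) (nat_lit 658) (nat_lit 1649))) (.f (nat_lit 629) (nat_lit 658) (nat_lit 1649) (.d (nat_lit 661) (nat_lit 660) (nat_lit 625) (nat_lit 662) (nat_lit 626))))))))) (.a (.f (nat_lit 622) (nat_lit 658) (nat_lit 622) (.d (nat_lit 654) (nat_lit 653) (nat_lit 1645) (nat_lit 655) (nat_lit 1646))) (.a (.p (nat_lit 622) (.a (.d (nat_lit 654) (nat_lit 653) (nat_lit 1645) (nat_lit 655) (nat_lit 1646)) (.a (.f (nat_lit 621) (nat_lit 656) (nat_lit 621) (.d (nat_lit 653) (nat_lit 652) (nat_lit 1644) (nat_lit 654) (nat_lit 1645))) (.f (nat_lit 656) (nat_lit 621) (nat_lit 621) (.d (nat_lit 627) (nat_lit 628) (nat_lit 1648) (nat_lit 655) (nat_lit 1647)))))) (.a (.f (nat_lit 622) (nat_lit 658) (nat_lit 622) (.f (nat_lit 621) (nat_lit 656) (nat_lit 621) (.d (nat_lit 653) (nat_lit 652) (nat_lit 1644) (nat_lit 654) (nat_lit 1645)))) (.p (nat_lit 656) (.a (.d (nat_lit 622) (nat_lit 621) (nat_lit 621) (nat_lit 658) (nat_lit 622)) (.d (nat_lit 627) (nat_lit 628) (nat_lit 1648) (nat_lit 655) (nat_lit 1647))))))))))))))) (.a (.p (nat_lit 626) (.a (.f (nat_lit 594) (nat_lit 595) (nat_lit 2639) (.p (nat_lit 657) (.a (.f (nat_lit 658) (nat_lit 659) (nat_lit 623) (.d (nat_lit 562) (nat_lit 530) (nat_lit 5649) (nat_lit 689) (nat_lit 5681))) (.d (nat_lit 593) (nat_lit 561) (nat_lit 7696) (nat_lit 622) (nat_lit 2638))))) (.a (.f (nat_lit 594) (nat_lit 595) (nat_lit 2639) (.p (nat_lit 657) (.a (.f (nat_lit 658) (nat_lit 659) (nat_lit 623) (.d (nat_lit 562) (nat_lit 530) (nat_lit 5649) (nat_lit 689) (nat_lit 5681))) (.a (.f (nat_lit 593) (nat_lit 561) (nat_lit 7696) (.d (nat_lit 562) (nat_lit 530) (nat_lit 5649) (nat_lit 689) (nat_lit 6705))) (.p (nat_lit 627) (.a (.d (nat_lit 659) (nat_lit 658) (nat_lit 623) (nat_lit 660) (nat_lit 624)) (.d (nat_lit 655) (nat_lit 654) (nat_lit 1646) (nat_lit 656) (nat_lit 1647)))))))) (.a (.f (nat_lit 658) (nat_lit 659) (nat_lit 623) (.f (nat_lit 657) (nat_lit 622) (nat_lit 622) (.p (nat_lit 627) (.a (.d (nat_lit 655) (nat_lit 654) (nat_lit 1646) (nat_lit 656) (nat_lit 1647)) (.a (.d (nat_lit 628) (nat_lit 629) (nat_lit 1649) (nat_lit 656) (nat_lit 1648)) (.f (nat_lit 596) (nat_lit 595) (nat_lit 2640) (.d (nat_lit 628) (nat_lit 597) (nat_lit 2641) (nat_lit 629) (nat_lit 1649)))))))) (.a (.f (nat_lit 594) (nat_lit 595) (nat_lit 2639) (.f (nat_lit 593) (nat_lit 622) (nat_lit 2638) (.d (nat_lit 561) (nat_lit 558) (nat_lit 558) (nat_lit 657) (nat_lit 7696)))) (.a (.f (nat_lit 658) (nat_lit 659) (nat_lit 623) (.f (nat_lit 657) (nat_lit 622) (nat_lit 622) (.p (nat_lit 656) (.a (.d (nat_lit 655) (nat_lit 627) (nat_lit 1647) (nat_lit 654) (nat_lit 1646)) (.p (nat_lit 562) (.a (.d (nat_lit 561) (nat_lit 563) (nat_lit 3599) (nat_lit 593) (nat_lit 7696)) (.d (nat_lit 594) (nat_lit 530) (nat_lit 5649) (nat_lit 689) (nat_lit 5681)))))))) (.f (nat_lit 594) (nat_lit 595) (nat_lit 2639) (.f (nat_lit 593) (nat_lit 622) (nat_lit 2638) (.f (nat_lit 561) (nat_lit 558) (nat_lit 558) (.d (nat_lit 658) (nat_lit 659) (nat_lit 623) (nat_lit 690) (nat_lit 7729))))))))))) (.a (.p (nat_lit 622) (.a (.f (nat_lit 657) (nat_lit 658) (nat_lit 622) (.d (nat_lit 593) (nat_lit 561) (nat_lit 7696) (nat_lit 594) (nat_lit 2638))) (.a (.f (nat_lit 657) (nat_lit 658) (nat_lit 622) (.f (nat_lit 621) (nat_lit 656) (nat_lit 621) (.d (nat_lit 653) (nat_lit 652) (nat_lit 1644) (nat_lit 654) (nat_lit 1645)))) (.a (.f (nat_lit 593) (nat_lit 594) (nat_lit 2638) (.p (nat_lit 621) (.a (.d (nat_lit 657) (nat_lit 561) (nat_lit 7696) (nat_lit 656) (nat_lit 621)) (.d (nat_lit 653) (nat_lit 652) (nat_lit 1644) (nat_lit 654) (nat_lit 1645))))) (.f (nat_lit 594) (nat_lit 593) (nat_lit 2638) (.f (nat_lit 626) (nat_lit 595) (nat_lit 2639) (.d (nat_lit 654) (nat_lit 653) (nat_lit 1645) (nat_lit 655) (nat_lit 1646)))))))) (.a (.p (nat_lit 626) (.a (.f (nat_lit 594) (nat_lit 595) (nat_lit 2639) (.f (nat_lit 593) (nat_lit 622) (nat_lit 2638) (.d (nat_lit 561) (nat_lit 558) (nat_lit 558) (nat_lit 657) (nat_lit 7696)))) (.a s18261 (.a (.f (nat_lit 655) (nat_lit 654) (nat_lit 1646) (.f (nat_lit 627) (nat_lit 656) (nat_lit 1647) (.p (nat_lit 628) (.a (.d (nat_lit 660) (nat_lit 659) (nat_lit 624) (nat_lit 661) (nat_lit 625)) (.d (nat_lit 596) (nat_lit 595) (nat_lit 2640) (nat_lit 597) (nat_lit 2641)))))) (.p (nat_lit 622) (.a (.d (nat_lit 654) (nat_lit 653) (nat_lit 1645) (nat_lit 655) (nat_lit 1646)) (.a (.f (nat_lit 593) (nat_lit 594) (nat_lit 2638) (.p (nat_lit 621) (.a (.d (nat_lit 657) (nat_lit 561) (nat_lit 7696) (nat_lit 656) (nat_lit 621)) (.d (nat_lit 653) (nat_lit 652) (nat_lit 1644) (nat_lit 654) (nat_lit 1645))))) (.p (nat_lit 657) (.a (.d (nat_lit 593) (nat_lit 561) (nat_lit 7696) (nat_lit 594) (nat_lit 2638)) (.f (nat_lit 656) (nat_lit 621) (nat_lit 621) (.d (nat_lit 627) (nat_lit 628) (nat_lit 1648) (nat_lit 655) (nat_lit 1647)))))))))))) (.a (.p (nat_lit 593) (.a (.f (nat_lit 594) (nat_lit 622) (nat_lit 2638) (.d (nat_lit 561) (nat_lit 558) (nat_lit 558) (nat_lit 657) (nat_lit 7696))) (.a (.f (nat_lit 561) (nat_lit 657) (nat_lit 7696) (.f (nat_lit 594) (nat_lit 558) (nat_lit 558) (.d (nat_lit 562) (nat_lit 563) (nat_lit 3599) (nat_lit 595) (nat_lit 559)))) (.a (.f (nat_lit 657) (nat_lit 561) (nat_lit 7696) (.f (nat_lit 658) (nat_lit 622) (nat_lit 622) (.d (nat_lit 659) (nat_lit 626) (nat_lit 623) (nat_lit 656) (nat_lit 3695)))) (.f (nat_lit 594) (nat_lit 622) (nat_lit 2638) (.d (nat_lit 595) (nat_lit 596) (nat_lit 1616) (nat_lit 626) (nat_lit 2639))))))) (.a (.p (nat_lit 622) (.a (.f (nat_lit 657) (nat_lit 658) (nat_lit 622) (.d (nat_lit 593) (nat_lit 561) (nat_lit 7696) (nat_lit 594) (nat_lit 2638))) (.a (.f (nat_lit 657) (nat_lit 658) (nat_lit 622) (.f (nat_lit 621) (nat_lit 656) (nat_lit 621) (.d (nat_lit 653) (nat_lit 652) (nat_lit 1644) (nat_lit 654) (nat_lit 1645)))) (.a (.f (nat_lit 654) (nat_lit 653) (nat_lit 1645) (.p (nat_lit 657) (.a (.d (nat_lit 593) (nat_lit 561) (nat_lit 7696) (nat_lit 594) (nat_lit 2638)) (.f (nat_lit 621) (nat_lit 656) (nat_lit 621) (.p (nat_lit 620) (.a (.d (nat_lit 588) (nat_lit 587) (nat_lit 3659) (nat_lit 589) (nat_lit 3660)) (.d (nat_lit 655) (nat_lit 619) (nat_lit 619) (nat_lit 626) (nat_lit 1646)))))))) (.f (nat_lit 593) (nat_lit 594) (nat_lit 2638) (.p (nat_lit 621) (.a (.d (nat_lit 653) (nat_lit 652) (nat_lit 1644) (nat_lit 654) (nat_lit 1645)) (.a (.p (nat_lit 620) (.a (.d (nat_lit 652) (nat_lit 651) (nat_lit 1643) (nat_lit 653) (nat_lit 1644)) (.d (nat_lit 588) (nat_lit 587) (nat_lit 3659) (nat_lit 589) (nat_lit 3660)))) (.a (.p (nat_lit 620) (.a (.d (nat_lit 588) (nat_lit 587) (nat_lit 3659) (nat_lit 589) (nat_lit 3660)) (.p (nat_lit 619) (.a (.d (nat_lit 651) (nat_lit 650) (nat_lit 1642) (nat_lit 652) (nat_lit 1643)) (.d (nat_lit 655) (nat_lit 654) (nat_lit 619) (nat_lit 656) (nat_lit 620)))))) (.f (nat_lit 654) (nat_lit 653) (nat_lit 1645) (.p (nat_lit 620) (.a (.d (nat_lit 588) (nat_lit 587) (nat_lit 3659) (nat_lit 589) (nat_lit 3660)) (.d (nat_lit 655) (nat_lit 626) (nat_lit 1646) (nat_lit 656) (nat_lit 620)))))))))))))) (.a (.p (nat_lit 622) (.a (.f (nat_lit 657) (nat_lit 658) (nat_lit 622) (.d (nat_lit 593) (nat_lit 561) (nat_lit 7696) (nat_lit 594) (nat_lit 2638))) (.a (.f (nat_lit 657) (nat_lit 658) (nat_lit 622) (.f (nat_lit 621) (nat_lit 656) (nat_lit 621) (.d (nat_lit 653) (nat_lit 652) (nat_lit 1644) (nat_lit 654) (nat_lit 1645)))) (.a (.f (nat_lit 593) (nat_lit 594) (nat_lit 2638) (.p (nat_lit 621) (.a (.d (nat_lit 657) (nat_lit 561) (nat_lit 7696) (nat_lit 656) (nat_lit 621)) (.d (nat_lit 653) (nat_lit 652) (nat_lit 1644) (nat_lit 654) (nat_lit 1645))))) (.f (nat_lit 593) (nat_lit 594) (nat_lit 2638) (.p (nat_lit 621) (.a (.d (nat_lit 653) (nat_lit 652) (nat_lit 1644) (nat_lit 654) (nat_lit 1645)) (.a (.p (nat_lit 620) (.a (.d (nat_lit 652) (nat_lit 651) (nat_lit 1643) (nat_lit 653) (nat_lit 1644)) (.d (nat_lit 588) (nat_lit 587) (nat_lit 3659) (nat_lit 589) (nat_lit 3660)))) (.a (.p (nat_lit 620) (.a (.d (nat_lit 588) (nat_lit 587) (nat_lit 3659) (nat_lit 589) (nat_lit 3660)) (.p (nat_lit 619) (.a (.d (nat_lit 651) (nat_lit 650) (nat_lit 1642) (nat_lit 652) (nat_lit 1643)) (.d (nat_lit 655) (nat_lit 654) (nat_lit 619) (nat_lit 656) (nat_lit 620)))))) (.p (nat_lit 620) (.a (.d (nat_lit 588) (nat_lit 587) (nat_lit 3659) (nat_lit 589) (nat_lit 3660)) (.a (.p (nat_lit 619) (.a (.d (nat_lit 587) (nat_lit 586) (nat_lit 3658) (nat_lit 588) (nat_lit 3659)) (.d (nat_lit 654) (nat_lit 653) (nat_lit 1645) (nat_lit 655) (nat_lit 619)))) (.f (nat_lit 654) (nat_lit 653) (nat_lit 1645) (.d (nat_lit 655) (nat_lit 619) (nat_lit 619) (nat_lit 656) (nat_lit 620))))))))))))))) (.a (.p (nat_lit 626) (.a (.f (nat_lit 658) (nat_lit 659) (nat_lit 623) (.f (nat_lit 657) (nat_lit 622) (nat_lit 622) (.p (nat_lit 627) (.a (.d (nat_lit 655) (nat_lit 654) (nat_lit 1646) (nat_lit 656) (nat_lit 1647)) (.d (nat_lit 595) (nat_lit 594) (nat_lit 2639) (nat_lit 596) (nat_lit 2640)))))) (.a (.p (nat_lit 627) (.a (.d (nat_lit 659) (nat_lit 658) (nat_lit 623) (nat_lit 660) (nat_lit 624)) (.d (nat_lit 655) (nat_lit 654) (nat_lit 1646) (nat_lit 656) (nat_lit 1647)))) (.a (.f (nat_lit 658) (nat_lit 659) (nat_lit 623) (.f (nat_lit 657) (nat_lit 622) (nat_lit 622) (.f (nat_lit 594) (nat_lit 595) (nat_lit 2639) (.d (nat_lit 562) (nat_lit 530) (nat_lit 5649) (nat_lit 689) (nat_lit 5681))))) (.p (nat_lit 627) (.a (.d (nat_lit 655) (nat_lit 654) (nat_lit 1646) (nat_lit 656) (nat_lit 1647)) (.d (nat_lit 595) (nat_lit 594) (nat_lit 2639) (nat_lit 596) (nat_lit 2640)))))))) (.a (.p (nat_lit 626) (.a (.f (nat_lit 594) (nat_lit 595) (nat_lit 2639) (.f (nat_lit 593) (nat_lit 622) (nat_lit 2638) (.d (nat_lit 561) (nat_lit 558) (nat_lit 558) (nat_lit 657) (nat_lit 7696)))) (.a (.f (nat_lit 594) (nat_lit 595) (nat_lit 2639) (.p (nat_lit 562) (.a (.f (nat_lit 657) (nat_lit 530) (nat_lit 5649) (.d (nat_lit 561) (nat_lit 563) (nat_lit 3599) (nat_lit 593) (nat_lit 7696))) (.a (.f (nat_lit 657) (nat_lit 530) (nat_lit 5649) (.d (nat_lit 593) (nat_lit 561) (nat_lit 7696) (nat_lit 689) (nat_lit 6705))) (.a (.f (nat_lit 658) (nat_lit 659) (nat_lit 623) (.d (nat_lit 657) (nat_lit 530) (nat_lit 5649) (nat_lit 689) (nat_lit 5681))) (.f (nat_lit 658) (nat_lit 659) (nat_lit 623) (.d (nat_lit 563) (nat_lit 531) (nat_lit 6674) (nat_lit 561) (nat_lit 3599)))))))) (.a (.p (nat_lit 622) (.a (.d (nat_lit 658) (nat_lit 657) (nat_lit 622) (nat_lit 659) (nat_lit 623)) (.d (nat_lit 654) (nat_lit 653) (nat_lit 1645) (nat_lit 655) (nat_lit 1646)))) (.f (nat_lit 594) (nat_lit 595) (nat_lit 2639) (.f (nat_lit 593) (nat_lit 622) (nat_lit 2638) (.f (nat_lit 561) (nat_lit 558) (nat_lit 558) (.d (nat_lit 658) (nat_lit 659) (nat_lit 623) (nat_lit 690) (nat_lit 7729))))))))) (.p (nat_lit 626) (.a (.f (nat_lit 594) (nat_lit 595) (nat_lit 2639) (.f (nat_lit 593) (nat_lit 622) (nat_lit 2638) (.f (nat_lit 561) (nat_lit 558) (nat_lit 558) (.d (nat_lit 658) (nat_lit 659) (nat_lit 623) (nat_lit 690) (nat_lit 7729))))) (.a (.f (nat_lit 659) (nat_lit 658) (nat_lit 623) (.f (nat_lit 595) (nat_lit 594) (nat_lit 2639) (.d (nat_lit 627) (nat_lit 596) (nat_lit 2640) (nat_lit 660) (nat_lit 624)))) (.a (.p (nat_lit 627) (.a (.d (nat_lit 659) (nat_lit 658) (nat_lit 623) (nat_lit 660) (nat_lit 624)) (.d (nat_lit 655) (nat_lit 654) (nat_lit 1646) (nat_lit 656) (nat_lit 1647)))) (.p (nat_lit 622) (.a (.d (nat_lit 654) (nat_lit 653) (nat_lit 1645) (nat_lit 655) (nat_lit 1646)) (.d (nat_lit 594) (nat_lit 593) (nat_lit 2638) (nat_lit 595) (nat_lit 2639)))))))))))))))))))) (.a (.p (nat_lit 622) (.a (.d (nat_lit 591) (nat_lit 654) (nat_lit 5646) (nat_lit 656) (nat_lit 4623)) (.a (.p (nat_lit 621) (.a (.p (nat_lit 620) (.a (.d (nat_lit 652) (nat_lit 651) (nat_lit 1643) (nat_lit 653) (nat_lit 1644)) (.d (nat_lit 588) (nat_lit 587) (nat_lit 3659) (nat_lit 589) (nat_lit 3660)))) (.a (.f (nat_lit 653) (nat_lit 652) (nat_lit 1644) (.f (nat_lit 625) (nat_lit 654) (nat_lit 1645) (.d (nat_lit 657) (nat_lit 656) (nat_lit 621) (nat_lit 658) (nat_lit 622)))) (.f (nat_lit 588) (nat_lit 589) (nat_lit 3660) (.f (nat_lit 620) (nat_lit 587) (nat_lit 3659) (.f (nat_lit 657) (nat_lit 656) (nat_lit 621) (.f (nat_lit 625) (nat_lit 658) (nat_lit 622) (.d (nat_lit 593) (nat_lit 561) (nat_lit 7696) (nat_lit 594) (nat_lit 2638))))))))) (.a (.f (nat_lit 656) (nat_lit 591) (nat_lit 4623) (.f (nat_lit 621) (nat_lit 657) (nat_lit 621) (.p (nat_lit 620) (.a (.d (nat_lit 652) (nat_lit 651) (nat_lit 1643) (nat_lit 653) (nat_lit 1644)) (.d (nat_lit 588) (nat_lit 587) (nat_lit 3659) (nat_lit 589) (nat_lit 3660)))))) (.f (nat_lit 654) (nat_lit 591) (nat_lit 5646) (.f (nat_lit 625) (nat_lit 653) (nat_lit 1645) (.f (nat_lit 657) (nat_lit 658) (nat_lit 622) (.d (nat_lit 593) (nat_lit 561) (nat_lit 7696) (nat_lit 594) (nat_lit 2638))))))))) (.f (nat_lit 655) (nat_lit 591) (nat_lit 6671) (.p (nat_lit 625) (.a (.f (nat_lit 626) (nat_lit 654) (nat_lit 1646) (.f (nat_lit 594) (nat_lit 595) (nat_lit 2639) (.p (nat_lit 657) (.a (.f (nat_lit 562) (nat_lit 530) (nat_lit 5649) (.d (nat_lit 561) (nat_lit 563) (nat_lit 3599) (nat_lit 593) (nat_lit 7696))) (.d (nat_lit 658) (nat_lit 622) (nat_lit 622) (nat_lit 659) (nat_lit 623)))))) (.a (.f (nat_lit 626) (nat_lit 654) (nat_lit 1646) (.f (nat_lit 594) (nat_lit 595) (nat_lit 2639) (.f (nat_lit 658) (nat_lit 659) (nat_lit 623) (.p (nat_lit 562) (.a (.d (nat_lit 657) (nat_lit 530) (nat_lit 5649) (nat_lit 689) (nat_lit 5681)) (.d (nat_lit 563) (nat_lit 531) (nat_lit 6674) (nat_lit 561) (nat_lit 3599))))))) (.a (.f (nat_lit 654) (nat_lit 626) (nat_lit 1646) (.d (nat_lit 653) (nat_lit 622) (nat_lit 1645) (nat_lit 652) (nat_lit 2668))) (.a (.p (nat_lit 594) (.a (.f (nat_lit 593) (nat_lit 622) (nat_lit 2638) (.d (nat_lit 561) (nat_lit 558) (nat_lit 558) (nat_lit 657) (nat_lit 7696))) (.a (.f (nat_lit 595) (nat_lit 626) (nat_lit 2639) (.f (nat_lit 561) (nat_lit 562) (nat_lit 559) (.d (nat_lit 593) (nat_lit 558) (nat_lit 558) (nat_lit 657) (nat_lit 7696)))) (.a (.f (nat_lit 595) (nat_lit 626) (nat_lit 2639) (.d (nat_lit 593) (nat_lit 596) (nat_lit 1616) (nat_lit 622) (nat_lit 2638))) (.f (nat_lit 626) (nat_lit 595) (nat_lit 2639) (.f (nat_lit 658) (nat_lit 659) (nat_lit 623) (.p (nat_lit 562) (.a (.d (nat_lit 657) (nat_lit 530) (nat_lit 5649) (nat_lit 689) (nat_lit 5681)) (.d (nat_lit 563) (nat_lit 531) (nat_lit 6674) (nat_lit 561) (nat_lit 3599)))))))))) (.p (nat_lit 622) (.a (.p (nat_lit 621) (.a (.d (nat_lit 653) (nat_lit 652) (nat_lit 1644) (nat_lit 654) (nat_lit 1645)) (.a (.p (nat_lit 561) (.a (.d (nat_lit 657) (nat_lit 593) (nat_lit 7696) (nat_lit 658) (nat_lit 622)) (.a (.d (nat_lit 593) (nat_lit 594) (nat_lit 2638) (nat_lit 657) (nat_lit 7696)) (.p (nat_lit 620) (.a (.d (nat_lit 652) (nat_lit 651) (nat_lit 1643) (nat_lit 653) (nat_lit 1644)) (.d (nat_lit 588) (nat_lit 587) (nat_lit 3659) (nat_lit 589) (nat_lit 3660))))))) (.p (nat_lit 620) (.a (.d (nat_lit 588) (nat_lit 587) (nat_lit 3659) (nat_lit 589) (nat_lit 3660)) (.a (.f (nat_lit 587) (nat_lit 588) (nat_lit 3659) (.d (nat_lit 619) (nat_lit 586) (nat_lit 3658) (nat_lit 654) (nat_lit 619))) (.f (nat_lit 657) (nat_lit 658) (nat_lit 622) (.d (nat_lit 593) (nat_lit 561) (nat_lit 7696) (nat_lit 594) (nat_lit 2638))))))))) (.a (.p (nat_lit 621) (.a (.d (nat_lit 653) (nat_lit 652) (nat_lit 1644) (nat_lit 654) (nat_lit 1645)) (.a (.p (nat_lit 620) (.a (.d (nat_lit 652) (nat_lit 651) (nat_lit 1643) (nat_lit 653) (nat_lit 1644)) (.d (nat_lit 588) (nat_lit 587) (nat_lit 3659) (nat_lit 589) (nat_lit 3660)))) (.a (.p (nat_lit 620) (.a (.d (nat_lit 588) (nat_lit 587) (nat_lit 3659) (nat_lit 589) (nat_lit 3660)) (.a (.f (nat_lit 587) (nat_lit 588) (nat_lit 3659) (.d (nat_lit 619) (nat_lit 586) (nat_lit 3658) (nat_lit 654) (nat_lit 619))) (.f (nat_lit 619) (nat_lit 654) (nat_lit 619) (.d (nat_lit 651) (nat_lit 650) (nat_lit 1642) (nat_lit 652) (nat_lit 1643)))))) (.p (nat_lit 620) (.a (.d (nat_lit 588) (nat_lit 587) (nat_lit 3659) (nat_lit 589) (nat_lit 3660)) (.d (nat_lit 654) (nat_lit 619) (nat_lit 619) (nat_lit 653) (nat_lit 1645)))))))) (.f (nat_lit 657) (nat_lit 658) (nat_lit 622) (.d (nat_lit 593) (nat_lit 561) (nat_lit 7696) (nat_lit 594) (nat_lit 2638))))))))))))))))))))) (.a (.p (nat_lit 561) (.a (.d (nat_lit 526) (nat_lit 525) (nat_lit 525) (nat_lit 562) (nat_lit 3598)) (.a (.f (nat_lit 562) (nat_lit 563) (nat_lit 3599) (.f (nat_lit 594) (nat_lit 595) (nat_lit 559) (.f (nat_lit 593) (nat_lit 558) (nat_lit 558) (.f (nat_lit 530) (nat_lit 531) (nat_lit 2575) (.d (nat_lit 498) (nat_lit 466) (nat_lit 5585) (nat_lit 625) (nat_lit 5617)))))) (.f (nat_lit 525) (nat_lit 526) (nat_lit 525) (.p (nat_lit 557) (.a (.d (nat_lit 558) (nat_lit 524) (nat_lit 3596) (nat_lit 556) (nat_lit 2572)) (.a (.p (nat_lit 589) (.a (.d (nat_lit 558) (nat_lit 524) (nat_lit 3596) (nat_lit 588) (nat_lit 1580)) (.a (.p (nat_lit 621) (.a (.f (nat_lit 620) (nat_lit 652) (nat_lit 5644) (.f (nat_lit 493) (nat_lit 588) (nat_lit 5612) (.d (nat_lit 492) (nat_lit 460) (nat_lit 7628) (nat_lit 524) (nat_lit 7660)))) (.a (.p (nat_lit 653) (.a (.d (nat_lit 654) (nat_lit 622) (nat_lit 4621) (nat_lit 686) (nat_lit 4653)) (.d (nat_lit 652) (nat_lit 620) (nat_lit 5644) (nat_lit 684) (nat_lit 5676)))) (.f (nat_lit 654) (nat_lit 622) (nat_lit 4621) (.f (nat_lit 653) (nat_lit 686) (nat_lit 4653) (.f (nat_lit 492) (nat_lit 524) (nat_lit 7660) (.f (nat_lit 493) (nat_lit 460) (nat_lit 7628) (.d (nat_lit 494) (nat_lit 462) (nat_lit 6605) (nat_lit 495) (nat_lit 492))))))))) (.a (.f (nat_lit 524) (nat_lit 558) (nat_lit 3596) (.f (nat_lit 492) (nat_lit 621) (nat_lit 7660) (.d (nat_lit 460) (nat_lit 428) (nat_lit 4524) (nat_lit 493) (nat_lit 7628)))) (.f (nat_lit 588) (nat_lit 558) (nat_lit 1580) (.f (nat_lit 493) (nat_lit 620) (nat_lit 5612) (.f (nat_lit 494) (nat_lit 462) (nat_lit 6605) (.d (nat_lit 492) (nat_lit 460) (nat_lit 7628) (nat_lit 495) (nat_lit 492))))))))) (.a (.p (nat_lit 493) (.a (.p (nat_lit 461) (.a (.f (nat_lit 460) (nat_lit 428) (nat_lit 7596) (.f (nat_lit 492) (nat_lit 589) (nat_lit 7628) (.p (nat_lit 429) (.a (.d (nat_lit 397) (nat_lit 365) (nat_lit 5484) (nat_lit 524) (nat_lit 5516)) (.a (.d (nat_lit 556) (nat_lit 524) (nat_lit 5548) (nat_lit 588) (nat_lit 5580)) (.f (nat_lit 397) (nat_lit 365) (nat_lit 5484) (.d (nat_lit 398) (nat_lit 366) (nat_lit 6509) (nat_lit 430) (nat_lit 6541)))))))) (.a (.f (nat_lit 462) (nat_lit 430) (nat_lit 6573) (.p (nat_lit 492) (.a (.d (nat_lit 494) (nat_lit 495) (nat_lit 492) (nat_lit 589) (nat_lit 6605)) (.a (.d (nat_lit 460) (nat_lit 428) (nat_lit 7596) (nat_lit 589) (nat_lit 7628)) (.f (nat_lit 463) (nat_lit 464) (nat_lit 1484) (.d (nat_lit 495) (nat_lit 431) (nat_lit 4527) (nat_lit 494) (nat_lit 492))))))) (.a (.f (nat_lit 462) (nat_lit 430) (nat_lit 6573) (.f (nat_lit 494) (nat_lit 589) (nat_lit 6605) (.f (nat_lit 460) (nat_lit 428) (nat_lit 7596) (.d (nat_lit 459) (nat_lit 458) (nat_lit 458) (nat_lit 495) (nat_lit 459))))) (.a (.f (nat_lit 462) (nat_lit 430) (nat_lit 6573) (.p (nat_lit 492) (.a (.f (nat_lit 460) (nat_lit 428) (nat_lit 7596) (.d (nat_lit 463) (nat_lit 464) (nat_lit 1484) (nat_lit 491) (nat_lit 1483))) (.a (.f (nat_lit 494) (nat_lit 495) (nat_lit 492) (.d (nat_lit 463) (nat_lit 464) (nat_lit 1484) (nat_lit 491) (nat_lit 2507))) (.p (nat_lit 429) (.a (.d (nat_lit 556) (nat_lit 524) (nat_lit 5548) (nat_lit 588) (nat_lit 5580)) (.d (nat_lit 428) (nat_lit 396) (nat_lit 7564) (nat_lit 460) (nat_lit 7596)))))))) (.a (.f (nat_lit 462) (nat_lit 430) (nat_lit 6573) (.f (nat_lit 494) (nat_lit 589) (nat_lit 6605) (.d (nat_lit 495) (nat_lit 492) (nat_lit 492) (nat_lit 591) (nat_lit 7630)))) (.f (nat_lit 460) (nat_lit 428) (nat_lit 7596) (.f (nat_lit 492) (nat_lit 589) (nat_lit 7628) (.p (nat_lit 524) (.a (.d (nat_lit 556) (nat_lit 429) (nat_lit 5548) (nat_lit 588) (nat_lit 5580)) (.p (nat_lit 463) (.a (.d (nat_lit 495) (nat_lit 431) (nat_lit 4527) (nat_lit 494) (nat_lit 492)) (.d (nat_lit 462) (nat_lit 464) (nat_lit 1484) (nat_lit 491) (nat_lit 1483)))))))))))))) (.a (.p (nat_lit 461) (.a (.f (nat_lit 460) (nat_lit 428) (nat_lit 7596) (.f (nat_lit 492) (nat_lit 589) (nat_lit 7628) (.p (nat_lit 429) (.a (.d (nat_lit 397) (nat_lit 365) (nat_lit 5484) (nat_lit 524) (nat_lit 5516)) (.a (.d (nat_lit 556) (nat_lit 524) (nat_lit 5548) (nat_lit 588) (nat_lit 5580)) (.f (nat_lit 397) (nat_lit 365) (nat_lit 5484) (.d (nat_lit 398) (nat_lit 366) (nat_lit 6509) (nat_lit 430) (nat_lit 6541)))))))) (.a (.f (nat_lit 460) (nat_lit 428) (nat_lit 7596) (.f (nat_lit 492) (nat_lit 589) (nat_lit 7628) (.p (nat_lit 429) (.a (.d (nat_lit 397) (nat_lit 365) (nat_lit 5484) (nat_lit 524) (nat_lit 5516)) (.p (nat_lit 431) (.a (.d (nat_lit 430) (nat_lit 398) (nat_lit 6541) (nat_lit 432) (nat_lit 1452)) (.d (nat_lit 495) (nat_lit 463) (nat_lit 4527) (nat_lit 494) (nat_lit 492)))))))) (.a (.p (nat_lit 429) (.a (.d (nat_lit 556) (nat_lit 524) (nat_lit 5548) (nat_lit 588) (nat_lit 5580)) (.d (nat_lit 428) (nat_lit 396) (nat_lit 7564) (nat_lit 460) (nat_lit 7596)))) (.a (.p (nat_lit 589) (.a (.d (nat_lit 588) (nat_lit 556) (nat_lit 5580) (nat_lit 620) (nat_lit 5612)) (.d (nat_lit 460) (nat_lit 428) (nat_lit 7596) (nat_lit 492) (nat_lit 7628)))) (.a (.f (nat_lit 556) (nat_lit 588) (nat_lit 5580) (.f (nat_lit 429) (nat_lit 524) (nat_lit 5548) (.p (nat_lit 397) (.a (.d (nat_lit 398) (nat_lit 366) (nat_lit 6509) (nat_lit 430) (nat_lit 6541)) (.d (nat_lit 396) (nat_lit 364) (nat_lit 7532) (nat_lit 428) (nat_lit 7564)))))) (.p (nat_lit 492) (.a (.p (nat_lit 524) (.a (.d (nat_lit 589) (nat_lit 460) (nat_lit 7628) (nat_lit 621) (nat_lit 7660)) (.d (nat_lit 556) (nat_lit 429) (nat_lit 5548) (nat_lit 588) (nat_lit 5580)))) (.a (.f (nat_lit 589) (nat_lit 460) (nat_lit 7628) (.f (nat_lit 621) (nat_lit 524) (nat_lit 7660) (.d (nat_lit 620) (nat_lit 588) (nat_lit 5612) (nat_lit 652) (nat_lit 5644)))) (.a (.f (nat_lit 556) (nat_lit 588) (nat_lit 5580) (.f (nat_lit 429) (nat_lit 524) (nat_lit 5548) (.p (nat_lit 397) (.a (.d (nat_lit 398) (nat_lit 366) (nat_lit 6509) (nat_lit 430) (nat_lit 6541)) (.d (nat_lit 460) (nat_lit 365) (nat_lit 5484) (nat_lit 589) (nat_lit 7628)))))) (.a (.p (nat_lit 429) (.a (.d (nat_lit 556) (nat_lit 524) (nat_lit 5548) (nat_lit 588) (nat_lit 5580)) (.a (.f (nat_lit 397) (nat_lit 524) (nat_lit 5516) (.d (nat_lit 398) (nat_lit 366) (nat_lit 6509) (nat_lit 430) (nat_lit 6541))) (.p (nat_lit 397) (.a (.d (nat_lit 398) (nat_lit 366) (nat_lit 6509) (nat_lit 430) (nat_lit 6541)) (.f (nat_lit 364) (nat_lit 396) (nat_lit 7532) (.d (nat_lit 365) (nat_lit 332) (nat_lit 7500) (nat_lit 460) (nat_lit 5484)))))))) (.a (.p (nat_lit 589) (.a (.d (nat_lit 588) (nat_lit 556) (nat_lit 5580) (nat_lit 620) (nat_lit 5612)) (.a (.f (nat_lit 621) (nat_lit 524) (nat_lit 7660) (.d (nat_lit 620) (nat_lit 588) (nat_lit 5612) (nat_lit 652) (nat_lit 5644))) (.a (.f (nat_lit 524) (nat_lit 621) (nat_lit 7660) (.d (nat_lit 556) (nat_lit 429) (nat_lit 5548) (nat_lit 588) (nat_lit 5580))) (.f (nat_lit 524) (nat_lit 621) (nat_lit 7660) (.d (nat_lit 429) (nat_lit 397) (nat_lit 5516) (nat_lit 556) (nat_lit 5548))))))) (.a (.p (nat_lit 524) (.a (.d (nat_lit 589) (nat_lit 460) (nat_lit 7628) (nat_lit 621) (nat_lit 7660)) (.d (nat_lit 429) (nat_lit 397) (nat_lit 5516) (nat_lit 556) (nat_lit 5548)))) (.f (nat_lit 589) (nat_lit 460) (nat_lit 7628) (.d (nat_lit 588) (nat_lit 556) (nat_lit 5580) (nat_lit 620) (nat_lit 5612)))))))))))))))) (.a (.p (nat_lit 492) (.a (.f (nat_lit 460) (nat_lit 589) (nat_lit 7628) (.d (nat_lit 428) (nat_lit 396) (nat_lit 4492) (nat_lit 524) (nat_lit 4524))) (.a (.f (nat_lit 495) (nat_lit 494) (nat_lit 492) (.p (nat_lit 461) (.a (.p (nat_lit 429) (.a (.d (nat_lit 428) (nat_lit 396) (nat_lit 7564) (nat_lit 460) (nat_lit 7596)) (.a (.f (nat_lit 396) (nat_lit 428) (nat_lit 7564) (.d (nat_lit 397) (nat_lit 364) (nat_lit 7532) (nat_lit 524) (nat_lit 5516))) (.f (nat_lit 397) (nat_lit 524) (nat_lit 5516) (.d (nat_lit 398) (nat_lit 366) (nat_lit 6509) (nat_lit 430) (nat_lit 6541)))))) (.a (.f (nat_lit 463) (nat_lit 431) (nat_lit 4527) (.d (nat_lit 462) (nat_lit 430) (nat_lit 6573) (nat_lit 464) (nat_lit 1484))) (.f (nat_lit 460) (nat_lit 428) (nat_lit 7596) (.f (nat_lit 463) (nat_lit 431) (nat_lit 4527) (.d (nat_lit 464) (nat_lit 432) (nat_lit 6575) (nat_lit 462) (nat_lit 1484)))))))) (.f (nat_lit 494) (nat_lit 495) (nat_lit 492) (.f (nat_lit 462) (nat_lit 589) (nat_lit 6605) (.d (nat_lit 430) (nat_lit 398) (nat_lit 5517) (nat_lit 461) (nat_lit 6573))))))) (.a (.p (nat_lit 589) (.a (.f (nat_lit 494) (nat_lit 462) (nat_lit 6605) (.d (nat_lit 492) (nat_lit 460) (nat_lit 7628) (nat_lit 495) (nat_lit 492))) (.a (.f (nat_lit 492) (nat_lit 460) (nat_lit 7628) (.f (nat_lit 621) (nat_lit 524) (nat_lit 7660) (.d (nat_lit 620) (nat_lit 588) (nat_lit 5612) (nat_lit 652) (nat_lit 5644)))) (.f (nat_lit 462) (nat_lit 494) (nat_lit 6605) (.p (nat_lit 621) (.a (.d (nat_lit 620) (nat_lit 588) (nat_lit 5612) (nat_lit 652) (nat_lit 5644)) (.a (.p (nat_lit 653) (.a (.d (nat_lit 654) (nat_lit 622) (nat_lit 4621) (nat_lit 686) (nat_lit 4653)) (.a (.p (nat_lit 685) (.a (.d (nat_lit 686) (nat_lit 654) (nat_lit 4653) (nat_lit 718) (nat_lit 4685)) (.d (nat_lit 684) (nat_lit 652) (nat_lit 5676) (nat_lit 716) (nat_lit 5708)))) (.p (nat_lit 685) (.a (.d (nat_lit 684) (nat_lit 652) (nat_lit 5676) (nat_lit 716) (nat_lit 5708)) (.d (nat_lit 556) (nat_lit 524) (nat_lit 7692) (nat_lit 588) (nat_lit 7724))))))) (.a (.p (nat_lit 653) (.a (.d (nat_lit 654) (nat_lit 622) (nat_lit 4621) (nat_lit 686) (nat_lit 4653)) (.d (nat_lit 652) (nat_lit 620) (nat_lit 5644) (nat_lit 684) (nat_lit 5676)))) (.p (nat_lit 653) (.a (.d (nat_lit 654) (nat_lit 622) (nat_lit 4621) (nat_lit 686) (nat_lit 4653)) (.f (nat_lit 556) (nat_lit 524) (nat_lit 7692) (.d (nat_lit 588) (nat_lit 620) (nat_lit 5612) (nat_lit 685) (nat_lit 7724))))))))))))) (.a (.p (nat_lit 461) (.a (.f (nat_lit 462) (nat_lit 430) (nat_lit 6573) (.f (nat_lit 494) (nat_lit 589) (nat_lit 6605) (.f (nat_lit 460) (nat_lit 428) (nat_lit 7596) (.d (nat_lit 459) (nat_lit 458) (nat_lit 458) (nat_lit 495) (nat_lit 459))))) (.a (.p (nat_lit 429) (.a (.d (nat_lit 556) (nat_lit 524) (nat_lit 5548) (nat_lit 588) (nat_lit 5580)) (.d (nat_lit 428) (nat_lit 396) (nat_lit 7564) (nat_lit 460) (nat_lit 7596)))) (.f (nat_lit 462) (nat_lit 430) (nat_lit 6573) (.f (nat_lit 589) (nat_lit 494) (nat_lit 6605) (.d (nat_lit 588) (nat_lit 556) (nat_lit 5580) (nat_lit 620) (nat_lit 5612))))))) (.a (.p (nat_lit 461) (.a (.f (nat_lit 460) (nat_lit 428) (nat_lit 7596) (.f (nat_lit 492) (nat_lit 589) (nat_lit 7628) (.p (nat_lit 429) (.a (.d (nat_lit 556) (nat_lit 524) (nat_lit 5548) (nat_lit 588) (nat_lit 5580)) (.d (nat_lit 430) (nat_lit 398) (nat_lit 6541) (nat_lit 462) (nat_lit 6573)))))) (.a (.f (nat_lit 460) (nat_lit 428) (nat_lit 7596) (.f (nat_lit 492) (nat_lit 589) (nat_lit 7628) (.p (nat_lit 429) (.a (.d (nat_lit 397) (nat_lit 365) (nat_lit 5484) (nat_lit 524) (nat_lit 5516)) (.a (.d (nat_lit 556) (nat_lit 524) (nat_lit 5548) (nat_lit 588) (nat_lit 5580)) (.f (nat_lit 397) (nat_lit 365) (nat_lit 5484) (.d (nat_lit 398) (nat_lit 366) (nat_lit 6509) (nat_lit 430) (nat_lit 6541)))))))) (.a (.f (nat_lit 460) (nat_lit 428) (nat_lit 7596) (.f (nat_lit 462) (nat_lit 430) (nat_lit 6573) (.f (nat_lit 492) (nat_lit 589) (nat_lit 7628) (.d (nat_lit 463) (nat_lit 464) (nat_lit 1484) (nat_lit 491) (nat_lit 1483))))) (.a (.p (nat_lit 429) (.a (.d (nat_lit 556) (nat_lit 524) (nat_lit 5548) (nat_lit 588) (nat_lit 5580)) (.d (nat_lit 430) (nat_lit 398) (nat_lit 6541) (nat_lit 462) (nat_lit 6573)))) (.p (nat_lit 589) (.a (.d (nat_lit 588) (nat_lit 556) (nat_lit 5580) (nat_lit 620) (nat_lit 5612)) (.d (nat_lit 460) (nat_lit 428) (nat_lit 7596) (nat_lit 492) (nat_lit 7628))))))))) (.a (.p (nat_lit 461) (.a (.f (nat_lit 462) (nat_lit 430) (nat_lit 6573) (.p (nat_lit 492) (.a (.f (nat_lit 460) (nat_lit 428) (nat_lit 7596) (.d (nat_lit 463) (nat_lit 464) (nat_lit 1484) (nat_lit 491) (nat_lit 1483))) (.a (.f (nat_lit 494) (nat_lit 495) (nat_lit 492) (.d (nat_lit 463) (nat_lit 464) (nat_lit 1484) (nat_lit 491) (nat_lit 2507))) (.p (nat_lit 429) (.a (.d (nat_lit 556) (nat_lit 524) (nat_lit 5548) (nat_lit 588) (nat_lit 5580)) (.d (nat_lit 428) (nat_lit 396) (nat_lit 7564) (nat_lit 460) (nat_lit 7596)))))))) (.a (.p (nat_lit 429) (.a (.d (nat_lit 556) (nat_lit 524) (nat_lit 5548) (nat_lit 588) (nat_lit 5580)) (.d (nat_lit 428) (nat_lit 396) (nat_lit 7564) (nat_lit 460) (nat_lit 7596)))) (.a (.f (nat_lit 462) (nat_lit 430) (nat_lit 6573) (.p (nat_lit 492) (.a (.f (nat_lit 463) (nat_lit 464) (nat_lit 1484) (.d (nat_lit 495) (nat_lit 431) (nat_lit 4527) (nat_lit 494) (nat_lit 492))) (.a (.f (nat_lit 460) (nat_lit 428) (nat_lit 7596) (.d (nat_lit 463) (nat_lit 464) (nat_lit 1484) (nat_lit 491) (nat_lit 1483))) (.p (nat_lit 429) (.a (.d (nat_lit 428) (nat_lit 396) (nat_lit 7564) (nat_lit 460) (nat_lit 7596)) (.a (.f (nat_lit 396) (nat_lit 428) (nat_lit 7564) (.d (nat_lit 397) (nat_lit 364) (nat_lit 7532) (nat_lit 524) (nat_lit 5516))) (.f (nat_lit 397) (nat_lit 524) (nat_lit 5516) (.d (nat_lit 494) (nat_lit 365) (nat_lit 4461) (nat_lit 495) (nat_lit 492)))))))))) (.a (.f (nat_lit 462) (nat_lit 430) (nat_lit 6573) (.p (nat_lit 463) (.a (.f (nat_lit 492) (nat_lit 464) (nat_lit 1484) (.d (nat_lit 495) (nat_lit 431) (nat_lit 4527) (nat_lit 494) (nat_lit 492))) (.a (.f (nat_lit 495) (nat_lit 431) (nat_lit 4527) (.f (nat_lit 460) (nat_lit 428) (nat_lit 7596) (.d (nat_lit 494) (nat_lit 459) (nat_lit 459) (nat_lit 591) (nat_lit 7630)))) (.a (.f (nat_lit 492) (nat_lit 464) (nat_lit 1484) (.d (nat_lit 491) (nat_lit 490) (nat_lit 2506) (nat_lit 494) (nat_lit 2507))) (.f (nat_lit 460) (nat_lit 428) (nat_lit 7596) (.d (nat_lit 492) (nat_lit 464) (nat_lit 1484) (nat_lit 491) (nat_lit 1483)))))))) (.p (nat_lit 429) (.a (.d (nat_lit 556) (nat_lit 524) (nat_lit 5548) (nat_lit 588) (nat_lit 5580)) (.d (nat_lit 430) (nat_lit 398) (nat_lit 6541) (nat_lit 462) (nat_lit 6573))))))))) (.a (.p (nat_lit 461) (.a (.f (nat_lit 462) (nat_lit 430) (nat_lit 6573) (.f (nat_lit 494) (nat_lit 589) (nat_lit 6605) (.d (nat_lit 495) (nat_lit 492) (nat_lit 492) (nat_lit 591) (nat_lit 7630)))) (.a (.f (nat_lit 556) (nat_lit 588) (nat_lit 5580) (.f (nat_lit 429) (nat_lit 524) (nat_lit 5548) (.p (nat_lit 397) (.a (.d (nat_lit 398) (nat_lit 366) (nat_lit 6509) (nat_lit 430) (nat_lit 6541)) (.d (nat_lit 396) (nat_lit 364) (nat_lit 7532) (nat_lit 428) (nat_lit 7564)))))) (.p (nat_lit 589) (.a (.d (nat_lit 588) (nat_lit 556) (nat_lit 5580) (nat_lit 620) (nat_lit 5612)) (.a (.p (nat_lit 492) (.a (.f (nat_lit 621) (nat_lit 524) (nat_lit 7660) (.d (nat_lit 620) (nat_lit 588) (nat_lit 5612) (nat_lit 652) (nat_lit 5644))) (.d (nat_lit 494) (nat_lit 462) (nat_lit 6605) (nat_lit 495) (nat_lit 492)))) (.a (.p (nat_lit 492) (.a (.f (nat_lit 524) (nat_lit 621) (nat_lit 7660) (.d (nat_lit 556) (nat_lit 429) (nat_lit 5548) (nat_lit 588) (nat_lit 5580))) (.d (nat_lit 494) (nat_lit 462) (nat_lit 6605) (nat_lit 495) (nat_lit 492)))) (.p (nat_lit 492) (.a (.f (nat_lit 524) (nat_lit 621) (nat_lit 7660) (.d (nat_lit 429) (nat_lit 397) (nat_lit 5516) (nat_lit 556) (nat_lit 5548))) (.d (nat_lit 494) (nat_lit 462) (nat_lit 6605) (nat_lit 495) (nat_lit 492))))))))))) (.p (nat_lit 461) (.a (.f (nat_lit 462) (nat_lit 430) (nat_lit 6573) (.f (nat_lit 494) (nat_lit 589) (nat_lit 6605) (.d (nat_lit 495) (nat_lit 492) (nat_lit 492) (nat_lit 591) (nat_lit 7630)))) (.a (.p (nat_lit 589) (.a (.d (nat_lit 588) (nat_lit 556) (nat_lit 5580) (nat_lit 620) (nat_lit 5612)) (.d (nat_lit 460) (nat_lit 428) (nat_lit 7596) (nat_lit 492) (nat_lit 7628)))) (.a (.f (nat_lit 462) (nat_lit 430) (nat_lit 6573) (.f (nat_lit 494) (nat_lit 589) (nat_lit 6605) (.f (nat_lit 460) (nat_lit 428) (nat_lit 7596) (.d (nat_lit 459) (nat_lit 458) (nat_lit 458) (nat_lit 495) (nat_lit 459))))) (.f (nat_lit 462) (nat_lit 430) (nat_lit 6573) (.p (nat_lit 463) (.a (.f (nat_lit 492) (nat_lit 464) (nat_lit 1484) (.d (nat_lit 495) (nat_lit 431) (nat_lit 4527) (nat_lit 494) (nat_lit 492))) (.a (.f (nat_lit 460) (nat_lit 428) (nat_lit 7596) (.d (nat_lit 431) (nat_lit 432) (nat_lit 2476) (nat_lit 495) (nat_lit 4527))) (.f (nat_lit 492) (nat_lit 464) (nat_lit 1484) (.d (nat_lit 491) (nat_lit 490) (nat_lit 2506) (nat_lit 494) (nat_lit 2507)))))))))))))))))))) (.f (nat_lit 556) (nat_lit 558) (nat_lit 2572) (.p (nat_lit 493) (.a (.f (nat_lit 461) (nat_lit 588) (nat_lit 5580) (.f (nat_lit 462) (nat_lit 430) (nat_lit 6573) (.p (nat_lit 492) (.a (.d (nat_lit 494) (nat_lit 495) (nat_lit 492) (nat_lit 589) (nat_lit 6605)) (.a (.d (nat_lit 460) (nat_lit 428) (nat_lit 7596) (nat_lit 589) (nat_lit 7628)) (.f (nat_lit 460) (nat_lit 428) (nat_lit 7596) (.d (nat_lit 463) (nat_lit 464) (nat_lit 1484) (nat_lit 491) (nat_lit 1483)))))))) (.a (.f (nat_lit 588) (nat_lit 461) (nat_lit 5580) (.d (nat_lit 620) (nat_lit 589) (nat_lit 5612) (nat_lit 652) (nat_lit 6668))) (.a (.p (nat_lit 589) (.a (.p (nat_lit 621) (.a (.d (nat_lit 620) (nat_lit 588) (nat_lit 5612) (nat_lit 652) (nat_lit 5644)) (.a (.p (nat_lit 653) (.a (.d (nat_lit 654) (nat_lit 622) (nat_lit 4621) (nat_lit 686) (nat_lit 4653)) (.f (nat_lit 684) (nat_lit 652) (nat_lit 5676) (.d (nat_lit 685) (nat_lit 588) (nat_lit 7724) (nat_lit 716) (nat_lit 5708))))) (.a (.p (nat_lit 653) (.a (.d (nat_lit 654) (nat_lit 622) (nat_lit 4621) (nat_lit 686) (nat_lit 4653)) (.d (nat_lit 652) (nat_lit 620) (nat_lit 5644) (nat_lit 684) (nat_lit 5676)))) (.p (nat_lit 653) (.a (.d (nat_lit 654) (nat_lit 622) (nat_lit 4621) (nat_lit 686) (nat_lit 4653)) (.d (nat_lit 588) (nat_lit 620) (nat_lit 5612) (nat_lit 685) (nat_lit 7724)))))))) (.f (nat_lit 494) (nat_lit 462) (nat_lit 6605) (.d (nat_lit 492) (nat_lit 460) (nat_lit 7628) (nat_lit 495) (nat_lit 492))))) (.a (.f (nat_lit 461) (nat_lit 588) (nat_lit 5580) (.f (nat_lit 462) (nat_lit 430) (nat_lit 6573) (.f (nat_lit 460) (nat_lit 428) (nat_lit 7596) (.p (nat_lit 463) (.a (.d (nat_lit 431) (nat_lit 432) (nat_lit 2476) (nat_lit 495) (nat_lit 4527)) (.d (nat_lit 492) (nat_lit 464) (nat_lit 1484) (nat_lit 491) (nat_lit 1483))))))) (.p (nat_lit 462) (.a (.f (nat_lit 494) (nat_lit 589) (nat_lit 6605) (.d (nat_lit 495) (nat_lit 492) (nat_lit 492) (nat_lit 591) (nat_lit 7630))) (.a (.f (nat_lit 430) (nat_lit 461) (nat_lit 6573) (.d (nat_lit 494) (nat_lit 398) (nat_lit 5517) (nat_lit 589) (nat_lit 6605))) (.a (.f (nat_lit 461) (nat_lit 430) (nat_lit 6573) (.f (nat_lit 460) (nat_lit 428) (nat_lit 7596) (.p (nat_lit 463) (.a (.d (nat_lit 431) (nat_lit 432) (nat_lit 2476) (nat_lit 495) (nat_lit 4527)) (.d (nat_lit 492) (nat_lit 464) (nat_lit 1484) (nat_lit 589) (nat_lit 7628)))))) (.f (nat_lit 430) (nat_lit 461) (nat_lit 6573) (.f (nat_lit 494) (nat_lit 398) (nat_lit 5517) (.d (nat_lit 495) (nat_lit 463) (nat_lit 7598) (nat_lit 492) (nat_lit 492)))))))))))))))))))))) (.a (.p (nat_lit 495) (.a (.d (nat_lit 463) (nat_lit 431) (nat_lit 4527) (nat_lit 592) (nat_lit 4559)) (.a (.d (nat_lit 592) (nat_lit 463) (nat_lit 4559) (nat_lit 624) (nat_lit 7663)) (.a (.f (nat_lit 463) (nat_lit 431) (nat_lit 4527) (.f (nat_lit 462) (nat_lit 430) (nat_lit 7598) (.f (nat_lit 494) (nat_lit 591) (nat_lit 7630) (.f (nat_lit 493) (nat_lit 492) (nat_lit 492) (.d (nat_lit 464) (nat_lit 432) (nat_lit 6575) (nat_lit 465) (nat_lit 1485)))))) (.f (nat_lit 624) (nat_lit 592) (nat_lit 7663) (.p (nat_lit 591) (.a (.d (nat_lit 623) (nat_lit 655) (nat_lit 6671) (nat_lit 656) (nat_lit 4623)) (.a (.f (nat_lit 494) (nat_lit 462) (nat_lit 7630) (.d (nat_lit 623) (nat_lit 526) (nat_lit 7662) (nat_lit 656) (nat_lit 4623))) (.a (.f (nat_lit 623) (nat_lit 655) (nat_lit 6671) (.d (nat_lit 494) (nat_lit 462) (nat_lit 7630) (nat_lit 526) (nat_lit 7662))) (.p (nat_lit 525) (.a (.d (nat_lit 526) (nat_lit 524) (nat_lit 524) (nat_lit 561) (nat_lit 525)) (.a (.p (nat_lit 557) (.a (.d (nat_lit 558) (nat_lit 524) (nat_lit 3596) (nat_lit 556) (nat_lit 2572)) (.a (.f (nat_lit 494) (nat_lit 462) (nat_lit 7630) (.p (nat_lit 589) (.a (.d (nat_lit 558) (nat_lit 524) (nat_lit 3596) (nat_lit 588) (nat_lit 1580)) (.a (.p (nat_lit 621) (.a (.d (nat_lit 492) (nat_lit 493) (nat_lit 492) (nat_lit 524) (nat_lit 7660)) (.p (nat_lit 653) (.a (.d (nat_lit 654) (nat_lit 622) (nat_lit 4621) (nat_lit 686) (nat_lit 4653)) (.d (nat_lit 652) (nat_lit 620) (nat_lit 5644) (nat_lit 684) (nat_lit 5676)))))) (.f (nat_lit 493) (nat_lit 492) (nat_lit 492) (.d (nat_lit 588) (nat_lit 558) (nat_lit 1580) (nat_lit 620) (nat_lit 5612))))))) (.a (.p (nat_lit 493) (.a (.f (nat_lit 492) (nat_lit 494) (nat_lit 492) (.f (nat_lit 460) (nat_lit 589) (nat_lit 7628) (.d (nat_lit 428) (nat_lit 396) (nat_lit 4492) (nat_lit 524) (nat_lit 4524)))) (.a (.p (nat_lit 461) (.a (.p (nat_lit 429) (.a (.d (nat_lit 556) (nat_lit 524) (nat_lit 5548) (nat_lit 588) (nat_lit 5580)) (.d (nat_lit 428) (nat_lit 396) (nat_lit 7564) (nat_lit 460) (nat_lit 7596)))) (.d (nat_lit 462) (nat_lit 430) (nat_lit 6573) (nat_lit 494) (nat_lit 7630)))) (.a (.p (nat_lit 461) (.a (.p (nat_lit 429) (.a (.d (nat_lit 556) (nat_lit 524) (nat_lit 5548) (nat_lit 588) (nat_lit 5580)) (.d (nat_lit 428) (nat_lit 396) (nat_lit 7564) (nat_lit 460) (nat_lit 7596)))) (.a (.f (nat_lit 428) (nat_lit 460) (nat_lit 7596) (.f (nat_lit 429) (nat_lit 396) (nat_lit 7564) (.d (nat_lit 430) (nat_lit 398) (nat_lit 6541) (nat_lit 462) (nat_lit 6573)))) (.a (.p (nat_lit 589) (.a (.d (nat_lit 588) (nat_lit 556) (nat_lit 5580) (nat_lit 620) (nat_lit 5612)) (.d (nat_lit 460) (nat_lit 428) (nat_lit 7596) (nat_lit 492) (nat_lit 7628)))) (.p (nat_lit 429) (.a (.d (nat_lit 556) (nat_lit 524) (nat_lit 5548) (nat_lit 588) (nat_lit 5580)) (.d (nat_lit 430) (nat_lit 398) (nat_lit 6541) (nat_lit 462) (nat_lit 6573)))))))) (.d (nat_lit 494) (nat_lit 462) (nat_lit 7630) (nat_lit 492) (nat_lit 492)))))) (.f (nat_lit 494) (nat_lit 462) (nat_lit 7630) (.p (nat_lit 588) (.a (.d (nat_lit 558) (nat_lit 556) (nat_lit 2572) (nat_lit 589) (nat_lit 1580)) (.a (.f (nat_lit 589) (nat_lit 558) (nat_lit 1580) (.d (nat_lit 493) (nat_lit 492) (nat_lit 492) (nat_lit 620) (nat_lit 5612))) (.a (.f (nat_lit 493) (nat_lit 492) (nat_lit 492) (.f (nat_lit 556) (nat_lit 461) (nat_lit 5580) (.d (nat_lit 620) (nat_lit 589) (nat_lit 5612) (nat_lit 652) (nat_lit 6668)))) (.f (nat_lit 556) (nat_lit 558) (nat_lit 2572) (.d (nat_lit 493) (nat_lit 461) (nat_lit 5580) (nat_lit 492) (nat_lit 492)))))))))))) (.f (nat_lit 526) (nat_lit 561) (nat_lit 525) (.f (nat_lit 494) (nat_lit 462) (nat_lit 7630) (.f (nat_lit 557) (nat_lit 556) (nat_lit 1548) (.f (nat_lit 493) (nat_lit 492) (nat_lit 492) (.f (nat_lit 589) (nat_lit 621) (nat_lit 6637) (.d (nat_lit 588) (nat_lit 558) (nat_lit 1580) (nat_lit 620) (nat_lit 5612))))))))))))))))))) (.a (.p (nat_lit 526) (.a (.d (nat_lit 525) (nat_lit 524) (nat_lit 524) (nat_lit 561) (nat_lit 525)) (.a (.f (nat_lit 561) (nat_lit 562) (nat_lit 3598) (.p (nat_lit 623) (.a (.d (nat_lit 591) (nat_lit 494) (nat_lit 7662) (nat_lit 655) (nat_lit 6671)) (.a (.p (nat_lit 624) (.a (.d (nat_lit 592) (nat_lit 655) (nat_lit 5647) (nat_lit 656) (nat_lit 7695)) (.a (.f (nat_lit 592) (nat_lit 656) (nat_lit 7695) s18771) (.a s16952 (.f (nat_lit 592) (nat_lit 655) (nat_lit 5647) s18771))))) (.f (nat_lit 591) (nat_lit 494) (nat_lit 7662) (.f (nat_lit 624) (nat_lit 656) (nat_lit 4623) (.f (nat_lit 622) (nat_lit 654) (nat_lit 5646) (.p (nat_lit 593) (.a (.d (nat_lit 594) (nat_lit 558) (nat_lit 558) (nat_lit 592) (nat_lit 1614)) (.a (.f (nat_lit 621) (nat_lit 592) (nat_lit 2637) (.p (nat_lit 620) (.a (.d (nat_lit 652) (nat_lit 651) (nat_lit 1643) (nat_lit 653) (nat_lit 1644)) (.d (nat_lit 588) (nat_lit 587) (nat_lit 3659) (nat_lit 589) (nat_lit 3660))))) (.d (nat_lit 594) (nat_lit 558) (nat_lit 558) (nat_lit 625) (nat_lit 2638)))))))))))) (.f (nat_lit 525) (nat_lit 524) (nat_lit 524) (.f (nat_lit 557) (nat_lit 556) (nat_lit 1548) (.f (nat_lit 493) (nat_lit 492) (nat_lit 3564) (.p (nat_lit 494) (.a (.d (nat_lit 462) (nat_lit 430) (nat_lit 5549) (nat_lit 589) (nat_lit 6605)) (.a (.f (nat_lit 589) (nat_lit 621) (nat_lit 6637) (.d (nat_lit 588) (nat_lit 558) (nat_lit 1580) (nat_lit 620) (nat_lit 5612))) (.f (nat_lit 462) (nat_lit 430) (nat_lit 4526) (.d (nat_lit 591) (nat_lit 558) (nat_lit 4558) (nat_lit 623) (nat_lit 7662)))))))))))) (.p (nat_lit 592) (.a (.d (nat_lit 495) (nat_lit 463) (nat_lit 4559) (nat_lit 624) (nat_lit 7663)) (.a (.f (nat_lit 495) (nat_lit 463) (nat_lit 4559) (.p (nat_lit 557) (.a (.d (nat_lit 558) (nat_lit 556) (nat_lit 2572) (nat_lit 593) (nat_lit 557)) (.a (.f (nat_lit 558) (nat_lit 593) (nat_lit 557) (.f (nat_lit 525) (nat_lit 524) (nat_lit 3596) (.f (nat_lit 589) (nat_lit 588) (nat_lit 1580) (.p (nat_lit 494) (.a (.f (nat_lit 621) (nat_lit 526) (nat_lit 6637) (.p (nat_lit 653) (.a (.d (nat_lit 654) (nat_lit 622) (nat_lit 4621) (nat_lit 686) (nat_lit 4653)) (.d (nat_lit 652) (nat_lit 620) (nat_lit 5644) (nat_lit 684) (nat_lit 5676))))) (.a (.d (nat_lit 462) (nat_lit 526) (nat_lit 5581) (nat_lit 591) (nat_lit 7630)) (.d (nat_lit 462) (nat_lit 493) (nat_lit 6605) (nat_lit 591) (nat_lit 7630)))))))) (.p (nat_lit 525) (.a (.d (nat_lit 526) (nat_lit 524) (nat_lit 524) (nat_lit 556) (nat_lit 1548)) (.a (.f (nat_lit 526) (nat_lit 524) (nat_lit 524) s18822) (.a s16700 (.f (nat_lit 526) (nat_lit 556) (nat_lit 1548) s18822))))))))) (.a (.d (nat_lit 624) (nat_lit 495) (nat_lit 7663) (nat_lit 656) (nat_lit 7695)) (.f (nat_lit 624) (nat_lit 656) (nat_lit 7695) (.f (nat_lit 623) (nat_lit 655) (nat_lit 5647) (.f (nat_lit 625) (nat_lit 657) (nat_lit 4624) (.p (nat_lit 593) (.a (.d (nat_lit 594) (nat_lit 595) (nat_lit 1615) (nat_lit 622) (nat_lit 2638)) (.a (.f (nat_lit 594) (nat_lit 595) (nat_lit 3631) (.d (nat_lit 558) (nat_lit 557) (nat_lit 557) (nat_lit 591) (nat_lit 3630))) (.f (nat_lit 622) (nat_lit 621) (nat_lit 2637) (.d (nat_lit 654) (nat_lit 591) (nat_lit 5646) (nat_lit 653) (nat_lit 1645)))))))))))))))))))))))) (.a (.p (nat_lit 561) (.a s17146 (.a s18847 (.a (.p (nat_lit 562) (.a (.d (nat_lit 527) (nat_lit 526) (nat_lit 3598) (nat_lit 563) (nat_lit 3599)) (.a (.f (nat_lit 527) (nat_lit 526) (nat_lit 3598) (.f (nat_lit 591) (nat_lit 590) (nat_lit 1582) (.p (nat_lit 624) (.a (.d (nat_lit 592) (nat_lit 495) (nat_lit 7663) (nat_lit 656) (nat_lit 7695)) (.a (.d (nat_lit 623) (nat_lit 655) (nat_lit 6671) (nat_lit 656) (nat_lit 4623)) (.f (nat_lit 495) (nat_lit 592) (nat_lit 7663) (.f (nat_lit 462) (nat_lit 494) (nat_lit 7630) (.d (nat_lit 463) (nat_lit 430) (nat_lit 7598) (nat_lit 431) (nat_lit 4527))))))))) (.a (.f (nat_lit 563) (nat_lit 527) (nat_lit 3599) (.d (nat_lit 591) (nat_lit 590) (nat_lit 1582) (nat_lit 592) (nat_lit 1583))) (.f (nat_lit 591) (nat_lit 590) (nat_lit 1582) (.f (nat_lit 563) (nat_lit 592) (nat_lit 1583) (.d (nat_lit 531) (nat_lit 530) (nat_lit 2575) (nat_lit 532) (nat_lit 2576)))))))) (.a s17631 (.a (.p (nat_lit 562) (.a (.d (nat_lit 527) (nat_lit 526) (nat_lit 3598) (nat_lit 563) (nat_lit 3599)) (.a s18866 (.a (.f (nat_lit 563) (nat_lit 527) (nat_lit 3599) (.d (nat_lit 595) (nat_lit 594) (nat_lit 559) (nat_lit 596) (nat_lit 560))) (.f (nat_lit 595) (nat_lit 594) (nat_lit 559) (.f (nat_lit 563) (nat_lit 596) (nat_lit 560) (.d (nat_lit 531) (nat_lit 530) (nat_lit 2575) (nat_lit 532) (nat_lit 2576)))))))) (.a (.p (nat_lit 562) (.a (.f (nat_lit 527) (nat_lit 526) (nat_lit 3598) (.f (nat_lit 591) (nat_lit 590) (nat_lit 1582) (.p (nat_lit 624) (.a (.d (nat_lit 592) (nat_lit 495) (nat_lit 7663) (nat_lit 656) (nat_lit 7695)) (.a (.d (nat_lit 623) (nat_lit 655) (nat_lit 6671) (nat_lit 656) (nat_lit 4623)) (.f (nat_lit 495) (nat_lit 592) (nat_lit 7663) (.f (nat_lit 462) (nat_lit 494) (nat_lit 7630) (.d (nat_lit 463) (nat_lit 430) (nat_lit 7598) (nat_lit 431) (nat_lit 4527))))))))) (.a (.f (nat_lit 527) (nat_lit 526) (nat_lit 3598) (.f (nat_lit 591) (nat_lit 590) (nat_lit 1582) (.f (nat_lit 623) (nat_lit 655) (nat_lit 6671) (.f (nat_lit 624) (nat_lit 656) (nat_lit 4623) (.f (nat_lit 592) (nat_lit 495) (nat_lit 7663) (.p (nat_lit 593) (.a (.d (nat_lit 594) (nat_lit 595) (nat_lit 3631) (nat_lit 622) (nat_lit 1614)) (.a (.f (nat_lit 625) (nat_lit 657) (nat_lit 4624) (.f (nat_lit 530) (nat_lit 531) (nat_lit 2575) (.d (nat_lit 498) (nat_lit 466) (nat_lit 5585) (nat_lit 594) (nat_lit 5617)))) (.d (nat_lit 622) (nat_lit 621) (nat_lit 2637) (nat_lit 654) (nat_lit 5646)))))))))) (.a (.f (nat_lit 527) (nat_lit 526) (nat_lit 3598) (.f (nat_lit 591) (nat_lit 590) (nat_lit 1582) (.f (nat_lit 623) (nat_lit 655) (nat_lit 6671) (.f (nat_lit 594) (nat_lit 595) (nat_lit 559) (.f (nat_lit 530) (nat_lit 531) (nat_lit 2575) (.p (nat_lit 593) (.a (.d (nat_lit 622) (nat_lit 592) (nat_lit 1614) (nat_lit 654) (nat_lit 5646)) (.d (nat_lit 498) (nat_lit 466) (nat_lit 5585) (nat_lit 625) (nat_lit 5617))))))))) (.a s18866 (.a s18885 (.a s18898 (.a s18923 s18931)))))))) (.a (.p (nat_lit 562) (.a (.f (nat_lit 563) (nat_lit 527) (nat_lit 3599) (.d (nat_lit 595) (nat_lit 594) (nat_lit 559) (nat_lit 596) (nat_lit 560))) (.a (.f (nat_lit 563) (nat_lit 527) (nat_lit 3599) (.d (nat_lit 591) (nat_lit 590) (nat_lit 1582) (nat_lit 592) (nat_lit 1583))) (.a s18885 (.f (nat_lit 591) (nat_lit 590) (nat_lit 1582) (.f (nat_lit 563) (nat_lit 592) (nat_lit 1583) (.d (nat_lit 595) (nat_lit 594) (nat_lit 559) (nat_lit 596) (nat_lit 560)))))))) (.a (.p (nat_lit 562) (.a (.d (nat_lit 527) (nat_lit 526) (nat_lit 3598) (nat_lit 563) (nat_lit 3599)) (.a s18898 (.a (.f (nat_lit 563) (nat_lit 527) (nat_lit 3599) (.d (nat_lit 595) (nat_lit 594) (nat_lit 559) (nat_lit 596) (nat_lit 560))) (.f (nat_lit 595) (nat_lit 594) (nat_lit 559) (.f (nat_lit 563) (nat_lit 596) (nat_lit 560) (.d (nat_lit 531) (nat_lit 530) (nat_lit 2575) (nat_lit 532) (nat_lit 2576)))))))) (.a (.p (nat_lit 623) (.a (.f (nat_lit 591) (nat_lit 655) (nat_lit 6671) (.p (nat_lit 527) (.a (.d (nat_lit 526) (nat_lit 494) (nat_lit 7662) (nat_lit 525) (nat_lit 525)) (.f (nat_lit 624) (nat_lit 656) (nat_lit 4623) (.f (nat_lit 495) (nat_lit 592) (nat_lit 7663) (.d (nat_lit 622) (nat_lit 590) (nat_lit 5614) (nat_lit 654) (nat_lit 5646))))))) (.a (.f (nat_lit 591) (nat_lit 655) (nat_lit 6671) (.p (nat_lit 527) (.a (.d (nat_lit 526) (nat_lit 494) (nat_lit 7662) (nat_lit 525) (nat_lit 525)) (.f (nat_lit 624) (nat_lit 656) (nat_lit 4623) (.f (nat_lit 592) (nat_lit 495) (nat_lit 7663) (.f (nat_lit 590) (nat_lit 589) (nat_lit 2605) (.d (nat_lit 625) (nat_lit 626) (nat_lit 3662) (nat_lit 657) (nat_lit 4624)))))))) (.a (.f (nat_lit 591) (nat_lit 655) (nat_lit 6671) (.p (nat_lit 527) (.a (.d (nat_lit 526) (nat_lit 494) (nat_lit 7662) (nat_lit 525) (nat_lit 525)) (.f (nat_lit 622) (nat_lit 654) (nat_lit 5646) (.f (nat_lit 590) (nat_lit 495) (nat_lit 5614) (.d (nat_lit 589) (nat_lit 588) (nat_lit 2604) (nat_lit 592) (nat_lit 2605))))))) (.a (.p (nat_lit 624) (.a (.f (nat_lit 592) (nat_lit 655) (nat_lit 5647) (.d (nat_lit 527) (nat_lit 495) (nat_lit 7663) (nat_lit 656) (nat_lit 7695))) (.a s18998 (.a (.p (nat_lit 625) (.a (.f (nat_lit 657) (nat_lit 593) (nat_lit 7696) (.f (nat_lit 622) (nat_lit 658) (nat_lit 622) (.f (nat_lit 621) (nat_lit 656) (nat_lit 621) (.d (nat_lit 653) (nat_lit 652) (nat_lit 1644) (nat_lit 654) (nat_lit 1645))))) (.a (.p (nat_lit 626) (.a (.p (nat_lit 627) (.a (.d (nat_lit 659) (nat_lit 658) (nat_lit 623) (nat_lit 660) (nat_lit 624)) (.d (nat_lit 655) (nat_lit 654) (nat_lit 1646) (nat_lit 656) (nat_lit 1647)))) (.a (.f (nat_lit 593) (nat_lit 657) (nat_lit 7696) (.f (nat_lit 594) (nat_lit 595) (nat_lit 2639) (.d (nat_lit 658) (nat_lit 659) (nat_lit 623) (nat_lit 690) (nat_lit 7729)))) (.p (nat_lit 627) (.a (.d (nat_lit 655) (nat_lit 654) (nat_lit 1646) (nat_lit 656) (nat_lit 1647)) (.d (nat_lit 595) (nat_lit 594) (nat_lit 2639) (nat_lit 596) (nat_lit 2640))))))) (.a (.f (nat_lit 593) (nat_lit 657) (nat_lit 7696) (.f (nat_lit 594) (nat_lit 622) (nat_lit 2638) (.d (nat_lit 595) (nat_lit 596) (nat_lit 1616) (nat_lit 626) (nat_lit 2639)))) (.a (.p (nat_lit 622) (.a (.f (nat_lit 654) (nat_lit 653) (nat_lit 1645) (.f (nat_lit 626) (nat_lit 655) (nat_lit 1646) (.d (nat_lit 658) (nat_lit 657) (nat_lit 622) (nat_lit 659) (nat_lit 623)))) (.a (.f (nat_lit 654) (nat_lit 653) (nat_lit 1645) (.f (nat_lit 589) (nat_lit 590) (nat_lit 3661) (.f (nat_lit 621) (nat_lit 588) (nat_lit 3660) (.f (nat_lit 655) (nat_lit 626) (nat_lit 1646) (.d (nat_lit 656) (nat_lit 620) (nat_lit 620) (nat_lit 657) (nat_lit 621)))))) (.a (.f (nat_lit 657) (nat_lit 658) (nat_lit 622) (.f (nat_lit 621) (nat_lit 656) (nat_lit 621) (.d (nat_lit 653) (nat_lit 652) (nat_lit 1644) (nat_lit 654) (nat_lit 1645)))) (.a (.f (nat_lit 657) (nat_lit 658) (nat_lit 622) (.f (nat_lit 621) (nat_lit 656) (nat_lit 621) (.d (nat_lit 589) (nat_lit 588) (nat_lit 3660) (nat_lit 590) (nat_lit 3661)))) (.f (nat_lit 654) (nat_lit 653) (nat_lit 1645) (.f (nat_lit 626) (nat_lit 655) (nat_lit 1646) (.f (nat_lit 659) (nat_lit 658) (nat_lit 623) (.f (nat_lit 595) (nat_lit 594) (nat_lit 2639) (.d (nat_lit 627) (nat_lit 596) (nat_lit 2640) (nat_lit 660) (nat_lit 624))))))))))) (.p (nat_lit 626) (.a (.p (nat_lit 622) (.a (.d (nat_lit 654) (nat_lit 653) (nat_lit 1645) (nat_lit 655) (nat_lit 1646)) (.d (nat_lit 594) (nat_lit 593) (nat_lit 2638) (nat_lit 595) (nat_lit 2639)))) (.a (.f (nat_lit 659) (nat_lit 658) (nat_lit 623) (.f (nat_lit 595) (nat_lit 594) (nat_lit 2639) (.d (nat_lit 627) (nat_lit 596) (nat_lit 2640) (nat_lit 660) (nat_lit 624)))) (.p (nat_lit 627) (.a (.d (nat_lit 659) (nat_lit 658) (nat_lit 623) (nat_lit 660) (nat_lit 624)) (.d (nat_lit 655) (nat_lit 654) (nat_lit 1646) (nat_lit 656) (nat_lit 1647)))))))))))) (.f (nat_lit 592) (nat_lit 655) (nat_lit 5647) s18973))))) (.a (.f (nat_lit 655) (nat_lit 591) (nat_lit 6671) (.f (nat_lit 624) (nat_lit 592) (nat_lit 5647) (.p (nat_lit 625) (.a (.f (nat_lit 626) (nat_lit 654) (nat_lit 1646) (.f (nat_lit 627) (nat_lit 656) (nat_lit 1647) (.d (nat_lit 659) (nat_lit 658) (nat_lit 623) (nat_lit 660) (nat_lit 624)))) (.a (.f (nat_lit 654) (nat_lit 626) (nat_lit 1646) (.d (nat_lit 653) (nat_lit 622) (nat_lit 1645) (nat_lit 652) (nat_lit 2668))) (.a (.f (nat_lit 657) (nat_lit 593) (nat_lit 7696) (.f (nat_lit 658) (nat_lit 622) (nat_lit 622) (.d (nat_lit 659) (nat_lit 626) (nat_lit 623) (nat_lit 656) (nat_lit 3695)))) (.f (nat_lit 657) (nat_lit 593) (nat_lit 7696) (.f (nat_lit 622) (nat_lit 658) (nat_lit 622) (.f (nat_lit 621) (nat_lit 656) (nat_lit 621) (.d (nat_lit 653) (nat_lit 652) (nat_lit 1644) (nat_lit 654) (nat_lit 1645))))))))))) (.a (.p (nat_lit 624) (.a (.p (nat_lit 527) (.a (.d (nat_lit 592) (nat_lit 495) (nat_lit 7663) (nat_lit 656) (nat_lit 7695)) (.a (.f (nat_lit 591) (nat_lit 656) (nat_lit 4623) (.d (nat_lit 526) (nat_lit 494) (nat_lit 7662) (nat_lit 525) (nat_lit 525))) (.f (nat_lit 495) (nat_lit 592) (nat_lit 7663) (.f (nat_lit 526) (nat_lit 525) (nat_lit 525) (.f (nat_lit 494) (nat_lit 591) (nat_lit 7662) (.f (nat_lit 463) (nat_lit 431) (nat_lit 4527) (.f (nat_lit 493) (nat_lit 492) (nat_lit 492) (.f (nat_lit 462) (nat_lit 430) (nat_lit 4526) (.d (nat_lit 464) (nat_lit 432) (nat_lit 6575) (nat_lit 465) (nat_lit 1485))))))))))) (.a (.p (nat_lit 527) (.a (.d (nat_lit 592) (nat_lit 495) (nat_lit 7663) (nat_lit 656) (nat_lit 7695)) (.a (.f (nat_lit 591) (nat_lit 656) (nat_lit 4623) (.d (nat_lit 526) (nat_lit 494) (nat_lit 7662) (nat_lit 525) (nat_lit 525))) (.f (nat_lit 592) (nat_lit 495) (nat_lit 7663) (.f (nat_lit 625) (nat_lit 657) (nat_lit 4624) (.p (nat_lit 591) (.a (.d (nat_lit 526) (nat_lit 494) (nat_lit 7662) (nat_lit 525) (nat_lit 525)) (.d (nat_lit 590) (nat_lit 589) (nat_lit 2605) (nat_lit 626) (nat_lit 3662))))))))) (.a s18998 (.a (.p (nat_lit 592) (.a (.d (nat_lit 527) (nat_lit 495) (nat_lit 7663) (nat_lit 656) (nat_lit 7695)) (.a (.f (nat_lit 625) (nat_lit 657) (nat_lit 4624) (.p (nat_lit 591) (.a (.d (nat_lit 590) (nat_lit 589) (nat_lit 2605) (nat_lit 626) (nat_lit 3662)) (.a (.f (nat_lit 527) (nat_lit 495) (nat_lit 7663) (.p (nat_lit 593) (.a (.f (nat_lit 626) (nat_lit 627) (nat_lit 3663) (.f (nat_lit 594) (nat_lit 595) (nat_lit 3631) (.d (nat_lit 658) (nat_lit 659) (nat_lit 623) (nat_lit 690) (nat_lit 7729)))) (.d (nat_lit 622) (nat_lit 621) (nat_lit 2637) (nat_lit 654) (nat_lit 5646))))) (.f (nat_lit 590) (nat_lit 589) (nat_lit 2605) (.p (nat_lit 622) (.a (.d (nat_lit 527) (nat_lit 495) (nat_lit 5614) (nat_lit 654) (nat_lit 5646)) (.d (nat_lit 593) (nat_lit 594) (nat_lit 1614) (nat_lit 621) (nat_lit 2637))))))))) (.a (.f (nat_lit 656) (nat_lit 527) (nat_lit 7695) (.d (nat_lit 657) (nat_lit 625) (nat_lit 4624) (nat_lit 689) (nat_lit 4656))) (.f (nat_lit 625) (nat_lit 657) (nat_lit 4624) (.p (nat_lit 591) (.a (.d (nat_lit 590) (nat_lit 589) (nat_lit 2605) (nat_lit 626) (nat_lit 3662)) (.a (.f (nat_lit 626) (nat_lit 627) (nat_lit 3663) (.f (nat_lit 594) (nat_lit 595) (nat_lit 2639) (.f (nat_lit 593) (nat_lit 622) (nat_lit 1614) (.d (nat_lit 658) (nat_lit 659) (nat_lit 623) (nat_lit 690) (nat_lit 7729))))) (.f (nat_lit 590) (nat_lit 589) (nat_lit 2605) (.p (nat_lit 622) (.a (.d (nat_lit 654) (nat_lit 653) (nat_lit 1645) (nat_lit 686) (nat_lit 6702)) (.d (nat_lit 593) (nat_lit 594) (nat_lit 1614) (nat_lit 621) (nat_lit 2637))))))))))))) (.a (.p (nat_lit 625) (.a (.f (nat_lit 593) (nat_lit 657) (nat_lit 7696) (.f (nat_lit 594) (nat_lit 622) (nat_lit 2638) (.d (nat_lit 595) (nat_lit 596) (nat_lit 1616) (nat_lit 626) (nat_lit 2639)))) (.a (.f (nat_lit 593) (nat_lit 657) (nat_lit 7696) (.p (nat_lit 626) (.a (.f (nat_lit 594) (nat_lit 595) (nat_lit 2639) (.d (nat_lit 658) (nat_lit 659) (nat_lit 623) (nat_lit 690) (nat_lit 7729))) (.f (nat_lit 591) (nat_lit 590) (nat_lit 3662) (.f (nat_lit 527) (nat_lit 656) (nat_lit 4623) (.d (nat_lit 526) (nat_lit 494) (nat_lit 7662) (nat_lit 525) (nat_lit 525))))))) (.a (.f (nat_lit 657) (nat_lit 593) (nat_lit 7696) (.f (nat_lit 622) (nat_lit 658) (nat_lit 622) (.f (nat_lit 621) (nat_lit 656) (nat_lit 621) (.d (nat_lit 653) (nat_lit 652) (nat_lit 1644) (nat_lit 654) (nat_lit 1645))))) (.a (.p (nat_lit 622) (.a (.f (nat_lit 590) (nat_lit 589) (nat_lit 3661) (.f (nat_lit 591) (nat_lit 626) (nat_lit 3662) (.d (nat_lit 527) (nat_lit 495) (nat_lit 5614) (nat_lit 656) (nat_lit 4623)))) (.a (.f (nat_lit 657) (nat_lit 658) (nat_lit 622) (.f (nat_lit 621) (nat_lit 656) (nat_lit 621) (.d (nat_lit 653) (nat_lit 652) (nat_lit 1644) (nat_lit 654) (nat_lit 1645)))) (.f (nat_lit 590) (nat_lit 589) (nat_lit 3661) (.f (nat_lit 591) (nat_lit 626) (nat_lit 3662) (.d (nat_lit 527) (nat_lit 495) (nat_lit 5614) (nat_lit 654) (nat_lit 5646))))))) (.p (nat_lit 626) (.a (.f (nat_lit 591) (nat_lit 590) (nat_lit 3662) (.f (nat_lit 527) (nat_lit 656) (nat_lit 4623) (.d (nat_lit 526) (nat_lit 494) (nat_lit 7662) (nat_lit 525) (nat_lit 525)))) (.a (.f (nat_lit 594) (nat_lit 595) (nat_lit 2639) (.f (nat_lit 622) (nat_lit 593) (nat_lit 2638) (.p (nat_lit 621) (.a (.d (nat_lit 653) (nat_lit 652) (nat_lit 1644) (nat_lit 654) (nat_lit 1645)) (.d (nat_lit 589) (nat_lit 588) (nat_lit 3660) (nat_lit 590) (nat_lit 3661)))))) (.f (nat_lit 594) (nat_lit 595) (nat_lit 2639) (.f (nat_lit 593) (nat_lit 622) (nat_lit 2638) (.d (nat_lit 658) (nat_lit 659) (nat_lit 623) (nat_lit 690) (nat_lit 7729)))))))))))) (.a (.p (nat_lit 625) (.a (.d (nat_lit 657) (nat_lit 592) (nat_lit 4624) (nat_lit 593) (nat_lit 7696)) (.a (.f (nat_lit 593) (nat_lit 657) (nat_lit 7696) (.f (nat_lit 594) (nat_lit 622) (nat_lit 2638) (.d (nat_lit 595) (nat_lit 596) (nat_lit 1616) (nat_lit 626) (nat_lit 2639)))) (.a (.f (nat_lit 592) (nat_lit 657) (nat_lit 4624) (.f (nat_lit 527) (nat_lit 495) (nat_lit 7663) (.p (nat_lit 591) (.a (.d (nat_lit 526) (nat_lit 494) (nat_lit 7662) (nat_lit 525) (nat_lit 525)) (.d (nat_lit 590) (nat_lit 589) (nat_lit 2605) (nat_lit 626) (nat_lit 3662)))))) (.p (nat_lit 622) (.a (.f (nat_lit 590) (nat_lit 589) (nat_lit 3661) (.f (nat_lit 591) (nat_lit 626) (nat_lit 3662) (.d (nat_lit 527) (nat_lit 495) (nat_lit 5614) (nat_lit 654) (nat_lit 5646)))) (.a (.f (nat_lit 593) (nat_lit 594) (nat_lit 2638) (.f (nat_lit 621) (nat_lit 592) (nat_lit 2637) (.d (nat_lit 653) (nat_lit 652) (nat_lit 1644) (nat_lit 654) (nat_lit 1645)))) (.f (nat_lit 590) (nat_lit 589) (nat_lit 3661) (.f (nat_lit 626) (nat_lit 591) (nat_lit 3662) (.d (nat_lit 594) (nat_lit 593) (nat_lit 2638) (nat_lit 595) (nat_lit 2639))))))))))) (.a (.p (nat_lit 625) (.a (.d (nat_lit 657) (nat_lit 592) (nat_lit 4624) (nat_lit 593) (nat_lit 7696)) (.a (.f (nat_lit 593) (nat_lit 657) (nat_lit 7696) (.f (nat_lit 594) (nat_lit 622) (nat_lit 2638) (.d (nat_lit 595) (nat_lit 596) (nat_lit 1616) (nat_lit 626) (nat_lit 2639)))) (.a (.f (nat_lit 592) (nat_lit 657) (nat_lit 4624) (.p (nat_lit 591) (.a (.d (nat_lit 656) (nat_lit 527) (nat_lit 4623) (nat_lit 688) (nat_lit 7727)) (.d (nat_lit 590) (nat_lit 589) (nat_lit 2605) (nat_lit 626) (nat_lit 3662))))) (.p (nat_lit 591) (.a (.f (nat_lit 590) (nat_lit 626) (nat_lit 3662) (.d (nat_lit 589) (nat_lit 588) (nat_lit 2604) (nat_lit 592) (nat_lit 2605))) (.f (nat_lit 527) (nat_lit 656) (nat_lit 4623) (.d (nat_lit 526) (nat_lit 494) (nat_lit 7662) (nat_lit 525) (nat_lit 525))))))))) (.p (nat_lit 625) (.a (.d (nat_lit 657) (nat_lit 592) (nat_lit 4624) (nat_lit 593) (nat_lit 7696)) (.a (.f (nat_lit 593) (nat_lit 657) (nat_lit 7696) (.f (nat_lit 594) (nat_lit 622) (nat_lit 2638) (.d (nat_lit 595) (nat_lit 596) (nat_lit 1616) (nat_lit 626) (nat_lit 2639)))) (.a (.f (nat_lit 657) (nat_lit 592) (nat_lit 4624) (.f (nat_lit 622) (nat_lit 658) (nat_lit 622) (.f (nat_lit 621) (nat_lit 656) (nat_lit 621) (.d (nat_lit 653) (nat_lit 652) (nat_lit 1644) (nat_lit 654) (nat_lit 1645))))) (.p (nat_lit 622) (.a (.f (nat_lit 590) (nat_lit 589) (nat_lit 3661) (.f (nat_lit 591) (nat_lit 626) (nat_lit 3662) (.d (nat_lit 654) (nat_lit 653) (nat_lit 1645) (nat_lit 686) (nat_lit 6702)))) (.a (.f (nat_lit 593) (nat_lit 594) (nat_lit 2638) (.f (nat_lit 621) (nat_lit 592) (nat_lit 2637) (.d (nat_lit 653) (nat_lit 652) (nat_lit 1644) (nat_lit 654) (nat_lit 1645)))) (.f (nat_lit 593) (nat_lit 594) (nat_lit 2638) (.f (nat_lit 621) (nat_lit 592) (nat_lit 2637) (.d (nat_lit 589) (nat_lit 588) (nat_lit 3660) (nat_lit 590) (nat_lit 3661))))))))))))))))))) (.f (nat_lit 591) (nat_lit 655) (nat_lit 6671) (.p (nat_lit 527) (.a (.d (nat_lit 526) (nat_lit 494) (nat_lit 7662) (nat_lit 525) (nat_lit 525)) (.f (nat_lit 622) (nat_lit 654) (nat_lit 5646) (.f (nat_lit 590) (nat_lit 495) (nat_lit 5614) (.f (nat_lit 624) (nat_lit 656) (nat_lit 4623) (.d (nat_lit 589) (nat_lit 588) (nat_lit 588) (nat_lit 625) (nat_lit 3661))))))))))))))) (.a s19161 (.p (nat_lit 562) (.a (.f (nat_lit 591) (nat_lit 590) (nat_lit 1582) (.f (nat_lit 563) (nat_lit 592) (nat_lit 1583) (.d (nat_lit 595) (nat_lit 594) (nat_lit 559) (nat_lit 596) (nat_lit 560)))) (.a (.f (nat_lit 591) (nat_lit 590) (nat_lit 1582) (.f (nat_lit 563) (nat_lit 592) (nat_lit 1583) (.d (nat_lit 531) (nat_lit 530) (nat_lit 2575) (nat_lit 532) (nat_lit 2576)))) (.a (.f (nat_lit 595) (nat_lit 594) (nat_lit 559) (.f (nat_lit 563) (nat_lit 596) (nat_lit 560) (.d (nat_lit 531) (nat_lit 530) (nat_lit 2575) (nat_lit 532) (nat_lit 2576)))) s18931))))))))))))))) (.a (.p (nat_lit 527) (.a s17586 (.a s16989 (.a (.p (nat_lit 495) (.a (.d (nat_lit 463) (nat_lit 431) (nat_lit 4527) (nat_lit 592) (nat_lit 4559)) (.a (.d (nat_lit 592) (nat_lit 463) (nat_lit 4559) (nat_lit 624) (nat_lit 7663)) (.a (.f (nat_lit 463) (nat_lit 431) (nat_lit 4527) (.f (nat_lit 558) (nat_lit 590) (nat_lit 5582) (.f (nat_lit 557) (nat_lit 556) (nat_lit 2572) (.f (nat_lit 525) (nat_lit 524) (nat_lit 3596) (.f (nat_lit 526) (nat_lit 561) (nat_lit 525) (.p (nat_lit 494) (.a (.d (nat_lit 589) (nat_lit 588) (nat_lit 1580) (nat_lit 621) (nat_lit 6637)) (.d (nat_lit 462) (nat_lit 430) (nat_lit 4526) (nat_lit 591) (nat_lit 4558))))))))) (.f (nat_lit 592) (nat_lit 624) (nat_lit 7663) (.p (nat_lit 526) (.a (.d (nat_lit 525) (nat_lit 524) (nat_lit 524) (nat_lit 561) (nat_lit 525)) (.a (.f (nat_lit 561) (nat_lit 562) (nat_lit 3598) (.p (nat_lit 558) (.a (.d (nat_lit 557) (nat_lit 556) (nat_lit 2572) (nat_lit 593) (nat_lit 557)) (.a (.d (nat_lit 593) (nat_lit 557) (nat_lit 557) (nat_lit 594) (nat_lit 558)) (.a (.p (nat_lit 591) (.a (.d (nat_lit 623) (nat_lit 494) (nat_lit 7662) (nat_lit 655) (nat_lit 6671)) (.a (.d (nat_lit 494) (nat_lit 462) (nat_lit 7630) (nat_lit 623) (nat_lit 7662)) (.f (nat_lit 593) (nat_lit 594) (nat_lit 558) (.f (nat_lit 590) (nat_lit 589) (nat_lit 1581) (.d (nat_lit 625) (nat_lit 626) (nat_lit 590) (nat_lit 657) (nat_lit 7696))))))) (.f (nat_lit 557) (nat_lit 556) (nat_lit 2572) (.d (nat_lit 589) (nat_lit 588) (nat_lit 1580) (nat_lit 590) (nat_lit 1581)))))))) (.f (nat_lit 525) (nat_lit 524) (nat_lit 524) (.f (nat_lit 557) (nat_lit 556) (nat_lit 1548) (.p (nat_lit 494) (.a (.f (nat_lit 558) (nat_lit 593) (nat_lit 557) (.d (nat_lit 589) (nat_lit 588) (nat_lit 1580) (nat_lit 621) (nat_lit 6637))) (.d (nat_lit 462) (nat_lit 430) (nat_lit 4526) (nat_lit 591) (nat_lit 7630)))))))))))))) (.a s16665 (.a (.p (nat_lit 526) (.a (.d (nat_lit 525) (nat_lit 524) (nat_lit 524) (nat_lit 561) (nat_lit 525)) (.a s19184 (.f (nat_lit 525) (nat_lit 524) (nat_lit 524) (.f (nat_lit 557) (nat_lit 556) (nat_lit 1548) (.f (nat_lit 493) (nat_lit 492) (nat_lit 3564) (.p (nat_lit 494) (.a (.f (nat_lit 589) (nat_lit 621) (nat_lit 6637) (.d (nat_lit 588) (nat_lit 558) (nat_lit 1580) (nat_lit 620) (nat_lit 5612))) (.a (.d (nat_lit 462) (nat_lit 430) (nat_lit 5549) (nat_lit 589) (nat_lit 6605)) (.f (nat_lit 462) (nat_lit 430) (nat_lit 4526) (.d (nat_lit 591) (nat_lit 495) (nat_lit 7630) (nat_lit 558) (nat_lit 4558)))))))))))) (.a (.p (nat_lit 592) (.a (.d (nat_lit 495) (nat_lit 463) (nat_lit 4559) (nat_lit 624) (nat_lit 7663)) (.a (.f (nat_lit 495) (nat_lit 463) (nat_lit 4559) (.p (nat_lit 558) (.a (.d (nat_lit 557) (nat_lit 556) (nat_lit 2572) (nat_lit 593) (nat_lit 557)) (.a (.f (nat_lit 593) (nat_lit 557) (nat_lit 557) (.d (nat_lit 594) (nat_lit 561) (nat_lit 558) (nat_lit 595) (nat_lit 3631))) (.p (nat_lit 561) (.a (.d (nat_lit 526) (nat_lit 525) (nat_lit 3597) (nat_lit 562) (nat_lit 3598)) (.a (.f (nat_lit 590) (nat_lit 589) (nat_lit 1581) (.d (nat_lit 591) (nat_lit 562) (nat_lit 1582) (nat_lit 622) (nat_lit 5614))) (.f (nat_lit 526) (nat_lit 525) (nat_lit 525) (.d (nat_lit 590) (nat_lit 589) (nat_lit 1581) (nat_lit 622) (nat_lit 6638)))))))))) (.a (.d (nat_lit 624) (nat_lit 495) (nat_lit 7663) (nat_lit 656) (nat_lit 7695)) (.f (nat_lit 624) (nat_lit 656) (nat_lit 7695) (.f (nat_lit 623) (nat_lit 655) (nat_lit 5647) (.f (nat_lit 625) (nat_lit 657) (nat_lit 4624) (.p (nat_lit 593) (.a (.f (nat_lit 594) (nat_lit 595) (nat_lit 3631) (.d (nat_lit 558) (nat_lit 557) (nat_lit 557) (nat_lit 561) (nat_lit 558))) (.f (nat_lit 622) (nat_lit 621) (nat_lit 2637) (.d (nat_lit 654) (nat_lit 591) (nat_lit 5646) (nat_lit 653) (nat_lit 1645)))))))))))) (.a (.p (nat_lit 495) (.a (.d (nat_lit 463) (nat_lit 431) (nat_lit 4527) (nat_lit 592) (nat_lit 4559)) (.a (.d (nat_lit 592) (nat_lit 463) (nat_lit 4559) (nat_lit 624) (nat_lit 7663)) (.a (.f (nat_lit 463) (nat_lit 431) (nat_lit 4527) (.f (nat_lit 558) (nat_lit 590) (nat_lit 5582) (.f (nat_lit 462) (nat_lit 430) (nat_lit 7598) (.f (nat_lit 494) (nat_lit 591) (nat_lit 7630) (.f (nat_lit 464) (nat_lit 432) (nat_lit 6575) (.d (nat_lit 465) (nat_lit 466) (nat_lit 1486) (nat_lit 493) (nat_lit 1485))))))) (.f (nat_lit 592) (nat_lit 624) (nat_lit 7663) (.p (nat_lit 591) (.a (.f (nat_lit 623) (nat_lit 655) (nat_lit 6671) (.d (nat_lit 622) (nat_lit 590) (nat_lit 5614) (nat_lit 654) (nat_lit 5646))) (.a (.f (nat_lit 623) (nat_lit 655) (nat_lit 6671) (.d (nat_lit 494) (nat_lit 462) (nat_lit 7630) (nat_lit 526) (nat_lit 7662))) (.a (.f (nat_lit 494) (nat_lit 462) (nat_lit 7630) (.f (nat_lit 526) (nat_lit 623) (nat_lit 7662) (.d (nat_lit 525) (nat_lit 524) (nat_lit 524) (nat_lit 561) (nat_lit 525)))) (.f (nat_lit 590) (nat_lit 622) (nat_lit 5614) (.f (nat_lit 561) (nat_lit 562) (nat_lit 1582) (.p (nat_lit 558) (.a (.d (nat_lit 557) (nat_lit 556) (nat_lit 2572) (nat_lit 593) (nat_lit 557)) (.a (.d (nat_lit 593) (nat_lit 557) (nat_lit 557) (nat_lit 594) (nat_lit 558)) (.a (.f (nat_lit 593) (nat_lit 594) (nat_lit 558) (.d (nat_lit 625) (nat_lit 626) (nat_lit 590) (nat_lit 657) (nat_lit 7696))) (.f (nat_lit 525) (nat_lit 526) (nat_lit 525) (.d (nat_lit 557) (nat_lit 524) (nat_lit 3596) (nat_lit 556) (nat_lit 2572)))))))))))))))))) (.a (.p (nat_lit 495) (.a (.d (nat_lit 463) (nat_lit 431) (nat_lit 4527) (nat_lit 592) (nat_lit 4559)) (.a (.d (nat_lit 592) (nat_lit 463) (nat_lit 4559) (nat_lit 624) (nat_lit 7663)) (.a (.f (nat_lit 463) (nat_lit 431) (nat_lit 4527) (.f (nat_lit 558) (nat_lit 590) (nat_lit 5582) (.f (nat_lit 557) (nat_lit 556) (nat_lit 2572) (.f (nat_lit 462) (nat_lit 430) (nat_lit 7598) (.f (nat_lit 494) (nat_lit 591) (nat_lit 7630) (.f (nat_lit 493) (nat_lit 492) (nat_lit 492) (.d (nat_lit 464) (nat_lit 432) (nat_lit 6575) (nat_lit 465) (nat_lit 1485)))))))) (.f (nat_lit 624) (nat_lit 592) (nat_lit 7663) (.p (nat_lit 591) (.a (.d (nat_lit 623) (nat_lit 655) (nat_lit 6671) (nat_lit 656) (nat_lit 4623)) (.f (nat_lit 590) (nat_lit 622) (nat_lit 5614) (.f (nat_lit 589) (nat_lit 588) (nat_lit 2604) (.d (nat_lit 561) (nat_lit 558) (nat_lit 1581) (nat_lit 562) (nat_lit 1582))))))))))) (.a s16788 (.a (.p (nat_lit 526) (.a (.d (nat_lit 525) (nat_lit 524) (nat_lit 524) (nat_lit 561) (nat_lit 525)) (.a (.f (nat_lit 561) (nat_lit 562) (nat_lit 3598) (.p (nat_lit 558) (.a (.f (nat_lit 590) (nat_lit 589) (nat_lit 1581) (.d (nat_lit 622) (nat_lit 495) (nat_lit 6638) (nat_lit 654) (nat_lit 6670))) (.f (nat_lit 557) (nat_lit 556) (nat_lit 2572) (.d (nat_lit 593) (nat_lit 592) (nat_lit 557) (nat_lit 594) (nat_lit 558)))))) (.f (nat_lit 525) (nat_lit 524) (nat_lit 524) (.f (nat_lit 557) (nat_lit 556) (nat_lit 1548) (.f (nat_lit 493) (nat_lit 492) (nat_lit 3564) (.p (nat_lit 558) (.a (.d (nat_lit 461) (nat_lit 429) (nat_lit 4525) (nat_lit 590) (nat_lit 4557)) (.f (nat_lit 589) (nat_lit 588) (nat_lit 1580) (.d (nat_lit 494) (nat_lit 462) (nat_lit 5581) (nat_lit 621) (nat_lit 6637))))))))))) (.a s17587 (.a (.p (nat_lit 526) (.a (.d (nat_lit 525) (nat_lit 524) (nat_lit 524) (nat_lit 561) (nat_lit 525)) (.a (.f (nat_lit 561) (nat_lit 562) (nat_lit 3598) s17595) (.f (nat_lit 525) (nat_lit 524) (nat_lit 524) (.f (nat_lit 557) (nat_lit 556) (nat_lit 1548) (.f (nat_lit 493) (nat_lit 492) (nat_lit 3564) (.p (nat_lit 558) (.a (.d (nat_lit 461) (nat_lit 429) (nat_lit 4525) (nat_lit 590) (nat_lit 4557)) (.f (nat_lit 589) (nat_lit 588) (nat_lit 1580) (.d (nat_lit 494) (nat_lit 462) (nat_lit 5581) (nat_lit 621) (nat_lit 6637))))))))))) s16844))))))))))))) (.a (.p (nat_lit 527) (.a (.p (nat_lit 495) (.a (.d (nat_lit 463) (nat_lit 431) (nat_lit 4527) (nat_lit 592) (nat_lit 4559)) (.a (.d (nat_lit 592) (nat_lit 463) (nat_lit 4559) (nat_lit 624) (nat_lit 7663)) (.a (.f (nat_lit 463) (nat_lit 431) (nat_lit 4527) (.f (nat_lit 558) (nat_lit 590) (nat_lit 5582) (.f (nat_lit 557) (nat_lit 556) (nat_lit 2572) (.f (nat_lit 525) (nat_lit 524) (nat_lit 3596) (.f (nat_lit 526) (nat_lit 561) (nat_lit 525) (.p (nat_lit 494) (.a (.d (nat_lit 589) (nat_lit 588) (nat_lit 1580) (nat_lit 621) (nat_lit 6637)) (.d (nat_lit 462) (nat_lit 430) (nat_lit 4526) (nat_lit 591) (nat_lit 4558))))))))) (.f (nat_lit 592) (nat_lit 624) (nat_lit 7663) (.p (nat_lit 561) (.a (.d (nat_lit 526) (nat_lit 525) (nat_lit 525) (nat_lit 562) (nat_lit 3598)) (.a (.f (nat_lit 562) (nat_lit 563) (nat_lit 3599) (.f (nat_lit 590) (nat_lit 591) (nat_lit 1582) (.f (nat_lit 558) (nat_lit 589) (nat_lit 1581) (.d (nat_lit 557) (nat_lit 556) (nat_lit 2572) (nat_lit 593) (nat_lit 557))))) (.f (nat_lit 526) (nat_lit 525) (nat_lit 525) (.p (nat_lit 558) (.a (.d (nat_lit 557) (nat_lit 556) (nat_lit 2572) (nat_lit 593) (nat_lit 557)) (.a (.d (nat_lit 593) (nat_lit 557) (nat_lit 557) (nat_lit 594) (nat_lit 558)) (.d (nat_lit 590) (nat_lit 589) (nat_lit 1581) (nat_lit 622) (nat_lit 6638)))))))))))))) (.a s16901 (.a (.p (nat_lit 561) (.a (.d (nat_lit 526) (nat_lit 525) (nat_lit 525) (nat_lit 562) (nat_lit 3598)) (.a (.f (nat_lit 562) (nat_lit 563) (nat_lit 3599) (.f (nat_lit 590) (nat_lit 591) (nat_lit 1582) (.f (nat_lit 558) (nat_lit 589) (nat_lit 1581) (.d (nat_lit 594) (nat_lit 593) (nat_lit 558) (nat_lit 595) (nat_lit 559))))) s16637))) (.a (.p (nat_lit 495) (.a (.d (nat_lit 463) (nat_lit 431) (nat_lit 4527) (nat_lit 592) (nat_lit 4559)) (.a (.d (nat_lit 592) (nat_lit 463) (nat_lit 4559) (nat_lit 624) (nat_lit 7663)) (.a (.f (nat_lit 463) (nat_lit 431) (nat_lit 4527) (.f (nat_lit 590) (nat_lit 558) (nat_lit 5582) (.f (nat_lit 591) (nat_lit 622) (nat_lit 5614) (.d (nat_lit 462) (nat_lit 430) (nat_lit 7598) (nat_lit 494) (nat_lit 7630))))) (.f (nat_lit 592) (nat_lit 624) (nat_lit 7663) (.p (nat_lit 561) (.a (.d (nat_lit 526) (nat_lit 525) (nat_lit 525) (nat_lit 562) (nat_lit 3598)) (.a (.f (nat_lit 562) (nat_lit 563) (nat_lit 3599) (.f (nat_lit 591) (nat_lit 590) (nat_lit 1582) (.f (nat_lit 594) (nat_lit 595) (nat_lit 559) (.f (nat_lit 593) (nat_lit 558) (nat_lit 558) (.f (nat_lit 530) (nat_lit 531) (nat_lit 2575) (.d (nat_lit 498) (nat_lit 466) (nat_lit 5585) (nat_lit 625) (nat_lit 5617))))))) (.f (nat_lit 526) (nat_lit 525) (nat_lit 525) (.p (nat_lit 558) (.a (.d (nat_lit 593) (nat_lit 557) (nat_lit 557) (nat_lit 594) (nat_lit 558)) (.d (nat_lit 590) (nat_lit 589) (nat_lit 1581) (nat_lit 622) (nat_lit 6638))))))))))))) (.a (.p (nat_lit 495) (.a (.d (nat_lit 463) (nat_lit 431) (nat_lit 4527) (nat_lit 592) (nat_lit 4559)) (.a (.d (nat_lit 592) (nat_lit 463) (nat_lit 4559) (nat_lit 624) (nat_lit 7663)) (.a (.f (nat_lit 463) (nat_lit 431) (nat_lit 4527) (.f (nat_lit 558) (nat_lit 590) (nat_lit 5582) (.f (nat_lit 557) (nat_lit 556) (nat_lit 2572) (.f (nat_lit 525) (nat_lit 524) (nat_lit 3596) (.f (nat_lit 526) (nat_lit 561) (nat_lit 525) (.p (nat_lit 494) (.a (.d (nat_lit 589) (nat_lit 588) (nat_lit 1580) (nat_lit 621) (nat_lit 6637)) (.d (nat_lit 462) (nat_lit 430) (nat_lit 4526) (nat_lit 591) (nat_lit 4558))))))))) (.f (nat_lit 592) (nat_lit 624) (nat_lit 7663) (.p (nat_lit 561) (.a (.d (nat_lit 526) (nat_lit 525) (nat_lit 525) (nat_lit 562) (nat_lit 3598)) (.a (.f (nat_lit 562) (nat_lit 563) (nat_lit 3599) (.f (nat_lit 590) (nat_lit 591) (nat_lit 1582) (.f (nat_lit 558) (nat_lit 589) (nat_lit 1581) (.d (nat_lit 557) (nat_lit 556) (nat_lit 2572) (nat_lit 593) (nat_lit 557))))) (.f (nat_lit 526) (nat_lit 525) (nat_lit 525) (.p (nat_lit 558) (.a (.d (nat_lit 557) (nat_lit 556) (nat_lit 2572) (nat_lit 593) (nat_lit 557)) (.d (nat_lit 590) (nat_lit 589) (nat_lit 1581) (nat_lit 622) (nat_lit 6638))))))))))))) (.a s17585 (.a (.p (nat_lit 495) (.a (.d (nat_lit 463) (nat_lit 431) (nat_lit 4527) (nat_lit 592) (nat_lit 4559)) (.a (.d (nat_lit 592) (nat_lit 463) (nat_lit 4559) (nat_lit 624) (nat_lit 7663)) (.a (.f (nat_lit 463) (nat_lit 431) (nat_lit 4527) (.f (nat_lit 462) (nat_lit 430) (nat_lit 7598) (.f (nat_lit 494) (nat_lit 591) (nat_lit 7630) (.f (nat_lit 493) (nat_lit 492) (nat_lit 492) (.d (nat_lit 464) (nat_lit 432) (nat_lit 6575) (nat_lit 465) (nat_lit 1485)))))) (.f (nat_lit 592) (nat_lit 624) (nat_lit 7663) (.p (nat_lit 561) (.a (.d (nat_lit 526) (nat_lit 525) (nat_lit 525) (nat_lit 562) (nat_lit 3598)) (.a (.f (nat_lit 562) (nat_lit 563) (nat_lit 3599) (.f (nat_lit 594) (nat_lit 595) (nat_lit 559) (.f (nat_lit 593) (nat_lit 558) (nat_lit 558) (.f (nat_lit 530) (nat_lit 531) (nat_lit 2575) (.d (nat_lit 498) (nat_lit 466) (nat_lit 5585) (nat_lit 625) (nat_lit 5617)))))) (.f (nat_lit 525) (nat_lit 526) (nat_lit 525) (.p (nat_lit 557) (.a (.d (nat_lit 558) (nat_lit 556) (nat_lit 2572) (nat_lit 593) (nat_lit 557)) (.a (.d (nat_lit 558) (nat_lit 524) (nat_lit 3596) (nat_lit 593) (nat_lit 557)) (.p (nat_lit 493) (.a (.f (nat_lit 492) (nat_lit 494) (nat_lit 492) (.f (nat_lit 460) (nat_lit 589) (nat_lit 7628) (.d (nat_lit 428) (nat_lit 396) (nat_lit 4492) (nat_lit 524) (nat_lit 4524)))) (.a (.p (nat_lit 462) (.a (.d (nat_lit 494) (nat_lit 589) (nat_lit 6605) (nat_lit 591) (nat_lit 7630)) (.a (.f (nat_lit 430) (nat_lit 461) (nat_lit 6573) (.d (nat_lit 494) (nat_lit 398) (nat_lit 5517) (nat_lit 589) (nat_lit 6605))) (.f (nat_lit 461) (nat_lit 430) (nat_lit 6573) (.p (nat_lit 429) (.a (.d (nat_lit 556) (nat_lit 524) (nat_lit 5548) (nat_lit 588) (nat_lit 5580)) (.d (nat_lit 428) (nat_lit 396) (nat_lit 7564) (nat_lit 460) (nat_lit 7596)))))))) (.a s18062 (.a (.p (nat_lit 461) (.a (.p (nat_lit 429) (.a (.d (nat_lit 556) (nat_lit 524) (nat_lit 5548) (nat_lit 588) (nat_lit 5580)) (.d (nat_lit 428) (nat_lit 396) (nat_lit 7564) (nat_lit 460) (nat_lit 7596)))) (.f (nat_lit 494) (nat_lit 492) (nat_lit 492) (.d (nat_lit 462) (nat_lit 430) (nat_lit 6573) (nat_lit 591) (nat_lit 7630))))) (.f (nat_lit 494) (nat_lit 492) (nat_lit 492) (.d (nat_lit 462) (nat_lit 589) (nat_lit 6605) (nat_lit 591) (nat_lit 7630)))))))))))))))))))) (.a (.p (nat_lit 495) (.a (.d (nat_lit 463) (nat_lit 431) (nat_lit 4527) (nat_lit 592) (nat_lit 4559)) (.a (.d (nat_lit 592) (nat_lit 463) (nat_lit 4559) (nat_lit 624) (nat_lit 7663)) (.a (.f (nat_lit 463) (nat_lit 431) (nat_lit 4527) (.f (nat_lit 462) (nat_lit 430) (nat_lit 7598) (.f (nat_lit 494) (nat_lit 591) (nat_lit 7630) (.f (nat_lit 493) (nat_lit 492) (nat_lit 492) (.d (nat_lit 464) (nat_lit 432) (nat_lit 6575) (nat_lit 465) (nat_lit 1485)))))) (.f (nat_lit 592) (nat_lit 624) (nat_lit 7663) (.p (nat_lit 561) (.a (.d (nat_lit 526) (nat_lit 525) (nat_lit 525) (nat_lit 562) (nat_lit 3598)) (.a (.f (nat_lit 562) (nat_lit 563) (nat_lit 3599) (.f (nat_lit 591) (nat_lit 590) (nat_lit 1582) s18919)) (.f (nat_lit 526) (nat_lit 525) (nat_lit 525) (.p (nat_lit 591) (.a (.d (nat_lit 590) (nat_lit 589) (nat_lit 2605) (nat_lit 622) (nat_lit 5614)) (.d (nat_lit 494) (nat_lit 462) (nat_lit 7630) (nat_lit 623) (nat_lit 7662))))))))))))) (.a (.p (nat_lit 495) (.a (.d (nat_lit 463) (nat_lit 431) (nat_lit 4527) (nat_lit 592) (nat_lit 4559)) (.a (.d (nat_lit 592) (nat_lit 463) (nat_lit 4559) (nat_lit 624) (nat_lit 7663)) (.a (.f (nat_lit 463) (nat_lit 431) (nat_lit 4527) (.f (nat_lit 558) (nat_lit 590) (nat_lit 5582) (.f (nat_lit 557) (nat_lit 556) (nat_lit 2572) (.f (nat_lit 525) (nat_lit 524) (nat_lit 3596) (.f (nat_lit 526) (nat_lit 561) (nat_lit 525) (.p (nat_lit 494) (.a (.d (nat_lit 589) (nat_lit 588) (nat_lit 1580) (nat_lit 621) (nat_lit 6637)) (.d (nat_lit 462) (nat_lit 430) (nat_lit 4526) (nat_lit 591) (nat_lit 4558))))))))) (.f (nat_lit 592) (nat_lit 624) (nat_lit 7663) (.p (nat_lit 526) (.a (.d (nat_lit 525) (nat_lit 524) (nat_lit 524) (nat_lit 561) (nat_lit 525)) (.a (.f (nat_lit 561) (nat_lit 562) (nat_lit 3598) (.p (nat_lit 558) (.a (.d (nat_lit 557) (nat_lit 556) (nat_lit 2572) (nat_lit 593) (nat_lit 557)) (.a (.d (nat_lit 593) (nat_lit 557) (nat_lit 557) (nat_lit 594) (nat_lit 558)) (.d (nat_lit 590) (nat_lit 589) (nat_lit 1581) (nat_lit 622) (nat_lit 6638)))))) (.f (nat_lit 525) (nat_lit 524) (nat_lit 524) (.f (nat_lit 557) (nat_lit 556) (nat_lit 1548) (.f (nat_lit 558) (nat_lit 593) (nat_lit 557) (.p (nat_lit 494) (.a (.d (nat_lit 589) (nat_lit 588) (nat_lit 1580) (nat_lit 621) (nat_lit 6637)) (.d (nat_lit 462) (nat_lit 430) (nat_lit 4526) (nat_lit 591) (nat_lit 4558))))))))))))))) (.a (.p (nat_lit 495) (.a (.d (nat_lit 463) (nat_lit 431) (nat_lit 4527) (nat_lit 592) (nat_lit 4559)) (.a (.d (nat_lit 592) (nat_lit 463) (nat_lit 4559) (nat_lit 624) (nat_lit 7663)) (.a (.f (nat_lit 463) (nat_lit 431) (nat_lit 4527) (.f (nat_lit 558) (nat_lit 590) (nat_lit 5582) (.f (nat_lit 462) (nat_lit 430) (nat_lit 7598) (.f (nat_lit 494) (nat_lit 591) (nat_lit 7630) (.f (nat_lit 464) (nat_lit 432) (nat_lit 6575) (.d (nat_lit 465) (nat_lit 466) (nat_lit 1486) (nat_lit 493) (nat_lit 1485))))))) (.f (nat_lit 592) (nat_lit 624) (nat_lit 7663) (.p (nat_lit 561) (.a (.d (nat_lit 526) (nat_lit 525) (nat_lit 525) (nat_lit 562) (nat_lit 3598)) (.a (.f (nat_lit 562) (nat_lit 563) (nat_lit 3599) (.f (nat_lit 591) (nat_lit 590) (nat_lit 1582) (.f (nat_lit 594) (nat_lit 595) (nat_lit 559) (.f (nat_lit 593) (nat_lit 558) (nat_lit 558) (.f (nat_lit 530) (nat_lit 531) (nat_lit 2575) (.d (nat_lit 498) (nat_lit 466) (nat_lit 5585) (nat_lit 625) (nat_lit 5617))))))) (.f (nat_lit 526) (nat_lit 525) (nat_lit 525) (.p (nat_lit 558) (.a (.d (nat_lit 557) (nat_lit 556) (nat_lit 2572) (nat_lit 593) (nat_lit 557)) (.a (.d (nat_lit 593) (nat_lit 557) (nat_lit 557) (nat_lit 594) (nat_lit 558)) (.a (.f (nat_lit 593) (nat_lit 594) (nat_lit 558) (.p (nat_lit 591) (.a (.f (nat_lit 590) (nat_lit 622) (nat_lit 5614) (.d (nat_lit 625) (nat_lit 626) (nat_lit 590) (nat_lit 657) (nat_lit 7696))) (.d (nat_lit 494) (nat_lit 462) (nat_lit 7630) (nat_lit 623) (nat_lit 7662))))) (.f (nat_lit 590) (nat_lit 622) (nat_lit 6638) (.p (nat_lit 494) (.a (.d (nat_lit 493) (nat_lit 461) (nat_lit 7629) (nat_lit 492) (nat_lit 492)) (.d (nat_lit 462) (nat_lit 430) (nat_lit 4526) (nat_lit 591) (nat_lit 4558)))))))))))))))))) (.a s16764 (.a (.p (nat_lit 561) (.a (.d (nat_lit 526) (nat_lit 525) (nat_lit 525) (nat_lit 562) (nat_lit 3598)) (.a (.f (nat_lit 562) (nat_lit 563) (nat_lit 3599) (.f (nat_lit 590) (nat_lit 591) (nat_lit 1582) (.f (nat_lit 558) (nat_lit 589) (nat_lit 1581) (.d (nat_lit 594) (nat_lit 593) (nat_lit 558) (nat_lit 595) (nat_lit 559))))) (.f (nat_lit 526) (nat_lit 525) (nat_lit 525) (.p (nat_lit 590) (.a (.f (nat_lit 558) (nat_lit 589) (nat_lit 1581) (.d (nat_lit 495) (nat_lit 463) (nat_lit 5582) (nat_lit 622) (nat_lit 6638))) (.a (.f (nat_lit 558) (nat_lit 589) (nat_lit 1581) (.f (nat_lit 495) (nat_lit 463) (nat_lit 5582) (.p (nat_lit 494) (.a (.d (nat_lit 493) (nat_lit 461) (nat_lit 7629) (nat_lit 492) (nat_lit 492)) (.d (nat_lit 462) (nat_lit 430) (nat_lit 4526) (nat_lit 591) (nat_lit 4558)))))) (.a (.p (nat_lit 591) (.a (.f (nat_lit 495) (nat_lit 622) (nat_lit 5614) (.d (nat_lit 494) (nat_lit 462) (nat_lit 7630) (nat_lit 623) (nat_lit 7662))) (.a (.f (nat_lit 623) (nat_lit 494) (nat_lit 7662) (.d (nat_lit 622) (nat_lit 495) (nat_lit 5614) (nat_lit 654) (nat_lit 5646))) (.a (.f (nat_lit 494) (nat_lit 623) (nat_lit 7662) (.d (nat_lit 462) (nat_lit 430) (nat_lit 4526) (nat_lit 495) (nat_lit 7630))) (.a (.f (nat_lit 622) (nat_lit 495) (nat_lit 5614) (.d (nat_lit 654) (nat_lit 623) (nat_lit 5646) (nat_lit 686) (nat_lit 6702))) (.a (.f (nat_lit 495) (nat_lit 622) (nat_lit 5614) (.f (nat_lit 462) (nat_lit 494) (nat_lit 7630) (.d (nat_lit 463) (nat_lit 430) (nat_lit 7598) (nat_lit 431) (nat_lit 4527)))) (.f (nat_lit 623) (nat_lit 494) (nat_lit 7662) (.f (nat_lit 624) (nat_lit 656) (nat_lit 4623) (.f (nat_lit 622) (nat_lit 654) (nat_lit 5646) (.d (nat_lit 589) (nat_lit 588) (nat_lit 588) (nat_lit 625) (nat_lit 3661))))))))))) (.a (.p (nat_lit 495) (.a (.d (nat_lit 463) (nat_lit 431) (nat_lit 4527) (nat_lit 558) (nat_lit 5582)) (.a (.f (nat_lit 463) (nat_lit 431) (nat_lit 4527) (.f (nat_lit 591) (nat_lit 622) (nat_lit 5614) (.d (nat_lit 462) (nat_lit 430) (nat_lit 7598) (nat_lit 494) (nat_lit 7630)))) (.a (.d (nat_lit 558) (nat_lit 463) (nat_lit 5582) (nat_lit 622) (nat_lit 6638)) (.d (nat_lit 622) (nat_lit 558) (nat_lit 6638) (nat_lit 591) (nat_lit 5614)))))) (.a (.f (nat_lit 558) (nat_lit 589) (nat_lit 1581) (.d (nat_lit 622) (nat_lit 495) (nat_lit 6638) (nat_lit 654) (nat_lit 6670))) (.f (nat_lit 589) (nat_lit 558) (nat_lit 1581) (.f (nat_lit 591) (nat_lit 588) (nat_lit 2604) (.f (nat_lit 623) (nat_lit 494) (nat_lit 7662) (.f (nat_lit 622) (nat_lit 654) (nat_lit 5646) (.d (nat_lit 624) (nat_lit 625) (nat_lit 3661) (nat_lit 656) (nat_lit 4623)))))))))))))))) (.a (.p (nat_lit 495) (.a (.d (nat_lit 463) (nat_lit 431) (nat_lit 4527) (nat_lit 592) (nat_lit 4559)) (.a (.d (nat_lit 592) (nat_lit 463) (nat_lit 4559) (nat_lit 624) (nat_lit 7663)) (.a (.f (nat_lit 463) (nat_lit 431) (nat_lit 4527) (.f (nat_lit 558) (nat_lit 590) (nat_lit 5582) (.f (nat_lit 557) (nat_lit 556) (nat_lit 2572) (.f (nat_lit 525) (nat_lit 524) (nat_lit 3596) (.f (nat_lit 526) (nat_lit 561) (nat_lit 525) (.p (nat_lit 494) (.a (.d (nat_lit 589) (nat_lit 588) (nat_lit 1580) (nat_lit 621) (nat_lit 6637)) (.d (nat_lit 462) (nat_lit 430) (nat_lit 4526) (nat_lit 591) (nat_lit 4558))))))))) (.f (nat_lit 624) (nat_lit 592) (nat_lit 7663) (.p (nat_lit 526) (.a (.d (nat_lit 525) (nat_lit 524) (nat_lit 524) (nat_lit 561) (nat_lit 525)) (.a (.f (nat_lit 561) (nat_lit 562) (nat_lit 3598) (.p (nat_lit 494) (.a (.d (nat_lit 462) (nat_lit 430) (nat_lit 4526) (nat_lit 591) (nat_lit 7630)) (.a (.f (nat_lit 591) (nat_lit 623) (nat_lit 7662) (.f (nat_lit 590) (nat_lit 622) (nat_lit 5614) (.d (nat_lit 589) (nat_lit 558) (nat_lit 1581) (nat_lit 588) (nat_lit 2604)))) (.f (nat_lit 462) (nat_lit 430) (nat_lit 4526) (.p (nat_lit 558) (.a (.d (nat_lit 557) (nat_lit 556) (nat_lit 2572) (nat_lit 589) (nat_lit 5581)) (.a (.d (nat_lit 590) (nat_lit 589) (nat_lit 1581) (nat_lit 622) (nat_lit 6638)) (.f (nat_lit 461) (nat_lit 429) (nat_lit 7597) (.d (nat_lit 493) (nat_lit 492) (nat_lit 492) (nat_lit 590) (nat_lit 7629))))))))))) (.f (nat_lit 525) (nat_lit 524) (nat_lit 524) (.f (nat_lit 557) (nat_lit 556) (nat_lit 1548) (.f (nat_lit 493) (nat_lit 492) (nat_lit 3564) (.p (nat_lit 494) (.a (.p (nat_lit 590) (.a (.f (nat_lit 558) (nat_lit 461) (nat_lit 7629) (.d (nat_lit 589) (nat_lit 588) (nat_lit 1580) (nat_lit 621) (nat_lit 5613))) (.d (nat_lit 591) (nat_lit 622) (nat_lit 5614) (nat_lit 623) (nat_lit 7662)))) (.a (.d (nat_lit 462) (nat_lit 430) (nat_lit 4526) (nat_lit 591) (nat_lit 7630)) (.d (nat_lit 462) (nat_lit 430) (nat_lit 5549) (nat_lit 589) (nat_lit 6605)))))))))))))))) (.a (.p (nat_lit 561) (.a (.d (nat_lit 526) (nat_lit 525) (nat_lit 525) (nat_lit 562) (nat_lit 3598)) (.a (.f (nat_lit 562) (nat_lit 563) (nat_lit 3599) (.f (nat_lit 590) (nat_lit 591) (nat_lit 1582) (.f (nat_lit 558) (nat_lit 589) (nat_lit 1581) (.d (nat_lit 594) (nat_lit 593) (nat_lit 558) (nat_lit 595) (nat_lit 559))))) (.f (nat_lit 526) (nat_lit 525) (nat_lit 525) (.p (nat_lit 558) (.a (.f (nat_lit 590) (nat_lit 589) (nat_lit 1581) (.d (nat_lit 622) (nat_lit 495) (nat_lit 6638) (nat_lit 654) (nat_lit 6670))) (.f (nat_lit 557) (nat_lit 556) (nat_lit 2572) (.d (nat_lit 593) (nat_lit 592) (nat_lit 557) (nat_lit 594) (nat_lit 558))))))))) (.a (.p (nat_lit 495) (.a (.d (nat_lit 463) (nat_lit 431) (nat_lit 4527) (nat_lit 592) (nat_lit 4559)) (.a (.d (nat_lit 592) (nat_lit 463) (nat_lit 4559) (nat_lit 624) (nat_lit 7663)) (.a (.f (nat_lit 463) (nat_lit 431) (nat_lit 4527) (.f (nat_lit 558) (nat_lit 590) (nat_lit 5582) (.f (nat_lit 557) (nat_lit 556) (nat_lit 2572) (.f (nat_lit 525) (nat_lit 524) (nat_lit 3596) (.f (nat_lit 526) (nat_lit 561) (nat_lit 525) (.p (nat_lit 494) (.a (.d (nat_lit 589) (nat_lit 588) (nat_lit 1580) (nat_lit 621) (nat_lit 6637)) (.d (nat_lit 462) (nat_lit 430) (nat_lit 4526) (nat_lit 591) (nat_lit 4558))))))))) (.f (nat_lit 592) (nat_lit 624) (nat_lit 7663) (.p (nat_lit 558) (.a (.d (nat_lit 557) (nat_lit 556) (nat_lit 2572) (nat_lit 593) (nat_lit 557)) (.a (.f (nat_lit 593) (nat_lit 557) (nat_lit 557) (.d (nat_lit 594) (nat_lit 561) (nat_lit 558) (nat_lit 595) (nat_lit 3631))) (.p (nat_lit 526) (.a (.d (nat_lit 525) (nat_lit 524) (nat_lit 524) (nat_lit 561) (nat_lit 525)) (.a (.f (nat_lit 590) (nat_lit 622) (nat_lit 6638) (.p (nat_lit 494) (.a (.d (nat_lit 589) (nat_lit 561) (nat_lit 1581) (nat_lit 621) (nat_lit 5613)) (.d (nat_lit 462) (nat_lit 430) (nat_lit 4526) (nat_lit 591) (nat_lit 4558))))) (.f (nat_lit 590) (nat_lit 622) (nat_lit 6638) (.p (nat_lit 494) (.a (.d (nat_lit 493) (nat_lit 461) (nat_lit 7629) (nat_lit 492) (nat_lit 492)) (.d (nat_lit 462) (nat_lit 430) (nat_lit 4526) (nat_lit 591) (nat_lit 4558)))))))))))))))) (.a (.p (nat_lit 561) (.a (.d (nat_lit 526) (nat_lit 525) (nat_lit 525) (nat_lit 562) (nat_lit 3598)) (.a (.f (nat_lit 562) (nat_lit 563) (nat_lit 3599) (.f (nat_lit 590) (nat_lit 591) (nat_lit 1582) (.f (nat_lit 558) (nat_lit 589) (nat_lit 1581) (.d (nat_lit 594) (nat_lit 593) (nat_lit 558) (nat_lit 595) (nat_lit 559))))) (.f (nat_lit 526) (nat_lit 525) (nat_lit 525) (.p (nat_lit 558) (.a (.f (nat_lit 557) (nat_lit 556) (nat_lit 2572) (.d (nat_lit 593) (nat_lit 592) (nat_lit 557) (nat_lit 594) (nat_lit 558))) (.a (.f (nat_lit 593) (nat_lit 594) (nat_lit 558) (.f (nat_lit 590) (nat_lit 589) (nat_lit 1581) (.f (nat_lit 592) (nat_lit 557) (nat_lit 557) (.p (nat_lit 591) (.a (.d (nat_lit 494) (nat_lit 462) (nat_lit 4558) (nat_lit 623) (nat_lit 7662)) (.d (nat_lit 625) (nat_lit 626) (nat_lit 590) (nat_lit 657) (nat_lit 7696))))))) (.a (.f (nat_lit 557) (nat_lit 556) (nat_lit 2572) (.d (nat_lit 589) (nat_lit 588) (nat_lit 1580) (nat_lit 590) (nat_lit 1581))) (.f (nat_lit 590) (nat_lit 589) (nat_lit 1581) (.f (nat_lit 593) (nat_lit 594) (nat_lit 558) (.f (nat_lit 622) (nat_lit 654) (nat_lit 6670) (.p (nat_lit 591) (.a (.d (nat_lit 494) (nat_lit 462) (nat_lit 4558) (nat_lit 623) (nat_lit 7662)) (.d (nat_lit 621) (nat_lit 592) (nat_lit 1613) (nat_lit 653) (nat_lit 5645))))))))))))))) (.p (nat_lit 495) (.a (.d (nat_lit 463) (nat_lit 431) (nat_lit 4527) (nat_lit 592) (nat_lit 4559)) (.a (.d (nat_lit 592) (nat_lit 463) (nat_lit 4559) (nat_lit 624) (nat_lit 7663)) (.a (.f (nat_lit 463) (nat_lit 431) (nat_lit 4527) (.f (nat_lit 558) (nat_lit 590) (nat_lit 5582) (.f (nat_lit 557) (nat_lit 556) (nat_lit 2572) (.f (nat_lit 462) (nat_lit 430) (nat_lit 7598) (.f (nat_lit 494) (nat_lit 591) (nat_lit 7630) (.d (nat_lit 589) (nat_lit 526) (nat_lit 5581) (nat_lit 588) (nat_lit 1580))))))) (.f (nat_lit 592) (nat_lit 624) (nat_lit 7663) (.p (nat_lit 591) (.a (.f (nat_lit 494) (nat_lit 462) (nat_lit 7630) (.f (nat_lit 590) (nat_lit 622) (nat_lit 5614) (.f (nat_lit 526) (nat_lit 623) (nat_lit 7662) (.p (nat_lit 558) (.a (.d (nat_lit 593) (nat_lit 557) (nat_lit 557) (nat_lit 594) (nat_lit 3630)) (.a (.d (nat_lit 557) (nat_lit 556) (nat_lit 2572) (nat_lit 593) (nat_lit 557)) (.d (nat_lit 589) (nat_lit 588) (nat_lit 2604) (nat_lit 621) (nat_lit 5613)))))))) (.a (.f (nat_lit 590) (nat_lit 622) (nat_lit 5614) (.f (nat_lit 589) (nat_lit 588) (nat_lit 2604) (.f (nat_lit 557) (nat_lit 556) (nat_lit 3628) (.f (nat_lit 558) (nat_lit 593) (nat_lit 557) (.p (nat_lit 526) (.a (.d (nat_lit 494) (nat_lit 621) (nat_lit 5613) (nat_lit 623) (nat_lit 4590)) (.a (.p (nat_lit 493) (.a (.d (nat_lit 492) (nat_lit 494) (nat_lit 492) (nat_lit 525) (nat_lit 3564)) (.a (.d (nat_lit 525) (nat_lit 461) (nat_lit 4557) (nat_lit 524) (nat_lit 3596)) (.d (nat_lit 494) (nat_lit 492) (nat_lit 492) (nat_lit 623) (nat_lit 7662))))) (.d (nat_lit 621) (nat_lit 620) (nat_lit 1612) (nat_lit 653) (nat_lit 6669))))))))) (.a (.f (nat_lit 494) (nat_lit 462) (nat_lit 7630) (.f (nat_lit 526) (nat_lit 623) (nat_lit 7662) (.f (nat_lit 525) (nat_lit 524) (nat_lit 524) (.p (nat_lit 558) (.a (.d (nat_lit 557) (nat_lit 556) (nat_lit 2572) (nat_lit 593) (nat_lit 557)) (.a (.d (nat_lit 593) (nat_lit 557) (nat_lit 557) (nat_lit 594) (nat_lit 3630)) (.f (nat_lit 493) (nat_lit 492) (nat_lit 492) (.d (nat_lit 461) (nat_lit 429) (nat_lit 4525) (nat_lit 590) (nat_lit 7629))))))))) (.a (.f (nat_lit 494) (nat_lit 462) (nat_lit 7630) (.f (nat_lit 590) (nat_lit 622) (nat_lit 5614) (.f (nat_lit 526) (nat_lit 623) (nat_lit 7662) (.p (nat_lit 558) (.a (.d (nat_lit 593) (nat_lit 557) (nat_lit 557) (nat_lit 594) (nat_lit 3630)) (.d (nat_lit 589) (nat_lit 588) (nat_lit 2604) (nat_lit 621) (nat_lit 5613))))))) (.a (.f (nat_lit 494) (nat_lit 462) (nat_lit 7630) (.f (nat_lit 526) (nat_lit 623) (nat_lit 7662) (.f (nat_lit 525) (nat_lit 524) (nat_lit 524) (.f (nat_lit 557) (nat_lit 556) (nat_lit 1548) (.f (nat_lit 558) (nat_lit 593) (nat_lit 557) (.d (nat_lit 589) (nat_lit 588) (nat_lit 1580) (nat_lit 621) (nat_lit 6637))))))) (.a (.f (nat_lit 494) (nat_lit 462) (nat_lit 7630) (.f (nat_lit 590) (nat_lit 622) (nat_lit 5614) (.f (nat_lit 589) (nat_lit 588) (nat_lit 2604) (.f (nat_lit 526) (nat_lit 623) (nat_lit 7662) (.f (nat_lit 525) (nat_lit 524) (nat_lit 524) (.d (nat_lit 557) (nat_lit 556) (nat_lit 3628) (nat_lit 621) (nat_lit 6637))))))) (.a (.f (nat_lit 590) (nat_lit 622) (nat_lit 5614) (.f (nat_lit 589) (nat_lit 588) (nat_lit 2604) (.f (nat_lit 557) (nat_lit 556) (nat_lit 3628) (.f (nat_lit 558) (nat_lit 593) (nat_lit 557) (.f (nat_lit 621) (nat_lit 620) (nat_lit 1612) (.d (nat_lit 653) (nat_lit 526) (nat_lit 6669) (nat_lit 685) (nat_lit 6701))))))) (.a (.f (nat_lit 590) (nat_lit 622) (nat_lit 5614) (.f (nat_lit 589) (nat_lit 588) (nat_lit 2604) (.f (nat_lit 557) (nat_lit 556) (nat_lit 3628) (.f (nat_lit 558) (nat_lit 593) (nat_lit 557) (.p (nat_lit 493) (.a (.d (nat_lit 525) (nat_lit 461) (nat_lit 4557) (nat_lit 524) (nat_lit 3596)) (.d (nat_lit 494) (nat_lit 462) (nat_lit 7630) (nat_lit 492) (nat_lit 492)))))))) (.f (nat_lit 494) (nat_lit 462) (nat_lit 7630) (.f (nat_lit 590) (nat_lit 622) (nat_lit 5614) (.f (nat_lit 526) (nat_lit 623) (nat_lit 7662) (.f (nat_lit 493) (nat_lit 492) (nat_lit 492) (.f (nat_lit 558) (nat_lit 461) (nat_lit 7629) (.d (nat_lit 589) (nat_lit 588) (nat_lit 2604) (nat_lit 621) (nat_lit 5613)))))))))))))))))))))))))))))))))))))) (.a (.p (nat_lit 561) (.a s19409 (.a s17096 (.a (.p (nat_lit 562) (.a (.d (nat_lit 527) (nat_lit 526) (nat_lit 3598) (nat_lit 563) (nat_lit 3599)) (.a (.f (nat_lit 527) (nat_lit 526) (nat_lit 3598) (.f (nat_lit 591) (nat_lit 590) (nat_lit 1582) (.f (nat_lit 623) (nat_lit 655) (nat_lit 6671) (.f (nat_lit 624) (nat_lit 656) (nat_lit 4623) (.f (nat_lit 592) (nat_lit 495) (nat_lit 7663) (.f (nat_lit 622) (nat_lit 654) (nat_lit 5646) (.d (nat_lit 621) (nat_lit 593) (nat_lit 2637) (nat_lit 620) (nat_lit 2636)))))))) (.a (.f (nat_lit 563) (nat_lit 527) (nat_lit 3599) (.d (nat_lit 591) (nat_lit 590) (nat_lit 1582) (nat_lit 592) (nat_lit 1583))) (.f (nat_lit 591) (nat_lit 590) (nat_lit 1582) (.f (nat_lit 563) (nat_lit 592) (nat_lit 1583) (.d (nat_lit 531) (nat_lit 530) (nat_lit 2575) (nat_lit 532) (nat_lit 2576)))))))) (.a (.p (nat_lit 562) (.a (.d (nat_lit 527) (nat_lit 526) (nat_lit 3598) (nat_lit 563) (nat_lit 3599)) (.a (.f (nat_lit 527) (nat_lit 526) (nat_lit 3598) (.f (nat_lit 594) (nat_lit 595) (nat_lit 559) (.f (nat_lit 558) (nat_lit 593) (nat_lit 558) (.f (nat_lit 557) (nat_lit 556) (nat_lit 2572) (.d (nat_lit 589) (nat_lit 588) (nat_lit 1580) (nat_lit 590) (nat_lit 1581)))))) (.a (.f (nat_lit 563) (nat_lit 527) (nat_lit 3599) (.d (nat_lit 595) (nat_lit 594) (nat_lit 559) (nat_lit 596) (nat_lit 560))) (.f (nat_lit 594) (nat_lit 595) (nat_lit 559) (.f (nat_lit 593) (nat_lit 558) (nat_lit 558) (.f (nat_lit 625) (nat_lit 657) (nat_lit 7696) (.d (nat_lit 530) (nat_lit 498) (nat_lit 5617) (nat_lit 531) (nat_lit 2575))))))))) (.a (.p (nat_lit 562) (.a (.d (nat_lit 527) (nat_lit 526) (nat_lit 3598) (nat_lit 563) (nat_lit 3599)) (.a (.f (nat_lit 527) (nat_lit 526) (nat_lit 3598) (.f (nat_lit 594) (nat_lit 595) (nat_lit 559) (.f (nat_lit 593) (nat_lit 558) (nat_lit 558) (.f (nat_lit 625) (nat_lit 657) (nat_lit 7696) (.d (nat_lit 530) (nat_lit 498) (nat_lit 5617) (nat_lit 531) (nat_lit 2575)))))) (.a (.f (nat_lit 563) (nat_lit 527) (nat_lit 3599) (.d (nat_lit 595) (nat_lit 594) (nat_lit 559) (nat_lit 596) (nat_lit 560))) (.f (nat_lit 594) (nat_lit 595) (nat_lit 559) (.f (nat_lit 593) (nat_lit 558) (nat_lit 558) (.f (nat_lit 625) (nat_lit 657) (nat_lit 7696) (.d (nat_lit 530) (nat_lit 498) (nat_lit 5617) (nat_lit 531) (nat_lit 2575))))))))) (.a (.p (nat_lit 558) (.a (.f (nat_lit 526) (nat_lit 525) (nat_lit 3597) (.f (nat_lit 527) (nat_lit 562) (nat_lit 3598) (.f (nat_lit 590) (nat_lit 589) (nat_lit 1581) (.d (nat_lit 495) (nat_lit 463) (nat_lit 5582) (nat_lit 622) (nat_lit 6638))))) (.a (.f (nat_lit 593) (nat_lit 594) (nat_lit 558) (.f (nat_lit 557) (nat_lit 592) (nat_lit 557) (.d (nat_lit 589) (nat_lit 588) (nat_lit 1580) (nat_lit 590) (nat_lit 1581)))) (.f (nat_lit 593) (nat_lit 594) (nat_lit 558) (.f (nat_lit 557) (nat_lit 592) (nat_lit 557) (.d (nat_lit 525) (nat_lit 524) (nat_lit 3596) (nat_lit 526) (nat_lit 3597))))))) (.a (.p (nat_lit 562) (.a (.f (nat_lit 563) (nat_lit 527) (nat_lit 3599) (.d (nat_lit 595) (nat_lit 594) (nat_lit 559) (nat_lit 596) (nat_lit 560))) (.a (.f (nat_lit 563) (nat_lit 527) (nat_lit 3599) (.d (nat_lit 591) (nat_lit 590) (nat_lit 1582) (nat_lit 592) (nat_lit 1583))) (.f (nat_lit 594) (nat_lit 595) (nat_lit 559) (.f (nat_lit 593) (nat_lit 558) (nat_lit 558) (.f (nat_lit 625) (nat_lit 657) (nat_lit 7696) (.d (nat_lit 530) (nat_lit 498) (nat_lit 5617) (nat_lit 531) (nat_lit 2575)))))))) (.a (.p (nat_lit 562) (.a (.d (nat_lit 527) (nat_lit 526) (nat_lit 3598) (nat_lit 563) (nat_lit 3599)) (.a (.f (nat_lit 527) (nat_lit 526) (nat_lit 3598) (.p (nat_lit 495) (.a (.d (nat_lit 463) (nat_lit 431) (nat_lit 4527) (nat_lit 592) (nat_lit 4559)) (.a (.d (nat_lit 592) (nat_lit 463) (nat_lit 4559) (nat_lit 624) (nat_lit 7663)) (.a (.f (nat_lit 463) (nat_lit 431) (nat_lit 4527) (.d (nat_lit 590) (nat_lit 558) (nat_lit 5582) (nat_lit 591) (nat_lit 1582))) (.f (nat_lit 591) (nat_lit 590) (nat_lit 1582) (.f (nat_lit 624) (nat_lit 592) (nat_lit 7663) (.d (nat_lit 623) (nat_lit 655) (nat_lit 6671) (nat_lit 656) (nat_lit 4623))))))))) (.a (.f (nat_lit 563) (nat_lit 527) (nat_lit 3599) (.d (nat_lit 595) (nat_lit 594) (nat_lit 559) (nat_lit 596) (nat_lit 560))) (.f (nat_lit 591) (nat_lit 590) (nat_lit 1582) (.f (nat_lit 563) (nat_lit 592) (nat_lit 1583) (.d (nat_lit 595) (nat_lit 594) (nat_lit 559) (nat_lit 596) (nat_lit 560)))))))) (.a (.p (nat_lit 558) (.a (.f (nat_lit 593) (nat_lit 594) (nat_lit 558) (.f (nat_lit 557) (nat_lit 592) (nat_lit 557) (.d (nat_lit 525) (nat_lit 524) (nat_lit 3596) (nat_lit 526) (nat_lit 3597)))) (.a (.f (nat_lit 525) (nat_lit 526) (nat_lit 3597) (.f (nat_lit 557) (nat_lit 524) (nat_lit 3596) (.d (nat_lit 589) (nat_lit 588) (nat_lit 1580) (nat_lit 590) (nat_lit 1581)))) (.a (.f (nat_lit 593) (nat_lit 594) (nat_lit 558) (.f (nat_lit 557) (nat_lit 592) (nat_lit 557) (.d (nat_lit 589) (nat_lit 588) (nat_lit 1580) (nat_lit 590) (nat_lit 1581)))) (.f (nat_lit 526) (nat_lit 525) (nat_lit 3597) (.f (nat_lit 590) (nat_lit 589) (nat_lit 1581) (.f (nat_lit 593) (nat_lit 594) (nat_lit 558) (.p (nat_lit 622) (.a (.d (nat_lit 527) (nat_lit 495) (nat_lit 6638) (nat_lit 654) (nat_lit 6670)) (.a (.f (nat_lit 623) (nat_lit 655) (nat_lit 4622) (.p (nat_lit 624) (.a (.d (nat_lit 621) (nat_lit 592) (nat_lit 2637) (nat_lit 653) (nat_lit 5645)) (.a (.f (nat_lit 527) (nat_lit 495) (nat_lit 6638) (.d (nat_lit 656) (nat_lit 591) (nat_lit 4623) (nat_lit 592) (nat_lit 7695))) (.p (nat_lit 656) (.a (.d (nat_lit 527) (nat_lit 495) (nat_lit 6638) (nat_lit 591) (nat_lit 4623)) (.d (nat_lit 621) (nat_lit 653) (nat_lit 5645) (nat_lit 657) (nat_lit 621)))))))) (.a (.f (nat_lit 623) (nat_lit 655) (nat_lit 4622) (.p (nat_lit 591) (.a (.d (nat_lit 654) (nat_lit 527) (nat_lit 6670) (nat_lit 686) (nat_lit 6702)) (.d (nat_lit 621) (nat_lit 592) (nat_lit 1613) (nat_lit 653) (nat_lit 5645))))) (.f (nat_lit 655) (nat_lit 623) (nat_lit 4622) (.f (nat_lit 654) (nat_lit 687) (nat_lit 4654) (.d (nat_lit 653) (nat_lit 621) (nat_lit 5645) (nat_lit 685) (nat_lit 5677))))))))))))))) (.p (nat_lit 562) (.a (.f (nat_lit 591) (nat_lit 590) (nat_lit 1582) (.f (nat_lit 563) (nat_lit 592) (nat_lit 1583) (.d (nat_lit 595) (nat_lit 594) (nat_lit 559) (nat_lit 596) (nat_lit 560)))) (.a (.f (nat_lit 591) (nat_lit 590) (nat_lit 1582) (.f (nat_lit 563) (nat_lit 592) (nat_lit 1583) (.d (nat_lit 531) (nat_lit 530) (nat_lit 2575) (nat_lit 532) (nat_lit 2576)))) (.f (nat_lit 594) (nat_lit 595) (nat_lit 559) (.f (nat_lit 593) (nat_lit 558) (nat_lit 558) (.f (nat_lit 625) (nat_lit 657) (nat_lit 7696) (.d (nat_lit 530) (nat_lit 498) (nat_lit 5617) (nat_lit 531) (nat_lit 2575)))))))))))))))))) (.a (.p (nat_lit 561) (.a s17146 (.a s19409 (.a (.p (nat_lit 527) (.a (.d (nat_lit 526) (nat_lit 525) (nat_lit 525) (nat_lit 562) (nat_lit 3598)) (.a (.f (nat_lit 562) (nat_lit 563) (nat_lit 3599) (.f (nat_lit 591) (nat_lit 590) (nat_lit 1582) (.p (nat_lit 624) (.a (.d (nat_lit 592) (nat_lit 495) (nat_lit 7663) (nat_lit 656) (nat_lit 7695)) (.a (.d (nat_lit 623) (nat_lit 655) (nat_lit 6671) (nat_lit 656) (nat_lit 4623)) (.f (nat_lit 495) (nat_lit 592) (nat_lit 7663) (.f (nat_lit 462) (nat_lit 494) (nat_lit 7630) (.d (nat_lit 463) (nat_lit 430) (nat_lit 7598) (nat_lit 431) (nat_lit 4527))))))))) (.f (nat_lit 526) (nat_lit 525) (nat_lit 525) (.p (nat_lit 495) (.a (.d (nat_lit 463) (nat_lit 431) (nat_lit 4527) (nat_lit 592) (nat_lit 4559)) (.a (.d (nat_lit 592) (nat_lit 463) (nat_lit 4559) (nat_lit 624) (nat_lit 7663)) (.a (.f (nat_lit 463) (nat_lit 431) (nat_lit 4527) (.f (nat_lit 558) (nat_lit 590) (nat_lit 5582) (.f (nat_lit 462) (nat_lit 430) (nat_lit 7598) (.f (nat_lit 494) (nat_lit 591) (nat_lit 4558) (.f (nat_lit 464) (nat_lit 432) (nat_lit 6575) (.d (nat_lit 465) (nat_lit 466) (nat_lit 1486) (nat_lit 493) (nat_lit 1485))))))) (.f (nat_lit 592) (nat_lit 624) (nat_lit 7663) (.p (nat_lit 591) (.a (.d (nat_lit 494) (nat_lit 462) (nat_lit 7630) (nat_lit 623) (nat_lit 7662)) (.a (.d (nat_lit 623) (nat_lit 494) (nat_lit 7662) (nat_lit 655) (nat_lit 6671)) (.a (.f (nat_lit 623) (nat_lit 655) (nat_lit 6671) (.d (nat_lit 622) (nat_lit 590) (nat_lit 5614) (nat_lit 654) (nat_lit 5646))) (.f (nat_lit 494) (nat_lit 462) (nat_lit 7630) (.p (nat_lit 558) (.a (.d (nat_lit 557) (nat_lit 556) (nat_lit 2572) (nat_lit 593) (nat_lit 557)) (.f (nat_lit 590) (nat_lit 622) (nat_lit 5614) (.d (nat_lit 493) (nat_lit 461) (nat_lit 7629) (nat_lit 492) (nat_lit 492))))))))))))))))))) (.a s17096 (.a (.p (nat_lit 527) (.a (.d (nat_lit 526) (nat_lit 525) (nat_lit 525) (nat_lit 562) (nat_lit 3598)) (.a (.f (nat_lit 562) (nat_lit 563) (nat_lit 3599) (.f (nat_lit 594) (nat_lit 595) (nat_lit 559) (.f (nat_lit 593) (nat_lit 558) (nat_lit 558) (.f (nat_lit 625) (nat_lit 657) (nat_lit 7696) (.d (nat_lit 530) (nat_lit 498) (nat_lit 5617) (nat_lit 531) (nat_lit 2575)))))) (.f (nat_lit 526) (nat_lit 525) (nat_lit 525) (.p (nat_lit 592) (.a (.d (nat_lit 495) (nat_lit 463) (nat_lit 4559) (nat_lit 624) (nat_lit 7663)) (.a (.p (nat_lit 558) (.a (.d (nat_lit 557) (nat_lit 556) (nat_lit 2572) (nat_lit 593) (nat_lit 557)) (.a (.d (nat_lit 593) (nat_lit 557) (nat_lit 557) (nat_lit 594) (nat_lit 558)) (.a (.p (nat_lit 494) (.a (.f (nat_lit 495) (nat_lit 463) (nat_lit 4559) (.p (nat_lit 461) (.a (.d (nat_lit 493) (nat_lit 492) (nat_lit 492) (nat_lit 590) (nat_lit 7629)) (.d (nat_lit 462) (nat_lit 429) (nat_lit 7597) (nat_lit 430) (nat_lit 4526))))) (.a (.f (nat_lit 495) (nat_lit 463) (nat_lit 4559) (.f (nat_lit 493) (nat_lit 492) (nat_lit 492) (.d (nat_lit 590) (nat_lit 461) (nat_lit 7629) (nat_lit 622) (nat_lit 6638)))) (.a (.f (nat_lit 463) (nat_lit 495) (nat_lit 4559) (.d (nat_lit 462) (nat_lit 430) (nat_lit 4526) (nat_lit 431) (nat_lit 6574))) (.a (.f (nat_lit 593) (nat_lit 594) (nat_lit 558) (.p (nat_lit 590) (.a (.d (nat_lit 622) (nat_lit 495) (nat_lit 6638) (nat_lit 654) (nat_lit 6670)) (.f (nat_lit 461) (nat_lit 493) (nat_lit 7629) (.d (nat_lit 462) (nat_lit 429) (nat_lit 7597) (nat_lit 430) (nat_lit 4526)))))) (.f (nat_lit 462) (nat_lit 430) (nat_lit 4526) (.f (nat_lit 461) (nat_lit 429) (nat_lit 7597) (.f (nat_lit 493) (nat_lit 590) (nat_lit 7629) (.f (nat_lit 463) (nat_lit 431) (nat_lit 6574) (.d (nat_lit 464) (nat_lit 465) (nat_lit 1485) (nat_lit 492) (nat_lit 1484))))))))))) (.p (nat_lit 494) (.a (.f (nat_lit 495) (nat_lit 463) (nat_lit 4559) (.f (nat_lit 493) (nat_lit 492) (nat_lit 492) (.d (nat_lit 590) (nat_lit 461) (nat_lit 7629) (nat_lit 622) (nat_lit 6638)))) (.a (.f (nat_lit 495) (nat_lit 463) (nat_lit 4559) (.p (nat_lit 461) (.a (.d (nat_lit 493) (nat_lit 492) (nat_lit 492) (nat_lit 590) (nat_lit 7629)) (.d (nat_lit 462) (nat_lit 429) (nat_lit 7597) (nat_lit 430) (nat_lit 4526))))) (.a (.f (nat_lit 463) (nat_lit 495) (nat_lit 4559) (.d (nat_lit 462) (nat_lit 430) (nat_lit 4526) (nat_lit 431) (nat_lit 6574))) (.a (.p (nat_lit 590) (.a (.d (nat_lit 622) (nat_lit 495) (nat_lit 6638) (nat_lit 654) (nat_lit 6670)) (.f (nat_lit 461) (nat_lit 493) (nat_lit 7629) (.d (nat_lit 462) (nat_lit 429) (nat_lit 7597) (nat_lit 430) (nat_lit 4526))))) (.f (nat_lit 462) (nat_lit 430) (nat_lit 4526) (.f (nat_lit 461) (nat_lit 429) (nat_lit 7597) (.f (nat_lit 493) (nat_lit 590) (nat_lit 7629) (.f (nat_lit 463) (nat_lit 431) (nat_lit 6574) (.d (nat_lit 464) (nat_lit 465) (nat_lit 1485) (nat_lit 492) (nat_lit 1484))))))))))))))) (.a (.d (nat_lit 624) (nat_lit 495) (nat_lit 7663) (nat_lit 656) (nat_lit 7695)) (.f (nat_lit 624) (nat_lit 656) (nat_lit 7695) (.p (nat_lit 593) (.a (.d (nat_lit 558) (nat_lit 557) (nat_lit 557) (nat_lit 594) (nat_lit 558)) (.a (.f (nat_lit 625) (nat_lit 657) (nat_lit 4624) (.f (nat_lit 623) (nat_lit 655) (nat_lit 5647) (.f (nat_lit 622) (nat_lit 621) (nat_lit 2637) (.f (nat_lit 558) (nat_lit 557) (nat_lit 557) (.d (nat_lit 654) (nat_lit 590) (nat_lit 6670) (nat_lit 653) (nat_lit 1645)))))) (.f (nat_lit 625) (nat_lit 657) (nat_lit 4624) (.f (nat_lit 594) (nat_lit 595) (nat_lit 3631) (.d (nat_lit 623) (nat_lit 622) (nat_lit 2638) (nat_lit 655) (nat_lit 5647)))))))))))))))) (.a (.p (nat_lit 527) (.a (.d (nat_lit 526) (nat_lit 525) (nat_lit 525) (nat_lit 562) (nat_lit 3598)) (.a (.f (nat_lit 562) (nat_lit 563) (nat_lit 3599) (.f (nat_lit 594) (nat_lit 595) (nat_lit 559) (.f (nat_lit 593) (nat_lit 558) (nat_lit 558) (.f (nat_lit 625) (nat_lit 657) (nat_lit 7696) (.d (nat_lit 530) (nat_lit 498) (nat_lit 5617) (nat_lit 531) (nat_lit 2575)))))) (.f (nat_lit 526) (nat_lit 525) (nat_lit 525) s19183)))) (.a (.p (nat_lit 527) (.a (.d (nat_lit 526) (nat_lit 525) (nat_lit 525) (nat_lit 562) (nat_lit 3598)) (.a (.p (nat_lit 495) (.a (.d (nat_lit 463) (nat_lit 431) (nat_lit 4527) (nat_lit 592) (nat_lit 4559)) (.a (.d (nat_lit 592) (nat_lit 463) (nat_lit 4559) (nat_lit 624) (nat_lit 7663)) (.a (.f (nat_lit 463) (nat_lit 431) (nat_lit 4527) (.f (nat_lit 558) (nat_lit 590) (nat_lit 5582) (.f (nat_lit 462) (nat_lit 430) (nat_lit 7598) (.f (nat_lit 494) (nat_lit 591) (nat_lit 7630) (.f (nat_lit 464) (nat_lit 432) (nat_lit 6575) (.d (nat_lit 465) (nat_lit 466) (nat_lit 1486) (nat_lit 493) (nat_lit 1485))))))) (.f (nat_lit 624) (nat_lit 592) (nat_lit 7663) (.p (nat_lit 591) (.a (.d (nat_lit 623) (nat_lit 655) (nat_lit 6671) (nat_lit 656) (nat_lit 4623)) (.d (nat_lit 590) (nat_lit 562) (nat_lit 1582) (nat_lit 622) (nat_lit 5614))))))))) (.f (nat_lit 526) (nat_lit 525) (nat_lit 525) (.p (nat_lit 495) (.a (.d (nat_lit 463) (nat_lit 431) (nat_lit 4527) (nat_lit 592) (nat_lit 4559)) (.a (.d (nat_lit 592) (nat_lit 463) (nat_lit 4559) (nat_lit 624) (nat_lit 7663)) (.a (.f (nat_lit 463) (nat_lit 431) (nat_lit 4527) (.f (nat_lit 558) (nat_lit 590) (nat_lit 5582) (.f (nat_lit 462) (nat_lit 430) (nat_lit 7598) (.f (nat_lit 494) (nat_lit 591) (nat_lit 4558) (.f (nat_lit 464) (nat_lit 432) (nat_lit 6575) (.d (nat_lit 465) (nat_lit 466) (nat_lit 1486) (nat_lit 493) (nat_lit 1485))))))) (.f (nat_lit 592) (nat_lit 624) (nat_lit 7663) (.p (nat_lit 591) (.a (.d (nat_lit 494) (nat_lit 462) (nat_lit 7630) (nat_lit 623) (nat_lit 7662)) (.a (.d (nat_lit 623) (nat_lit 494) (nat_lit 7662) (nat_lit 655) (nat_lit 6671)) (.a (.f (nat_lit 623) (nat_lit 655) (nat_lit 6671) (.d (nat_lit 622) (nat_lit 590) (nat_lit 5614) (nat_lit 654) (nat_lit 5646))) (.p (nat_lit 558) (.a (.d (nat_lit 557) (nat_lit 556) (nat_lit 2572) (nat_lit 593) (nat_lit 557)) (.a (.d (nat_lit 593) (nat_lit 557) (nat_lit 557) (nat_lit 594) (nat_lit 558)) (.a (.f (nat_lit 593) (nat_lit 594) (nat_lit 558) (.f (nat_lit 590) (nat_lit 622) (nat_lit 5614) (.d (nat_lit 625) (nat_lit 626) (nat_lit 590) (nat_lit 657) (nat_lit 7696)))) (.f (nat_lit 494) (nat_lit 462) (nat_lit 4558) (.f (nat_lit 493) (nat_lit 492) (nat_lit 492) (.d (nat_lit 590) (nat_lit 461) (nat_lit 7629) (nat_lit 622) (nat_lit 6638))))))))))))))))))))) (.a (.p (nat_lit 562) (.a (.f (nat_lit 563) (nat_lit 527) (nat_lit 3599) (.d (nat_lit 595) (nat_lit 594) (nat_lit 559) (nat_lit 596) (nat_lit 560))) (.a (.f (nat_lit 563) (nat_lit 527) (nat_lit 3599) (.d (nat_lit 591) (nat_lit 590) (nat_lit 1582) (nat_lit 592) (nat_lit 1583))) (.f (nat_lit 594) (nat_lit 595) (nat_lit 559) (.f (nat_lit 593) (nat_lit 558) (nat_lit 558) (.f (nat_lit 625) (nat_lit 657) (nat_lit 7696) (.d (nat_lit 530) (nat_lit 498) (nat_lit 5617) (nat_lit 531) (nat_lit 2575)))))))) (.a (.p (nat_lit 562) (.a (.d (nat_lit 527) (nat_lit 526) (nat_lit 3598) (nat_lit 563) (nat_lit 3599)) (.a (.f (nat_lit 526) (nat_lit 527) (nat_lit 3598) (.f (nat_lit 558) (nat_lit 525) (nat_lit 3597) (.d (nat_lit 594) (nat_lit 593) (nat_lit 558) (nat_lit 595) (nat_lit 559)))) (.a (.f (nat_lit 563) (nat_lit 527) (nat_lit 3599) (.d (nat_lit 595) (nat_lit 594) (nat_lit 559) (nat_lit 596) (nat_lit 560))) (.f (nat_lit 594) (nat_lit 595) (nat_lit 559) (.f (nat_lit 593) (nat_lit 558) (nat_lit 558) (.f (nat_lit 530) (nat_lit 531) (nat_lit 2575) (.d (nat_lit 498) (nat_lit 466) (nat_lit 5585) (nat_lit 625) (nat_lit 5617))))))))) (.a (.p (nat_lit 558) (.a (.f (nat_lit 526) (nat_lit 525) (nat_lit 3597) (.f (nat_lit 593) (nat_lit 594) (nat_lit 558) (.f (nat_lit 557) (nat_lit 592) (nat_lit 557) (.f (nat_lit 556) (nat_lit 527) (nat_lit 2572) (.f (nat_lit 523) (nat_lit 524) (nat_lit 3595) (.f (nat_lit 555) (nat_lit 522) (nat_lit 3594) (.d (nat_lit 587) (nat_lit 586) (nat_lit 1578) (nat_lit 588) (nat_lit 1579)))))))) (.a (.f (nat_lit 593) (nat_lit 594) (nat_lit 558) (.f (nat_lit 557) (nat_lit 592) (nat_lit 557) (.d (nat_lit 525) (nat_lit 524) (nat_lit 3596) (nat_lit 526) (nat_lit 3597)))) (.a (.f (nat_lit 526) (nat_lit 525) (nat_lit 3597) (.p (nat_lit 527) (.a (.p (nat_lit 495) (.a (.d (nat_lit 463) (nat_lit 431) (nat_lit 4527) (nat_lit 592) (nat_lit 4559)) (.a (.d (nat_lit 592) (nat_lit 463) (nat_lit 4559) (nat_lit 624) (nat_lit 7663)) (.a (.d (nat_lit 463) (nat_lit 431) (nat_lit 4527) (nat_lit 590) (nat_lit 5582)) (.p (nat_lit 591) (.a (.d (nat_lit 623) (nat_lit 494) (nat_lit 7662) (nat_lit 655) (nat_lit 6671)) (.a (.d (nat_lit 494) (nat_lit 462) (nat_lit 7630) (nat_lit 623) (nat_lit 7662)) (.f (nat_lit 592) (nat_lit 624) (nat_lit 7663) (.d (nat_lit 557) (nat_lit 556) (nat_lit 2572) (nat_lit 593) (nat_lit 557)))))))))) (.a (.p (nat_lit 495) (.a (.d (nat_lit 463) (nat_lit 431) (nat_lit 4527) (nat_lit 592) (nat_lit 4559)) (.a (.d (nat_lit 592) (nat_lit 463) (nat_lit 4559) (nat_lit 624) (nat_lit 7663)) (.a (.d (nat_lit 463) (nat_lit 431) (nat_lit 4527) (nat_lit 590) (nat_lit 5582)) (.f (nat_lit 592) (nat_lit 624) (nat_lit 7663) (.d (nat_lit 557) (nat_lit 556) (nat_lit 2572) (nat_lit 593) (nat_lit 557))))))) (.a (.p (nat_lit 495) (.a (.d (nat_lit 463) (nat_lit 431) (nat_lit 4527) (nat_lit 592) (nat_lit 4559)) (.a (.d (nat_lit 592) (nat_lit 463) (nat_lit 4559) (nat_lit 624) (nat_lit 7663)) (.a (.d (nat_lit 463) (nat_lit 431) (nat_lit 4527) (nat_lit 590) (nat_lit 5582)) (.p (nat_lit 591) (.a (.d (nat_lit 494) (nat_lit 462) (nat_lit 7630) (nat_lit 623) (nat_lit 7662)) (.a (.d (nat_lit 623) (nat_lit 494) (nat_lit 7662) (nat_lit 655) (nat_lit 6671)) (.a (.f (nat_lit 624) (nat_lit 592) (nat_lit 7663) (.d (nat_lit 623) (nat_lit 655) (nat_lit 6671) (nat_lit 656) (nat_lit 4623))) (.f (nat_lit 494) (nat_lit 462) (nat_lit 4558) (.f (nat_lit 493) (nat_lit 492) (nat_lit 492) (.d (nat_lit 590) (nat_lit 461) (nat_lit 7629) (nat_lit 622) (nat_lit 6638)))))))))))) (.a (.f (nat_lit 557) (nat_lit 556) (nat_lit 2572) (.p (nat_lit 495) (.a (.d (nat_lit 463) (nat_lit 431) (nat_lit 4527) (nat_lit 592) (nat_lit 4559)) (.a (.d (nat_lit 592) (nat_lit 463) (nat_lit 4559) (nat_lit 593) (nat_lit 557)) (.a (.d (nat_lit 463) (nat_lit 431) (nat_lit 4527) (nat_lit 590) (nat_lit 5582)) (.f (nat_lit 590) (nat_lit 622) (nat_lit 6638) (.p (nat_lit 494) (.a (.d (nat_lit 493) (nat_lit 461) (nat_lit 7629) (nat_lit 492) (nat_lit 492)) (.d (nat_lit 462) (nat_lit 430) (nat_lit 4526) (nat_lit 591) (nat_lit 4558)))))))))) (.a (.f (nat_lit 557) (nat_lit 556) (nat_lit 2572) (.f (nat_lit 592) (nat_lit 593) (nat_lit 557) (.d (nat_lit 495) (nat_lit 463) (nat_lit 4559) (nat_lit 624) (nat_lit 7663)))) (.a (.p (nat_lit 495) (.a (.d (nat_lit 463) (nat_lit 431) (nat_lit 4527) (nat_lit 590) (nat_lit 5582)) (.a (.f (nat_lit 463) (nat_lit 431) (nat_lit 4527) (.f (nat_lit 462) (nat_lit 430) (nat_lit 7598) (.f (nat_lit 494) (nat_lit 591) (nat_lit 4558) (.f (nat_lit 464) (nat_lit 432) (nat_lit 6575) (.d (nat_lit 465) (nat_lit 466) (nat_lit 1486) (nat_lit 493) (nat_lit 1485)))))) (.a (.d (nat_lit 590) (nat_lit 463) (nat_lit 5582) (nat_lit 622) (nat_lit 6638)) (.f (nat_lit 590) (nat_lit 622) (nat_lit 6638) (.p (nat_lit 494) (.a (.d (nat_lit 493) (nat_lit 461) (nat_lit 7629) (nat_lit 492) (nat_lit 492)) (.d (nat_lit 462) (nat_lit 430) (nat_lit 4526) (nat_lit 591) (nat_lit 4558))))))))) (.a (.f (nat_lit 557) (nat_lit 556) (nat_lit 2572) (.f (nat_lit 592) (nat_lit 593) (nat_lit 557) (.d (nat_lit 624) (nat_lit 495) (nat_lit 7663) (nat_lit 656) (nat_lit 7695)))) (.f (nat_lit 557) (nat_lit 556) (nat_lit 2572) (.f (nat_lit 592) (nat_lit 593) (nat_lit 557) (.f (nat_lit 624) (nat_lit 656) (nat_lit 7695) (.f (nat_lit 623) (nat_lit 655) (nat_lit 5647) (.f (nat_lit 591) (nat_lit 494) (nat_lit 7662) (.f (nat_lit 625) (nat_lit 657) (nat_lit 4624) (.d (nat_lit 626) (nat_lit 590) (nat_lit 3662) (nat_lit 627) (nat_lit 3663))))))))))))))))) (.a (.f (nat_lit 593) (nat_lit 594) (nat_lit 558) (.f (nat_lit 557) (nat_lit 592) (nat_lit 557) (.f (nat_lit 556) (nat_lit 527) (nat_lit 2572) (.d (nat_lit 524) (nat_lit 523) (nat_lit 3595) (nat_lit 525) (nat_lit 3596))))) (.a (.f (nat_lit 526) (nat_lit 525) (nat_lit 3597) (.f (nat_lit 593) (nat_lit 594) (nat_lit 558) (.p (nat_lit 494) (.a (.f (nat_lit 591) (nat_lit 462) (nat_lit 4558) (.d (nat_lit 623) (nat_lit 527) (nat_lit 7662) (nat_lit 655) (nat_lit 6671))) (.a (.p (nat_lit 590) (.a (.f (nat_lit 623) (nat_lit 591) (nat_lit 4590) (.p (nat_lit 527) (.a (.f (nat_lit 495) (nat_lit 463) (nat_lit 5582) (.d (nat_lit 493) (nat_lit 461) (nat_lit 7629) (nat_lit 492) (nat_lit 492))) (.d (nat_lit 622) (nat_lit 654) (nat_lit 6670) (nat_lit 655) (nat_lit 4622))))) (.a (.f (nat_lit 495) (nat_lit 463) (nat_lit 6606) (.f (nat_lit 493) (nat_lit 461) (nat_lit 7629) (.f (nat_lit 492) (nat_lit 527) (nat_lit 492) (.p (nat_lit 491) (.a (.d (nat_lit 523) (nat_lit 522) (nat_lit 1514) (nat_lit 524) (nat_lit 1515)) (.d (nat_lit 459) (nat_lit 458) (nat_lit 3530) (nat_lit 460) (nat_lit 3531))))))) (.a (.f (nat_lit 623) (nat_lit 591) (nat_lit 4590) (.f (nat_lit 622) (nat_lit 655) (nat_lit 4622) (.d (nat_lit 495) (nat_lit 463) (nat_lit 6606) (nat_lit 527) (nat_lit 6638)))) (.a (.f (nat_lit 623) (nat_lit 591) (nat_lit 4590) (.f (nat_lit 622) (nat_lit 655) (nat_lit 4622) (.d (nat_lit 527) (nat_lit 495) (nat_lit 6638) (nat_lit 654) (nat_lit 6670)))) (.a (.f (nat_lit 623) (nat_lit 591) (nat_lit 4590) (.f (nat_lit 622) (nat_lit 655) (nat_lit 4622) (.f (nat_lit 654) (nat_lit 527) (nat_lit 6670) (.d (nat_lit 653) (nat_lit 621) (nat_lit 5645) (nat_lit 685) (nat_lit 5677))))) (.f (nat_lit 623) (nat_lit 591) (nat_lit 4590) (.f (nat_lit 622) (nat_lit 655) (nat_lit 4622) (.f (nat_lit 653) (nat_lit 621) (nat_lit 5645) (.f (nat_lit 625) (nat_lit 657) (nat_lit 7696) (.d (nat_lit 654) (nat_lit 624) (nat_lit 1645) (nat_lit 685) (nat_lit 5677)))))))))))) (.a (.p (nat_lit 462) (.a (.f (nat_lit 463) (nat_lit 431) (nat_lit 6574) (.f (nat_lit 527) (nat_lit 430) (nat_lit 4526) (.f (nat_lit 495) (nat_lit 590) (nat_lit 5582) (.f (nat_lit 493) (nat_lit 492) (nat_lit 492) (.d (nat_lit 464) (nat_lit 432) (nat_lit 6575) (nat_lit 465) (nat_lit 1485)))))) (.a (.f (nat_lit 430) (nat_lit 527) (nat_lit 4526) (.d (nat_lit 431) (nat_lit 399) (nat_lit 6542) (nat_lit 463) (nat_lit 6574))) (.a (.f (nat_lit 527) (nat_lit 430) (nat_lit 4526) (.p (nat_lit 590) (.a (.d (nat_lit 495) (nat_lit 463) (nat_lit 6606) (nat_lit 622) (nat_lit 6638)) (.d (nat_lit 461) (nat_lit 429) (nat_lit 7597) (nat_lit 493) (nat_lit 7629))))) (.a (.f (nat_lit 430) (nat_lit 527) (nat_lit 4526) (.d (nat_lit 429) (nat_lit 397) (nat_lit 7565) (nat_lit 461) (nat_lit 7597))) (.f (nat_lit 463) (nat_lit 431) (nat_lit 6574) (.p (nat_lit 493) (.a (.d (nat_lit 461) (nat_lit 429) (nat_lit 7597) (nat_lit 590) (nat_lit 7629)) (.f (nat_lit 492) (nat_lit 491) (nat_lit 2507) (.d (nat_lit 464) (nat_lit 465) (nat_lit 1485) (nat_lit 495) (nat_lit 2508))))))))))) (.f (nat_lit 591) (nat_lit 462) (nat_lit 4558) (.d (nat_lit 623) (nat_lit 590) (nat_lit 4590) (nat_lit 655) (nat_lit 7694))))))))) (.a (.f (nat_lit 526) (nat_lit 525) (nat_lit 3597) (.p (nat_lit 494) (.a (.f (nat_lit 591) (nat_lit 462) (nat_lit 4558) (.d (nat_lit 623) (nat_lit 527) (nat_lit 7662) (nat_lit 655) (nat_lit 6671))) (.a (.p (nat_lit 590) (.a (.f (nat_lit 623) (nat_lit 591) (nat_lit 4590) (.f (nat_lit 622) (nat_lit 655) (nat_lit 4622) (.d (nat_lit 495) (nat_lit 463) (nat_lit 6606) (nat_lit 527) (nat_lit 6638)))) (.a (.f (nat_lit 591) (nat_lit 623) (nat_lit 4590) (.f (nat_lit 495) (nat_lit 463) (nat_lit 6606) (.f (nat_lit 493) (nat_lit 461) (nat_lit 7629) (.f (nat_lit 492) (nat_lit 527) (nat_lit 492) (.p (nat_lit 491) (.a (.d (nat_lit 523) (nat_lit 522) (nat_lit 1514) (nat_lit 524) (nat_lit 1515)) (.d (nat_lit 459) (nat_lit 458) (nat_lit 3530) (nat_lit 460) (nat_lit 3531)))))))) (.a (.f (nat_lit 495) (nat_lit 463) (nat_lit 6606) (.f (nat_lit 527) (nat_lit 622) (nat_lit 6638) (.d (nat_lit 493) (nat_lit 461) (nat_lit 7629) (nat_lit 492) (nat_lit 492)))) (.a (.f (nat_lit 623) (nat_lit 591) (nat_lit 4590) (.f (nat_lit 622) (nat_lit 655) (nat_lit 4622) (.d (nat_lit 527) (nat_lit 495) (nat_lit 6638) (nat_lit 654) (nat_lit 6670)))) (.a (.f (nat_lit 623) (nat_lit 591) (nat_lit 4590) (.f (nat_lit 622) (nat_lit 655) (nat_lit 4622) (.f (nat_lit 654) (nat_lit 527) (nat_lit 6670) (.d (nat_lit 653) (nat_lit 621) (nat_lit 5645) (nat_lit 685) (nat_lit 5677))))) (.p (nat_lit 622) (.a (.d (nat_lit 623) (nat_lit 591) (nat_lit 4590) (nat_lit 655) (nat_lit 4622)) (.a (.f (nat_lit 655) (nat_lit 623) (nat_lit 4622) (.f (nat_lit 654) (nat_lit 687) (nat_lit 4654) (.d (nat_lit 653) (nat_lit 621) (nat_lit 5645) (nat_lit 685) (nat_lit 5677)))) (.a (.f (nat_lit 591) (nat_lit 623) (nat_lit 4590) (.f (nat_lit 653) (nat_lit 621) (nat_lit 5645) (.d (nat_lit 654) (nat_lit 685) (nat_lit 5677) (nat_lit 686) (nat_lit 6702)))) (.f (nat_lit 653) (nat_lit 621) (nat_lit 5645) (.f (nat_lit 654) (nat_lit 685) (nat_lit 5677) (.f (nat_lit 687) (nat_lit 655) (nat_lit 4654) (.d (nat_lit 686) (nat_lit 591) (nat_lit 6702) (nat_lit 719) (nat_lit 4686))))))))))))))) (.a (.p (nat_lit 527) (.a (.p (nat_lit 495) (.a (.d (nat_lit 463) (nat_lit 431) (nat_lit 4527) (nat_lit 592) (nat_lit 4559)) (.a (.d (nat_lit 592) (nat_lit 463) (nat_lit 4559) (nat_lit 624) (nat_lit 7663)) (.a (.d (nat_lit 463) (nat_lit 431) (nat_lit 4527) (nat_lit 590) (nat_lit 5582)) (.p (nat_lit 461) (.a (.d (nat_lit 493) (nat_lit 492) (nat_lit 492) (nat_lit 590) (nat_lit 7629)) (.d (nat_lit 462) (nat_lit 429) (nat_lit 7597) (nat_lit 430) (nat_lit 4526)))))))) (.a (.p (nat_lit 495) (.a (.d (nat_lit 463) (nat_lit 431) (nat_lit 4527) (nat_lit 592) (nat_lit 4559)) (.a (.d (nat_lit 592) (nat_lit 463) (nat_lit 4559) (nat_lit 624) (nat_lit 7663)) (.a (.d (nat_lit 463) (nat_lit 431) (nat_lit 4527) (nat_lit 590) (nat_lit 5582)) (.f (nat_lit 493) (nat_lit 492) (nat_lit 492) (.d (nat_lit 590) (nat_lit 461) (nat_lit 7629) (nat_lit 622) (nat_lit 6638))))))) (.a (.f (nat_lit 462) (nat_lit 430) (nat_lit 4526) (.f (nat_lit 463) (nat_lit 431) (nat_lit 6574) (.d (nat_lit 495) (nat_lit 590) (nat_lit 5582) (nat_lit 592) (nat_lit 4559)))) (.a (.f (nat_lit 462) (nat_lit 430) (nat_lit 4526) (.f (nat_lit 463) (nat_lit 431) (nat_lit 6574) (.f (nat_lit 495) (nat_lit 592) (nat_lit 4559) (.f (nat_lit 493) (nat_lit 492) (nat_lit 492) (.d (nat_lit 464) (nat_lit 432) (nat_lit 6575) (nat_lit 465) (nat_lit 1485)))))) (.a (.p (nat_lit 495) (.a (.d (nat_lit 592) (nat_lit 463) (nat_lit 4559) (nat_lit 624) (nat_lit 7663)) (.a (.d (nat_lit 463) (nat_lit 590) (nat_lit 5582) (nat_lit 592) (nat_lit 4559)) (.a (.d (nat_lit 590) (nat_lit 463) (nat_lit 6606) (nat_lit 622) (nat_lit 6638)) (.f (nat_lit 493) (nat_lit 492) (nat_lit 492) (.d (nat_lit 590) (nat_lit 461) (nat_lit 7629) (nat_lit 622) (nat_lit 6638))))))) (.a (.f (nat_lit 462) (nat_lit 430) (nat_lit 4526) (.f (nat_lit 463) (nat_lit 431) (nat_lit 6574) (.f (nat_lit 495) (nat_lit 590) (nat_lit 5582) (.f (nat_lit 493) (nat_lit 492) (nat_lit 492) (.d (nat_lit 464) (nat_lit 432) (nat_lit 6575) (nat_lit 465) (nat_lit 1485)))))) (.a (.f (nat_lit 462) (nat_lit 430) (nat_lit 4526) (.f (nat_lit 461) (nat_lit 429) (nat_lit 7597) (.f (nat_lit 493) (nat_lit 590) (nat_lit 7629) (.d (nat_lit 492) (nat_lit 491) (nat_lit 491) (nat_lit 495) (nat_lit 492))))) (.f (nat_lit 462) (nat_lit 430) (nat_lit 4526) (.f (nat_lit 461) (nat_lit 429) (nat_lit 7597) (.f (nat_lit 493) (nat_lit 590) (nat_lit 7629) (.f (nat_lit 463) (nat_lit 431) (nat_lit 6574) (.d (nat_lit 464) (nat_lit 465) (nat_lit 1485) (nat_lit 492) (nat_lit 1484)))))))))))))) (.f (nat_lit 591) (nat_lit 462) (nat_lit 4558) (.d (nat_lit 623) (nat_lit 590) (nat_lit 4590) (nat_lit 655) (nat_lit 7694)))))))) (.f (nat_lit 593) (nat_lit 594) (nat_lit 558) (.f (nat_lit 592) (nat_lit 557) (nat_lit 557) (.f (nat_lit 625) (nat_lit 657) (nat_lit 7696) (.p (nat_lit 624) (.a (.d (nat_lit 527) (nat_lit 495) (nat_lit 7663) (nat_lit 656) (nat_lit 7695)) (.a (.f (nat_lit 623) (nat_lit 655) (nat_lit 5647) (.p (nat_lit 591) (.a (.d (nat_lit 626) (nat_lit 590) (nat_lit 590) (nat_lit 627) (nat_lit 3663)) (.f (nat_lit 527) (nat_lit 495) (nat_lit 7663) (.d (nat_lit 622) (nat_lit 621) (nat_lit 2637) (nat_lit 654) (nat_lit 5646)))))) (.a (.d (nat_lit 656) (nat_lit 527) (nat_lit 7695) (nat_lit 688) (nat_lit 6704)) (.f (nat_lit 656) (nat_lit 688) (nat_lit 6704) (.d (nat_lit 655) (nat_lit 623) (nat_lit 5647) (nat_lit 687) (nat_lit 5679))))))))))))))))) (.p (nat_lit 562) (.a (.f (nat_lit 591) (nat_lit 590) (nat_lit 1582) (.f (nat_lit 563) (nat_lit 592) (nat_lit 1583) (.d (nat_lit 595) (nat_lit 594) (nat_lit 559) (nat_lit 596) (nat_lit 560)))) (.a (.f (nat_lit 591) (nat_lit 590) (nat_lit 1582) (.f (nat_lit 563) (nat_lit 592) (nat_lit 1583) (.d (nat_lit 531) (nat_lit 530) (nat_lit 2575) (nat_lit 532) (nat_lit 2576)))) (.f (nat_lit 594) (nat_lit 595) (nat_lit 559) (.f (nat_lit 593) (nat_lit 558) (nat_lit 558) (.f (nat_lit 625) (nat_lit 657) (nat_lit 7696) (.d (nat_lit 530) (nat_lit 498) (nat_lit 5617) (nat_lit 531) (nat_lit 2575))))))))))))))))))) (.a (.p (nat_lit 591) (.a (.f (nat_lit 623) (nat_lit 655) (nat_lit 6671) (.p (nat_lit 527) (.a (.f (nat_lit 624) (nat_lit 656) (nat_lit 4623) (.f (nat_lit 592) (nat_lit 495) (nat_lit 7663) (.f (nat_lit 622) (nat_lit 654) (nat_lit 5646) (.d (nat_lit 593) (nat_lit 594) (nat_lit 1614) (nat_lit 621) (nat_lit 2637))))) (.a (.f (nat_lit 624) (nat_lit 656) (nat_lit 4623) (.f (nat_lit 495) (nat_lit 592) (nat_lit 7663) (.f (nat_lit 462) (nat_lit 494) (nat_lit 7630) (.d (nat_lit 463) (nat_lit 430) (nat_lit 7598) (nat_lit 431) (nat_lit 4527))))) (.a (.f (nat_lit 622) (nat_lit 654) (nat_lit 5646) (.f (nat_lit 495) (nat_lit 590) (nat_lit 5614) (.d (nat_lit 463) (nat_lit 431) (nat_lit 4527) (nat_lit 592) (nat_lit 4559)))) (.a (.f (nat_lit 622) (nat_lit 654) (nat_lit 5646) (.f (nat_lit 590) (nat_lit 495) (nat_lit 5614) (.f (nat_lit 589) (nat_lit 588) (nat_lit 2604) (.d (nat_lit 561) (nat_lit 558) (nat_lit 1581) (nat_lit 562) (nat_lit 1582))))) (.f (nat_lit 624) (nat_lit 656) (nat_lit 4623) (.f (nat_lit 622) (nat_lit 654) (nat_lit 5646) (.p (nat_lit 621) (.a (.d (nat_lit 592) (nat_lit 593) (nat_lit 2637) (nat_lit 620) (nat_lit 2636)) (.a (.p (nat_lit 620) (.a (.d (nat_lit 652) (nat_lit 651) (nat_lit 1643) (nat_lit 653) (nat_lit 1644)) (.d (nat_lit 588) (nat_lit 587) (nat_lit 3659) (nat_lit 589) (nat_lit 3660)))) (.f (nat_lit 592) (nat_lit 593) (nat_lit 2637) (.f (nat_lit 589) (nat_lit 588) (nat_lit 3660) (.f (nat_lit 590) (nat_lit 561) (nat_lit 2605) (.f (nat_lit 653) (nat_lit 652) (nat_lit 1644) (.d (nat_lit 685) (nat_lit 558) (nat_lit 6701) (nat_lit 717) (nat_lit 6733))))))))))))))))) (.a (.f (nat_lit 623) (nat_lit 655) (nat_lit 6671) (.p (nat_lit 590) (.a (.f (nat_lit 589) (nat_lit 588) (nat_lit 2604) (.d (nat_lit 561) (nat_lit 558) (nat_lit 1581) (nat_lit 562) (nat_lit 1582))) (.a (.f (nat_lit 561) (nat_lit 562) (nat_lit 1582) (.d (nat_lit 589) (nat_lit 588) (nat_lit 2604) (nat_lit 592) (nat_lit 2605))) (.a (.f (nat_lit 561) (nat_lit 562) (nat_lit 1582) (.p (nat_lit 622) (.a (.d (nat_lit 527) (nat_lit 495) (nat_lit 5614) (nat_lit 654) (nat_lit 5646)) (.a (.f (nat_lit 527) (nat_lit 495) (nat_lit 5614) (.f (nat_lit 624) (nat_lit 656) (nat_lit 4623) (.p (nat_lit 593) (.a (.d (nat_lit 592) (nat_lit 594) (nat_lit 1614) (nat_lit 621) (nat_lit 1613)) (.d (nat_lit 625) (nat_lit 626) (nat_lit 3662) (nat_lit 657) (nat_lit 7696)))))) (.a (.d (nat_lit 654) (nat_lit 527) (nat_lit 5646) (nat_lit 686) (nat_lit 6702)) (.f (nat_lit 654) (nat_lit 686) (nat_lit 6702) (.p (nat_lit 593) (.a (.d (nat_lit 592) (nat_lit 594) (nat_lit 1614) (nat_lit 621) (nat_lit 1613)) (.a (.f (nat_lit 592) (nat_lit 621) (nat_lit 1613) (.d (nat_lit 625) (nat_lit 626) (nat_lit 590) (nat_lit 657) (nat_lit 7696))) (.a (.d (nat_lit 594) (nat_lit 558) (nat_lit 558) (nat_lit 592) (nat_lit 1614)) (.p (nat_lit 624) (.a (.f (nat_lit 558) (nat_lit 594) (nat_lit 558) (.f (nat_lit 653) (nat_lit 685) (nat_lit 5677) (.d (nat_lit 652) (nat_lit 621) (nat_lit 1644) (nat_lit 651) (nat_lit 2667)))) (.d (nat_lit 625) (nat_lit 626) (nat_lit 3662) (nat_lit 657) (nat_lit 7696)))))))))))))) (.a (.f (nat_lit 589) (nat_lit 588) (nat_lit 2604) (.d (nat_lit 561) (nat_lit 558) (nat_lit 1581) (nat_lit 592) (nat_lit 2605))) (.f (nat_lit 589) (nat_lit 588) (nat_lit 2604) (.p (nat_lit 592) (.a (.f (nat_lit 557) (nat_lit 556) (nat_lit 3628) (.f (nat_lit 593) (nat_lit 558) (nat_lit 557) (.d (nat_lit 621) (nat_lit 620) (nat_lit 1612) (nat_lit 622) (nat_lit 1613)))) (.f (nat_lit 624) (nat_lit 625) (nat_lit 589) (.d (nat_lit 527) (nat_lit 495) (nat_lit 7663) (nat_lit 656) (nat_lit 7695)))))))))))) (.a (.f (nat_lit 623) (nat_lit 655) (nat_lit 6671) (.p (nat_lit 624) (.a (.f (nat_lit 527) (nat_lit 656) (nat_lit 4623) (.f (nat_lit 495) (nat_lit 592) (nat_lit 7663) (.f (nat_lit 462) (nat_lit 494) (nat_lit 7630) (.d (nat_lit 463) (nat_lit 430) (nat_lit 7598) (nat_lit 431) (nat_lit 4527))))) (.a (.p (nat_lit 592) (.a (.d (nat_lit 527) (nat_lit 495) (nat_lit 7663) (nat_lit 656) (nat_lit 7695)) (.a (.f (nat_lit 527) (nat_lit 495) (nat_lit 7663) (.f (nat_lit 625) (nat_lit 657) (nat_lit 4624) (.d (nat_lit 590) (nat_lit 589) (nat_lit 589) (nat_lit 626) (nat_lit 3662)))) (.a (.d (nat_lit 656) (nat_lit 527) (nat_lit 4623) (nat_lit 688) (nat_lit 7727)) (.f (nat_lit 625) (nat_lit 657) (nat_lit 4624) (.d (nat_lit 590) (nat_lit 589) (nat_lit 589) (nat_lit 626) (nat_lit 3662))))))) (.a (.f (nat_lit 527) (nat_lit 656) (nat_lit 4623) (.p (nat_lit 561) (.a (.d (nat_lit 562) (nat_lit 563) (nat_lit 3599) (nat_lit 590) (nat_lit 1582)) (.a (.f (nat_lit 562) (nat_lit 563) (nat_lit 3599) (.f (nat_lit 594) (nat_lit 595) (nat_lit 559) (.f (nat_lit 593) (nat_lit 558) (nat_lit 558) (.f (nat_lit 530) (nat_lit 531) (nat_lit 2575) (.d (nat_lit 498) (nat_lit 466) (nat_lit 5585) (nat_lit 625) (nat_lit 5617)))))) (.a (.f (nat_lit 590) (nat_lit 562) (nat_lit 1582) (.d (nat_lit 589) (nat_lit 558) (nat_lit 1581) (nat_lit 588) (nat_lit 2604))) (.p (nat_lit 495) (.a (.f (nat_lit 462) (nat_lit 494) (nat_lit 7630) (.d (nat_lit 463) (nat_lit 430) (nat_lit 7598) (nat_lit 431) (nat_lit 4527))) (.a (.f (nat_lit 463) (nat_lit 431) (nat_lit 4527) (.p (nat_lit 625) (.a (.d (nat_lit 590) (nat_lit 558) (nat_lit 5582) (nat_lit 626) (nat_lit 3662)) (.a (.f (nat_lit 593) (nat_lit 657) (nat_lit 7696) (.f (nat_lit 594) (nat_lit 558) (nat_lit 558) (.d (nat_lit 595) (nat_lit 596) (nat_lit 1616) (nat_lit 626) (nat_lit 2639)))) (.a (.f (nat_lit 626) (nat_lit 590) (nat_lit 3662) (.f (nat_lit 659) (nat_lit 658) (nat_lit 623) (.f (nat_lit 595) (nat_lit 594) (nat_lit 2639) (.d (nat_lit 627) (nat_lit 596) (nat_lit 2640) (nat_lit 660) (nat_lit 624))))) (.f (nat_lit 558) (nat_lit 590) (nat_lit 5582) (.d (nat_lit 593) (nat_lit 594) (nat_lit 558) (nat_lit 657) (nat_lit 7696)))))))) (.a (.f (nat_lit 494) (nat_lit 462) (nat_lit 7630) (.p (nat_lit 625) (.a (.f (nat_lit 590) (nat_lit 626) (nat_lit 3662) (.d (nat_lit 589) (nat_lit 558) (nat_lit 1581) (nat_lit 588) (nat_lit 2604))) (.a (.f (nat_lit 593) (nat_lit 657) (nat_lit 7696) (.f (nat_lit 594) (nat_lit 558) (nat_lit 558) (.d (nat_lit 595) (nat_lit 596) (nat_lit 1616) (nat_lit 626) (nat_lit 2639)))) (.a (.f (nat_lit 626) (nat_lit 590) (nat_lit 3662) (.f (nat_lit 659) (nat_lit 658) (nat_lit 623) (.f (nat_lit 595) (nat_lit 594) (nat_lit 2639) (.d (nat_lit 627) (nat_lit 596) (nat_lit 2640) (nat_lit 660) (nat_lit 624))))) (.p (nat_lit 558) (.a (.d (nat_lit 593) (nat_lit 594) (nat_lit 558) (nat_lit 657) (nat_lit 7696)) (.d (nat_lit 590) (nat_lit 463) (nat_lit 5582) (nat_lit 589) (nat_lit 1581))))))))) (.f (nat_lit 494) (nat_lit 462) (nat_lit 7630) (.p (nat_lit 625) (.a (.f (nat_lit 590) (nat_lit 626) (nat_lit 3662) (.d (nat_lit 589) (nat_lit 558) (nat_lit 1581) (nat_lit 588) (nat_lit 2604))) (.a (.f (nat_lit 593) (nat_lit 657) (nat_lit 7696) (.f (nat_lit 594) (nat_lit 558) (nat_lit 558) (.d (nat_lit 595) (nat_lit 596) (nat_lit 1616) (nat_lit 626) (nat_lit 2639)))) (.a (.f (nat_lit 626) (nat_lit 590) (nat_lit 3662) (.f (nat_lit 659) (nat_lit 658) (nat_lit 623) (.f (nat_lit 595) (nat_lit 594) (nat_lit 2639) (.d (nat_lit 627) (nat_lit 596) (nat_lit 2640) (nat_lit 660) (nat_lit 624))))) (.p (nat_lit 558) (.a (.d (nat_lit 593) (nat_lit 594) (nat_lit 558) (nat_lit 657) (nat_lit 7696)) (.f (nat_lit 557) (nat_lit 556) (nat_lit 2572) (.d (nat_lit 589) (nat_lit 588) (nat_lit 1580) (nat_lit 590) (nat_lit 1581))))))))))))))))))) (.p (nat_lit 590) (.a (.f (nat_lit 589) (nat_lit 588) (nat_lit 2604) (.d (nat_lit 561) (nat_lit 558) (nat_lit 1581) (nat_lit 562) (nat_lit 1582))) (.a (.f (nat_lit 561) (nat_lit 562) (nat_lit 1582) (.d (nat_lit 589) (nat_lit 588) (nat_lit 2604) (nat_lit 592) (nat_lit 2605))) (.a (.f (nat_lit 625) (nat_lit 626) (nat_lit 3662) (.f (nat_lit 561) (nat_lit 562) (nat_lit 1582) (.d (nat_lit 657) (nat_lit 592) (nat_lit 4624) (nat_lit 593) (nat_lit 7696)))) (.a (.f (nat_lit 589) (nat_lit 588) (nat_lit 2604) (.d (nat_lit 561) (nat_lit 558) (nat_lit 1581) (nat_lit 592) (nat_lit 2605))) (.f (nat_lit 589) (nat_lit 588) (nat_lit 2604) (.d (nat_lit 625) (nat_lit 592) (nat_lit 589) (nat_lit 626) (nat_lit 3662))))))))))))) (.a (.f (nat_lit 623) (nat_lit 655) (nat_lit 6671) (.p (nat_lit 527) (.a (.f (nat_lit 624) (nat_lit 656) (nat_lit 4623) (.f (nat_lit 495) (nat_lit 592) (nat_lit 7663) (.d (nat_lit 622) (nat_lit 590) (nat_lit 5614) (nat_lit 654) (nat_lit 5646)))) (.a (.f (nat_lit 624) (nat_lit 656) (nat_lit 4623) (.f (nat_lit 495) (nat_lit 592) (nat_lit 7663) (.f (nat_lit 462) (nat_lit 494) (nat_lit 7630) (.d (nat_lit 463) (nat_lit 430) (nat_lit 7598) (nat_lit 431) (nat_lit 4527))))) (.a (.f (nat_lit 622) (nat_lit 654) (nat_lit 5646) (.f (nat_lit 495) (nat_lit 590) (nat_lit 5614) (.d (nat_lit 463) (nat_lit 431) (nat_lit 4527) (nat_lit 592) (nat_lit 4559)))) (.a (.f (nat_lit 622) (nat_lit 654) (nat_lit 5646) (.f (nat_lit 590) (nat_lit 495) (nat_lit 5614) (.f (nat_lit 589) (nat_lit 588) (nat_lit 2604) (.d (nat_lit 561) (nat_lit 558) (nat_lit 1581) (nat_lit 562) (nat_lit 1582))))) (.f (nat_lit 624) (nat_lit 656) (nat_lit 4623) (.f (nat_lit 622) (nat_lit 654) (nat_lit 5646) (.p (nat_lit 590) (.a (.f (nat_lit 589) (nat_lit 588) (nat_lit 2604) (.d (nat_lit 561) (nat_lit 558) (nat_lit 1581) (nat_lit 562) (nat_lit 1582))) (.a (.d (nat_lit 589) (nat_lit 588) (nat_lit 588) (nat_lit 625) (nat_lit 3661)) (.f (nat_lit 625) (nat_lit 626) (nat_lit 3662) (.d (nat_lit 657) (nat_lit 592) (nat_lit 4624) (nat_lit 658) (nat_lit 622)))))))))))))) (.a (.f (nat_lit 623) (nat_lit 655) (nat_lit 6671) (.p (nat_lit 561) (.a (.f (nat_lit 562) (nat_lit 590) (nat_lit 1582) (.d (nat_lit 563) (nat_lit 527) (nat_lit 3599) (nat_lit 592) (nat_lit 1583))) (.a (.p (nat_lit 562) (.a (.d (nat_lit 563) (nat_lit 527) (nat_lit 3599) (nat_lit 592) (nat_lit 1583)) (.f (nat_lit 594) (nat_lit 595) (nat_lit 559) (.f (nat_lit 593) (nat_lit 558) (nat_lit 558) (.f (nat_lit 530) (nat_lit 531) (nat_lit 2575) (.d (nat_lit 498) (nat_lit 466) (nat_lit 5585) (nat_lit 625) (nat_lit 5617))))))) (.a (.f (nat_lit 590) (nat_lit 562) (nat_lit 1582) (.d (nat_lit 589) (nat_lit 558) (nat_lit 1581) (nat_lit 588) (nat_lit 2604))) (.p (nat_lit 558) (.a (.f (nat_lit 590) (nat_lit 589) (nat_lit 1581) (.f (nat_lit 593) (nat_lit 594) (nat_lit 558) (.f (nat_lit 557) (nat_lit 592) (nat_lit 557) (.d (nat_lit 556) (nat_lit 527) (nat_lit 2572) (nat_lit 555) (nat_lit 555))))) (.a (.f (nat_lit 593) (nat_lit 594) (nat_lit 558) (.f (nat_lit 590) (nat_lit 589) (nat_lit 1581) (.f (nat_lit 592) (nat_lit 557) (nat_lit 557) (.d (nat_lit 625) (nat_lit 626) (nat_lit 590) (nat_lit 657) (nat_lit 7696))))) (.a (.f (nat_lit 589) (nat_lit 590) (nat_lit 1581) (.f (nat_lit 557) (nat_lit 588) (nat_lit 1580) (.d (nat_lit 556) (nat_lit 527) (nat_lit 2572) (nat_lit 592) (nat_lit 556)))) (.a (.f (nat_lit 593) (nat_lit 594) (nat_lit 558) (.f (nat_lit 557) (nat_lit 592) (nat_lit 557) (.f (nat_lit 556) (nat_lit 527) (nat_lit 2572) (.d (nat_lit 588) (nat_lit 587) (nat_lit 1579) (nat_lit 589) (nat_lit 1580))))) (.a (.f (nat_lit 593) (nat_lit 594) (nat_lit 558) (.f (nat_lit 557) (nat_lit 592) (nat_lit 557) (.f (nat_lit 556) (nat_lit 527) (nat_lit 2572) (.d (nat_lit 524) (nat_lit 523) (nat_lit 3595) (nat_lit 525) (nat_lit 3596))))) (.a (.f (nat_lit 589) (nat_lit 590) (nat_lit 1581) (.f (nat_lit 557) (nat_lit 588) (nat_lit 1580) (.f (nat_lit 556) (nat_lit 527) (nat_lit 2572) (.d (nat_lit 524) (nat_lit 523) (nat_lit 3595) (nat_lit 525) (nat_lit 3596))))) (.f (nat_lit 590) (nat_lit 589) (nat_lit 1581) (.f (nat_lit 593) (nat_lit 594) (nat_lit 558) (.p (nat_lit 622) (.a (.d (nat_lit 527) (nat_lit 495) (nat_lit 5614) (nat_lit 654) (nat_lit 5646)) (.f (nat_lit 592) (nat_lit 621) (nat_lit 1613) (.d (nat_lit 625) (nat_lit 626) (nat_lit 590) (nat_lit 657) (nat_lit 7696))))))))))))))))))) (.a (.f (nat_lit 623) (nat_lit 655) (nat_lit 6671) (.p (nat_lit 624) (.a (.f (nat_lit 527) (nat_lit 656) (nat_lit 4623) (.f (nat_lit 495) (nat_lit 592) (nat_lit 7663) (.f (nat_lit 462) (nat_lit 494) (nat_lit 7630) (.d (nat_lit 463) (nat_lit 430) (nat_lit 7598) (nat_lit 431) (nat_lit 4527))))) (.a (.f (nat_lit 527) (nat_lit 656) (nat_lit 4623) (.f (nat_lit 592) (nat_lit 495) (nat_lit 7663) (.f (nat_lit 622) (nat_lit 654) (nat_lit 5646) (.d (nat_lit 593) (nat_lit 594) (nat_lit 1614) (nat_lit 621) (nat_lit 2637))))) (.a s19922 (.a (.p (nat_lit 622) (.a (.f (nat_lit 527) (nat_lit 654) (nat_lit 5646) (.f (nat_lit 592) (nat_lit 495) (nat_lit 7663) (.d (nat_lit 593) (nat_lit 594) (nat_lit 1614) (nat_lit 621) (nat_lit 2637)))) (.a (.f (nat_lit 527) (nat_lit 654) (nat_lit 5646) (.f (nat_lit 592) (nat_lit 495) (nat_lit 7663) (.d (nat_lit 621) (nat_lit 593) (nat_lit 2637) (nat_lit 620) (nat_lit 2636)))) (.a (.f (nat_lit 527) (nat_lit 654) (nat_lit 5646) (.f (nat_lit 592) (nat_lit 495) (nat_lit 7663) (.f (nat_lit 594) (nat_lit 593) (nat_lit 1614) (.f (nat_lit 625) (nat_lit 657) (nat_lit 4624) (.d (nat_lit 626) (nat_lit 595) (nat_lit 2639) (nat_lit 627) (nat_lit 3663)))))) (.a (.p (nat_lit 593) (.a (.d (nat_lit 592) (nat_lit 594) (nat_lit 1614) (nat_lit 621) (nat_lit 2637)) (.a (.f (nat_lit 621) (nat_lit 592) (nat_lit 2637) (.p (nat_lit 620) (.a (.d (nat_lit 652) (nat_lit 651) (nat_lit 1643) (nat_lit 653) (nat_lit 1644)) (.d (nat_lit 588) (nat_lit 587) (nat_lit 3659) (nat_lit 589) (nat_lit 3660))))) (.a (.d (nat_lit 594) (nat_lit 592) (nat_lit 1614) (nat_lit 625) (nat_lit 2638)) (.f (nat_lit 625) (nat_lit 594) (nat_lit 2638) (.d (nat_lit 657) (nat_lit 561) (nat_lit 7696) (nat_lit 658) (nat_lit 622))))))) (.a (.f (nat_lit 654) (nat_lit 527) (nat_lit 5646) (.f (nat_lit 625) (nat_lit 653) (nat_lit 1645) (.f (nat_lit 594) (nat_lit 593) (nat_lit 2638) (.f (nat_lit 626) (nat_lit 595) (nat_lit 2639) (.d (nat_lit 658) (nat_lit 657) (nat_lit 622) (nat_lit 659) (nat_lit 623)))))) (.f (nat_lit 527) (nat_lit 654) (nat_lit 5646) (.f (nat_lit 495) (nat_lit 592) (nat_lit 7663) (.f (nat_lit 462) (nat_lit 494) (nat_lit 7630) (.d (nat_lit 463) (nat_lit 430) (nat_lit 7598) (nat_lit 431) (nat_lit 4527))))))))))) s19985)))))) (.a s19999 (.a (.p (nat_lit 590) (.a (.f (nat_lit 589) (nat_lit 588) (nat_lit 2604) (.d (nat_lit 561) (nat_lit 558) (nat_lit 1581) (nat_lit 562) (nat_lit 1582))) (.a (.f (nat_lit 561) (nat_lit 562) (nat_lit 1582) (.d (nat_lit 589) (nat_lit 588) (nat_lit 2604) (nat_lit 592) (nat_lit 2605))) (.a (.f (nat_lit 561) (nat_lit 562) (nat_lit 1582) (.p (nat_lit 527) (.a (.f (nat_lit 495) (nat_lit 622) (nat_lit 5614) (.d (nat_lit 463) (nat_lit 431) (nat_lit 4527) (nat_lit 592) (nat_lit 4559))) (.a (.p (nat_lit 495) (.a (.d (nat_lit 463) (nat_lit 431) (nat_lit 4527) (nat_lit 592) (nat_lit 4559)) (.a (.d (nat_lit 592) (nat_lit 463) (nat_lit 4559) (nat_lit 624) (nat_lit 7663)) (.a (.d (nat_lit 463) (nat_lit 431) (nat_lit 4527) (nat_lit 558) (nat_lit 5582)) (.f (nat_lit 592) (nat_lit 624) (nat_lit 7663) (.p (nat_lit 593) (.a (.d (nat_lit 558) (nat_lit 557) (nat_lit 557) (nat_lit 594) (nat_lit 558)) (.d (nat_lit 625) (nat_lit 626) (nat_lit 590) (nat_lit 657) (nat_lit 7696))))))))) (.a (.f (nat_lit 495) (nat_lit 622) (nat_lit 5614) (.d (nat_lit 592) (nat_lit 463) (nat_lit 4559) (nat_lit 624) (nat_lit 7663))) (.a (.f (nat_lit 495) (nat_lit 622) (nat_lit 5614) (.d (nat_lit 463) (nat_lit 431) (nat_lit 4527) (nat_lit 558) (nat_lit 5582))) (.a (.f (nat_lit 622) (nat_lit 495) (nat_lit 5614) (.d (nat_lit 654) (nat_lit 558) (nat_lit 6670) (nat_lit 623) (nat_lit 5646))) (.p (nat_lit 622) (.a (.d (nat_lit 654) (nat_lit 558) (nat_lit 6670) (nat_lit 623) (nat_lit 5646)) (.a (.d (nat_lit 654) (nat_lit 623) (nat_lit 5646) (nat_lit 686) (nat_lit 6702)) (.a (.p (nat_lit 592) (.a (.f (nat_lit 593) (nat_lit 621) (nat_lit 1613) (.d (nat_lit 558) (nat_lit 557) (nat_lit 557) (nat_lit 594) (nat_lit 558))) (.a (.f (nat_lit 593) (nat_lit 621) (nat_lit 1613) (.d (nat_lit 625) (nat_lit 626) (nat_lit 590) (nat_lit 657) (nat_lit 7696))) (.a (.p (nat_lit 593) (.a (.d (nat_lit 558) (nat_lit 557) (nat_lit 557) (nat_lit 594) (nat_lit 558)) (.d (nat_lit 625) (nat_lit 626) (nat_lit 590) (nat_lit 657) (nat_lit 7696)))) (.f (nat_lit 624) (nat_lit 656) (nat_lit 7695) (.f (nat_lit 625) (nat_lit 657) (nat_lit 4624) (.d (nat_lit 626) (nat_lit 623) (nat_lit 3662) (nat_lit 627) (nat_lit 3663)))))))) (.d (nat_lit 654) (nat_lit 558) (nat_lit 6670) (nat_lit 686) (nat_lit 6702))))))))))))) (.a (.f (nat_lit 589) (nat_lit 588) (nat_lit 2604) (.d (nat_lit 561) (nat_lit 558) (nat_lit 1581) (nat_lit 592) (nat_lit 2605))) (.f (nat_lit 589) (nat_lit 588) (nat_lit 2604) (.p (nat_lit 592) (.a (.f (nat_lit 557) (nat_lit 556) (nat_lit 3628) (.f (nat_lit 593) (nat_lit 558) (nat_lit 557) (.d (nat_lit 621) (nat_lit 620) (nat_lit 1612) (nat_lit 622) (nat_lit 1613)))) (.f (nat_lit 624) (nat_lit 625) (nat_lit 589) (.d (nat_lit 527) (nat_lit 495) (nat_lit 7663) (nat_lit 656) (nat_lit 7695))))))))))) (.a (.f (nat_lit 623) (nat_lit 655) (nat_lit 6671) (.p (nat_lit 527) (.a (.f (nat_lit 624) (nat_lit 656) (nat_lit 4623) (.f (nat_lit 495) (nat_lit 592) (nat_lit 7663) (.d (nat_lit 622) (nat_lit 590) (nat_lit 5614) (nat_lit 654) (nat_lit 5646)))) (.a (.f (nat_lit 624) (nat_lit 656) (nat_lit 4623) (.f (nat_lit 495) (nat_lit 592) (nat_lit 7663) (.f (nat_lit 462) (nat_lit 494) (nat_lit 7630) (.d (nat_lit 463) (nat_lit 430) (nat_lit 7598) (nat_lit 431) (nat_lit 4527))))) (.a (.f (nat_lit 622) (nat_lit 654) (nat_lit 5646) (.f (nat_lit 495) (nat_lit 590) (nat_lit 5614) (.d (nat_lit 463) (nat_lit 431) (nat_lit 4527) (nat_lit 592) (nat_lit 4559)))) (.a (.f (nat_lit 622) (nat_lit 654) (nat_lit 5646) (.f (nat_lit 495) (nat_lit 590) (nat_lit 5614) (.f (nat_lit 462) (nat_lit 494) (nat_lit 7630) (.d (nat_lit 463) (nat_lit 430) (nat_lit 7598) (nat_lit 431) (nat_lit 4527))))) (.f (nat_lit 624) (nat_lit 656) (nat_lit 4623) (.f (nat_lit 622) (nat_lit 654) (nat_lit 5646) (.p (nat_lit 592) (.a (.d (nat_lit 593) (nat_lit 594) (nat_lit 1614) (nat_lit 621) (nat_lit 2637)) (.a (.d (nat_lit 621) (nat_lit 593) (nat_lit 2637) (nat_lit 620) (nat_lit 2636)) (.a (.f (nat_lit 593) (nat_lit 594) (nat_lit 1614) (.f (nat_lit 625) (nat_lit 657) (nat_lit 4624) (.d (nat_lit 626) (nat_lit 590) (nat_lit 3662) (nat_lit 627) (nat_lit 3663)))) (.f (nat_lit 625) (nat_lit 657) (nat_lit 4624) (.d (nat_lit 626) (nat_lit 590) (nat_lit 3662) (nat_lit 627) (nat_lit 3663))))))))))))))) (.a (.f (nat_lit 623) (nat_lit 655) (nat_lit 6671) (.p (nat_lit 590) (.a (.f (nat_lit 589) (nat_lit 588) (nat_lit 2604) (.d (nat_lit 561) (nat_lit 558) (nat_lit 1581) (nat_lit 562) (nat_lit 1582))) (.a s20073 (.a (.f (nat_lit 561) (nat_lit 562) (nat_lit 1582) (.p (nat_lit 527) (.a (.d (nat_lit 622) (nat_lit 495) (nat_lit 5614) (nat_lit 654) (nat_lit 5646)) (.a (.f (nat_lit 624) (nat_lit 656) (nat_lit 4623) (.f (nat_lit 625) (nat_lit 626) (nat_lit 3662) (.p (nat_lit 558) (.a (.d (nat_lit 593) (nat_lit 594) (nat_lit 558) (nat_lit 657) (nat_lit 7696)) (.p (nat_lit 493) (.a (.f (nat_lit 557) (nat_lit 556) (nat_lit 2572) (.d (nat_lit 525) (nat_lit 461) (nat_lit 4557) (nat_lit 524) (nat_lit 3596))) (.f (nat_lit 495) (nat_lit 463) (nat_lit 5582) (.d (nat_lit 494) (nat_lit 462) (nat_lit 7630) (nat_lit 492) (nat_lit 492))))))))) (.f (nat_lit 622) (nat_lit 654) (nat_lit 5646) (.f (nat_lit 624) (nat_lit 656) (nat_lit 4623) (.f (nat_lit 625) (nat_lit 626) (nat_lit 3662) (.d (nat_lit 657) (nat_lit 593) (nat_lit 7696) (nat_lit 658) (nat_lit 622))))))))) (.a (.f (nat_lit 589) (nat_lit 588) (nat_lit 2604) (.p (nat_lit 622) (.a (.d (nat_lit 527) (nat_lit 495) (nat_lit 5614) (nat_lit 654) (nat_lit 5646)) (.a (.f (nat_lit 624) (nat_lit 625) (nat_lit 3661) (.d (nat_lit 527) (nat_lit 495) (nat_lit 5614) (nat_lit 656) (nat_lit 4623))) (.a (.d (nat_lit 654) (nat_lit 527) (nat_lit 5646) (nat_lit 686) (nat_lit 6702)) (.f (nat_lit 654) (nat_lit 686) (nat_lit 6702) (.f (nat_lit 624) (nat_lit 625) (nat_lit 3661) (.f (nat_lit 558) (nat_lit 561) (nat_lit 1581) (.f (nat_lit 557) (nat_lit 525) (nat_lit 7693) (.f (nat_lit 653) (nat_lit 685) (nat_lit 5677) (.d (nat_lit 652) (nat_lit 621) (nat_lit 1644) (nat_lit 651) (nat_lit 2667)))))))))))) (.p (nat_lit 622) (.a (.d (nat_lit 527) (nat_lit 495) (nat_lit 5614) (nat_lit 654) (nat_lit 5646)) (.a (.f (nat_lit 589) (nat_lit 588) (nat_lit 2604) (.f (nat_lit 624) (nat_lit 625) (nat_lit 3661) (.d (nat_lit 527) (nat_lit 495) (nat_lit 5614) (nat_lit 656) (nat_lit 4623)))) (.a (.d (nat_lit 654) (nat_lit 527) (nat_lit 5646) (nat_lit 686) (nat_lit 6702)) (.f (nat_lit 588) (nat_lit 589) (nat_lit 2604) (.f (nat_lit 654) (nat_lit 686) (nat_lit 6702) (.p (nat_lit 653) (.a (.p (nat_lit 621) (.a (.d (nat_lit 652) (nat_lit 624) (nat_lit 1644) (nat_lit 651) (nat_lit 2667)) (.d (nat_lit 620) (nat_lit 587) (nat_lit 3659) (nat_lit 619) (nat_lit 2635)))) (.a (.p (nat_lit 620) (.a (.d (nat_lit 621) (nat_lit 587) (nat_lit 3659) (nat_lit 619) (nat_lit 2635)) (.a (.p (nat_lit 556) (.a (.d (nat_lit 652) (nat_lit 651) (nat_lit 2667) (nat_lit 685) (nat_lit 4652)) (.a (.f (nat_lit 558) (nat_lit 685) (nat_lit 5677) (.d (nat_lit 557) (nat_lit 555) (nat_lit 555) (nat_lit 587) (nat_lit 1579))) (.p (nat_lit 557) (.a (.d (nat_lit 652) (nat_lit 525) (nat_lit 6668) (nat_lit 651) (nat_lit 2667)) (.d (nat_lit 558) (nat_lit 555) (nat_lit 555) (nat_lit 587) (nat_lit 1579))))))) (.f (nat_lit 621) (nat_lit 619) (nat_lit 2635) (.d (nat_lit 685) (nat_lit 558) (nat_lit 5677) (nat_lit 717) (nat_lit 6733)))))) (.a (.f (nat_lit 558) (nat_lit 685) (nat_lit 5677) (.f (nat_lit 557) (nat_lit 525) (nat_lit 7693) (.d (nat_lit 556) (nat_lit 555) (nat_lit 555) (nat_lit 587) (nat_lit 1579)))) (.p (nat_lit 621) (.a (.d (nat_lit 652) (nat_lit 624) (nat_lit 1644) (nat_lit 651) (nat_lit 2667)) (.d (nat_lit 685) (nat_lit 558) (nat_lit 5677) (nat_lit 717) (nat_lit 6733)))))))))))))))))))) (.a (.p (nat_lit 561) (.a (.f (nat_lit 562) (nat_lit 590) (nat_lit 1582) (.d (nat_lit 563) (nat_lit 527) (nat_lit 3599) (nat_lit 592) (nat_lit 1583))) (.a (.p (nat_lit 562) (.a (.d (nat_lit 563) (nat_lit 527) (nat_lit 3599) (nat_lit 592) (nat_lit 1583)) (.f (nat_lit 594) (nat_lit 595) (nat_lit 559) (.f (nat_lit 593) (nat_lit 558) (nat_lit 558) (.f (nat_lit 530) (nat_lit 531) (nat_lit 2575) (.d (nat_lit 498) (nat_lit 466) (nat_lit 5585) (nat_lit 625) (nat_lit 5617))))))) (.a (.f (nat_lit 590) (nat_lit 562) (nat_lit 1582) (.d (nat_lit 589) (nat_lit 558) (nat_lit 1581) (nat_lit 588) (nat_lit 2604))) (.p (nat_lit 558) (.a (.f (nat_lit 590) (nat_lit 589) (nat_lit 1581) (.f (nat_lit 593) (nat_lit 594) (nat_lit 558) (.f (nat_lit 557) (nat_lit 592) (nat_lit 557) (.d (nat_lit 556) (nat_lit 527) (nat_lit 2572) (nat_lit 555) (nat_lit 555))))) (.a (.f (nat_lit 593) (nat_lit 594) (nat_lit 558) (.f (nat_lit 590) (nat_lit 589) (nat_lit 1581) (.f (nat_lit 592) (nat_lit 557) (nat_lit 557) (.d (nat_lit 625) (nat_lit 626) (nat_lit 590) (nat_lit 657) (nat_lit 7696))))) (.a (.f (nat_lit 589) (nat_lit 590) (nat_lit 1581) (.f (nat_lit 557) (nat_lit 588) (nat_lit 1580) (.d (nat_lit 556) (nat_lit 527) (nat_lit 2572) (nat_lit 592) (nat_lit 556)))) (.a (.f (nat_lit 593) (nat_lit 594) (nat_lit 558) (.f (nat_lit 557) (nat_lit 592) (nat_lit 557) (.f (nat_lit 556) (nat_lit 527) (nat_lit 2572) (.d (nat_lit 588) (nat_lit 587) (nat_lit 1579) (nat_lit 589) (nat_lit 1580))))) (.a (.f (nat_lit 593) (nat_lit 594) (nat_lit 558) (.f (nat_lit 557) (nat_lit 592) (nat_lit 557) (.f (nat_lit 556) (nat_lit 527) (nat_lit 2572) (.d (nat_lit 524) (nat_lit 523) (nat_lit 3595) (nat_lit 525) (nat_lit 3596))))) (.a (.f (nat_lit 589) (nat_lit 590) (nat_lit 1581) (.f (nat_lit 557) (nat_lit 588) (nat_lit 1580) (.f (nat_lit 556) (nat_lit 527) (nat_lit 2572) (.d (nat_lit 524) (nat_lit 523) (nat_lit 3595) (nat_lit 525) (nat_lit 3596))))) (.f (nat_lit 590) (nat_lit 589) (nat_lit 1581) (.f (nat_lit 593) (nat_lit 594) (nat_lit 558) (.f (nat_lit 625) (nat_lit 657) (nat_lit 7696) (.f (nat_lit 592) (nat_lit 626) (nat_lit 590) (.p (nat_lit 527) (.a (.d (nat_lit 495) (nat_lit 463) (nat_lit 4559) (nat_lit 624) (nat_lit 7663)) (.a (.d (nat_lit 495) (nat_lit 463) (nat_lit 5582) (nat_lit 622) (nat_lit 5614)) (.a (.d (nat_lit 624) (nat_lit 495) (nat_lit 7663) (nat_lit 656) (nat_lit 7695)) (.d (nat_lit 622) (nat_lit 621) (nat_lit 1613) (nat_lit 654) (nat_lit 6670))))))))))))))))))))) (.a (.f (nat_lit 623) (nat_lit 655) (nat_lit 6671) (.p (nat_lit 590) (.a (.f (nat_lit 589) (nat_lit 588) (nat_lit 2604) (.d (nat_lit 561) (nat_lit 558) (nat_lit 1581) (nat_lit 562) (nat_lit 1582))) (.a (.f (nat_lit 561) (nat_lit 562) (nat_lit 1582) (.d (nat_lit 589) (nat_lit 588) (nat_lit 2604) (nat_lit 592) (nat_lit 2605))) (.a (.f (nat_lit 561) (nat_lit 562) (nat_lit 1582) (.p (nat_lit 593) (.a (.f (nat_lit 594) (nat_lit 558) (nat_lit 558) (.d (nat_lit 595) (nat_lit 592) (nat_lit 3631) (nat_lit 596) (nat_lit 3632))) (.a (.f (nat_lit 625) (nat_lit 657) (nat_lit 7696) (.d (nat_lit 626) (nat_lit 592) (nat_lit 590) (nat_lit 624) (nat_lit 3662))) (.f (nat_lit 625) (nat_lit 657) (nat_lit 7696) (.f (nat_lit 624) (nat_lit 626) (nat_lit 3662) (.d (nat_lit 594) (nat_lit 558) (nat_lit 558) (nat_lit 622) (nat_lit 2638)))))))) (.a (.f (nat_lit 589) (nat_lit 588) (nat_lit 2604) (.d (nat_lit 561) (nat_lit 558) (nat_lit 1581) (nat_lit 592) (nat_lit 2605))) (.f (nat_lit 589) (nat_lit 588) (nat_lit 2604) (.p (nat_lit 592) (.a (.f (nat_lit 557) (nat_lit 556) (nat_lit 3628) (.f (nat_lit 593) (nat_lit 558) (nat_lit 557) (.d (nat_lit 621) (nat_lit 620) (nat_lit 1612) (nat_lit 622) (nat_lit 1613)))) (.f (nat_lit 624) (nat_lit 625) (nat_lit 589) (.d (nat_lit 656) (nat_lit 527) (nat_lit 4623) (nat_lit 688) (nat_lit 7727)))))))))))) (.p (nat_lit 590) (.a (.f (nat_lit 589) (nat_lit 588) (nat_lit 2604) (.d (nat_lit 561) (nat_lit 558) (nat_lit 1581) (nat_lit 562) (nat_lit 1582))) (.a (.f (nat_lit 561) (nat_lit 562) (nat_lit 1582) (.d (nat_lit 589) (nat_lit 588) (nat_lit 2604) (nat_lit 592) (nat_lit 2605))) (.a (.f (nat_lit 623) (nat_lit 655) (nat_lit 6671) (.f (nat_lit 561) (nat_lit 562) (nat_lit 1582) (.p (nat_lit 593) (.a (.f (nat_lit 594) (nat_lit 558) (nat_lit 558) (.d (nat_lit 595) (nat_lit 592) (nat_lit 3631) (nat_lit 596) (nat_lit 3632))) (.a (.f (nat_lit 625) (nat_lit 657) (nat_lit 7696) (.d (nat_lit 626) (nat_lit 592) (nat_lit 590) (nat_lit 624) (nat_lit 3662))) (.f (nat_lit 625) (nat_lit 657) (nat_lit 7696) (.f (nat_lit 624) (nat_lit 626) (nat_lit 3662) (.d (nat_lit 594) (nat_lit 558) (nat_lit 558) (nat_lit 622) (nat_lit 2638))))))))) (.a (.f (nat_lit 589) (nat_lit 588) (nat_lit 2604) (.d (nat_lit 561) (nat_lit 558) (nat_lit 1581) (nat_lit 592) (nat_lit 2605))) (.f (nat_lit 589) (nat_lit 588) (nat_lit 2604) (.p (nat_lit 592) (.a (.f (nat_lit 557) (nat_lit 556) (nat_lit 3628) (.f (nat_lit 593) (nat_lit 558) (nat_lit 557) (.d (nat_lit 621) (nat_lit 620) (nat_lit 1612) (nat_lit 622) (nat_lit 1613)))) (.a (.f (nat_lit 557) (nat_lit 556) (nat_lit 3628) (.f (nat_lit 593) (nat_lit 558) (nat_lit 557) (.d (nat_lit 625) (nat_lit 624) (nat_lit 589) (nat_lit 626) (nat_lit 590)))) (.a (.f (nat_lit 624) (nat_lit 625) (nat_lit 589) (.f (nat_lit 623) (nat_lit 655) (nat_lit 5647) (.f (nat_lit 621) (nat_lit 620) (nat_lit 1612) (.f (nat_lit 622) (nat_lit 593) (nat_lit 1613) (.d (nat_lit 656) (nat_lit 657) (nat_lit 621) (nat_lit 688) (nat_lit 7727)))))) (.f (nat_lit 624) (nat_lit 625) (nat_lit 589) (.f (nat_lit 655) (nat_lit 623) (nat_lit 5647) (.d (nat_lit 656) (nat_lit 687) (nat_lit 5679) (nat_lit 688) (nat_lit 7727))))))))))))))))))))))))))) (.a (.p (nat_lit 558) (.a (.p (nat_lit 561) (.a (.f (nat_lit 526) (nat_lit 525) (nat_lit 3597) (.f (nat_lit 562) (nat_lit 527) (nat_lit 3598) (.d (nat_lit 594) (nat_lit 593) (nat_lit 558) (nat_lit 595) (nat_lit 559)))) (.a (.f (nat_lit 526) (nat_lit 525) (nat_lit 3597) (.f (nat_lit 527) (nat_lit 562) (nat_lit 3598) (.f (nat_lit 590) (nat_lit 589) (nat_lit 1581) (.d (nat_lit 495) (nat_lit 463) (nat_lit 5582) (nat_lit 622) (nat_lit 6638))))) (.a (.f (nat_lit 590) (nat_lit 589) (nat_lit 1581) (.f (nat_lit 562) (nat_lit 591) (nat_lit 1582) (.d (nat_lit 594) (nat_lit 593) (nat_lit 558) (nat_lit 595) (nat_lit 559)))) s17667)))) (.a (.p (nat_lit 561) (.a (.f (nat_lit 526) (nat_lit 525) (nat_lit 3597) (.f (nat_lit 562) (nat_lit 527) (nat_lit 3598) (.d (nat_lit 594) (nat_lit 593) (nat_lit 558) (nat_lit 595) (nat_lit 559)))) (.a (.f (nat_lit 526) (nat_lit 525) (nat_lit 3597) (.f (nat_lit 590) (nat_lit 589) (nat_lit 1581) (.d (nat_lit 562) (nat_lit 527) (nat_lit 3598) (nat_lit 591) (nat_lit 1582)))) (.a (.f (nat_lit 590) (nat_lit 589) (nat_lit 1581) (.f (nat_lit 562) (nat_lit 591) (nat_lit 1582) (.d (nat_lit 594) (nat_lit 593) (nat_lit 558) (nat_lit 595) (nat_lit 559)))) (.f (nat_lit 525) (nat_lit 526) (nat_lit 3597) (.f (nat_lit 557) (nat_lit 524) (nat_lit 3596) (.d (nat_lit 589) (nat_lit 588) (nat_lit 1580) (nat_lit 590) (nat_lit 1581)))))))) (.a s20209 (.a (.p (nat_lit 557) (.a (.f (nat_lit 556) (nat_lit 527) (nat_lit 2572) (.d (nat_lit 588) (nat_lit 587) (nat_lit 1579) (nat_lit 589) (nat_lit 1580))) (.a (.f (nat_lit 525) (nat_lit 524) (nat_lit 3596) (.f (nat_lit 589) (nat_lit 588) (nat_lit 1580) (.f (nat_lit 526) (nat_lit 561) (nat_lit 3597) (.d (nat_lit 494) (nat_lit 462) (nat_lit 5581) (nat_lit 621) (nat_lit 6637))))) (.f (nat_lit 556) (nat_lit 527) (nat_lit 2572) (.d (nat_lit 524) (nat_lit 523) (nat_lit 3595) (nat_lit 525) (nat_lit 3596)))))) (.a (.p (nat_lit 526) (.a (.f (nat_lit 525) (nat_lit 561) (nat_lit 3597) (.d (nat_lit 524) (nat_lit 527) (nat_lit 524) (nat_lit 557) (nat_lit 3596))) (.a (.f (nat_lit 561) (nat_lit 525) (nat_lit 3597) (.f (nat_lit 562) (nat_lit 527) (nat_lit 3598) (.d (nat_lit 594) (nat_lit 593) (nat_lit 558) (nat_lit 595) (nat_lit 559)))) (.a (.p (nat_lit 494) (.a (.f (nat_lit 591) (nat_lit 462) (nat_lit 4558) (.d (nat_lit 623) (nat_lit 527) (nat_lit 7662) (nat_lit 655) (nat_lit 6671))) (.a (.p (nat_lit 590) (.a (.f (nat_lit 591) (nat_lit 623) (nat_lit 4590) (.f (nat_lit 495) (nat_lit 463) (nat_lit 6606) (.f (nat_lit 527) (nat_lit 622) (nat_lit 5614) (.d (nat_lit 493) (nat_lit 461) (nat_lit 7629) (nat_lit 492) (nat_lit 492))))) (.a (.f (nat_lit 591) (nat_lit 623) (nat_lit 4590) (.f (nat_lit 561) (nat_lit 562) (nat_lit 1582) (.f (nat_lit 495) (nat_lit 463) (nat_lit 6606) (.f (nat_lit 493) (nat_lit 461) (nat_lit 7629) (.f (nat_lit 492) (nat_lit 527) (nat_lit 492) (.p (nat_lit 491) (.a (.d (nat_lit 523) (nat_lit 522) (nat_lit 1514) (nat_lit 524) (nat_lit 1515)) (.d (nat_lit 459) (nat_lit 458) (nat_lit 3530) (nat_lit 460) (nat_lit 3531))))))))) (.a (.f (nat_lit 591) (nat_lit 623) (nat_lit 4590) (.f (nat_lit 495) (nat_lit 463) (nat_lit 6606) (.f (nat_lit 622) (nat_lit 527) (nat_lit 5614) (.f (nat_lit 653) (nat_lit 621) (nat_lit 5645) (.d (nat_lit 654) (nat_lit 685) (nat_lit 5677) (nat_lit 686) (nat_lit 6702)))))) (.a (.f (nat_lit 495) (nat_lit 463) (nat_lit 6606) (.f (nat_lit 527) (nat_lit 622) (nat_lit 6638) (.d (nat_lit 493) (nat_lit 461) (nat_lit 7629) (nat_lit 492) (nat_lit 492)))) (.a (.f (nat_lit 623) (nat_lit 591) (nat_lit 4590) (.f (nat_lit 622) (nat_lit 655) (nat_lit 4622) (.d (nat_lit 527) (nat_lit 495) (nat_lit 6638) (nat_lit 654) (nat_lit 6670)))) (.a (.f (nat_lit 623) (nat_lit 591) (nat_lit 4590) (.f (nat_lit 622) (nat_lit 655) (nat_lit 4622) (.f (nat_lit 654) (nat_lit 527) (nat_lit 6670) (.d (nat_lit 653) (nat_lit 621) (nat_lit 5645) (nat_lit 685) (nat_lit 5677))))) (.p (nat_lit 622) (.a (.d (nat_lit 623) (nat_lit 591) (nat_lit 4590) (nat_lit 655) (nat_lit 4622)) (.a (.f (nat_lit 655) (nat_lit 623) (nat_lit 4622) (.f (nat_lit 654) (nat_lit 687) (nat_lit 4654) (.d (nat_lit 653) (nat_lit 621) (nat_lit 5645) (nat_lit 685) (nat_lit 5677)))) (.a (.f (nat_lit 591) (nat_lit 623) (nat_lit 4590) (.f (nat_lit 561) (nat_lit 562) (nat_lit 1582) (.f (nat_lit 653) (nat_lit 621) (nat_lit 5645) (.d (nat_lit 654) (nat_lit 685) (nat_lit 5677) (nat_lit 686) (nat_lit 6702))))) (.f (nat_lit 653) (nat_lit 621) (nat_lit 5645) (.f (nat_lit 654) (nat_lit 685) (nat_lit 5677) (.f (nat_lit 687) (nat_lit 655) (nat_lit 4654) (.d (nat_lit 686) (nat_lit 591) (nat_lit 6702) (nat_lit 719) (nat_lit 4686)))))))))))))))) (.a (.p (nat_lit 462) (.a (.f (nat_lit 463) (nat_lit 431) (nat_lit 6574) (.f (nat_lit 527) (nat_lit 430) (nat_lit 4526) (.f (nat_lit 495) (nat_lit 590) (nat_lit 5582) (.f (nat_lit 493) (nat_lit 492) (nat_lit 492) (.d (nat_lit 464) (nat_lit 432) (nat_lit 6575) (nat_lit 465) (nat_lit 1485)))))) (.a (.f (nat_lit 430) (nat_lit 527) (nat_lit 4526) (.d (nat_lit 431) (nat_lit 399) (nat_lit 6542) (nat_lit 463) (nat_lit 6574))) (.a (.f (nat_lit 527) (nat_lit 430) (nat_lit 4526) (.f (nat_lit 561) (nat_lit 562) (nat_lit 3598) (.p (nat_lit 590) (.a (.d (nat_lit 495) (nat_lit 463) (nat_lit 6606) (nat_lit 622) (nat_lit 6638)) (.d (nat_lit 461) (nat_lit 429) (nat_lit 7597) (nat_lit 493) (nat_lit 7629)))))) (.a (.f (nat_lit 527) (nat_lit 430) (nat_lit 4526) (.f (nat_lit 561) (nat_lit 562) (nat_lit 3598) (.f (nat_lit 461) (nat_lit 429) (nat_lit 7597) (.f (nat_lit 493) (nat_lit 590) (nat_lit 7629) (.d (nat_lit 492) (nat_lit 491) (nat_lit 491) (nat_lit 495) (nat_lit 492)))))) (.f (nat_lit 463) (nat_lit 431) (nat_lit 6574) (.f (nat_lit 461) (nat_lit 429) (nat_lit 7597) (.d (nat_lit 590) (nat_lit 493) (nat_lit 7629) (nat_lit 495) (nat_lit 6606))))))))) (.f (nat_lit 591) (nat_lit 462) (nat_lit 4558) (.d (nat_lit 623) (nat_lit 590) (nat_lit 4590) (nat_lit 655) (nat_lit 7694))))))) (.a (.p (nat_lit 525) (.a (.d (nat_lit 524) (nat_lit 527) (nat_lit 524) (nat_lit 557) (nat_lit 3596)) (.a (.d (nat_lit 524) (nat_lit 523) (nat_lit 523) (nat_lit 527) (nat_lit 524)) (.a (.p (nat_lit 493) (.a (.f (nat_lit 527) (nat_lit 492) (nat_lit 3564) (.f (nat_lit 557) (nat_lit 556) (nat_lit 1548) (.d (nat_lit 461) (nat_lit 429) (nat_lit 4525) (nat_lit 590) (nat_lit 4557)))) (.a (.f (nat_lit 590) (nat_lit 622) (nat_lit 7661) (.d (nat_lit 461) (nat_lit 429) (nat_lit 4525) (nat_lit 557) (nat_lit 4557))) (.a (.f (nat_lit 527) (nat_lit 492) (nat_lit 3564) (.f (nat_lit 557) (nat_lit 556) (nat_lit 1548) (.f (nat_lit 461) (nat_lit 429) (nat_lit 4525) (.f (nat_lit 462) (nat_lit 430) (nat_lit 6573) (.f (nat_lit 494) (nat_lit 591) (nat_lit 4558) (.f (nat_lit 460) (nat_lit 428) (nat_lit 7596) (.d (nat_lit 459) (nat_lit 458) (nat_lit 458) (nat_lit 495) (nat_lit 459)))))))) (.f (nat_lit 590) (nat_lit 622) (nat_lit 7661) (.f (nat_lit 492) (nat_lit 527) (nat_lit 3564) (.p (nat_lit 494) (.a (.p (nat_lit 459) (.a (.d (nat_lit 491) (nat_lit 458) (nat_lit 3530) (nat_lit 490) (nat_lit 490)) (.d (nat_lit 495) (nat_lit 460) (nat_lit 3531) (nat_lit 463) (nat_lit 6606)))) (.d (nat_lit 591) (nat_lit 462) (nat_lit 4558) (nat_lit 623) (nat_lit 4590)))))))))) (.d (nat_lit 524) (nat_lit 523) (nat_lit 523) (nat_lit 557) (nat_lit 3596)))))) (.f (nat_lit 525) (nat_lit 561) (nat_lit 3597) (.d (nat_lit 524) (nat_lit 523) (nat_lit 523) (nat_lit 557) (nat_lit 3596)))))))) (.a (.p (nat_lit 557) (.a (.f (nat_lit 556) (nat_lit 527) (nat_lit 2572) (.d (nat_lit 588) (nat_lit 587) (nat_lit 1579) (nat_lit 589) (nat_lit 1580))) (.a (.f (nat_lit 589) (nat_lit 588) (nat_lit 1580) (.f (nat_lit 525) (nat_lit 524) (nat_lit 3596) (.f (nat_lit 590) (nat_lit 561) (nat_lit 1581) (.d (nat_lit 493) (nat_lit 461) (nat_lit 4557) (nat_lit 622) (nat_lit 4589))))) (.f (nat_lit 556) (nat_lit 527) (nat_lit 2572) (.d (nat_lit 524) (nat_lit 523) (nat_lit 3595) (nat_lit 525) (nat_lit 3596)))))) (.a (.p (nat_lit 561) (.a (.f (nat_lit 590) (nat_lit 589) (nat_lit 1581) (.f (nat_lit 562) (nat_lit 591) (nat_lit 1582) (.d (nat_lit 594) (nat_lit 593) (nat_lit 558) (nat_lit 595) (nat_lit 559)))) (.a (.f (nat_lit 590) (nat_lit 589) (nat_lit 1581) (.f (nat_lit 562) (nat_lit 591) (nat_lit 1582) (.d (nat_lit 527) (nat_lit 526) (nat_lit 3598) (nat_lit 563) (nat_lit 3599)))) (.a (.f (nat_lit 589) (nat_lit 590) (nat_lit 1581) (.f (nat_lit 557) (nat_lit 588) (nat_lit 1580) (.f (nat_lit 527) (nat_lit 556) (nat_lit 2572) (.d (nat_lit 562) (nat_lit 526) (nat_lit 3598) (nat_lit 563) (nat_lit 3599))))) (.a (.f (nat_lit 594) (nat_lit 593) (nat_lit 558) (.f (nat_lit 562) (nat_lit 595) (nat_lit 559) (.d (nat_lit 527) (nat_lit 526) (nat_lit 3598) (nat_lit 563) (nat_lit 3599)))) (.f (nat_lit 593) (nat_lit 594) (nat_lit 558) (.p (nat_lit 557) (.a (.d (nat_lit 589) (nat_lit 588) (nat_lit 1580) (nat_lit 590) (nat_lit 1581)) (.a (.f (nat_lit 556) (nat_lit 527) (nat_lit 2572) (.d (nat_lit 588) (nat_lit 587) (nat_lit 1579) (nat_lit 589) (nat_lit 1580))) (.a (.f (nat_lit 556) (nat_lit 527) (nat_lit 2572) (.f (nat_lit 523) (nat_lit 524) (nat_lit 3595) (.f (nat_lit 555) (nat_lit 522) (nat_lit 3594) (.d (nat_lit 587) (nat_lit 586) (nat_lit 1578) (nat_lit 588) (nat_lit 1579))))) (.f (nat_lit 556) (nat_lit 527) (nat_lit 2572) (.f (nat_lit 590) (nat_lit 589) (nat_lit 1581) (.f (nat_lit 555) (nat_lit 591) (nat_lit 555) (.d (nat_lit 523) (nat_lit 522) (nat_lit 3594) (nat_lit 524) (nat_lit 3595))))))))))))))) (.a (.p (nat_lit 557) (.a (.f (nat_lit 556) (nat_lit 527) (nat_lit 2572) (.d (nat_lit 588) (nat_lit 587) (nat_lit 1579) (nat_lit 589) (nat_lit 1580))) (.a (.f (nat_lit 525) (nat_lit 524) (nat_lit 3596) (.f (nat_lit 589) (nat_lit 588) (nat_lit 1580) (.p (nat_lit 493) (.a (.d (nat_lit 590) (nat_lit 461) (nat_lit 4557) (nat_lit 622) (nat_lit 4589)) (.a (.f (nat_lit 494) (nat_lit 462) (nat_lit 6605) (.f (nat_lit 526) (nat_lit 621) (nat_lit 6637) (.d (nat_lit 461) (nat_lit 429) (nat_lit 4525) (nat_lit 590) (nat_lit 4557)))) (.f (nat_lit 494) (nat_lit 462) (nat_lit 6605) (.f (nat_lit 526) (nat_lit 621) (nat_lit 6637) (.d (nat_lit 492) (nat_lit 460) (nat_lit 7628) (nat_lit 527) (nat_lit 3564))))))))) (.a (.f (nat_lit 556) (nat_lit 527) (nat_lit 2572) (.d (nat_lit 524) (nat_lit 523) (nat_lit 3595) (nat_lit 525) (nat_lit 3596))) (.f (nat_lit 525) (nat_lit 524) (nat_lit 3596) (.f (nat_lit 589) (nat_lit 588) (nat_lit 1580) (.p (nat_lit 493) (.a (.d (nat_lit 590) (nat_lit 461) (nat_lit 4557) (nat_lit 622) (nat_lit 4589)) (.a (.f (nat_lit 461) (nat_lit 590) (nat_lit 4557) (.d (nat_lit 462) (nat_lit 430) (nat_lit 6573) (nat_lit 494) (nat_lit 6605))) (.f (nat_lit 494) (nat_lit 462) (nat_lit 6605) (.f (nat_lit 621) (nat_lit 526) (nat_lit 6637) (.p (nat_lit 653) (.a (.d (nat_lit 654) (nat_lit 622) (nat_lit 4621) (nat_lit 686) (nat_lit 4653)) (.d (nat_lit 652) (nat_lit 620) (nat_lit 5644) (nat_lit 684) (nat_lit 5676))))))))))))))) s20339))))))))) (.a (.p (nat_lit 558) (.a (.p (nat_lit 527) (.a (.f (nat_lit 557) (nat_lit 556) (nat_lit 2572) (.f (nat_lit 525) (nat_lit 524) (nat_lit 3596) (.f (nat_lit 526) (nat_lit 561) (nat_lit 525) (.f (nat_lit 493) (nat_lit 492) (nat_lit 3564) (.d (nat_lit 461) (nat_lit 429) (nat_lit 4525) (nat_lit 590) (nat_lit 4557)))))) (.a (.p (nat_lit 526) (.a (.d (nat_lit 525) (nat_lit 524) (nat_lit 524) (nat_lit 561) (nat_lit 525)) (.a (.p (nat_lit 495) (.a (.d (nat_lit 463) (nat_lit 431) (nat_lit 4527) (nat_lit 592) (nat_lit 4559)) (.a (.d (nat_lit 592) (nat_lit 463) (nat_lit 4559) (nat_lit 624) (nat_lit 7663)) (.a (.d (nat_lit 463) (nat_lit 431) (nat_lit 4527) (nat_lit 590) (nat_lit 5582)) (.f (nat_lit 590) (nat_lit 622) (nat_lit 6638) (.d (nat_lit 561) (nat_lit 562) (nat_lit 3598) (nat_lit 589) (nat_lit 1581))))))) (.f (nat_lit 525) (nat_lit 524) (nat_lit 524) (.p (nat_lit 495) (.a (.d (nat_lit 463) (nat_lit 431) (nat_lit 4527) (nat_lit 592) (nat_lit 4559)) (.a (.d (nat_lit 592) (nat_lit 463) (nat_lit 4559) (nat_lit 624) (nat_lit 7663)) (.a (.d (nat_lit 463) (nat_lit 431) (nat_lit 4527) (nat_lit 590) (nat_lit 5582)) (.f (nat_lit 590) (nat_lit 622) (nat_lit 6638) (.p (nat_lit 494) (.a (.d (nat_lit 493) (nat_lit 461) (nat_lit 7629) (nat_lit 492) (nat_lit 3564)) (.d (nat_lit 462) (nat_lit 430) (nat_lit 4526) (nat_lit 591) (nat_lit 4558))))))))))))) (.a (.f (nat_lit 557) (nat_lit 556) (nat_lit 2572) (.f (nat_lit 525) (nat_lit 524) (nat_lit 3596) (.f (nat_lit 561) (nat_lit 526) (nat_lit 525) (.d (nat_lit 589) (nat_lit 588) (nat_lit 1580) (nat_lit 590) (nat_lit 1581))))) (.a (.f (nat_lit 557) (nat_lit 556) (nat_lit 2572) (.f (nat_lit 525) (nat_lit 524) (nat_lit 3596) (.f (nat_lit 526) (nat_lit 561) (nat_lit 525) (.f (nat_lit 589) (nat_lit 588) (nat_lit 1580) (.d (nat_lit 494) (nat_lit 462) (nat_lit 5581) (nat_lit 621) (nat_lit 6637)))))) (.a (.f (nat_lit 557) (nat_lit 556) (nat_lit 2572) (.f (nat_lit 589) (nat_lit 588) (nat_lit 1580) (.f (nat_lit 590) (nat_lit 561) (nat_lit 1581) (.f (nat_lit 622) (nat_lit 654) (nat_lit 6670) (.d (nat_lit 495) (nat_lit 463) (nat_lit 5582) (nat_lit 591) (nat_lit 5614)))))) (.f (nat_lit 557) (nat_lit 556) (nat_lit 2572) (.f (nat_lit 525) (nat_lit 524) (nat_lit 3596) (.f (nat_lit 589) (nat_lit 588) (nat_lit 1580) (.p (nat_lit 590) (.a (.d (nat_lit 493) (nat_lit 461) (nat_lit 4557) (nat_lit 622) (nat_lit 4589)) (.a (.f (nat_lit 495) (nat_lit 463) (nat_lit 5582) (.p (nat_lit 494) (.a (.d (nat_lit 493) (nat_lit 461) (nat_lit 4557) (nat_lit 492) (nat_lit 492)) (.d (nat_lit 462) (nat_lit 526) (nat_lit 5581) (nat_lit 591) (nat_lit 7630))))) (.f (nat_lit 622) (nat_lit 654) (nat_lit 6670) (.d (nat_lit 495) (nat_lit 463) (nat_lit 5582) (nat_lit 591) (nat_lit 5614))))))))))))))) (.a s20209 (.a (.p (nat_lit 561) (.a (.f (nat_lit 526) (nat_lit 525) (nat_lit 3597) (.f (nat_lit 590) (nat_lit 589) (nat_lit 1581) (.d (nat_lit 562) (nat_lit 527) (nat_lit 3598) (nat_lit 591) (nat_lit 1582)))) (.a (.f (nat_lit 526) (nat_lit 525) (nat_lit 3597) (.f (nat_lit 562) (nat_lit 527) (nat_lit 3598) (.f (nat_lit 589) (nat_lit 590) (nat_lit 1581) (.f (nat_lit 557) (nat_lit 588) (nat_lit 1580) (.f (nat_lit 595) (nat_lit 594) (nat_lit 559) (.f (nat_lit 563) (nat_lit 596) (nat_lit 560) (.d (nat_lit 531) (nat_lit 530) (nat_lit 2575) (nat_lit 532) (nat_lit 2576)))))))) (.a (.f (nat_lit 526) (nat_lit 525) (nat_lit 3597) (.f (nat_lit 562) (nat_lit 527) (nat_lit 3598) (.f (nat_lit 595) (nat_lit 594) (nat_lit 559) (.f (nat_lit 563) (nat_lit 596) (nat_lit 560) (.d (nat_lit 531) (nat_lit 530) (nat_lit 2575) (nat_lit 532) (nat_lit 2576)))))) (.a (.f (nat_lit 590) (nat_lit 589) (nat_lit 1581) (.f (nat_lit 562) (nat_lit 591) (nat_lit 1582) (.f (nat_lit 563) (nat_lit 527) (nat_lit 3599) (.d (nat_lit 595) (nat_lit 594) (nat_lit 559) (nat_lit 596) (nat_lit 560))))) (.a s20407 (.f (nat_lit 590) (nat_lit 589) (nat_lit 1581) (.f (nat_lit 562) (nat_lit 591) (nat_lit 1582) (.f (nat_lit 525) (nat_lit 526) (nat_lit 3597) (.f (nat_lit 557) (nat_lit 524) (nat_lit 3596) (.f (nat_lit 595) (nat_lit 594) (nat_lit 559) (.f (nat_lit 563) (nat_lit 596) (nat_lit 560) (.d (nat_lit 531) (nat_lit 530) (nat_lit 2575) (nat_lit 532) (nat_lit 2576)))))))))))))) (.a (.p (nat_lit 557) (.a (.f (nat_lit 556) (nat_lit 527) (nat_lit 2572) (.d (nat_lit 588) (nat_lit 587) (nat_lit 1579) (nat_lit 589) (nat_lit 1580))) (.a (.f (nat_lit 525) (nat_lit 524) (nat_lit 3596) (.f (nat_lit 589) (nat_lit 588) (nat_lit 1580) (.f (nat_lit 526) (nat_lit 561) (nat_lit 3597) (.d (nat_lit 494) (nat_lit 462) (nat_lit 5581) (nat_lit 621) (nat_lit 6637))))) (.f (nat_lit 556) (nat_lit 527) (nat_lit 2572) (.d (nat_lit 524) (nat_lit 523) (nat_lit 3595) (nat_lit 525) (nat_lit 3596)))))) (.a (.p (nat_lit 527) (.a (.p (nat_lit 526) (.a (.d (nat_lit 525) (nat_lit 524) (nat_lit 524) (nat_lit 561) (nat_lit 525)) (.p (nat_lit 495) (.a (.d (nat_lit 463) (nat_lit 431) (nat_lit 4527) (nat_lit 592) (nat_lit 4559)) (.a (.d (nat_lit 592) (nat_lit 463) (nat_lit 4559) (nat_lit 624) (nat_lit 7663)) (.a (.d (nat_lit 463) (nat_lit 431) (nat_lit 4527) (nat_lit 590) (nat_lit 5582)) (.p (nat_lit 591) (.a (.d (nat_lit 494) (nat_lit 462) (nat_lit 7630) (nat_lit 623) (nat_lit 7662)) (.a (.d (nat_lit 623) (nat_lit 494) (nat_lit 7662) (nat_lit 655) (nat_lit 6671)) (.a (.f (nat_lit 624) (nat_lit 592) (nat_lit 7663) (.d (nat_lit 623) (nat_lit 655) (nat_lit 6671) (nat_lit 656) (nat_lit 4623))) (.f (nat_lit 494) (nat_lit 462) (nat_lit 4558) (.f (nat_lit 493) (nat_lit 492) (nat_lit 492) (.d (nat_lit 590) (nat_lit 461) (nat_lit 7629) (nat_lit 622) (nat_lit 6638)))))))))))))) (.a (.p (nat_lit 526) (.a (.d (nat_lit 525) (nat_lit 524) (nat_lit 524) (nat_lit 561) (nat_lit 525)) (.a (.p (nat_lit 623) (.a (.d (nat_lit 591) (nat_lit 494) (nat_lit 7662) (nat_lit 655) (nat_lit 6671)) (.a (.p (nat_lit 622) (.a (.d (nat_lit 590) (nat_lit 654) (nat_lit 6670) (nat_lit 655) (nat_lit 4622)) (.a (.p (nat_lit 624) (.a (.d (nat_lit 592) (nat_lit 495) (nat_lit 7663) (nat_lit 655) (nat_lit 5647)) (.a (.d (nat_lit 592) (nat_lit 495) (nat_lit 7663) (nat_lit 656) (nat_lit 7695)) (.p (nat_lit 621) (.a (.p (nat_lit 620) (.a (.d (nat_lit 656) (nat_lit 655) (nat_lit 620) (nat_lit 657) (nat_lit 621)) (.d (nat_lit 652) (nat_lit 651) (nat_lit 1643) (nat_lit 653) (nat_lit 1644)))) (.a (.f (nat_lit 653) (nat_lit 652) (nat_lit 1644) (.f (nat_lit 625) (nat_lit 654) (nat_lit 1645) (.d (nat_lit 657) (nat_lit 656) (nat_lit 621) (nat_lit 658) (nat_lit 622)))) (.a (.f (nat_lit 653) (nat_lit 652) (nat_lit 1644) (.p (nat_lit 620) (.a (.f (nat_lit 556) (nat_lit 557) (nat_lit 2572) (.d (nat_lit 588) (nat_lit 524) (nat_lit 4620) (nat_lit 587) (nat_lit 3659))) (.a (.p (nat_lit 619) (.a (.d (nat_lit 587) (nat_lit 586) (nat_lit 3658) (nat_lit 588) (nat_lit 3659)) (.d (nat_lit 654) (nat_lit 625) (nat_lit 1645) (nat_lit 655) (nat_lit 619)))) (.f (nat_lit 654) (nat_lit 625) (nat_lit 1645) (.d (nat_lit 619) (nat_lit 618) (nat_lit 618) (nat_lit 655) (nat_lit 619))))))) (.a (.f (nat_lit 656) (nat_lit 657) (nat_lit 621) (.f (nat_lit 620) (nat_lit 655) (nat_lit 620) (.p (nat_lit 619) (.a (.d (nat_lit 651) (nat_lit 650) (nat_lit 1642) (nat_lit 652) (nat_lit 1643)) (.d (nat_lit 587) (nat_lit 586) (nat_lit 3658) (nat_lit 588) (nat_lit 3659)))))) (.p (nat_lit 625) (.a (.d (nat_lit 657) (nat_lit 656) (nat_lit 621) (nat_lit 658) (nat_lit 622)) (.a (.p (nat_lit 655) (.a (.d (nat_lit 656) (nat_lit 620) (nat_lit 620) (nat_lit 657) (nat_lit 621)) (.d (nat_lit 654) (nat_lit 626) (nat_lit 1646) (nat_lit 653) (nat_lit 1645)))) (.a (.f (nat_lit 654) (nat_lit 653) (nat_lit 1645) (.f (nat_lit 626) (nat_lit 655) (nat_lit 1646) (.d (nat_lit 658) (nat_lit 657) (nat_lit 622) (nat_lit 659) (nat_lit 623)))) (.f (nat_lit 654) (nat_lit 653) (nat_lit 1645) (.f (nat_lit 626) (nat_lit 655) (nat_lit 1646) (.f (nat_lit 659) (nat_lit 658) (nat_lit 623) (.f (nat_lit 595) (nat_lit 594) (nat_lit 2639) (.d (nat_lit 627) (nat_lit 596) (nat_lit 2640) (nat_lit 660) (nat_lit 624)))))))))))))))))) (.a (.d (nat_lit 590) (nat_lit 495) (nat_lit 6638) (nat_lit 654) (nat_lit 6670)) (.d (nat_lit 590) (nat_lit 495) (nat_lit 6638) (nat_lit 655) (nat_lit 4622)))))) (.f (nat_lit 591) (nat_lit 494) (nat_lit 7662) (.f (nat_lit 622) (nat_lit 654) (nat_lit 5646) (.f (nat_lit 495) (nat_lit 590) (nat_lit 5614) (.d (nat_lit 463) (nat_lit 431) (nat_lit 4527) (nat_lit 592) (nat_lit 4559)))))))) (.d (nat_lit 561) (nat_lit 525) (nat_lit 3597) (nat_lit 562) (nat_lit 3598))))) (.a (.f (nat_lit 557) (nat_lit 556) (nat_lit 2572) (.f (nat_lit 525) (nat_lit 524) (nat_lit 3596) (.f (nat_lit 526) (nat_lit 561) (nat_lit 525) (.f (nat_lit 493) (nat_lit 492) (nat_lit 3564) (.d (nat_lit 461) (nat_lit 429) (nat_lit 4525) (nat_lit 590) (nat_lit 4557)))))) (.a (.f (nat_lit 557) (nat_lit 556) (nat_lit 2572) (.f (nat_lit 525) (nat_lit 524) (nat_lit 3596) (.f (nat_lit 526) (nat_lit 561) (nat_lit 525) (.f (nat_lit 493) (nat_lit 492) (nat_lit 3564) (.f (nat_lit 461) (nat_lit 429) (nat_lit 4525) (.f (nat_lit 462) (nat_lit 430) (nat_lit 6573) (.f (nat_lit 494) (nat_lit 591) (nat_lit 4558) (.f (nat_lit 460) (nat_lit 428) (nat_lit 7596) (.d (nat_lit 459) (nat_lit 458) (nat_lit 458) (nat_lit 495) (nat_lit 459)))))))))) (.a (.f (nat_lit 557) (nat_lit 556) (nat_lit 2572) (.p (nat_lit 495) (.a (.d (nat_lit 463) (nat_lit 431) (nat_lit 4527) (nat_lit 592) (nat_lit 4559)) (.a (.d (nat_lit 592) (nat_lit 463) (nat_lit 4559) (nat_lit 624) (nat_lit 7663)) (.a (.d (nat_lit 463) (nat_lit 431) (nat_lit 4527) (nat_lit 590) (nat_lit 5582)) (.f (nat_lit 624) (nat_lit 592) (nat_lit 7663) (.f (nat_lit 525) (nat_lit 524) (nat_lit 3596) (.p (nat_lit 591) (.a (.d (nat_lit 623) (nat_lit 655) (nat_lit 6671) (nat_lit 656) (nat_lit 4623)) (.f (nat_lit 590) (nat_lit 622) (nat_lit 5614) (.f (nat_lit 493) (nat_lit 461) (nat_lit 4557) (.d (nat_lit 494) (nat_lit 462) (nat_lit 7630) (nat_lit 492) (nat_lit 492))))))))))))) (.a (.p (nat_lit 495) (.a (.d (nat_lit 463) (nat_lit 431) (nat_lit 4527) (nat_lit 592) (nat_lit 4559)) (.a (.d (nat_lit 592) (nat_lit 463) (nat_lit 4559) (nat_lit 624) (nat_lit 7663)) (.a (.d (nat_lit 463) (nat_lit 431) (nat_lit 4527) (nat_lit 590) (nat_lit 5582)) (.f (nat_lit 624) (nat_lit 592) (nat_lit 7663) (.p (nat_lit 622) (.a (.d (nat_lit 590) (nat_lit 591) (nat_lit 5614) (nat_lit 654) (nat_lit 6670)) (.a (.d (nat_lit 590) (nat_lit 526) (nat_lit 6638) (nat_lit 654) (nat_lit 6670)) (.a (.p (nat_lit 623) (.a (.d (nat_lit 591) (nat_lit 655) (nat_lit 6671) (nat_lit 656) (nat_lit 4623)) (.a (.p (nat_lit 621) (.a (.p (nat_lit 620) (.a (.d (nat_lit 656) (nat_lit 655) (nat_lit 620) (nat_lit 657) (nat_lit 621)) (.d (nat_lit 652) (nat_lit 651) (nat_lit 1643) (nat_lit 653) (nat_lit 1644)))) (.a (.f (nat_lit 653) (nat_lit 652) (nat_lit 1644) (.f (nat_lit 625) (nat_lit 654) (nat_lit 1645) (.d (nat_lit 657) (nat_lit 656) (nat_lit 621) (nat_lit 658) (nat_lit 622)))) (.a (.f (nat_lit 653) (nat_lit 652) (nat_lit 1644) (.p (nat_lit 620) (.a (.f (nat_lit 556) (nat_lit 557) (nat_lit 2572) (.d (nat_lit 588) (nat_lit 524) (nat_lit 4620) (nat_lit 587) (nat_lit 3659))) (.a (.p (nat_lit 619) (.a (.d (nat_lit 587) (nat_lit 586) (nat_lit 3658) (nat_lit 588) (nat_lit 3659)) (.d (nat_lit 654) (nat_lit 625) (nat_lit 1645) (nat_lit 655) (nat_lit 619)))) (.f (nat_lit 654) (nat_lit 625) (nat_lit 1645) (.d (nat_lit 619) (nat_lit 618) (nat_lit 618) (nat_lit 655) (nat_lit 619))))))) (.a (.f (nat_lit 656) (nat_lit 657) (nat_lit 621) (.f (nat_lit 620) (nat_lit 655) (nat_lit 620) (.p (nat_lit 619) (.a (.d (nat_lit 651) (nat_lit 650) (nat_lit 1642) (nat_lit 652) (nat_lit 1643)) (.d (nat_lit 587) (nat_lit 586) (nat_lit 3658) (nat_lit 588) (nat_lit 3659)))))) (.p (nat_lit 625) (.a (.d (nat_lit 657) (nat_lit 656) (nat_lit 621) (nat_lit 658) (nat_lit 622)) (.a (.p (nat_lit 655) (.a (.d (nat_lit 656) (nat_lit 620) (nat_lit 620) (nat_lit 657) (nat_lit 621)) (.d (nat_lit 654) (nat_lit 626) (nat_lit 1646) (nat_lit 653) (nat_lit 1645)))) (.a (.f (nat_lit 654) (nat_lit 653) (nat_lit 1645) (.f (nat_lit 626) (nat_lit 655) (nat_lit 1646) (.d (nat_lit 658) (nat_lit 657) (nat_lit 622) (nat_lit 659) (nat_lit 623)))) (.f (nat_lit 654) (nat_lit 653) (nat_lit 1645) (.f (nat_lit 626) (nat_lit 655) (nat_lit 1646) (.f (nat_lit 659) (nat_lit 658) (nat_lit 623) (.f (nat_lit 595) (nat_lit 594) (nat_lit 2639) (.d (nat_lit 627) (nat_lit 596) (nat_lit 2640) (nat_lit 660) (nat_lit 624))))))))))))))) (.a (.d (nat_lit 591) (nat_lit 654) (nat_lit 5646) (nat_lit 656) (nat_lit 4623)) (.d (nat_lit 591) (nat_lit 654) (nat_lit 5646) (nat_lit 655) (nat_lit 6671)))))) (.d (nat_lit 590) (nat_lit 526) (nat_lit 6638) (nat_lit 591) (nat_lit 5614))))))))))) (.p (nat_lit 495) (.a (.d (nat_lit 463) (nat_lit 431) (nat_lit 4527) (nat_lit 592) (nat_lit 4559)) (.a (.d (nat_lit 592) (nat_lit 463) (nat_lit 4559) (nat_lit 624) (nat_lit 7663)) (.a (.d (nat_lit 463) (nat_lit 431) (nat_lit 4527) (nat_lit 590) (nat_lit 5582)) (.f (nat_lit 592) (nat_lit 624) (nat_lit 7663) (.p (nat_lit 526) (.a (.d (nat_lit 561) (nat_lit 525) (nat_lit 3597) (nat_lit 562) (nat_lit 3598)) (.p (nat_lit 591) (.a (.d (nat_lit 623) (nat_lit 494) (nat_lit 7662) (nat_lit 655) (nat_lit 6671)) (.a (.d (nat_lit 494) (nat_lit 462) (nat_lit 7630) (nat_lit 623) (nat_lit 7662)) (.a (.f (nat_lit 623) (nat_lit 655) (nat_lit 6671) (.d (nat_lit 622) (nat_lit 590) (nat_lit 5614) (nat_lit 654) (nat_lit 5646))) (.f (nat_lit 494) (nat_lit 462) (nat_lit 4558) (.f (nat_lit 493) (nat_lit 492) (nat_lit 492) (.d (nat_lit 590) (nat_lit 461) (nat_lit 7629) (nat_lit 622) (nat_lit 6638)))))))))))))))))))))) (.a (.p (nat_lit 557) (.a (.f (nat_lit 556) (nat_lit 527) (nat_lit 2572) (.d (nat_lit 588) (nat_lit 587) (nat_lit 1579) (nat_lit 589) (nat_lit 1580))) (.a (.f (nat_lit 589) (nat_lit 588) (nat_lit 1580) (.f (nat_lit 525) (nat_lit 524) (nat_lit 3596) (.f (nat_lit 590) (nat_lit 561) (nat_lit 1581) (.d (nat_lit 493) (nat_lit 461) (nat_lit 4557) (nat_lit 622) (nat_lit 4589))))) (.f (nat_lit 556) (nat_lit 527) (nat_lit 2572) (.d (nat_lit 524) (nat_lit 523) (nat_lit 3595) (nat_lit 525) (nat_lit 3596)))))) (.a (.p (nat_lit 561) (.a (.f (nat_lit 526) (nat_lit 525) (nat_lit 3597) (.f (nat_lit 590) (nat_lit 589) (nat_lit 1581) (.d (nat_lit 562) (nat_lit 527) (nat_lit 3598) (nat_lit 591) (nat_lit 1582)))) (.a (.f (nat_lit 526) (nat_lit 525) (nat_lit 3597) (.f (nat_lit 562) (nat_lit 527) (nat_lit 3598) (.f (nat_lit 590) (nat_lit 589) (nat_lit 1581) (.f (nat_lit 595) (nat_lit 594) (nat_lit 559) (.f (nat_lit 563) (nat_lit 596) (nat_lit 560) (.d (nat_lit 531) (nat_lit 530) (nat_lit 2575) (nat_lit 532) (nat_lit 2576))))))) (.a (.f (nat_lit 526) (nat_lit 525) (nat_lit 3597) (.f (nat_lit 562) (nat_lit 527) (nat_lit 3598) (.f (nat_lit 595) (nat_lit 594) (nat_lit 559) (.f (nat_lit 563) (nat_lit 596) (nat_lit 560) (.d (nat_lit 531) (nat_lit 530) (nat_lit 2575) (nat_lit 532) (nat_lit 2576)))))) (.a (.f (nat_lit 590) (nat_lit 589) (nat_lit 1581) (.f (nat_lit 562) (nat_lit 591) (nat_lit 1582) (.f (nat_lit 563) (nat_lit 527) (nat_lit 3599) (.d (nat_lit 595) (nat_lit 594) (nat_lit 559) (nat_lit 596) (nat_lit 560))))) (.a s20407 (.f (nat_lit 590) (nat_lit 589) (nat_lit 1581) (.f (nat_lit 562) (nat_lit 591) (nat_lit 1582) (.f (nat_lit 526) (nat_lit 525) (nat_lit 3597) (.f (nat_lit 595) (nat_lit 594) (nat_lit 559) (.f (nat_lit 563) (nat_lit 596) (nat_lit 560) (.d (nat_lit 531) (nat_lit 530) (nat_lit 2575) (nat_lit 532) (nat_lit 2576))))))))))))) (.a (.p (nat_lit 557) (.a (.f (nat_lit 556) (nat_lit 527) (nat_lit 2572) (.d (nat_lit 588) (nat_lit 587) (nat_lit 1579) (nat_lit 589) (nat_lit 1580))) (.a (.f (nat_lit 589) (nat_lit 588) (nat_lit 1580) (.f (nat_lit 590) (nat_lit 561) (nat_lit 1581) (.p (nat_lit 526) (.a (.d (nat_lit 494) (nat_lit 462) (nat_lit 5581) (nat_lit 621) (nat_lit 5613)) (.a (.d (nat_lit 621) (nat_lit 494) (nat_lit 5613) (nat_lit 653) (nat_lit 6669)) (.a (.f (nat_lit 494) (nat_lit 462) (nat_lit 5581) (.f (nat_lit 623) (nat_lit 591) (nat_lit 4590) (.f (nat_lit 622) (nat_lit 655) (nat_lit 4622) (.d (nat_lit 495) (nat_lit 463) (nat_lit 6606) (nat_lit 527) (nat_lit 6638))))) (.f (nat_lit 621) (nat_lit 653) (nat_lit 6669) (.p (nat_lit 622) (.a (.d (nat_lit 527) (nat_lit 495) (nat_lit 6638) (nat_lit 654) (nat_lit 6670)) (.a (.p (nat_lit 591) (.a (.d (nat_lit 620) (nat_lit 592) (nat_lit 1612) (nat_lit 619) (nat_lit 2635)) (.f (nat_lit 623) (nat_lit 655) (nat_lit 6671) (.f (nat_lit 624) (nat_lit 625) (nat_lit 3661) (.d (nat_lit 527) (nat_lit 495) (nat_lit 5614) (nat_lit 656) (nat_lit 4623)))))) (.f (nat_lit 655) (nat_lit 623) (nat_lit 4622) (.d (nat_lit 654) (nat_lit 686) (nat_lit 7725) (nat_lit 687) (nat_lit 4654))))))))))))) (.a (.f (nat_lit 556) (nat_lit 527) (nat_lit 2572) (.f (nat_lit 591) (nat_lit 592) (nat_lit 556) (.f (nat_lit 623) (nat_lit 655) (nat_lit 6671) (.f (nat_lit 555) (nat_lit 590) (nat_lit 555) (.d (nat_lit 587) (nat_lit 586) (nat_lit 1578) (nat_lit 588) (nat_lit 1579)))))) (.a (.f (nat_lit 556) (nat_lit 527) (nat_lit 2572) (.f (nat_lit 591) (nat_lit 592) (nat_lit 556) (.f (nat_lit 590) (nat_lit 555) (nat_lit 555) (.d (nat_lit 561) (nat_lit 562) (nat_lit 1582) (nat_lit 589) (nat_lit 1581))))) s20615))))) (.a (.p (nat_lit 557) (.a (.f (nat_lit 556) (nat_lit 527) (nat_lit 2572) (.d (nat_lit 588) (nat_lit 587) (nat_lit 1579) (nat_lit 589) (nat_lit 1580))) (.a (.f (nat_lit 525) (nat_lit 524) (nat_lit 3596) (.f (nat_lit 589) (nat_lit 588) (nat_lit 1580) (.p (nat_lit 493) (.a (.d (nat_lit 590) (nat_lit 461) (nat_lit 4557) (nat_lit 622) (nat_lit 4589)) (.a (.f (nat_lit 494) (nat_lit 462) (nat_lit 6605) (.f (nat_lit 526) (nat_lit 621) (nat_lit 6637) (.d (nat_lit 461) (nat_lit 429) (nat_lit 4525) (nat_lit 590) (nat_lit 4557)))) (.f (nat_lit 494) (nat_lit 462) (nat_lit 6605) (.f (nat_lit 526) (nat_lit 621) (nat_lit 6637) (.d (nat_lit 492) (nat_lit 460) (nat_lit 7628) (nat_lit 527) (nat_lit 3564))))))))) (.a (.f (nat_lit 556) (nat_lit 527) (nat_lit 2572) (.d (nat_lit 524) (nat_lit 523) (nat_lit 3595) (nat_lit 525) (nat_lit 3596))) s20632)))) (.p (nat_lit 557) (.a (.f (nat_lit 525) (nat_lit 524) (nat_lit 3596) (.f (nat_lit 589) (nat_lit 588) (nat_lit 1580) (.d (nat_lit 561) (nat_lit 526) (nat_lit 3597) (nat_lit 590) (nat_lit 1581)))) (.a (.f (nat_lit 525) (nat_lit 524) (nat_lit 3596) (.f (nat_lit 589) (nat_lit 588) (nat_lit 1580) (.f (nat_lit 526) (nat_lit 561) (nat_lit 3597) (.d (nat_lit 494) (nat_lit 462) (nat_lit 5581) (nat_lit 621) (nat_lit 6637))))) (.a (.f (nat_lit 525) (nat_lit 524) (nat_lit 3596) (.f (nat_lit 526) (nat_lit 561) (nat_lit 3597) (.p (nat_lit 591) (.a (.f (nat_lit 623) (nat_lit 655) (nat_lit 6671) (.d (nat_lit 494) (nat_lit 462) (nat_lit 4558) (nat_lit 590) (nat_lit 4590))) (.a (.f (nat_lit 623) (nat_lit 655) (nat_lit 6671) (.f (nat_lit 590) (nat_lit 494) (nat_lit 4590) (.d (nat_lit 556) (nat_lit 555) (nat_lit 555) (nat_lit 592) (nat_lit 556)))) (.f (nat_lit 556) (nat_lit 592) (nat_lit 556) (.f (nat_lit 555) (nat_lit 554) (nat_lit 2570) (.d (nat_lit 587) (nat_lit 586) (nat_lit 1578) (nat_lit 588) (nat_lit 1579))))))))) (.a (.f (nat_lit 589) (nat_lit 588) (nat_lit 1580) (.f (nat_lit 525) (nat_lit 524) (nat_lit 3596) (.f (nat_lit 590) (nat_lit 561) (nat_lit 1581) (.d (nat_lit 493) (nat_lit 461) (nat_lit 4557) (nat_lit 622) (nat_lit 4589))))) (.a s20615 (.a (.f (nat_lit 525) (nat_lit 524) (nat_lit 3596) (.f (nat_lit 526) (nat_lit 561) (nat_lit 3597) (.p (nat_lit 494) (.a (.d (nat_lit 462) (nat_lit 589) (nat_lit 5581) (nat_lit 591) (nat_lit 4558)) (.a (.p (nat_lit 590) (.a (.d (nat_lit 493) (nat_lit 461) (nat_lit 7629) (nat_lit 622) (nat_lit 7661)) (.f (nat_lit 589) (nat_lit 621) (nat_lit 5613) (.f (nat_lit 591) (nat_lit 623) (nat_lit 4590) (.d (nat_lit 556) (nat_lit 555) (nat_lit 555) (nat_lit 592) (nat_lit 556)))))) (.a (.d (nat_lit 462) (nat_lit 430) (nat_lit 5549) (nat_lit 589) (nat_lit 5581)) (.d (nat_lit 462) (nat_lit 430) (nat_lit 5549) (nat_lit 591) (nat_lit 4558)))))))) (.a (.f (nat_lit 589) (nat_lit 588) (nat_lit 1580) (.f (nat_lit 590) (nat_lit 561) (nat_lit 1581) (.p (nat_lit 591) (.a (.d (nat_lit 556) (nat_lit 555) (nat_lit 555) (nat_lit 592) (nat_lit 556)) (.a (.f (nat_lit 623) (nat_lit 655) (nat_lit 6671) (.f (nat_lit 526) (nat_lit 494) (nat_lit 4590) (.p (nat_lit 622) (.a (.d (nat_lit 525) (nat_lit 493) (nat_lit 7661) (nat_lit 654) (nat_lit 7693)) (.a (.d (nat_lit 654) (nat_lit 525) (nat_lit 7693) (nat_lit 686) (nat_lit 6702)) (.f (nat_lit 621) (nat_lit 653) (nat_lit 5645) (.d (nat_lit 620) (nat_lit 592) (nat_lit 1612) (nat_lit 619) (nat_lit 2635)))))))) (.f (nat_lit 623) (nat_lit 655) (nat_lit 6671) (.f (nat_lit 526) (nat_lit 494) (nat_lit 4590) (.p (nat_lit 622) (.a (.d (nat_lit 525) (nat_lit 493) (nat_lit 7661) (nat_lit 654) (nat_lit 7693)) (.a (.d (nat_lit 654) (nat_lit 525) (nat_lit 7693) (nat_lit 686) (nat_lit 6702)) (.a (.f (nat_lit 621) (nat_lit 653) (nat_lit 5645) (.f (nat_lit 525) (nat_lit 493) (nat_lit 7661) (.d (nat_lit 620) (nat_lit 619) (nat_lit 2635) (nat_lit 652) (nat_lit 5644)))) (.f (nat_lit 653) (nat_lit 621) (nat_lit 5645) (.d (nat_lit 654) (nat_lit 685) (nat_lit 5677) (nat_lit 686) (nat_lit 6702)))))))))))))) s20632)))))))))))))))))) (.a (.p (nat_lit 591) (.a (.f (nat_lit 623) (nat_lit 655) (nat_lit 6671) (.p (nat_lit 527) (.a (.f (nat_lit 624) (nat_lit 656) (nat_lit 4623) (.f (nat_lit 495) (nat_lit 592) (nat_lit 7663) (.d (nat_lit 622) (nat_lit 590) (nat_lit 5614) (nat_lit 654) (nat_lit 5646)))) (.a (.f (nat_lit 624) (nat_lit 656) (nat_lit 4623) (.f (nat_lit 495) (nat_lit 592) (nat_lit 7663) (.d (nat_lit 494) (nat_lit 462) (nat_lit 7630) (nat_lit 526) (nat_lit 7662)))) (.a (.f (nat_lit 622) (nat_lit 654) (nat_lit 5646) (.f (nat_lit 590) (nat_lit 495) (nat_lit 5614) (.f (nat_lit 589) (nat_lit 588) (nat_lit 2604) (.d (nat_lit 561) (nat_lit 558) (nat_lit 1581) (nat_lit 562) (nat_lit 1582))))) (.f (nat_lit 624) (nat_lit 656) (nat_lit 4623) (.f (nat_lit 622) (nat_lit 654) (nat_lit 5646) (.f (nat_lit 526) (nat_lit 494) (nat_lit 7662) (.f (nat_lit 561) (nat_lit 562) (nat_lit 3598) (.p (nat_lit 590) (.a (.d (nat_lit 589) (nat_lit 558) (nat_lit 1581) (nat_lit 588) (nat_lit 2604)) (.a (.d (nat_lit 589) (nat_lit 588) (nat_lit 2604) (nat_lit 592) (nat_lit 2605)) (.p (nat_lit 621) (.a (.d (nat_lit 592) (nat_lit 593) (nat_lit 1613) (nat_lit 620) (nat_lit 2636)) (.d (nat_lit 653) (nat_lit 558) (nat_lit 5645) (nat_lit 652) (nat_lit 1644)))))))))))))))) (.a (.f (nat_lit 623) (nat_lit 655) (nat_lit 6671) (.p (nat_lit 527) (.a (.f (nat_lit 624) (nat_lit 656) (nat_lit 4623) (.f (nat_lit 495) (nat_lit 592) (nat_lit 7663) (.d (nat_lit 622) (nat_lit 590) (nat_lit 5614) (nat_lit 654) (nat_lit 5646)))) (.a (.f (nat_lit 624) (nat_lit 656) (nat_lit 4623) (.f (nat_lit 592) (nat_lit 495) (nat_lit 7663) (.f (nat_lit 625) (nat_lit 657) (nat_lit 4624) (.d (nat_lit 590) (nat_lit 589) (nat_lit 589) (nat_lit 626) (nat_lit 3662))))) (.a (.f (nat_lit 622) (nat_lit 654) (nat_lit 5646) (.f (nat_lit 590) (nat_lit 495) (nat_lit 5614) (.f (nat_lit 589) (nat_lit 588) (nat_lit 2604) (.d (nat_lit 561) (nat_lit 558) (nat_lit 1581) (nat_lit 562) (nat_lit 1582))))) (.a (.f (nat_lit 624) (nat_lit 656) (nat_lit 4623) (.f (nat_lit 592) (nat_lit 495) (nat_lit 7663) (.f (nat_lit 622) (nat_lit 654) (nat_lit 5646) (.d (nat_lit 593) (nat_lit 594) (nat_lit 1614) (nat_lit 621) (nat_lit 2637))))) (.f (nat_lit 624) (nat_lit 656) (nat_lit 4623) (.f (nat_lit 622) (nat_lit 654) (nat_lit 5646) (.p (nat_lit 590) (.a (.f (nat_lit 589) (nat_lit 588) (nat_lit 2604) (.d (nat_lit 561) (nat_lit 558) (nat_lit 1581) (nat_lit 562) (nat_lit 1582))) (.a (.d (nat_lit 589) (nat_lit 588) (nat_lit 588) (nat_lit 625) (nat_lit 3661)) (.f (nat_lit 625) (nat_lit 626) (nat_lit 3662) (.d (nat_lit 657) (nat_lit 592) (nat_lit 4624) (nat_lit 658) (nat_lit 622)))))))))))))) (.a (.f (nat_lit 623) (nat_lit 655) (nat_lit 6671) (.p (nat_lit 527) (.a (.f (nat_lit 624) (nat_lit 656) (nat_lit 4623) (.f (nat_lit 495) (nat_lit 592) (nat_lit 7663) (.d (nat_lit 494) (nat_lit 462) (nat_lit 7630) (nat_lit 526) (nat_lit 7662)))) (.a (.f (nat_lit 624) (nat_lit 656) (nat_lit 4623) (.f (nat_lit 592) (nat_lit 495) (nat_lit 7663) (.f (nat_lit 625) (nat_lit 657) (nat_lit 4624) (.d (nat_lit 590) (nat_lit 589) (nat_lit 589) (nat_lit 626) (nat_lit 3662))))) (.a (.f (nat_lit 494) (nat_lit 526) (nat_lit 7662) (.f (nat_lit 495) (nat_lit 462) (nat_lit 7630) (.d (nat_lit 463) (nat_lit 431) (nat_lit 4527) (nat_lit 592) (nat_lit 4559)))) (.a (.f (nat_lit 494) (nat_lit 526) (nat_lit 7662) (.f (nat_lit 495) (nat_lit 462) (nat_lit 7630) (.f (nat_lit 624) (nat_lit 656) (nat_lit 4623) (.p (nat_lit 561) (.a (.d (nat_lit 562) (nat_lit 563) (nat_lit 3599) (nat_lit 590) (nat_lit 1582)) (.a (.f (nat_lit 562) (nat_lit 563) (nat_lit 3599) (.p (nat_lit 466) (.a (.f (nat_lit 463) (nat_lit 431) (nat_lit 4527) (.d (nat_lit 464) (nat_lit 432) (nat_lit 6575) (nat_lit 465) (nat_lit 1486))) (.p (nat_lit 593) (.a (.d (nat_lit 594) (nat_lit 558) (nat_lit 558) (nat_lit 595) (nat_lit 559)) (.d (nat_lit 530) (nat_lit 498) (nat_lit 5585) (nat_lit 531) (nat_lit 2575))))))) (.a (.f (nat_lit 590) (nat_lit 562) (nat_lit 1582) (.d (nat_lit 589) (nat_lit 558) (nat_lit 1581) (nat_lit 588) (nat_lit 2604))) (.p (nat_lit 625) (.a (.f (nat_lit 590) (nat_lit 626) (nat_lit 3662) (.d (nat_lit 589) (nat_lit 558) (nat_lit 1581) (nat_lit 588) (nat_lit 2604))) (.a (.f (nat_lit 593) (nat_lit 657) (nat_lit 7696) (.f (nat_lit 594) (nat_lit 558) (nat_lit 558) (.d (nat_lit 595) (nat_lit 596) (nat_lit 1616) (nat_lit 626) (nat_lit 2639)))) (.a (.f (nat_lit 626) (nat_lit 590) (nat_lit 3662) (.f (nat_lit 659) (nat_lit 658) (nat_lit 623) (.f (nat_lit 595) (nat_lit 594) (nat_lit 2639) (.d (nat_lit 627) (nat_lit 596) (nat_lit 2640) (nat_lit 660) (nat_lit 624))))) (.p (nat_lit 558) (.a (.d (nat_lit 593) (nat_lit 594) (nat_lit 558) (nat_lit 657) (nat_lit 7696)) (.d (nat_lit 463) (nat_lit 431) (nat_lit 4527) (nat_lit 590) (nat_lit 5582))))))))))))))) (.f (nat_lit 624) (nat_lit 656) (nat_lit 4623) (.f (nat_lit 526) (nat_lit 494) (nat_lit 7662) (.f (nat_lit 561) (nat_lit 562) (nat_lit 3598) (.p (nat_lit 590) (.a (.d (nat_lit 589) (nat_lit 558) (nat_lit 1581) (nat_lit 588) (nat_lit 2604)) (.a (.d (nat_lit 589) (nat_lit 588) (nat_lit 2604) (nat_lit 592) (nat_lit 2605)) (.p (nat_lit 593) (.a (.f (nat_lit 558) (nat_lit 594) (nat_lit 558) (.d (nat_lit 557) (nat_lit 556) (nat_lit 2572) (nat_lit 592) (nat_lit 557))) (.d (nat_lit 625) (nat_lit 626) (nat_lit 3662) (nat_lit 657) (nat_lit 7696)))))))))))))))) (.a (.f (nat_lit 623) (nat_lit 655) (nat_lit 6671) (.p (nat_lit 527) (.a (.f (nat_lit 622) (nat_lit 654) (nat_lit 5646) (.f (nat_lit 590) (nat_lit 495) (nat_lit 5614) (.f (nat_lit 589) (nat_lit 588) (nat_lit 2604) (.d (nat_lit 561) (nat_lit 558) (nat_lit 1581) (nat_lit 562) (nat_lit 1582))))) (.a (.f (nat_lit 494) (nat_lit 526) (nat_lit 7662) (.f (nat_lit 495) (nat_lit 462) (nat_lit 7630) (.d (nat_lit 463) (nat_lit 431) (nat_lit 4527) (nat_lit 592) (nat_lit 4559)))) (.f (nat_lit 526) (nat_lit 494) (nat_lit 7662) (.f (nat_lit 561) (nat_lit 562) (nat_lit 3598) (.f (nat_lit 622) (nat_lit 654) (nat_lit 5646) (.p (nat_lit 558) (.a (.f (nat_lit 557) (nat_lit 556) (nat_lit 2572) (.d (nat_lit 593) (nat_lit 592) (nat_lit 557) (nat_lit 594) (nat_lit 558))) (.a (.p (nat_lit 592) (.a (.d (nat_lit 593) (nat_lit 557) (nat_lit 557) (nat_lit 594) (nat_lit 558)) (.a (.f (nat_lit 590) (nat_lit 589) (nat_lit 1581) (.d (nat_lit 593) (nat_lit 557) (nat_lit 557) (nat_lit 621) (nat_lit 1613))) (.a (.f (nat_lit 590) (nat_lit 589) (nat_lit 1581) (.d (nat_lit 593) (nat_lit 594) (nat_lit 3630) (nat_lit 621) (nat_lit 1613))) (.f (nat_lit 590) (nat_lit 589) (nat_lit 1581) (.d (nat_lit 621) (nat_lit 620) (nat_lit 2636) (nat_lit 653) (nat_lit 5645))))))) (.a (.f (nat_lit 557) (nat_lit 556) (nat_lit 2572) (.d (nat_lit 589) (nat_lit 588) (nat_lit 1580) (nat_lit 590) (nat_lit 1581))) (.f (nat_lit 590) (nat_lit 589) (nat_lit 1581) (.p (nat_lit 592) (.a (.d (nat_lit 593) (nat_lit 594) (nat_lit 3630) (nat_lit 621) (nat_lit 1613)) (.a (.d (nat_lit 621) (nat_lit 593) (nat_lit 1613) (nat_lit 653) (nat_lit 5645)) (.a (.f (nat_lit 593) (nat_lit 594) (nat_lit 558) (.d (nat_lit 625) (nat_lit 626) (nat_lit 590) (nat_lit 657) (nat_lit 7696))) (.d (nat_lit 621) (nat_lit 620) (nat_lit 2636) (nat_lit 653) (nat_lit 5645)))))))))))))))))) (.a (.f (nat_lit 623) (nat_lit 655) (nat_lit 6671) (.p (nat_lit 624) (.a (.f (nat_lit 527) (nat_lit 656) (nat_lit 4623) (.f (nat_lit 495) (nat_lit 592) (nat_lit 7663) (.d (nat_lit 494) (nat_lit 462) (nat_lit 7630) (nat_lit 526) (nat_lit 7662)))) (.a (.f (nat_lit 527) (nat_lit 656) (nat_lit 4623) (.f (nat_lit 592) (nat_lit 495) (nat_lit 7663) (.f (nat_lit 622) (nat_lit 654) (nat_lit 5646) (.d (nat_lit 593) (nat_lit 594) (nat_lit 1614) (nat_lit 621) (nat_lit 2637))))) (.a s19922 (.a (.p (nat_lit 622) (.a (.f (nat_lit 527) (nat_lit 654) (nat_lit 5646) (.f (nat_lit 592) (nat_lit 495) (nat_lit 7663) (.d (nat_lit 593) (nat_lit 594) (nat_lit 1614) (nat_lit 621) (nat_lit 2637)))) (.a (.f (nat_lit 527) (nat_lit 654) (nat_lit 5646) (.f (nat_lit 592) (nat_lit 495) (nat_lit 7663) (.d (nat_lit 621) (nat_lit 593) (nat_lit 2637) (nat_lit 620) (nat_lit 2636)))) (.a (.f (nat_lit 527) (nat_lit 654) (nat_lit 5646) (.f (nat_lit 592) (nat_lit 495) (nat_lit 7663) (.f (nat_lit 594) (nat_lit 593) (nat_lit 1614) (.p (nat_lit 562) (.a (.d (nat_lit 561) (nat_lit 563) (nat_lit 3599) (nat_lit 595) (nat_lit 559)) (.a (.d (nat_lit 561) (nat_lit 526) (nat_lit 3598) (nat_lit 595) (nat_lit 559)) (.a (.d (nat_lit 561) (nat_lit 526) (nat_lit 3598) (nat_lit 563) (nat_lit 1583)) (.f (nat_lit 625) (nat_lit 657) (nat_lit 4624) (.d (nat_lit 626) (nat_lit 595) (nat_lit 2639) (nat_lit 627) (nat_lit 3663)))))))))) (.a (.p (nat_lit 593) (.a (.d (nat_lit 592) (nat_lit 594) (nat_lit 1614) (nat_lit 621) (nat_lit 2637)) (.a (.f (nat_lit 621) (nat_lit 592) (nat_lit 2637) (.p (nat_lit 620) (.a (.d (nat_lit 652) (nat_lit 651) (nat_lit 1643) (nat_lit 653) (nat_lit 1644)) (.d (nat_lit 588) (nat_lit 587) (nat_lit 3659) (nat_lit 589) (nat_lit 3660))))) (.a (.d (nat_lit 594) (nat_lit 592) (nat_lit 1614) (nat_lit 625) (nat_lit 2638)) (.f (nat_lit 625) (nat_lit 594) (nat_lit 2638) (.d (nat_lit 657) (nat_lit 561) (nat_lit 7696) (nat_lit 658) (nat_lit 622))))))) (.a (.f (nat_lit 654) (nat_lit 527) (nat_lit 5646) (.f (nat_lit 625) (nat_lit 653) (nat_lit 1645) (.f (nat_lit 594) (nat_lit 593) (nat_lit 2638) (.f (nat_lit 626) (nat_lit 595) (nat_lit 2639) (.d (nat_lit 658) (nat_lit 657) (nat_lit 622) (nat_lit 659) (nat_lit 623)))))) (.f (nat_lit 527) (nat_lit 654) (nat_lit 5646) (.f (nat_lit 495) (nat_lit 592) (nat_lit 7663) (.d (nat_lit 494) (nat_lit 462) (nat_lit 7630) (nat_lit 526) (nat_lit 7662)))))))))) s19985)))))) (.a s19999 (.a (.p (nat_lit 590) (.a (.f (nat_lit 589) (nat_lit 588) (nat_lit 2604) (.d (nat_lit 561) (nat_lit 558) (nat_lit 1581) (nat_lit 562) (nat_lit 1582))) (.a (.f (nat_lit 561) (nat_lit 562) (nat_lit 1582) (.d (nat_lit 589) (nat_lit 588) (nat_lit 2604) (nat_lit 592) (nat_lit 2605))) (.a (.f (nat_lit 561) (nat_lit 562) (nat_lit 1582) (.p (nat_lit 527) (.a (.f (nat_lit 495) (nat_lit 622) (nat_lit 5614) (.d (nat_lit 463) (nat_lit 431) (nat_lit 4527) (nat_lit 592) (nat_lit 4559))) (.a (.p (nat_lit 495) (.a (.d (nat_lit 463) (nat_lit 431) (nat_lit 4527) (nat_lit 592) (nat_lit 4559)) (.a (.d (nat_lit 592) (nat_lit 463) (nat_lit 4559) (nat_lit 624) (nat_lit 7663)) (.a (.d (nat_lit 463) (nat_lit 431) (nat_lit 4527) (nat_lit 558) (nat_lit 5582)) (.f (nat_lit 592) (nat_lit 624) (nat_lit 7663) (.p (nat_lit 593) (.a (.d (nat_lit 558) (nat_lit 557) (nat_lit 557) (nat_lit 594) (nat_lit 558)) (.d (nat_lit 625) (nat_lit 626) (nat_lit 590) (nat_lit 657) (nat_lit 7696))))))))) (.a (.f (nat_lit 495) (nat_lit 622) (nat_lit 5614) (.d (nat_lit 592) (nat_lit 463) (nat_lit 4559) (nat_lit 624) (nat_lit 7663))) (.a (.f (nat_lit 495) (nat_lit 622) (nat_lit 5614) (.d (nat_lit 463) (nat_lit 431) (nat_lit 4527) (nat_lit 558) (nat_lit 5582))) (.a (.f (nat_lit 622) (nat_lit 495) (nat_lit 5614) (.d (nat_lit 654) (nat_lit 558) (nat_lit 6670) (nat_lit 623) (nat_lit 5646))) (.p (nat_lit 622) (.a (.d (nat_lit 654) (nat_lit 558) (nat_lit 6670) (nat_lit 623) (nat_lit 5646)) (.a (.d (nat_lit 654) (nat_lit 623) (nat_lit 5646) (nat_lit 686) (nat_lit 6702)) (.a (.p (nat_lit 592) (.a (.f (nat_lit 593) (nat_lit 621) (nat_lit 1613) (.d (nat_lit 558) (nat_lit 557) (nat_lit 557) (nat_lit 594) (nat_lit 558))) (.a (.f (nat_lit 593) (nat_lit 621) (nat_lit 1613) (.d (nat_lit 625) (nat_lit 626) (nat_lit 590) (nat_lit 657) (nat_lit 7696))) (.a (.p (nat_lit 593) (.a (.d (nat_lit 558) (nat_lit 557) (nat_lit 557) (nat_lit 594) (nat_lit 558)) (.d (nat_lit 625) (nat_lit 626) (nat_lit 590) (nat_lit 657) (nat_lit 7696)))) (.f (nat_lit 624) (nat_lit 656) (nat_lit 7695) (.p (nat_lit 623) (.a (.f (nat_lit 621) (nat_lit 620) (nat_lit 2636) (.f (nat_lit 526) (nat_lit 494) (nat_lit 7662) (.d (nat_lit 653) (nat_lit 558) (nat_lit 5645) (nat_lit 652) (nat_lit 1644)))) (.d (nat_lit 625) (nat_lit 626) (nat_lit 3662) (nat_lit 657) (nat_lit 4624))))))))) (.d (nat_lit 654) (nat_lit 558) (nat_lit 6670) (nat_lit 686) (nat_lit 6702))))))))))))) (.a (.f (nat_lit 589) (nat_lit 588) (nat_lit 2604) (.d (nat_lit 561) (nat_lit 558) (nat_lit 1581) (nat_lit 592) (nat_lit 2605))) (.f (nat_lit 589) (nat_lit 588) (nat_lit 2604) (.p (nat_lit 592) (.a (.f (nat_lit 557) (nat_lit 556) (nat_lit 3628) (.f (nat_lit 593) (nat_lit 558) (nat_lit 557) (.d (nat_lit 621) (nat_lit 620) (nat_lit 1612) (nat_lit 622) (nat_lit 1613)))) (.f (nat_lit 624) (nat_lit 625) (nat_lit 589) (.d (nat_lit 527) (nat_lit 495) (nat_lit 7663) (nat_lit 656) (nat_lit 7695))))))))))) (.a (.f (nat_lit 623) (nat_lit 655) (nat_lit 6671) (.p (nat_lit 527) (.a (.f (nat_lit 624) (nat_lit 656) (nat_lit 4623) (.f (nat_lit 495) (nat_lit 592) (nat_lit 7663) (.d (nat_lit 622) (nat_lit 590) (nat_lit 5614) (nat_lit 654) (nat_lit 5646)))) (.a (.f (nat_lit 624) (nat_lit 656) (nat_lit 4623) (.f (nat_lit 495) (nat_lit 592) (nat_lit 7663) (.d (nat_lit 494) (nat_lit 462) (nat_lit 7630) (nat_lit 526) (nat_lit 7662)))) (.a (.f (nat_lit 622) (nat_lit 654) (nat_lit 5646) (.f (nat_lit 495) (nat_lit 590) (nat_lit 5614) (.d (nat_lit 463) (nat_lit 431) (nat_lit 4527) (nat_lit 592) (nat_lit 4559)))) (.a (.f (nat_lit 622) (nat_lit 654) (nat_lit 5646) (.f (nat_lit 495) (nat_lit 590) (nat_lit 5614) (.d (nat_lit 494) (nat_lit 462) (nat_lit 7630) (nat_lit 526) (nat_lit 7662)))) (.f (nat_lit 624) (nat_lit 656) (nat_lit 4623) (.f (nat_lit 622) (nat_lit 654) (nat_lit 5646) (.p (nat_lit 592) (.a (.d (nat_lit 593) (nat_lit 594) (nat_lit 1614) (nat_lit 621) (nat_lit 2637)) (.a (.d (nat_lit 621) (nat_lit 593) (nat_lit 2637) (nat_lit 620) (nat_lit 2636)) (.a (.f (nat_lit 593) (nat_lit 594) (nat_lit 1614) (.p (nat_lit 561) (.a (.d (nat_lit 562) (nat_lit 563) (nat_lit 3599) (nat_lit 590) (nat_lit 1582)) (.a (.d (nat_lit 562) (nat_lit 526) (nat_lit 3598) (nat_lit 563) (nat_lit 1583)) (.a (.d (nat_lit 562) (nat_lit 526) (nat_lit 3598) (nat_lit 590) (nat_lit 1582)) (.f (nat_lit 625) (nat_lit 657) (nat_lit 4624) (.d (nat_lit 626) (nat_lit 590) (nat_lit 3662) (nat_lit 627) (nat_lit 3663)))))))) (.f (nat_lit 625) (nat_lit 657) (nat_lit 4624) (.d (nat_lit 626) (nat_lit 590) (nat_lit 3662) (nat_lit 627) (nat_lit 3663))))))))))))))) (.a (.f (nat_lit 623) (nat_lit 655) (nat_lit 6671) (.p (nat_lit 590) (.a (.f (nat_lit 589) (nat_lit 588) (nat_lit 2604) (.d (nat_lit 561) (nat_lit 558) (nat_lit 1581) (nat_lit 562) (nat_lit 1582))) (.a s20073 (.a (.p (nat_lit 527) (.a (.d (nat_lit 622) (nat_lit 495) (nat_lit 5614) (nat_lit 654) (nat_lit 5646)) (.a (.f (nat_lit 561) (nat_lit 562) (nat_lit 1582) (.f (nat_lit 494) (nat_lit 526) (nat_lit 7662) (.f (nat_lit 495) (nat_lit 462) (nat_lit 7630) (.d (nat_lit 463) (nat_lit 431) (nat_lit 4527) (nat_lit 558) (nat_lit 5582))))) (.f (nat_lit 622) (nat_lit 654) (nat_lit 5646) (.f (nat_lit 561) (nat_lit 562) (nat_lit 1582) (.f (nat_lit 624) (nat_lit 656) (nat_lit 4623) (.f (nat_lit 625) (nat_lit 626) (nat_lit 3662) (.d (nat_lit 657) (nat_lit 593) (nat_lit 7696) (nat_lit 658) (nat_lit 622))))))))) (.a (.f (nat_lit 589) (nat_lit 588) (nat_lit 2604) (.f (nat_lit 558) (nat_lit 561) (nat_lit 1581) (.f (nat_lit 526) (nat_lit 494) (nat_lit 4590) (.p (nat_lit 622) (.a (.d (nat_lit 527) (nat_lit 495) (nat_lit 5614) (nat_lit 654) (nat_lit 5646)) (.a (.f (nat_lit 624) (nat_lit 625) (nat_lit 3661) (.d (nat_lit 527) (nat_lit 495) (nat_lit 5614) (nat_lit 656) (nat_lit 4623))) (.f (nat_lit 653) (nat_lit 621) (nat_lit 5645) (.d (nat_lit 654) (nat_lit 685) (nat_lit 5677) (nat_lit 686) (nat_lit 6702))))))))) (.f (nat_lit 589) (nat_lit 588) (nat_lit 2604) (.p (nat_lit 527) (.a (.d (nat_lit 622) (nat_lit 495) (nat_lit 5614) (nat_lit 654) (nat_lit 5646)) (.a (.f (nat_lit 494) (nat_lit 526) (nat_lit 7662) (.f (nat_lit 495) (nat_lit 462) (nat_lit 7630) (.d (nat_lit 463) (nat_lit 431) (nat_lit 4527) (nat_lit 558) (nat_lit 5582)))) (.f (nat_lit 622) (nat_lit 654) (nat_lit 5646) (.d (nat_lit 624) (nat_lit 625) (nat_lit 3661) (nat_lit 656) (nat_lit 4623))))))))))))) (.a (.f (nat_lit 623) (nat_lit 655) (nat_lit 6671) (.p (nat_lit 527) (.a (.f (nat_lit 624) (nat_lit 656) (nat_lit 4623) (.f (nat_lit 495) (nat_lit 592) (nat_lit 7663) (.d (nat_lit 622) (nat_lit 590) (nat_lit 5614) (nat_lit 654) (nat_lit 5646)))) (.a (.f (nat_lit 624) (nat_lit 656) (nat_lit 4623) (.f (nat_lit 495) (nat_lit 592) (nat_lit 7663) (.d (nat_lit 494) (nat_lit 462) (nat_lit 7630) (nat_lit 526) (nat_lit 7662)))) (.a (.f (nat_lit 622) (nat_lit 654) (nat_lit 5646) (.f (nat_lit 495) (nat_lit 590) (nat_lit 5614) (.d (nat_lit 463) (nat_lit 431) (nat_lit 4527) (nat_lit 592) (nat_lit 4559)))) (.a (.f (nat_lit 622) (nat_lit 654) (nat_lit 5646) (.f (nat_lit 590) (nat_lit 495) (nat_lit 5614) (.f (nat_lit 589) (nat_lit 588) (nat_lit 2604) (.d (nat_lit 561) (nat_lit 558) (nat_lit 1581) (nat_lit 562) (nat_lit 1582))))) (.f (nat_lit 624) (nat_lit 656) (nat_lit 4623) (.f (nat_lit 622) (nat_lit 654) (nat_lit 5646) (.p (nat_lit 590) (.a (.f (nat_lit 589) (nat_lit 588) (nat_lit 2604) (.d (nat_lit 561) (nat_lit 558) (nat_lit 1581) (nat_lit 562) (nat_lit 1582))) (.a (.d (nat_lit 589) (nat_lit 588) (nat_lit 588) (nat_lit 625) (nat_lit 3661)) (.f (nat_lit 625) (nat_lit 626) (nat_lit 3662) (.d (nat_lit 657) (nat_lit 592) (nat_lit 4624) (nat_lit 658) (nat_lit 622)))))))))))))) (.a (.f (nat_lit 623) (nat_lit 655) (nat_lit 6671) s20820) (.a (.p (nat_lit 561) (.a (.f (nat_lit 562) (nat_lit 590) (nat_lit 1582) (.d (nat_lit 563) (nat_lit 527) (nat_lit 3599) (nat_lit 592) (nat_lit 1583))) (.a (.p (nat_lit 562) (.a (.d (nat_lit 563) (nat_lit 527) (nat_lit 3599) (nat_lit 592) (nat_lit 1583)) (.f (nat_lit 594) (nat_lit 595) (nat_lit 559) (.f (nat_lit 593) (nat_lit 558) (nat_lit 558) (.f (nat_lit 530) (nat_lit 531) (nat_lit 2575) (.d (nat_lit 498) (nat_lit 466) (nat_lit 5585) (nat_lit 625) (nat_lit 5617))))))) (.a (.f (nat_lit 590) (nat_lit 562) (nat_lit 1582) (.d (nat_lit 589) (nat_lit 558) (nat_lit 1581) (nat_lit 588) (nat_lit 2604))) (.p (nat_lit 558) (.a (.f (nat_lit 590) (nat_lit 589) (nat_lit 1581) (.f (nat_lit 593) (nat_lit 594) (nat_lit 558) (.f (nat_lit 557) (nat_lit 592) (nat_lit 557) (.d (nat_lit 556) (nat_lit 527) (nat_lit 2572) (nat_lit 555) (nat_lit 555))))) (.a (.f (nat_lit 593) (nat_lit 594) (nat_lit 558) (.f (nat_lit 590) (nat_lit 589) (nat_lit 1581) (.f (nat_lit 592) (nat_lit 557) (nat_lit 557) (.d (nat_lit 625) (nat_lit 626) (nat_lit 590) (nat_lit 657) (nat_lit 7696))))) (.a (.f (nat_lit 589) (nat_lit 590) (nat_lit 1581) (.f (nat_lit 557) (nat_lit 588) (nat_lit 1580) (.d (nat_lit 556) (nat_lit 527) (nat_lit 2572) (nat_lit 592) (nat_lit 556)))) (.a (.f (nat_lit 593) (nat_lit 594) (nat_lit 558) (.f (nat_lit 557) (nat_lit 592) (nat_lit 557) (.f (nat_lit 556) (nat_lit 527) (nat_lit 2572) (.d (nat_lit 588) (nat_lit 587) (nat_lit 1579) (nat_lit 589) (nat_lit 1580))))) (.a (.f (nat_lit 593) (nat_lit 594) (nat_lit 558) (.f (nat_lit 592) (nat_lit 557) (nat_lit 557) (.f (nat_lit 625) (nat_lit 657) (nat_lit 7696) (.p (nat_lit 624) (.a (.d (nat_lit 527) (nat_lit 495) (nat_lit 7663) (nat_lit 656) (nat_lit 7695)) (.d (nat_lit 626) (nat_lit 590) (nat_lit 590) (nat_lit 627) (nat_lit 3663))))))) (.a (.f (nat_lit 593) (nat_lit 594) (nat_lit 558) (.p (nat_lit 557) (.a (.d (nat_lit 589) (nat_lit 588) (nat_lit 1580) (nat_lit 590) (nat_lit 1581)) (.a (.f (nat_lit 556) (nat_lit 527) (nat_lit 2572) (.d (nat_lit 588) (nat_lit 587) (nat_lit 1579) (nat_lit 589) (nat_lit 1580))) (.a (.f (nat_lit 556) (nat_lit 527) (nat_lit 2572) (.f (nat_lit 555) (nat_lit 590) (nat_lit 555) (.d (nat_lit 587) (nat_lit 586) (nat_lit 1578) (nat_lit 588) (nat_lit 1579)))) (.f (nat_lit 556) (nat_lit 527) (nat_lit 2572) (.d (nat_lit 590) (nat_lit 555) (nat_lit 555) (nat_lit 589) (nat_lit 1581)))))))) (.f (nat_lit 590) (nat_lit 589) (nat_lit 1581) (.f (nat_lit 593) (nat_lit 594) (nat_lit 558) (.f (nat_lit 625) (nat_lit 657) (nat_lit 7696) (.f (nat_lit 592) (nat_lit 626) (nat_lit 590) (.p (nat_lit 527) (.a (.d (nat_lit 495) (nat_lit 463) (nat_lit 4559) (nat_lit 624) (nat_lit 7663)) (.a (.d (nat_lit 495) (nat_lit 463) (nat_lit 5582) (nat_lit 622) (nat_lit 5614)) (.a (.d (nat_lit 624) (nat_lit 495) (nat_lit 7663) (nat_lit 656) (nat_lit 7695)) (.d (nat_lit 622) (nat_lit 621) (nat_lit 1613) (nat_lit 654) (nat_lit 6670))))))))))))))))))))) (.a (.f (nat_lit 623) (nat_lit 655) (nat_lit 6671) (.p (nat_lit 590) (.a (.f (nat_lit 589) (nat_lit 588) (nat_lit 2604) (.d (nat_lit 561) (nat_lit 558) (nat_lit 1581) (nat_lit 562) (nat_lit 1582))) (.a (.f (nat_lit 561) (nat_lit 562) (nat_lit 1582) (.d (nat_lit 589) (nat_lit 588) (nat_lit 2604) (nat_lit 592) (nat_lit 2605))) (.a (.f (nat_lit 561) (nat_lit 562) (nat_lit 1582) (.p (nat_lit 593) (.a (.f (nat_lit 558) (nat_lit 594) (nat_lit 558) (.f (nat_lit 557) (nat_lit 592) (nat_lit 557) (.d (nat_lit 556) (nat_lit 527) (nat_lit 2572) (nat_lit 555) (nat_lit 555)))) (.a (.p (nat_lit 592) (.a (.d (nat_lit 558) (nat_lit 557) (nat_lit 557) (nat_lit 594) (nat_lit 558)) (.d (nat_lit 625) (nat_lit 626) (nat_lit 590) (nat_lit 657) (nat_lit 7696)))) (.a (.f (nat_lit 625) (nat_lit 657) (nat_lit 7696) (.d (nat_lit 626) (nat_lit 592) (nat_lit 590) (nat_lit 624) (nat_lit 3662))) (.f (nat_lit 625) (nat_lit 657) (nat_lit 7696) (.f (nat_lit 624) (nat_lit 626) (nat_lit 3662) (.d (nat_lit 594) (nat_lit 558) (nat_lit 558) (nat_lit 622) (nat_lit 2638))))))))) (.a (.f (nat_lit 589) (nat_lit 588) (nat_lit 2604) (.d (nat_lit 561) (nat_lit 558) (nat_lit 1581) (nat_lit 592) (nat_lit 2605))) (.f (nat_lit 589) (nat_lit 588) (nat_lit 2604) (.p (nat_lit 592) (.a (.f (nat_lit 557) (nat_lit 556) (nat_lit 3628) (.f (nat_lit 593) (nat_lit 558) (nat_lit 557) (.d (nat_lit 621) (nat_lit 620) (nat_lit 1612) (nat_lit 622) (nat_lit 1613)))) (.f (nat_lit 624) (nat_lit 625) (nat_lit 589) (.d (nat_lit 656) (nat_lit 527) (nat_lit 4623) (nat_lit 688) (nat_lit 7727)))))))))))) (.p (nat_lit 590) (.a (.f (nat_lit 589) (nat_lit 588) (nat_lit 2604) (.d (nat_lit 561) (nat_lit 558) (nat_lit 1581) (nat_lit 562) (nat_lit 1582))) (.a (.f (nat_lit 561) (nat_lit 562) (nat_lit 1582) (.d (nat_lit 589) (nat_lit 588) (nat_lit 2604) (nat_lit 592) (nat_lit 2605))) (.a (.f (nat_lit 623) (nat_lit 655) (nat_lit 6671) (.f (nat_lit 561) (nat_lit 562) (nat_lit 1582) (.p (nat_lit 593) (.a (.f (nat_lit 594) (nat_lit 558) (nat_lit 558) (.d (nat_lit 595) (nat_lit 592) (nat_lit 3631) (nat_lit 596) (nat_lit 3632))) (.a (.f (nat_lit 625) (nat_lit 657) (nat_lit 7696) (.d (nat_lit 626) (nat_lit 592) (nat_lit 590) (nat_lit 624) (nat_lit 3662))) (.f (nat_lit 625) (nat_lit 657) (nat_lit 7696) (.f (nat_lit 624) (nat_lit 626) (nat_lit 3662) (.d (nat_lit 594) (nat_lit 558) (nat_lit 558) (nat_lit 622) (nat_lit 2638))))))))) (.a (.f (nat_lit 589) (nat_lit 588) (nat_lit 2604) (.d (nat_lit 561) (nat_lit 558) (nat_lit 1581) (nat_lit 592) (nat_lit 2605))) (.f (nat_lit 623) (nat_lit 655) (nat_lit 6671) (.f (nat_lit 589) (nat_lit 588) (nat_lit 2604) (.p (nat_lit 592) (.a (.f (nat_lit 557) (nat_lit 556) (nat_lit 3628) (.f (nat_lit 593) (nat_lit 558) (nat_lit 557) (.d (nat_lit 621) (nat_lit 620) (nat_lit 1612) (nat_lit 622) (nat_lit 1613)))) (.a (.f (nat_lit 624) (nat_lit 625) (nat_lit 589) (.f (nat_lit 557) (nat_lit 556) (nat_lit 3628) (.f (nat_lit 558) (nat_lit 593) (nat_lit 557) (.f (nat_lit 621) (nat_lit 620) (nat_lit 1612) (.d (nat_lit 526) (nat_lit 494) (nat_lit 5613) (nat_lit 653) (nat_lit 6669)))))) (.a (.f (nat_lit 624) (nat_lit 625) (nat_lit 589) (.f (nat_lit 621) (nat_lit 620) (nat_lit 1612) (.f (nat_lit 593) (nat_lit 622) (nat_lit 1613) (.d (nat_lit 558) (nat_lit 557) (nat_lit 557) (nat_lit 594) (nat_lit 3630))))) (.a (.f (nat_lit 624) (nat_lit 625) (nat_lit 589) (.f (nat_lit 621) (nat_lit 620) (nat_lit 1612) (.f (nat_lit 622) (nat_lit 593) (nat_lit 1613) (.d (nat_lit 656) (nat_lit 657) (nat_lit 621) (nat_lit 688) (nat_lit 7727))))) (.a (.f (nat_lit 624) (nat_lit 625) (nat_lit 589) (.f (nat_lit 557) (nat_lit 556) (nat_lit 3628) (.f (nat_lit 593) (nat_lit 558) (nat_lit 557) (.d (nat_lit 594) (nat_lit 595) (nat_lit 3631) (nat_lit 622) (nat_lit 1614))))) (.f (nat_lit 624) (nat_lit 625) (nat_lit 589) (.f (nat_lit 621) (nat_lit 620) (nat_lit 1612) (.p (nat_lit 653) (.a (.f (nat_lit 558) (nat_lit 685) (nat_lit 6701) (.d (nat_lit 526) (nat_lit 494) (nat_lit 5613) (nat_lit 622) (nat_lit 5645))) (.a (.f (nat_lit 558) (nat_lit 685) (nat_lit 6701) (.d (nat_lit 526) (nat_lit 494) (nat_lit 5613) (nat_lit 557) (nat_lit 6669))) (.f (nat_lit 622) (nat_lit 652) (nat_lit 1644) (.d (nat_lit 656) (nat_lit 657) (nat_lit 621) (nat_lit 688) (nat_lit 7727))))))))))))))))))))))))))))))))))) (.a (.p (nat_lit 527) (.a (.p (nat_lit 495) (.a (.d (nat_lit 463) (nat_lit 431) (nat_lit 4527) (nat_lit 592) (nat_lit 4559)) (.a (.d (nat_lit 592) (nat_lit 463) (nat_lit 4559) (nat_lit 624) (nat_lit 7663)) (.a (.f (nat_lit 463) (nat_lit 431) (nat_lit 4527) (.f (nat_lit 558) (nat_lit 590) (nat_lit 5582) (.f (nat_lit 462) (nat_lit 430) (nat_lit 7598) (.f (nat_lit 494) (nat_lit 591) (nat_lit 7630) (.f (nat_lit 493) (nat_lit 492) (nat_lit 492) (.d (nat_lit 464) (nat_lit 432) (nat_lit 6575) (nat_lit 465) (nat_lit 1485))))))) (.f (nat_lit 592) (nat_lit 624) (nat_lit 7663) (.p (nat_lit 591) (.a (.f (nat_lit 623) (nat_lit 655) (nat_lit 6671) (.d (nat_lit 622) (nat_lit 590) (nat_lit 5614) (nat_lit 654) (nat_lit 5646))) (.a (.p (nat_lit 561) (.a (.d (nat_lit 562) (nat_lit 563) (nat_lit 3599) (nat_lit 590) (nat_lit 1582)) (.a (.d (nat_lit 526) (nat_lit 525) (nat_lit 525) (nat_lit 562) (nat_lit 3598)) (.f (nat_lit 526) (nat_lit 525) (nat_lit 525) (.d (nat_lit 494) (nat_lit 462) (nat_lit 7630) (nat_lit 623) (nat_lit 7662)))))) (.a (.f (nat_lit 623) (nat_lit 655) (nat_lit 6671) (.d (nat_lit 494) (nat_lit 462) (nat_lit 7630) (nat_lit 526) (nat_lit 7662))) (.f (nat_lit 590) (nat_lit 622) (nat_lit 5614) (.d (nat_lit 561) (nat_lit 562) (nat_lit 1582) (nat_lit 589) (nat_lit 2605)))))))))))) (.a s16613 (.a (.p (nat_lit 561) (.a (.d (nat_lit 526) (nat_lit 525) (nat_lit 525) (nat_lit 562) (nat_lit 3598)) (.a (.f (nat_lit 562) (nat_lit 563) (nat_lit 3599) (.f (nat_lit 591) (nat_lit 590) (nat_lit 1582) (.f (nat_lit 594) (nat_lit 595) (nat_lit 559) (.f (nat_lit 593) (nat_lit 558) (nat_lit 558) (.f (nat_lit 530) (nat_lit 531) (nat_lit 2575) (.d (nat_lit 498) (nat_lit 466) (nat_lit 5585) (nat_lit 625) (nat_lit 5617))))))) (.f (nat_lit 526) (nat_lit 525) (nat_lit 525) (.p (nat_lit 558) (.a (.f (nat_lit 557) (nat_lit 556) (nat_lit 2572) (.d (nat_lit 593) (nat_lit 592) (nat_lit 557) (nat_lit 594) (nat_lit 558))) (.a (.f (nat_lit 593) (nat_lit 594) (nat_lit 558) (.f (nat_lit 592) (nat_lit 557) (nat_lit 557) (.d (nat_lit 495) (nat_lit 463) (nat_lit 4559) (nat_lit 624) (nat_lit 7663)))) (.a (.f (nat_lit 557) (nat_lit 556) (nat_lit 2572) (.f (nat_lit 592) (nat_lit 593) (nat_lit 557) (.d (nat_lit 495) (nat_lit 463) (nat_lit 4559) (nat_lit 624) (nat_lit 7663)))) (.f (nat_lit 590) (nat_lit 589) (nat_lit 1581) (.f (nat_lit 495) (nat_lit 463) (nat_lit 5582) (.p (nat_lit 494) (.a (.d (nat_lit 493) (nat_lit 461) (nat_lit 7629) (nat_lit 492) (nat_lit 492)) (.d (nat_lit 462) (nat_lit 430) (nat_lit 4526) (nat_lit 591) (nat_lit 4558)))))))))))))) (.a s17584 (.a (.p (nat_lit 561) (.a (.d (nat_lit 526) (nat_lit 525) (nat_lit 525) (nat_lit 562) (nat_lit 3598)) (.a (.f (nat_lit 562) (nat_lit 563) (nat_lit 3599) (.f (nat_lit 594) (nat_lit 595) (nat_lit 559) (.f (nat_lit 558) (nat_lit 593) (nat_lit 558) (.f (nat_lit 557) (nat_lit 556) (nat_lit 2572) (.f (nat_lit 525) (nat_lit 524) (nat_lit 3596) (.p (nat_lit 493) (.a (.d (nat_lit 590) (nat_lit 461) (nat_lit 4557) (nat_lit 589) (nat_lit 1581)) (.a (.p (nat_lit 492) (.a (.f (nat_lit 460) (nat_lit 589) (nat_lit 7628) (.d (nat_lit 428) (nat_lit 396) (nat_lit 4492) (nat_lit 461) (nat_lit 7596))) (.a (.f (nat_lit 494) (nat_lit 495) (nat_lit 492) (.d (nat_lit 589) (nat_lit 460) (nat_lit 7628) (nat_lit 462) (nat_lit 6605))) (.f (nat_lit 495) (nat_lit 494) (nat_lit 492) (.d (nat_lit 463) (nat_lit 431) (nat_lit 4527) (nat_lit 592) (nat_lit 4559)))))) (.a (.p (nat_lit 495) (.a (.d (nat_lit 463) (nat_lit 431) (nat_lit 4527) (nat_lit 592) (nat_lit 4559)) (.a (.d (nat_lit 592) (nat_lit 463) (nat_lit 4559) (nat_lit 624) (nat_lit 7663)) (.a (.d (nat_lit 463) (nat_lit 431) (nat_lit 4527) (nat_lit 590) (nat_lit 5582)) (.f (nat_lit 492) (nat_lit 494) (nat_lit 492) (.d (nat_lit 589) (nat_lit 460) (nat_lit 7628) (nat_lit 590) (nat_lit 1581))))))) (.f (nat_lit 461) (nat_lit 590) (nat_lit 4557) (.f (nat_lit 428) (nat_lit 460) (nat_lit 7596) (.f (nat_lit 429) (nat_lit 396) (nat_lit 7564) (.d (nat_lit 430) (nat_lit 398) (nat_lit 6541) (nat_lit 462) (nat_lit 6573)))))))))))))) (.a (.d (nat_lit 562) (nat_lit 526) (nat_lit 3598) (nat_lit 563) (nat_lit 3599)) (.f (nat_lit 526) (nat_lit 525) (nat_lit 525) (.p (nat_lit 558) (.a (.f (nat_lit 557) (nat_lit 556) (nat_lit 2572) (.d (nat_lit 593) (nat_lit 592) (nat_lit 557) (nat_lit 594) (nat_lit 558))) (.f (nat_lit 590) (nat_lit 589) (nat_lit 1581) (.d (nat_lit 495) (nat_lit 463) (nat_lit 5582) (nat_lit 622) (nat_lit 6638)))))))))) (.a (.p (nat_lit 526) (.a (.d (nat_lit 525) (nat_lit 524) (nat_lit 524) (nat_lit 561) (nat_lit 525)) (.a s19184 (.f (nat_lit 525) (nat_lit 524) (nat_lit 524) (.f (nat_lit 557) (nat_lit 556) (nat_lit 1548) (.f (nat_lit 493) (nat_lit 492) (nat_lit 3564) (.p (nat_lit 462) (.a (.d (nat_lit 430) (nat_lit 461) (nat_lit 6573) (nat_lit 494) (nat_lit 5549)) (.a (.d (nat_lit 494) (nat_lit 430) (nat_lit 5549) (nat_lit 589) (nat_lit 6605)) (.a (.f (nat_lit 461) (nat_lit 430) (nat_lit 6573) (.p (nat_lit 592) (.a (.d (nat_lit 495) (nat_lit 463) (nat_lit 4559) (nat_lit 624) (nat_lit 7663)) (.d (nat_lit 558) (nat_lit 429) (nat_lit 4525) (nat_lit 593) (nat_lit 557))))) (.f (nat_lit 494) (nat_lit 589) (nat_lit 6605) (.d (nat_lit 591) (nat_lit 495) (nat_lit 7630) (nat_lit 558) (nat_lit 4558))))))))))))) (.a s16716 (.a (.p (nat_lit 495) (.a (.d (nat_lit 463) (nat_lit 431) (nat_lit 4527) (nat_lit 592) (nat_lit 4559)) (.a (.d (nat_lit 592) (nat_lit 463) (nat_lit 4559) (nat_lit 624) (nat_lit 7663)) (.a (.f (nat_lit 463) (nat_lit 431) (nat_lit 4527) (.f (nat_lit 558) (nat_lit 590) (nat_lit 5582) (.f (nat_lit 462) (nat_lit 430) (nat_lit 7598) (.f (nat_lit 494) (nat_lit 591) (nat_lit 7630) (.f (nat_lit 464) (nat_lit 432) (nat_lit 6575) (.d (nat_lit 465) (nat_lit 466) (nat_lit 1486) (nat_lit 493) (nat_lit 1485))))))) (.f (nat_lit 592) (nat_lit 624) (nat_lit 7663) (.p (nat_lit 591) (.a (.f (nat_lit 623) (nat_lit 655) (nat_lit 6671) (.d (nat_lit 622) (nat_lit 590) (nat_lit 5614) (nat_lit 654) (nat_lit 5646))) (.a (.f (nat_lit 623) (nat_lit 655) (nat_lit 6671) (.d (nat_lit 494) (nat_lit 462) (nat_lit 7630) (nat_lit 526) (nat_lit 7662))) (.a (.f (nat_lit 494) (nat_lit 462) (nat_lit 7630) (.f (nat_lit 526) (nat_lit 623) (nat_lit 7662) (.d (nat_lit 525) (nat_lit 524) (nat_lit 524) (nat_lit 561) (nat_lit 525)))) (.f (nat_lit 590) (nat_lit 622) (nat_lit 5614) (.f (nat_lit 561) (nat_lit 562) (nat_lit 1582) (.p (nat_lit 593) (.a (.d (nat_lit 558) (nat_lit 557) (nat_lit 557) (nat_lit 594) (nat_lit 558)) (.d (nat_lit 625) (nat_lit 626) (nat_lit 590) (nat_lit 657) (nat_lit 7696))))))))))))))) (.a (.p (nat_lit 495) (.a (.d (nat_lit 463) (nat_lit 431) (nat_lit 4527) (nat_lit 592) (nat_lit 4559)) (.a (.d (nat_lit 592) (nat_lit 463) (nat_lit 4559) (nat_lit 624) (nat_lit 7663)) (.a (.f (nat_lit 463) (nat_lit 431) (nat_lit 4527) (.f (nat_lit 590) (nat_lit 558) (nat_lit 5582) (.f (nat_lit 591) (nat_lit 622) (nat_lit 5614) (.d (nat_lit 462) (nat_lit 430) (nat_lit 7598) (nat_lit 494) (nat_lit 7630))))) (.f (nat_lit 592) (nat_lit 624) (nat_lit 7663) (.p (nat_lit 558) (.a (.d (nat_lit 557) (nat_lit 556) (nat_lit 2572) (nat_lit 593) (nat_lit 557)) (.a (.f (nat_lit 593) (nat_lit 557) (nat_lit 557) (.d (nat_lit 594) (nat_lit 561) (nat_lit 558) (nat_lit 595) (nat_lit 3631))) (.a (.p (nat_lit 561) (.a (.f (nat_lit 562) (nat_lit 563) (nat_lit 3599) (.d (nat_lit 594) (nat_lit 593) (nat_lit 558) (nat_lit 595) (nat_lit 559))) (.a (.f (nat_lit 590) (nat_lit 589) (nat_lit 1581) (.d (nat_lit 562) (nat_lit 563) (nat_lit 3599) (nat_lit 591) (nat_lit 1582))) (.a (.f (nat_lit 590) (nat_lit 589) (nat_lit 1581) (.d (nat_lit 591) (nat_lit 562) (nat_lit 1582) (nat_lit 622) (nat_lit 5614))) (.f (nat_lit 590) (nat_lit 589) (nat_lit 1581) (.d (nat_lit 622) (nat_lit 591) (nat_lit 5614) (nat_lit 654) (nat_lit 6670))))))) (.f (nat_lit 557) (nat_lit 556) (nat_lit 2572) (.f (nat_lit 525) (nat_lit 524) (nat_lit 3596) (.p (nat_lit 590) (.a (.f (nat_lit 561) (nat_lit 589) (nat_lit 1581) (.d (nat_lit 562) (nat_lit 563) (nat_lit 3599) (nat_lit 591) (nat_lit 1582))) (.a (.f (nat_lit 589) (nat_lit 561) (nat_lit 1581) (.d (nat_lit 493) (nat_lit 461) (nat_lit 4557) (nat_lit 622) (nat_lit 4589))) (.d (nat_lit 622) (nat_lit 591) (nat_lit 5614) (nat_lit 654) (nat_lit 6670)))))))))))))))) (.a (.p (nat_lit 561) (.a (.d (nat_lit 526) (nat_lit 525) (nat_lit 525) (nat_lit 562) (nat_lit 3598)) (.a (.f (nat_lit 562) (nat_lit 563) (nat_lit 3599) (.f (nat_lit 590) (nat_lit 591) (nat_lit 1582) (.f (nat_lit 558) (nat_lit 589) (nat_lit 1581) (.d (nat_lit 594) (nat_lit 593) (nat_lit 558) (nat_lit 595) (nat_lit 559))))) (.f (nat_lit 526) (nat_lit 525) (nat_lit 525) (.p (nat_lit 591) (.a (.d (nat_lit 623) (nat_lit 494) (nat_lit 7662) (nat_lit 655) (nat_lit 6671)) (.a (.f (nat_lit 494) (nat_lit 623) (nat_lit 7662) (.d (nat_lit 462) (nat_lit 430) (nat_lit 4526) (nat_lit 558) (nat_lit 4558))) (.a (.f (nat_lit 623) (nat_lit 655) (nat_lit 6671) (.f (nat_lit 622) (nat_lit 654) (nat_lit 5646) (.f (nat_lit 590) (nat_lit 495) (nat_lit 5614) (.f (nat_lit 624) (nat_lit 656) (nat_lit 4623) (.d (nat_lit 589) (nat_lit 558) (nat_lit 1581) (nat_lit 625) (nat_lit 3661)))))) (.p (nat_lit 495) (.a (.f (nat_lit 463) (nat_lit 431) (nat_lit 4527) (.d (nat_lit 590) (nat_lit 558) (nat_lit 5582) (nat_lit 622) (nat_lit 5614))) (.a (.f (nat_lit 462) (nat_lit 494) (nat_lit 7630) (.d (nat_lit 463) (nat_lit 430) (nat_lit 7598) (nat_lit 431) (nat_lit 4527))) (.a (.f (nat_lit 494) (nat_lit 462) (nat_lit 7630) (.f (nat_lit 590) (nat_lit 622) (nat_lit 5614) (.d (nat_lit 558) (nat_lit 463) (nat_lit 5582) (nat_lit 589) (nat_lit 1581)))) (.f (nat_lit 494) (nat_lit 462) (nat_lit 7630) (.f (nat_lit 590) (nat_lit 622) (nat_lit 5614) (.f (nat_lit 558) (nat_lit 589) (nat_lit 1581) (.d (nat_lit 493) (nat_lit 461) (nat_lit 7629) (nat_lit 492) (nat_lit 492))))))))))))))))) (.a (.p (nat_lit 495) (.a (.d (nat_lit 463) (nat_lit 431) (nat_lit 4527) (nat_lit 592) (nat_lit 4559)) (.a (.d (nat_lit 592) (nat_lit 463) (nat_lit 4559) (nat_lit 624) (nat_lit 7663)) (.a (.f (nat_lit 463) (nat_lit 431) (nat_lit 4527) (.f (nat_lit 590) (nat_lit 558) (nat_lit 5582) (.f (nat_lit 591) (nat_lit 622) (nat_lit 5614) (.d (nat_lit 462) (nat_lit 430) (nat_lit 7598) (nat_lit 494) (nat_lit 7630))))) (.f (nat_lit 592) (nat_lit 624) (nat_lit 7663) (.p (nat_lit 591) (.a (.f (nat_lit 623) (nat_lit 655) (nat_lit 6671) (.d (nat_lit 622) (nat_lit 590) (nat_lit 5614) (nat_lit 654) (nat_lit 5646))) (.a (.f (nat_lit 623) (nat_lit 655) (nat_lit 6671) (.d (nat_lit 494) (nat_lit 462) (nat_lit 7630) (nat_lit 526) (nat_lit 7662))) (.f (nat_lit 590) (nat_lit 622) (nat_lit 5614) (.d (nat_lit 561) (nat_lit 562) (nat_lit 1582) (nat_lit 589) (nat_lit 2605))))))))))) (.a s16793 (.a (.p (nat_lit 495) (.a (.d (nat_lit 463) (nat_lit 431) (nat_lit 4527) (nat_lit 592) (nat_lit 4559)) (.a (.d (nat_lit 592) (nat_lit 463) (nat_lit 4559) (nat_lit 624) (nat_lit 7663)) (.a (.f (nat_lit 463) (nat_lit 431) (nat_lit 4527) (.f (nat_lit 558) (nat_lit 590) (nat_lit 5582) (.f (nat_lit 462) (nat_lit 430) (nat_lit 7598) (.f (nat_lit 494) (nat_lit 591) (nat_lit 7630) (.f (nat_lit 493) (nat_lit 492) (nat_lit 492) (.d (nat_lit 464) (nat_lit 432) (nat_lit 6575) (nat_lit 465) (nat_lit 1485))))))) (.f (nat_lit 592) (nat_lit 624) (nat_lit 7663) (.p (nat_lit 591) (.a (.f (nat_lit 623) (nat_lit 655) (nat_lit 6671) (.d (nat_lit 622) (nat_lit 590) (nat_lit 5614) (nat_lit 654) (nat_lit 5646))) (.a (.f (nat_lit 623) (nat_lit 655) (nat_lit 6671) (.d (nat_lit 494) (nat_lit 462) (nat_lit 7630) (nat_lit 526) (nat_lit 7662))) (.a (.f (nat_lit 590) (nat_lit 622) (nat_lit 5614) (.p (nat_lit 558) (.a (.d (nat_lit 557) (nat_lit 556) (nat_lit 2572) (nat_lit 593) (nat_lit 557)) (.a (.d (nat_lit 593) (nat_lit 557) (nat_lit 557) (nat_lit 594) (nat_lit 3630)) (.f (nat_lit 561) (nat_lit 589) (nat_lit 1581) (.f (nat_lit 494) (nat_lit 462) (nat_lit 7630) (.d (nat_lit 526) (nat_lit 525) (nat_lit 3597) (nat_lit 623) (nat_lit 7662)))))))) (.f (nat_lit 590) (nat_lit 622) (nat_lit 5614) (.p (nat_lit 558) (.a (.d (nat_lit 557) (nat_lit 556) (nat_lit 2572) (nat_lit 593) (nat_lit 557)) (.a (.d (nat_lit 593) (nat_lit 557) (nat_lit 557) (nat_lit 594) (nat_lit 3630)) (.a (.f (nat_lit 561) (nat_lit 589) (nat_lit 1581) (.f (nat_lit 593) (nat_lit 594) (nat_lit 558) (.d (nat_lit 625) (nat_lit 626) (nat_lit 590) (nat_lit 657) (nat_lit 7696)))) (.f (nat_lit 557) (nat_lit 556) (nat_lit 2572) (.p (nat_lit 526) (.a (.d (nat_lit 525) (nat_lit 524) (nat_lit 524) (nat_lit 561) (nat_lit 525)) (.a (.f (nat_lit 494) (nat_lit 462) (nat_lit 4558) (.d (nat_lit 589) (nat_lit 561) (nat_lit 2605) (nat_lit 621) (nat_lit 5613))) (.f (nat_lit 494) (nat_lit 462) (nat_lit 4558) (.d (nat_lit 493) (nat_lit 461) (nat_lit 7629) (nat_lit 492) (nat_lit 492))))))))))))))))))))) (.a (.p (nat_lit 561) (.a (.d (nat_lit 526) (nat_lit 525) (nat_lit 525) (nat_lit 562) (nat_lit 3598)) (.a (.f (nat_lit 562) (nat_lit 563) (nat_lit 3599) (.f (nat_lit 594) (nat_lit 595) (nat_lit 559) (.f (nat_lit 593) (nat_lit 558) (nat_lit 558) (.f (nat_lit 625) (nat_lit 657) (nat_lit 7696) (.d (nat_lit 530) (nat_lit 498) (nat_lit 5617) (nat_lit 531) (nat_lit 2575)))))) (.f (nat_lit 526) (nat_lit 525) (nat_lit 525) (.p (nat_lit 558) (.a (.f (nat_lit 557) (nat_lit 556) (nat_lit 2572) (.d (nat_lit 593) (nat_lit 592) (nat_lit 557) (nat_lit 594) (nat_lit 558))) (.a (.f (nat_lit 590) (nat_lit 589) (nat_lit 1581) (.f (nat_lit 593) (nat_lit 594) (nat_lit 558) (.p (nat_lit 591) (.a (.d (nat_lit 494) (nat_lit 462) (nat_lit 4558) (nat_lit 623) (nat_lit 7662)) (.a (.d (nat_lit 623) (nat_lit 494) (nat_lit 7662) (nat_lit 655) (nat_lit 6671)) (.f (nat_lit 592) (nat_lit 557) (nat_lit 557) (.d (nat_lit 625) (nat_lit 626) (nat_lit 590) (nat_lit 657) (nat_lit 7696)))))))) (.a (.f (nat_lit 557) (nat_lit 556) (nat_lit 2572) (.f (nat_lit 590) (nat_lit 589) (nat_lit 1581) (.f (nat_lit 622) (nat_lit 654) (nat_lit 6670) (.f (nat_lit 623) (nat_lit 655) (nat_lit 4622) (.f (nat_lit 591) (nat_lit 494) (nat_lit 7662) (.f (nat_lit 592) (nat_lit 593) (nat_lit 557) (.d (nat_lit 621) (nat_lit 620) (nat_lit 2636) (nat_lit 653) (nat_lit 5645)))))))) (.a (.f (nat_lit 590) (nat_lit 589) (nat_lit 1581) (.f (nat_lit 622) (nat_lit 654) (nat_lit 6670) (.f (nat_lit 623) (nat_lit 655) (nat_lit 4622) (.f (nat_lit 591) (nat_lit 494) (nat_lit 7662) (.p (nat_lit 625) (.a (.d (nat_lit 593) (nat_lit 594) (nat_lit 558) (nat_lit 657) (nat_lit 7696)) (.d (nat_lit 624) (nat_lit 626) (nat_lit 3662) (nat_lit 656) (nat_lit 4623)))))))) (.f (nat_lit 590) (nat_lit 589) (nat_lit 1581) (.f (nat_lit 622) (nat_lit 654) (nat_lit 6670) (.f (nat_lit 623) (nat_lit 655) (nat_lit 4622) (.f (nat_lit 591) (nat_lit 494) (nat_lit 7662) (.p (nat_lit 592) (.a (.d (nat_lit 621) (nat_lit 620) (nat_lit 2636) (nat_lit 653) (nat_lit 5645)) (.f (nat_lit 624) (nat_lit 656) (nat_lit 7695) (.d (nat_lit 625) (nat_lit 626) (nat_lit 3662) (nat_lit 657) (nat_lit 4624)))))))))))))))))) (.p (nat_lit 495) (.a (.d (nat_lit 463) (nat_lit 431) (nat_lit 4527) (nat_lit 592) (nat_lit 4559)) (.a (.d (nat_lit 592) (nat_lit 463) (nat_lit 4559) (nat_lit 624) (nat_lit 7663)) (.a (.f (nat_lit 463) (nat_lit 431) (nat_lit 4527) (.f (nat_lit 462) (nat_lit 430) (nat_lit 7598) (.f (nat_lit 494) (nat_lit 591) (nat_lit 7630) (.f (nat_lit 493) (nat_lit 492) (nat_lit 492) (.d (nat_lit 464) (nat_lit 432) (nat_lit 6575) (nat_lit 465) (nat_lit 1485)))))) (.f (nat_lit 592) (nat_lit 624) (nat_lit 7663) (.p (nat_lit 591) (.a (.f (nat_lit 623) (nat_lit 655) (nat_lit 6671) (.d (nat_lit 622) (nat_lit 590) (nat_lit 5614) (nat_lit 654) (nat_lit 5646))) (.a (.f (nat_lit 623) (nat_lit 655) (nat_lit 6671) (.d (nat_lit 494) (nat_lit 462) (nat_lit 7630) (nat_lit 526) (nat_lit 7662))) (.a (.f (nat_lit 494) (nat_lit 462) (nat_lit 7630) (.f (nat_lit 526) (nat_lit 623) (nat_lit 7662) (.f (nat_lit 525) (nat_lit 524) (nat_lit 524) (.p (nat_lit 558) (.a (.d (nat_lit 557) (nat_lit 556) (nat_lit 2572) (nat_lit 593) (nat_lit 557)) (.a (.d (nat_lit 593) (nat_lit 557) (nat_lit 557) (nat_lit 594) (nat_lit 3630)) (.f (nat_lit 590) (nat_lit 622) (nat_lit 5614) (.d (nat_lit 493) (nat_lit 461) (nat_lit 7629) (nat_lit 492) (nat_lit 3564))))))))) (.f (nat_lit 590) (nat_lit 622) (nat_lit 5614) (.f (nat_lit 494) (nat_lit 462) (nat_lit 7630) (.p (nat_lit 557) (.a (.f (nat_lit 558) (nat_lit 593) (nat_lit 557) (.f (nat_lit 525) (nat_lit 524) (nat_lit 3596) (.d (nat_lit 493) (nat_lit 461) (nat_lit 4557) (nat_lit 492) (nat_lit 492)))) (.a (.d (nat_lit 558) (nat_lit 556) (nat_lit 2572) (nat_lit 593) (nat_lit 557)) (.f (nat_lit 589) (nat_lit 556) (nat_lit 3628) (.f (nat_lit 621) (nat_lit 620) (nat_lit 1612) (.f (nat_lit 492) (nat_lit 493) (nat_lit 492) (.d (nat_lit 525) (nat_lit 524) (nat_lit 7660) (nat_lit 526) (nat_lit 6637)))))))))))))))))))))))))))))))))) (.a (.p (nat_lit 561) (.a (.p (nat_lit 562) (.a (.d (nat_lit 527) (nat_lit 526) (nat_lit 3598) (nat_lit 563) (nat_lit 3599)) (.a (.f (nat_lit 526) (nat_lit 527) (nat_lit 3598) (.f (nat_lit 558) (nat_lit 525) (nat_lit 3597) (.d (nat_lit 594) (nat_lit 593) (nat_lit 558) (nat_lit 595) (nat_lit 559)))) (.a (.f (nat_lit 563) (nat_lit 527) (nat_lit 3599) (.d (nat_lit 595) (nat_lit 594) (nat_lit 559) (nat_lit 596) (nat_lit 560))) (.f (nat_lit 591) (nat_lit 590) (nat_lit 1582) (.f (nat_lit 563) (nat_lit 592) (nat_lit 1583) (.d (nat_lit 595) (nat_lit 594) (nat_lit 559) (nat_lit 596) (nat_lit 560)))))))) (.a (.p (nat_lit 562) (.a (.d (nat_lit 527) (nat_lit 526) (nat_lit 3598) (nat_lit 563) (nat_lit 3599)) (.a (.f (nat_lit 526) (nat_lit 527) (nat_lit 3598) (.f (nat_lit 558) (nat_lit 525) (nat_lit 3597) (.d (nat_lit 590) (nat_lit 589) (nat_lit 1581) (nat_lit 591) (nat_lit 1582)))) (.a (.f (nat_lit 563) (nat_lit 527) (nat_lit 3599) (.d (nat_lit 591) (nat_lit 590) (nat_lit 1582) (nat_lit 592) (nat_lit 1583))) (.f (nat_lit 591) (nat_lit 590) (nat_lit 1582) (.f (nat_lit 563) (nat_lit 592) (nat_lit 1583) (.d (nat_lit 531) (nat_lit 530) (nat_lit 2575) (nat_lit 532) (nat_lit 2576)))))))) (.a (.p (nat_lit 562) (.a (.d (nat_lit 527) (nat_lit 526) (nat_lit 3598) (nat_lit 563) (nat_lit 3599)) (.a (.f (nat_lit 526) (nat_lit 527) (nat_lit 3598) (.f (nat_lit 558) (nat_lit 525) (nat_lit 3597) (.d (nat_lit 594) (nat_lit 593) (nat_lit 558) (nat_lit 595) (nat_lit 559)))) (.a (.f (nat_lit 563) (nat_lit 527) (nat_lit 3599) (.d (nat_lit 595) (nat_lit 594) (nat_lit 559) (nat_lit 596) (nat_lit 560))) (.f (nat_lit 594) (nat_lit 595) (nat_lit 559) (.f (nat_lit 593) (nat_lit 558) (nat_lit 558) (.f (nat_lit 625) (nat_lit 657) (nat_lit 7696) (.d (nat_lit 530) (nat_lit 498) (nat_lit 5617) (nat_lit 531) (nat_lit 2575))))))))) (.a s18847 (.a s21022 (.a (.p (nat_lit 562) (.a (.f (nat_lit 563) (nat_lit 527) (nat_lit 3599) (.d (nat_lit 595) (nat_lit 594) (nat_lit 559) (nat_lit 596) (nat_lit 560))) (.a (.f (nat_lit 563) (nat_lit 527) (nat_lit 3599) (.d (nat_lit 591) (nat_lit 590) (nat_lit 1582) (nat_lit 592) (nat_lit 1583))) (.f (nat_lit 594) (nat_lit 595) (nat_lit 559) (.f (nat_lit 593) (nat_lit 558) (nat_lit 558) (.f (nat_lit 625) (nat_lit 657) (nat_lit 7696) (.d (nat_lit 530) (nat_lit 498) (nat_lit 5617) (nat_lit 531) (nat_lit 2575)))))))) (.a (.p (nat_lit 558) (.a (.f (nat_lit 526) (nat_lit 525) (nat_lit 3597) (.f (nat_lit 590) (nat_lit 589) (nat_lit 1581) (.p (nat_lit 591) (.a (.d (nat_lit 623) (nat_lit 494) (nat_lit 4590) (nat_lit 655) (nat_lit 7694)) (.a (.d (nat_lit 494) (nat_lit 462) (nat_lit 4558) (nat_lit 623) (nat_lit 4590)) (.a (.f (nat_lit 623) (nat_lit 655) (nat_lit 6671) (.f (nat_lit 593) (nat_lit 594) (nat_lit 558) (.p (nat_lit 527) (.a (.d (nat_lit 557) (nat_lit 556) (nat_lit 2572) (nat_lit 592) (nat_lit 557)) (.d (nat_lit 622) (nat_lit 495) (nat_lit 5614) (nat_lit 654) (nat_lit 5646)))))) (.f (nat_lit 593) (nat_lit 594) (nat_lit 558) (.f (nat_lit 557) (nat_lit 592) (nat_lit 557) (.d (nat_lit 556) (nat_lit 527) (nat_lit 2572) (nat_lit 555) (nat_lit 555)))))))))) (.a (.f (nat_lit 593) (nat_lit 594) (nat_lit 558) (.f (nat_lit 557) (nat_lit 592) (nat_lit 557) (.d (nat_lit 589) (nat_lit 588) (nat_lit 1580) (nat_lit 590) (nat_lit 1581)))) (.a (.f (nat_lit 526) (nat_lit 525) (nat_lit 3597) (.f (nat_lit 590) (nat_lit 589) (nat_lit 1581) (.p (nat_lit 622) (.a (.d (nat_lit 527) (nat_lit 495) (nat_lit 6638) (nat_lit 654) (nat_lit 6670)) (.f (nat_lit 623) (nat_lit 655) (nat_lit 4622) (.f (nat_lit 591) (nat_lit 494) (nat_lit 4590) (.p (nat_lit 592) (.a (.d (nat_lit 557) (nat_lit 556) (nat_lit 556) (nat_lit 593) (nat_lit 557)) (.a (.d (nat_lit 593) (nat_lit 557) (nat_lit 3629) (nat_lit 621) (nat_lit 1613)) (.a (.d (nat_lit 621) (nat_lit 593) (nat_lit 1613) (nat_lit 653) (nat_lit 5645)) (.d (nat_lit 621) (nat_lit 620) (nat_lit 2636) (nat_lit 653) (nat_lit 5645)))))))))))) (.a (.f (nat_lit 593) (nat_lit 594) (nat_lit 558) (.f (nat_lit 557) (nat_lit 592) (nat_lit 557) (.d (nat_lit 525) (nat_lit 524) (nat_lit 3596) (nat_lit 526) (nat_lit 3597)))) (.a (.f (nat_lit 526) (nat_lit 525) (nat_lit 3597) (.f (nat_lit 590) (nat_lit 589) (nat_lit 1581) (.f (nat_lit 593) (nat_lit 594) (nat_lit 558) (.p (nat_lit 622) (.a (.d (nat_lit 527) (nat_lit 495) (nat_lit 6638) (nat_lit 654) (nat_lit 6670)) (.a (.f (nat_lit 623) (nat_lit 655) (nat_lit 4622) (.f (nat_lit 591) (nat_lit 494) (nat_lit 4590) (.f (nat_lit 527) (nat_lit 495) (nat_lit 5614) (.f (nat_lit 624) (nat_lit 656) (nat_lit 4623) (.d (nat_lit 625) (nat_lit 626) (nat_lit 3662) (nat_lit 657) (nat_lit 7696)))))) (.a (.f (nat_lit 623) (nat_lit 655) (nat_lit 4622) (.f (nat_lit 591) (nat_lit 494) (nat_lit 4590) (.d (nat_lit 654) (nat_lit 527) (nat_lit 6670) (nat_lit 686) (nat_lit 6702)))) (.f (nat_lit 623) (nat_lit 655) (nat_lit 4622) (.f (nat_lit 591) (nat_lit 494) (nat_lit 4590) (.f (nat_lit 653) (nat_lit 621) (nat_lit 5645) (.d (nat_lit 654) (nat_lit 685) (nat_lit 5677) (nat_lit 686) (nat_lit 6702)))))))))))) (.f (nat_lit 526) (nat_lit 525) (nat_lit 3597) (.f (nat_lit 590) (nat_lit 589) (nat_lit 1581) (.p (nat_lit 622) (.a (.d (nat_lit 527) (nat_lit 495) (nat_lit 6638) (nat_lit 654) (nat_lit 6670)) (.a (.f (nat_lit 623) (nat_lit 655) (nat_lit 4622) (.f (nat_lit 591) (nat_lit 494) (nat_lit 4590) (.f (nat_lit 527) (nat_lit 495) (nat_lit 5614) (.p (nat_lit 592) (.a (.d (nat_lit 621) (nat_lit 620) (nat_lit 2636) (nat_lit 653) (nat_lit 5645)) (.f (nat_lit 624) (nat_lit 656) (nat_lit 7695) (.d (nat_lit 625) (nat_lit 626) (nat_lit 3662) (nat_lit 657) (nat_lit 4624)))))))) (.a (.f (nat_lit 623) (nat_lit 655) (nat_lit 4622) (.f (nat_lit 591) (nat_lit 494) (nat_lit 4590) (.d (nat_lit 654) (nat_lit 527) (nat_lit 6670) (nat_lit 686) (nat_lit 6702)))) (.f (nat_lit 623) (nat_lit 655) (nat_lit 4622) (.f (nat_lit 591) (nat_lit 494) (nat_lit 4590) (.f (nat_lit 621) (nat_lit 653) (nat_lit 5645) (.d (nat_lit 620) (nat_lit 592) (nat_lit 2636) (nat_lit 619) (nat_lit 2635))))))))))))))))) (.p (nat_lit 558) (.a (.f (nat_lit 590) (nat_lit 589) (nat_lit 1581) (.f (nat_lit 591) (nat_lit 562) (nat_lit 1582) (.f (nat_lit 623) (nat_lit 655) (nat_lit 6671) (.d (nat_lit 526) (nat_lit 494) (nat_lit 4590) (nat_lit 525) (nat_lit 3597))))) (.a (.f (nat_lit 593) (nat_lit 594) (nat_lit 558) (.f (nat_lit 557) (nat_lit 592) (nat_lit 557) (.d (nat_lit 589) (nat_lit 588) (nat_lit 1580) (nat_lit 590) (nat_lit 1581)))) (.f (nat_lit 593) (nat_lit 594) (nat_lit 558) (.f (nat_lit 557) (nat_lit 592) (nat_lit 557) (.d (nat_lit 525) (nat_lit 524) (nat_lit 3596) (nat_lit 526) (nat_lit 3597))))))))))))))) (.a (.p (nat_lit 527) (.a s17587 (.a s17039 (.a (.p (nat_lit 495) (.a (.d (nat_lit 463) (nat_lit 431) (nat_lit 4527) (nat_lit 592) (nat_lit 4559)) (.a (.d (nat_lit 592) (nat_lit 463) (nat_lit 4559) (nat_lit 624) (nat_lit 7663)) (.a (.f (nat_lit 463) (nat_lit 431) (nat_lit 4527) (.f (nat_lit 558) (nat_lit 590) (nat_lit 5582) (.f (nat_lit 557) (nat_lit 556) (nat_lit 2572) (.f (nat_lit 525) (nat_lit 524) (nat_lit 3596) (.f (nat_lit 526) (nat_lit 561) (nat_lit 525) (.p (nat_lit 494) (.a (.d (nat_lit 589) (nat_lit 588) (nat_lit 1580) (nat_lit 621) (nat_lit 6637)) (.d (nat_lit 462) (nat_lit 430) (nat_lit 4526) (nat_lit 591) (nat_lit 4558))))))))) (.f (nat_lit 592) (nat_lit 624) (nat_lit 7663) (.p (nat_lit 558) (.a (.d (nat_lit 557) (nat_lit 556) (nat_lit 2572) (nat_lit 593) (nat_lit 557)) (.a (.f (nat_lit 593) (nat_lit 557) (nat_lit 557) (.d (nat_lit 594) (nat_lit 561) (nat_lit 558) (nat_lit 595) (nat_lit 3631))) (.p (nat_lit 526) (.a (.d (nat_lit 525) (nat_lit 524) (nat_lit 524) (nat_lit 561) (nat_lit 525)) (.a (.p (nat_lit 494) (.a (.d (nat_lit 462) (nat_lit 430) (nat_lit 4526) (nat_lit 591) (nat_lit 4558)) (.a (.f (nat_lit 591) (nat_lit 623) (nat_lit 7662) (.p (nat_lit 590) (.a (.d (nat_lit 589) (nat_lit 561) (nat_lit 1581) (nat_lit 588) (nat_lit 2604)) (.d (nat_lit 493) (nat_lit 461) (nat_lit 7629) (nat_lit 492) (nat_lit 492))))) (.p (nat_lit 461) (.a (.d (nat_lit 493) (nat_lit 492) (nat_lit 492) (nat_lit 590) (nat_lit 7629)) (.d (nat_lit 462) (nat_lit 429) (nat_lit 7597) (nat_lit 430) (nat_lit 4526))))))) (.f (nat_lit 525) (nat_lit 524) (nat_lit 524) (.f (nat_lit 493) (nat_lit 492) (nat_lit 3564) (.p (nat_lit 494) (.a (.d (nat_lit 461) (nat_lit 429) (nat_lit 4525) (nat_lit 590) (nat_lit 7629)) (.d (nat_lit 462) (nat_lit 430) (nat_lit 4526) (nat_lit 591) (nat_lit 4558))))))))))))))))) (.a s17381 (.a (.p (nat_lit 495) (.a (.d (nat_lit 463) (nat_lit 431) (nat_lit 4527) (nat_lit 592) (nat_lit 4559)) (.a (.f (nat_lit 463) (nat_lit 592) (nat_lit 4559) (.f (nat_lit 558) (nat_lit 590) (nat_lit 5582) (.f (nat_lit 557) (nat_lit 556) (nat_lit 2572) (.f (nat_lit 525) (nat_lit 524) (nat_lit 3596) (.f (nat_lit 526) (nat_lit 561) (nat_lit 525) (.p (nat_lit 494) (.a (.d (nat_lit 589) (nat_lit 588) (nat_lit 1580) (nat_lit 621) (nat_lit 6637)) (.d (nat_lit 462) (nat_lit 430) (nat_lit 4526) (nat_lit 591) (nat_lit 4558))))))))) (.a (.f (nat_lit 463) (nat_lit 431) (nat_lit 4527) (.f (nat_lit 558) (nat_lit 590) (nat_lit 5582) (.f (nat_lit 557) (nat_lit 556) (nat_lit 2572) (.f (nat_lit 525) (nat_lit 524) (nat_lit 3596) (.f (nat_lit 526) (nat_lit 561) (nat_lit 525) (.p (nat_lit 494) (.a (.d (nat_lit 589) (nat_lit 588) (nat_lit 1580) (nat_lit 621) (nat_lit 6637)) (.d (nat_lit 462) (nat_lit 430) (nat_lit 4526) (nat_lit 591) (nat_lit 4558))))))))) (.p (nat_lit 591) (.a (.f (nat_lit 623) (nat_lit 655) (nat_lit 6671) (.d (nat_lit 622) (nat_lit 590) (nat_lit 5614) (nat_lit 654) (nat_lit 5646))) (.a (.f (nat_lit 623) (nat_lit 655) (nat_lit 6671) (.d (nat_lit 494) (nat_lit 462) (nat_lit 7630) (nat_lit 526) (nat_lit 7662))) (.a (.f (nat_lit 494) (nat_lit 462) (nat_lit 7630) (.f (nat_lit 526) (nat_lit 623) (nat_lit 7662) (.d (nat_lit 525) (nat_lit 524) (nat_lit 524) (nat_lit 561) (nat_lit 525)))) (.f (nat_lit 590) (nat_lit 622) (nat_lit 5614) (.f (nat_lit 589) (nat_lit 588) (nat_lit 2604) (.d (nat_lit 561) (nat_lit 558) (nat_lit 1581) (nat_lit 592) (nat_lit 2605)))))))))))) (.a (.p (nat_lit 495) (.a (.d (nat_lit 463) (nat_lit 431) (nat_lit 4527) (nat_lit 592) (nat_lit 4559)) (.a (.d (nat_lit 592) (nat_lit 463) (nat_lit 4559) (nat_lit 624) (nat_lit 7663)) (.a (.f (nat_lit 463) (nat_lit 431) (nat_lit 4527) (.f (nat_lit 558) (nat_lit 590) (nat_lit 5582) (.f (nat_lit 557) (nat_lit 556) (nat_lit 2572) (.f (nat_lit 525) (nat_lit 524) (nat_lit 3596) (.f (nat_lit 526) (nat_lit 561) (nat_lit 525) (.p (nat_lit 494) (.a (.d (nat_lit 589) (nat_lit 588) (nat_lit 1580) (nat_lit 621) (nat_lit 6637)) (.a (.d (nat_lit 462) (nat_lit 430) (nat_lit 7598) (nat_lit 589) (nat_lit 5581)) (.f (nat_lit 493) (nat_lit 492) (nat_lit 492) (.f (nat_lit 462) (nat_lit 430) (nat_lit 4526) (.d (nat_lit 464) (nat_lit 432) (nat_lit 6575) (nat_lit 465) (nat_lit 1485)))))))))))) (.f (nat_lit 592) (nat_lit 624) (nat_lit 7663) (.p (nat_lit 558) (.a (.d (nat_lit 557) (nat_lit 556) (nat_lit 2572) (nat_lit 593) (nat_lit 557)) (.a (.f (nat_lit 593) (nat_lit 557) (nat_lit 557) (.d (nat_lit 594) (nat_lit 561) (nat_lit 558) (nat_lit 595) (nat_lit 3631))) (.p (nat_lit 526) (.a (.d (nat_lit 525) (nat_lit 524) (nat_lit 524) (nat_lit 561) (nat_lit 525)) (.a (.f (nat_lit 590) (nat_lit 622) (nat_lit 6638) (.f (nat_lit 589) (nat_lit 561) (nat_lit 1581) (.f (nat_lit 494) (nat_lit 621) (nat_lit 5613) (.d (nat_lit 493) (nat_lit 461) (nat_lit 7629) (nat_lit 492) (nat_lit 492))))) (.f (nat_lit 525) (nat_lit 524) (nat_lit 524) (.f (nat_lit 493) (nat_lit 492) (nat_lit 3564) (.f (nat_lit 590) (nat_lit 622) (nat_lit 6638) (.d (nat_lit 461) (nat_lit 429) (nat_lit 4525) (nat_lit 494) (nat_lit 7629)))))))))))))))) (.a (.p (nat_lit 592) (.a (.d (nat_lit 495) (nat_lit 463) (nat_lit 4559) (nat_lit 624) (nat_lit 7663)) (.a (.f (nat_lit 495) (nat_lit 463) (nat_lit 4559) s16708) (.a (.d (nat_lit 624) (nat_lit 495) (nat_lit 7663) (nat_lit 656) (nat_lit 7695)) (.f (nat_lit 624) (nat_lit 656) (nat_lit 7695) (.f (nat_lit 623) (nat_lit 655) (nat_lit 5647) (.f (nat_lit 625) (nat_lit 657) (nat_lit 4624) (.p (nat_lit 593) (.a (.f (nat_lit 594) (nat_lit 595) (nat_lit 3631) (.d (nat_lit 558) (nat_lit 557) (nat_lit 557) (nat_lit 561) (nat_lit 558))) (.f (nat_lit 622) (nat_lit 621) (nat_lit 2637) (.d (nat_lit 654) (nat_lit 591) (nat_lit 5646) (nat_lit 653) (nat_lit 1645)))))))))))) (.a (.p (nat_lit 592) (.a (.d (nat_lit 495) (nat_lit 463) (nat_lit 4559) (nat_lit 624) (nat_lit 7663)) (.a (.f (nat_lit 495) (nat_lit 463) (nat_lit 4559) (.p (nat_lit 558) (.a (.d (nat_lit 557) (nat_lit 556) (nat_lit 2572) (nat_lit 593) (nat_lit 557)) (.a (.f (nat_lit 593) (nat_lit 557) (nat_lit 557) (.d (nat_lit 594) (nat_lit 561) (nat_lit 558) (nat_lit 595) (nat_lit 3631))) (.p (nat_lit 590) (.a (.d (nat_lit 622) (nat_lit 591) (nat_lit 5614) (nat_lit 654) (nat_lit 6670)) (.a (.f (nat_lit 589) (nat_lit 561) (nat_lit 1581) (.d (nat_lit 588) (nat_lit 587) (nat_lit 2603) (nat_lit 591) (nat_lit 2604))) (.d (nat_lit 622) (nat_lit 526) (nat_lit 6638) (nat_lit 654) (nat_lit 6670))))))))) (.a (.d (nat_lit 624) (nat_lit 495) (nat_lit 7663) (nat_lit 656) (nat_lit 7695)) (.f (nat_lit 624) (nat_lit 656) (nat_lit 7695) (.f (nat_lit 623) (nat_lit 655) (nat_lit 5647) (.f (nat_lit 625) (nat_lit 657) (nat_lit 4624) (.p (nat_lit 593) (.a (.f (nat_lit 594) (nat_lit 595) (nat_lit 3631) (.d (nat_lit 558) (nat_lit 557) (nat_lit 557) (nat_lit 561) (nat_lit 558))) (.f (nat_lit 622) (nat_lit 621) (nat_lit 2637) (.d (nat_lit 654) (nat_lit 591) (nat_lit 5646) (nat_lit 653) (nat_lit 1645)))))))))))) (.a (.p (nat_lit 495) (.a (.d (nat_lit 463) (nat_lit 431) (nat_lit 4527) (nat_lit 592) (nat_lit 4559)) (.a (.d (nat_lit 592) (nat_lit 463) (nat_lit 4559) (nat_lit 624) (nat_lit 7663)) (.a (.f (nat_lit 463) (nat_lit 431) (nat_lit 4527) (.f (nat_lit 558) (nat_lit 590) (nat_lit 5582) (.f (nat_lit 462) (nat_lit 430) (nat_lit 7598) (.f (nat_lit 494) (nat_lit 591) (nat_lit 7630) (.f (nat_lit 464) (nat_lit 432) (nat_lit 6575) (.d (nat_lit 465) (nat_lit 466) (nat_lit 1486) (nat_lit 493) (nat_lit 1485))))))) (.f (nat_lit 592) (nat_lit 624) (nat_lit 7663) (.p (nat_lit 591) (.a (.f (nat_lit 623) (nat_lit 655) (nat_lit 6671) (.d (nat_lit 622) (nat_lit 590) (nat_lit 5614) (nat_lit 654) (nat_lit 5646))) (.a (.f (nat_lit 623) (nat_lit 655) (nat_lit 6671) (.d (nat_lit 494) (nat_lit 462) (nat_lit 7630) (nat_lit 526) (nat_lit 7662))) (.a (.f (nat_lit 494) (nat_lit 462) (nat_lit 7630) (.f (nat_lit 526) (nat_lit 623) (nat_lit 7662) (.d (nat_lit 525) (nat_lit 524) (nat_lit 524) (nat_lit 561) (nat_lit 525)))) (.f (nat_lit 494) (nat_lit 462) (nat_lit 7630) (.p (nat_lit 558) (.a (.d (nat_lit 557) (nat_lit 556) (nat_lit 2572) (nat_lit 593) (nat_lit 557)) (.a (.d (nat_lit 593) (nat_lit 557) (nat_lit 557) (nat_lit 594) (nat_lit 3630)) (.a (.f (nat_lit 593) (nat_lit 594) (nat_lit 3630) (.p (nat_lit 526) (.a (.d (nat_lit 525) (nat_lit 524) (nat_lit 524) (nat_lit 561) (nat_lit 525)) (.f (nat_lit 590) (nat_lit 622) (nat_lit 5614) (.d (nat_lit 493) (nat_lit 461) (nat_lit 7629) (nat_lit 492) (nat_lit 492)))))) (.f (nat_lit 557) (nat_lit 556) (nat_lit 2572) (.p (nat_lit 526) (.a (.d (nat_lit 525) (nat_lit 524) (nat_lit 524) (nat_lit 561) (nat_lit 525)) (.f (nat_lit 493) (nat_lit 492) (nat_lit 492) (.d (nat_lit 590) (nat_lit 461) (nat_lit 7629) (nat_lit 622) (nat_lit 6638)))))))))))))))))))) (.a (.p (nat_lit 495) (.a (.d (nat_lit 463) (nat_lit 431) (nat_lit 4527) (nat_lit 592) (nat_lit 4559)) (.a (.d (nat_lit 592) (nat_lit 463) (nat_lit 4559) (nat_lit 624) (nat_lit 7663)) (.a (.f (nat_lit 463) (nat_lit 431) (nat_lit 4527) (.f (nat_lit 558) (nat_lit 590) (nat_lit 5582) (.f (nat_lit 557) (nat_lit 556) (nat_lit 2572) (.f (nat_lit 462) (nat_lit 430) (nat_lit 7598) (.f (nat_lit 494) (nat_lit 591) (nat_lit 7630) (.f (nat_lit 493) (nat_lit 492) (nat_lit 492) (.d (nat_lit 464) (nat_lit 432) (nat_lit 6575) (nat_lit 465) (nat_lit 1485)))))))) (.f (nat_lit 624) (nat_lit 592) (nat_lit 7663) (.p (nat_lit 591) (.a (.d (nat_lit 623) (nat_lit 655) (nat_lit 6671) (nat_lit 656) (nat_lit 4623)) (.f (nat_lit 590) (nat_lit 622) (nat_lit 5614) (.f (nat_lit 589) (nat_lit 588) (nat_lit 2604) (.f (nat_lit 558) (nat_lit 561) (nat_lit 1581) (.f (nat_lit 557) (nat_lit 556) (nat_lit 2572) (.p (nat_lit 493) (.a (.d (nat_lit 525) (nat_lit 461) (nat_lit 4557) (nat_lit 524) (nat_lit 3596)) (.d (nat_lit 494) (nat_lit 462) (nat_lit 7630) (nat_lit 492) (nat_lit 492))))))))))))))) (.a (.p (nat_lit 526) (.a (.d (nat_lit 525) (nat_lit 524) (nat_lit 524) (nat_lit 561) (nat_lit 525)) (.a (.p (nat_lit 591) (.a (.d (nat_lit 623) (nat_lit 494) (nat_lit 7662) (nat_lit 655) (nat_lit 6671)) (.a (.f (nat_lit 494) (nat_lit 623) (nat_lit 7662) (.d (nat_lit 462) (nat_lit 430) (nat_lit 4526) (nat_lit 558) (nat_lit 4558))) (.a (.f (nat_lit 623) (nat_lit 655) (nat_lit 6671) (.f (nat_lit 622) (nat_lit 654) (nat_lit 5646) (.f (nat_lit 590) (nat_lit 495) (nat_lit 5614) (.f (nat_lit 589) (nat_lit 588) (nat_lit 2604) (.d (nat_lit 624) (nat_lit 625) (nat_lit 3661) (nat_lit 656) (nat_lit 4623)))))) (.p (nat_lit 495) (.a (.f (nat_lit 463) (nat_lit 431) (nat_lit 4527) (.d (nat_lit 590) (nat_lit 558) (nat_lit 5582) (nat_lit 622) (nat_lit 5614))) (.a (.f (nat_lit 462) (nat_lit 494) (nat_lit 7630) (.d (nat_lit 463) (nat_lit 430) (nat_lit 7598) (nat_lit 431) (nat_lit 4527))) (.a (.f (nat_lit 590) (nat_lit 622) (nat_lit 5614) (.f (nat_lit 558) (nat_lit 463) (nat_lit 5582) (.d (nat_lit 589) (nat_lit 561) (nat_lit 1581) (nat_lit 588) (nat_lit 2604)))) (.f (nat_lit 494) (nat_lit 462) (nat_lit 7630) (.f (nat_lit 590) (nat_lit 622) (nat_lit 5614) (.f (nat_lit 589) (nat_lit 588) (nat_lit 2604) (.d (nat_lit 558) (nat_lit 561) (nat_lit 1581) (nat_lit 621) (nat_lit 5613))))))))))))) (.f (nat_lit 525) (nat_lit 524) (nat_lit 524) (.f (nat_lit 557) (nat_lit 556) (nat_lit 1548) (.f (nat_lit 493) (nat_lit 492) (nat_lit 3564) (.p (nat_lit 494) (.a (.f (nat_lit 589) (nat_lit 621) (nat_lit 6637) (.d (nat_lit 588) (nat_lit 558) (nat_lit 1580) (nat_lit 620) (nat_lit 5612))) (.a (.d (nat_lit 462) (nat_lit 430) (nat_lit 5549) (nat_lit 589) (nat_lit 6605)) (.f (nat_lit 462) (nat_lit 430) (nat_lit 4526) (.d (nat_lit 591) (nat_lit 495) (nat_lit 7630) (nat_lit 558) (nat_lit 4558)))))))))))) (.a (.p (nat_lit 526) (.a (.d (nat_lit 525) (nat_lit 524) (nat_lit 524) (nat_lit 561) (nat_lit 525)) (.a (.p (nat_lit 591) (.a (.d (nat_lit 623) (nat_lit 494) (nat_lit 7662) (nat_lit 655) (nat_lit 6671)) (.a (.f (nat_lit 494) (nat_lit 623) (nat_lit 7662) (.d (nat_lit 462) (nat_lit 430) (nat_lit 4526) (nat_lit 558) (nat_lit 4558))) (.a (.f (nat_lit 623) (nat_lit 655) (nat_lit 6671) (.f (nat_lit 624) (nat_lit 656) (nat_lit 4623) (.f (nat_lit 592) (nat_lit 495) (nat_lit 7663) (.f (nat_lit 622) (nat_lit 654) (nat_lit 5646) (.d (nat_lit 593) (nat_lit 594) (nat_lit 1614) (nat_lit 621) (nat_lit 2637)))))) (.p (nat_lit 592) (.a (.d (nat_lit 624) (nat_lit 495) (nat_lit 7663) (nat_lit 656) (nat_lit 7695)) (.a (.p (nat_lit 558) (.a (.d (nat_lit 557) (nat_lit 556) (nat_lit 2572) (nat_lit 593) (nat_lit 557)) (.a (.d (nat_lit 593) (nat_lit 557) (nat_lit 557) (nat_lit 594) (nat_lit 3630)) (.p (nat_lit 590) (.a (.d (nat_lit 589) (nat_lit 561) (nat_lit 1581) (nat_lit 588) (nat_lit 2604)) (.d (nat_lit 622) (nat_lit 495) (nat_lit 5614) (nat_lit 654) (nat_lit 6670))))))) (.f (nat_lit 624) (nat_lit 656) (nat_lit 7695) (.f (nat_lit 625) (nat_lit 657) (nat_lit 4624) (.f (nat_lit 590) (nat_lit 589) (nat_lit 589) (.d (nat_lit 626) (nat_lit 593) (nat_lit 590) (nat_lit 627) (nat_lit 3663)))))))))))) (.f (nat_lit 525) (nat_lit 524) (nat_lit 524) (.f (nat_lit 557) (nat_lit 556) (nat_lit 1548) (.f (nat_lit 493) (nat_lit 492) (nat_lit 3564) (.p (nat_lit 558) (.a (.d (nat_lit 461) (nat_lit 429) (nat_lit 4525) (nat_lit 590) (nat_lit 4557)) (.f (nat_lit 589) (nat_lit 588) (nat_lit 1580) (.d (nat_lit 494) (nat_lit 462) (nat_lit 5581) (nat_lit 621) (nat_lit 6637))))))))))) (.a (.p (nat_lit 526) (.a (.d (nat_lit 525) (nat_lit 524) (nat_lit 524) (nat_lit 561) (nat_lit 525)) (.a (.p (nat_lit 558) (.a (.f (nat_lit 557) (nat_lit 556) (nat_lit 2572) (.f (nat_lit 589) (nat_lit 588) (nat_lit 1580) (.f (nat_lit 494) (nat_lit 462) (nat_lit 5581) (.d (nat_lit 590) (nat_lit 561) (nat_lit 1581) (nat_lit 621) (nat_lit 5613))))) (.a (.f (nat_lit 557) (nat_lit 556) (nat_lit 2572) (.f (nat_lit 589) (nat_lit 588) (nat_lit 1580) (.f (nat_lit 590) (nat_lit 561) (nat_lit 1581) (.d (nat_lit 621) (nat_lit 494) (nat_lit 5613) (nat_lit 653) (nat_lit 6669))))) (.a (.p (nat_lit 494) (.a (.d (nat_lit 462) (nat_lit 430) (nat_lit 4526) (nat_lit 591) (nat_lit 4558)) (.a (.f (nat_lit 623) (nat_lit 591) (nat_lit 7662) (.p (nat_lit 590) (.a (.d (nat_lit 622) (nat_lit 654) (nat_lit 6670) (nat_lit 655) (nat_lit 4622)) (.d (nat_lit 589) (nat_lit 561) (nat_lit 1581) (nat_lit 621) (nat_lit 5613))))) (.f (nat_lit 462) (nat_lit 430) (nat_lit 4526) (.f (nat_lit 589) (nat_lit 557) (nat_lit 5581) (.d (nat_lit 590) (nat_lit 561) (nat_lit 1581) (nat_lit 621) (nat_lit 5613))))))) (.a (.f (nat_lit 557) (nat_lit 556) (nat_lit 2572) (.f (nat_lit 589) (nat_lit 588) (nat_lit 1580) (.f (nat_lit 494) (nat_lit 462) (nat_lit 5581) (.f (nat_lit 592) (nat_lit 593) (nat_lit 557) (.f (nat_lit 624) (nat_lit 656) (nat_lit 7695) (.d (nat_lit 623) (nat_lit 591) (nat_lit 7662) (nat_lit 655) (nat_lit 5647))))))) (.a (.f (nat_lit 557) (nat_lit 556) (nat_lit 2572) (.f (nat_lit 589) (nat_lit 588) (nat_lit 1580) (.f (nat_lit 590) (nat_lit 561) (nat_lit 1581) (.f (nat_lit 622) (nat_lit 654) (nat_lit 6670) (.p (nat_lit 591) (.a (.f (nat_lit 592) (nat_lit 593) (nat_lit 557) (.d (nat_lit 621) (nat_lit 620) (nat_lit 1612) (nat_lit 653) (nat_lit 6669))) (.a (.p (nat_lit 624) (.a (.d (nat_lit 592) (nat_lit 593) (nat_lit 557) (nat_lit 656) (nat_lit 7695)) (.a (.d (nat_lit 623) (nat_lit 655) (nat_lit 6671) (nat_lit 656) (nat_lit 4623)) (.d (nat_lit 592) (nat_lit 593) (nat_lit 3629) (nat_lit 625) (nat_lit 589))))) (.f (nat_lit 623) (nat_lit 655) (nat_lit 6671) (.d (nat_lit 624) (nat_lit 625) (nat_lit 3661) (nat_lit 656) (nat_lit 4623)))))))))) (.a (.f (nat_lit 557) (nat_lit 556) (nat_lit 2572) (.f (nat_lit 592) (nat_lit 593) (nat_lit 557) (.f (nat_lit 624) (nat_lit 656) (nat_lit 7695) (.f (nat_lit 623) (nat_lit 655) (nat_lit 5647) (.f (nat_lit 591) (nat_lit 494) (nat_lit 7662) (.f (nat_lit 625) (nat_lit 657) (nat_lit 4624) (.d (nat_lit 626) (nat_lit 590) (nat_lit 3662) (nat_lit 627) (nat_lit 3663)))))))) (.p (nat_lit 494) (.a (.d (nat_lit 462) (nat_lit 430) (nat_lit 4526) (nat_lit 591) (nat_lit 4558)) (.a (.f (nat_lit 623) (nat_lit 591) (nat_lit 7662) (.p (nat_lit 590) (.a (.d (nat_lit 622) (nat_lit 654) (nat_lit 6670) (nat_lit 655) (nat_lit 4622)) (.d (nat_lit 589) (nat_lit 561) (nat_lit 1581) (nat_lit 621) (nat_lit 5613))))) (.f (nat_lit 462) (nat_lit 430) (nat_lit 4526) (.f (nat_lit 461) (nat_lit 429) (nat_lit 7597) (.f (nat_lit 590) (nat_lit 493) (nat_lit 7629) (.d (nat_lit 589) (nat_lit 561) (nat_lit 1581) (nat_lit 621) (nat_lit 5613))))))))))))))) (.f (nat_lit 525) (nat_lit 524) (nat_lit 524) (.f (nat_lit 557) (nat_lit 556) (nat_lit 1548) (.f (nat_lit 493) (nat_lit 492) (nat_lit 3564) (.p (nat_lit 558) (.a (.d (nat_lit 461) (nat_lit 429) (nat_lit 4525) (nat_lit 590) (nat_lit 4557)) (.f (nat_lit 589) (nat_lit 588) (nat_lit 1580) (.d (nat_lit 494) (nat_lit 462) (nat_lit 5581) (nat_lit 621) (nat_lit 6637))))))))))) s16844)))))))))))))) (.a (.p (nat_lit 561) (.a (.p (nat_lit 562) (.a (.d (nat_lit 527) (nat_lit 526) (nat_lit 3598) (nat_lit 563) (nat_lit 3599)) (.a (.f (nat_lit 527) (nat_lit 526) (nat_lit 3598) (.f (nat_lit 590) (nat_lit 591) (nat_lit 1582) (.f (nat_lit 558) (nat_lit 589) (nat_lit 1581) (.d (nat_lit 594) (nat_lit 593) (nat_lit 558) (nat_lit 595) (nat_lit 559))))) (.a (.f (nat_lit 563) (nat_lit 527) (nat_lit 3599) (.d (nat_lit 595) (nat_lit 594) (nat_lit 559) (nat_lit 596) (nat_lit 560))) (.f (nat_lit 590) (nat_lit 591) (nat_lit 1582) (.f (nat_lit 558) (nat_lit 589) (nat_lit 1581) (.d (nat_lit 594) (nat_lit 593) (nat_lit 558) (nat_lit 595) (nat_lit 559)))))))) (.a (.p (nat_lit 527) (.a (.d (nat_lit 526) (nat_lit 525) (nat_lit 525) (nat_lit 562) (nat_lit 3598)) (.a (.f (nat_lit 562) (nat_lit 563) (nat_lit 3599) (.f (nat_lit 590) (nat_lit 591) (nat_lit 1582) (.f (nat_lit 558) (nat_lit 589) (nat_lit 1581) (.f (nat_lit 495) (nat_lit 463) (nat_lit 5582) (.f (nat_lit 592) (nat_lit 624) (nat_lit 7663) (.d (nat_lit 557) (nat_lit 556) (nat_lit 2572) (nat_lit 593) (nat_lit 557))))))) (.f (nat_lit 526) (nat_lit 525) (nat_lit 525) (.p (nat_lit 495) (.a (.d (nat_lit 463) (nat_lit 431) (nat_lit 4527) (nat_lit 592) (nat_lit 4559)) (.a (.d (nat_lit 592) (nat_lit 463) (nat_lit 4559) (nat_lit 624) (nat_lit 7663)) (.a (.f (nat_lit 463) (nat_lit 431) (nat_lit 4527) (.f (nat_lit 558) (nat_lit 590) (nat_lit 5582) (.f (nat_lit 462) (nat_lit 430) (nat_lit 7598) (.f (nat_lit 494) (nat_lit 591) (nat_lit 4558) (.d (nat_lit 557) (nat_lit 556) (nat_lit 2572) (nat_lit 589) (nat_lit 5581)))))) (.f (nat_lit 592) (nat_lit 624) (nat_lit 7663) (.p (nat_lit 558) (.a (.d (nat_lit 557) (nat_lit 556) (nat_lit 2572) (nat_lit 593) (nat_lit 557)) (.d (nat_lit 590) (nat_lit 589) (nat_lit 1581) (nat_lit 622) (nat_lit 6638))))))))))))) (.a (.p (nat_lit 527) (.a (.d (nat_lit 526) (nat_lit 525) (nat_lit 525) (nat_lit 562) (nat_lit 3598)) (.a (.f (nat_lit 562) (nat_lit 563) (nat_lit 3599) (.f (nat_lit 594) (nat_lit 595) (nat_lit 559) (.f (nat_lit 558) (nat_lit 593) (nat_lit 558) (.f (nat_lit 557) (nat_lit 556) (nat_lit 2572) (.d (nat_lit 589) (nat_lit 588) (nat_lit 1580) (nat_lit 590) (nat_lit 1581)))))) (.f (nat_lit 526) (nat_lit 525) (nat_lit 525) (.p (nat_lit 558) (.a (.f (nat_lit 557) (nat_lit 556) (nat_lit 2572) (.d (nat_lit 593) (nat_lit 592) (nat_lit 557) (nat_lit 594) (nat_lit 558))) (.f (nat_lit 590) (nat_lit 589) (nat_lit 1581) (.d (nat_lit 495) (nat_lit 463) (nat_lit 5582) (nat_lit 622) (nat_lit 6638))))))))) (.a s17144 (.a s19161 (.a s17637 (.a (.p (nat_lit 562) (.a (.f (nat_lit 563) (nat_lit 527) (nat_lit 3599) (.d (nat_lit 595) (nat_lit 594) (nat_lit 559) (nat_lit 596) (nat_lit 560))) (.a (.f (nat_lit 563) (nat_lit 527) (nat_lit 3599) (.d (nat_lit 591) (nat_lit 590) (nat_lit 1582) (nat_lit 592) (nat_lit 1583))) (.f (nat_lit 594) (nat_lit 595) (nat_lit 559) (.f (nat_lit 593) (nat_lit 558) (nat_lit 558) (.f (nat_lit 530) (nat_lit 531) (nat_lit 2575) (.d (nat_lit 498) (nat_lit 466) (nat_lit 5585) (nat_lit 625) (nat_lit 5617)))))))) (.a (.p (nat_lit 562) (.a (.d (nat_lit 527) (nat_lit 526) (nat_lit 3598) (nat_lit 563) (nat_lit 3599)) (.a (.f (nat_lit 526) (nat_lit 527) (nat_lit 3598) (.f (nat_lit 558) (nat_lit 525) (nat_lit 3597) (.d (nat_lit 590) (nat_lit 589) (nat_lit 1581) (nat_lit 591) (nat_lit 1582)))) (.a (.f (nat_lit 563) (nat_lit 527) (nat_lit 3599) (.d (nat_lit 595) (nat_lit 594) (nat_lit 559) (nat_lit 596) (nat_lit 560))) (.f (nat_lit 591) (nat_lit 590) (nat_lit 1582) (.f (nat_lit 563) (nat_lit 592) (nat_lit 1583) (.d (nat_lit 595) (nat_lit 594) (nat_lit 559) (nat_lit 596) (nat_lit 560)))))))) (.a (.p (nat_lit 558) (.a (.f (nat_lit 593) (nat_lit 594) (nat_lit 558) (.f (nat_lit 557) (nat_lit 592) (nat_lit 557) (.d (nat_lit 525) (nat_lit 524) (nat_lit 3596) (nat_lit 526) (nat_lit 3597)))) (.a (.f (nat_lit 525) (nat_lit 526) (nat_lit 3597) (.f (nat_lit 557) (nat_lit 524) (nat_lit 3596) (.d (nat_lit 589) (nat_lit 588) (nat_lit 1580) (nat_lit 590) (nat_lit 1581)))) (.a (.f (nat_lit 593) (nat_lit 594) (nat_lit 558) (.f (nat_lit 557) (nat_lit 592) (nat_lit 557) (.d (nat_lit 589) (nat_lit 588) (nat_lit 1580) (nat_lit 590) (nat_lit 1581)))) (.f (nat_lit 526) (nat_lit 525) (nat_lit 3597) (.f (nat_lit 590) (nat_lit 589) (nat_lit 1581) (.f (nat_lit 593) (nat_lit 594) (nat_lit 558) (.f (nat_lit 625) (nat_lit 657) (nat_lit 7696) (.p (nat_lit 495) (.a (.d (nat_lit 463) (nat_lit 494) (nat_lit 6606) (nat_lit 527) (nat_lit 5582)) (.a (.d (nat_lit 527) (nat_lit 463) (nat_lit 5582) (nat_lit 622) (nat_lit 6638)) (.a (.f (nat_lit 527) (nat_lit 622) (nat_lit 6638) (.p (nat_lit 591) (.a (.d (nat_lit 592) (nat_lit 624) (nat_lit 4591) (nat_lit 626) (nat_lit 590)) (.f (nat_lit 494) (nat_lit 462) (nat_lit 4558) (.d (nat_lit 493) (nat_lit 461) (nat_lit 7629) (nat_lit 492) (nat_lit 492)))))) (.f (nat_lit 494) (nat_lit 463) (nat_lit 6606) (.f (nat_lit 462) (nat_lit 591) (nat_lit 4558) (.d (nat_lit 461) (nat_lit 429) (nat_lit 7597) (nat_lit 493) (nat_lit 7629)))))))))))))))) (.p (nat_lit 562) (.a (.f (nat_lit 590) (nat_lit 591) (nat_lit 1582) (.f (nat_lit 558) (nat_lit 589) (nat_lit 1581) (.d (nat_lit 594) (nat_lit 593) (nat_lit 558) (nat_lit 595) (nat_lit 559)))) (.a (.f (nat_lit 591) (nat_lit 590) (nat_lit 1582) (.f (nat_lit 563) (nat_lit 592) (nat_lit 1583) (.d (nat_lit 531) (nat_lit 530) (nat_lit 2575) (nat_lit 532) (nat_lit 2576)))) (.f (nat_lit 594) (nat_lit 595) (nat_lit 559) (.f (nat_lit 593) (nat_lit 558) (nat_lit 558) (.f (nat_lit 530) (nat_lit 531) (nat_lit 2575) (.d (nat_lit 498) (nat_lit 466) (nat_lit 5585) (nat_lit 625) (nat_lit 5617)))))))))))))))))) (.a (.p (nat_lit 561) (.a (.p (nat_lit 562) (.a (.d (nat_lit 527) (nat_lit 526) (nat_lit 3598) (nat_lit 563) (nat_lit 3599)) (.a (.f (nat_lit 526) (nat_lit 527) (nat_lit 3598) (.f (nat_lit 558) (nat_lit 525) (nat_lit 3597) (.d (nat_lit 594) (nat_lit 593) (nat_lit 558) (nat_lit 595) (nat_lit 559)))) (.a (.f (nat_lit 563) (nat_lit 527) (nat_lit 3599) (.d (nat_lit 595) (nat_lit 594) (nat_lit 559) (nat_lit 596) (nat_lit 560))) (.f (nat_lit 591) (nat_lit 590) (nat_lit 1582) (.f (nat_lit 563) (nat_lit 592) (nat_lit 1583) (.d (nat_lit 595) (nat_lit 594) (nat_lit 559) (nat_lit 596) (nat_lit 560)))))))) (.a (.p (nat_lit 562) (.a (.d (nat_lit 527) (nat_lit 526) (nat_lit 3598) (nat_lit 563) (nat_lit 3599)) (.a (.f (nat_lit 526) (nat_lit 527) (nat_lit 3598) (.f (nat_lit 558) (nat_lit 525) (nat_lit 3597) (.d (nat_lit 590) (nat_lit 589) (nat_lit 1581) (nat_lit 591) (nat_lit 1582)))) (.a (.f (nat_lit 563) (nat_lit 527) (nat_lit 3599) (.d (nat_lit 591) (nat_lit 590) (nat_lit 1582) (nat_lit 592) (nat_lit 1583))) (.f (nat_lit 591) (nat_lit 590) (nat_lit 1582) (.f (nat_lit 563) (nat_lit 592) (nat_lit 1583) (.d (nat_lit 531) (nat_lit 530) (nat_lit 2575) (nat_lit 532) (nat_lit 2576)))))))) (.a (.p (nat_lit 562) (.a (.d (nat_lit 527) (nat_lit 526) (nat_lit 3598) (nat_lit 563) (nat_lit 3599)) (.a (.f (nat_lit 526) (nat_lit 527) (nat_lit 3598) (.f (nat_lit 558) (nat_lit 525) (nat_lit 3597) (.d (nat_lit 594) (nat_lit 593) (nat_lit 558) (nat_lit 595) (nat_lit 559)))) (.a (.f (nat_lit 563) (nat_lit 527) (nat_lit 3599) (.d (nat_lit 595) (nat_lit 594) (nat_lit 559) (nat_lit 596) (nat_lit 560))) (.f (nat_lit 594) (nat_lit 595) (nat_lit 559) (.f (nat_lit 593) (nat_lit 558) (nat_lit 558) (.f (nat_lit 625) (nat_lit 657) (nat_lit 7696) (.d (nat_lit 530) (nat_lit 498) (nat_lit 5617) (nat_lit 531) (nat_lit 2575))))))))) (.a (.p (nat_lit 562) (.a (.d (nat_lit 527) (nat_lit 526) (nat_lit 3598) (nat_lit 563) (nat_lit 3599)) (.a (.f (nat_lit 591) (nat_lit 590) (nat_lit 1582) (.f (nat_lit 527) (nat_lit 526) (nat_lit 3598) (.f (nat_lit 623) (nat_lit 655) (nat_lit 6671) (.f (nat_lit 624) (nat_lit 656) (nat_lit 4623) (.f (nat_lit 594) (nat_lit 595) (nat_lit 559) (.p (nat_lit 593) (.a (.d (nat_lit 622) (nat_lit 592) (nat_lit 1614) (nat_lit 654) (nat_lit 5646)) (.f (nat_lit 625) (nat_lit 657) (nat_lit 7696) (.d (nat_lit 530) (nat_lit 498) (nat_lit 5617) (nat_lit 531) (nat_lit 2575)))))))))) (.a (.f (nat_lit 563) (nat_lit 527) (nat_lit 3599) (.d (nat_lit 595) (nat_lit 594) (nat_lit 559) (nat_lit 596) (nat_lit 560))) (.f (nat_lit 591) (nat_lit 590) (nat_lit 1582) (.f (nat_lit 563) (nat_lit 592) (nat_lit 1583) (.d (nat_lit 595) (nat_lit 594) (nat_lit 559) (nat_lit 596) (nat_lit 560)))))))) (.a s21022 (.a (.p (nat_lit 562) (.a (.f (nat_lit 563) (nat_lit 527) (nat_lit 3599) (.d (nat_lit 595) (nat_lit 594) (nat_lit 559) (nat_lit 596) (nat_lit 560))) (.a (.f (nat_lit 563) (nat_lit 527) (nat_lit 3599) (.d (nat_lit 591) (nat_lit 590) (nat_lit 1582) (nat_lit 592) (nat_lit 1583))) (.f (nat_lit 594) (nat_lit 595) (nat_lit 559) (.f (nat_lit 593) (nat_lit 558) (nat_lit 558) (.f (nat_lit 625) (nat_lit 657) (nat_lit 7696) (.d (nat_lit 530) (nat_lit 498) (nat_lit 5617) (nat_lit 531) (nat_lit 2575)))))))) (.a (.p (nat_lit 558) (.a (.f (nat_lit 526) (nat_lit 525) (nat_lit 3597) (.f (nat_lit 590) (nat_lit 589) (nat_lit 1581) (.p (nat_lit 591) (.a (.d (nat_lit 623) (nat_lit 494) (nat_lit 4590) (nat_lit 655) (nat_lit 7694)) (.a (.d (nat_lit 494) (nat_lit 462) (nat_lit 4558) (nat_lit 623) (nat_lit 4590)) (.a (.f (nat_lit 623) (nat_lit 655) (nat_lit 6671) (.f (nat_lit 593) (nat_lit 594) (nat_lit 558) (.f (nat_lit 592) (nat_lit 557) (nat_lit 557) (.f (nat_lit 622) (nat_lit 621) (nat_lit 1613) (.d (nat_lit 654) (nat_lit 527) (nat_lit 6670) (nat_lit 686) (nat_lit 6702)))))) (.f (nat_lit 593) (nat_lit 594) (nat_lit 558) (.f (nat_lit 557) (nat_lit 592) (nat_lit 557) (.d (nat_lit 556) (nat_lit 527) (nat_lit 2572) (nat_lit 555) (nat_lit 555)))))))))) (.a (.f (nat_lit 593) (nat_lit 594) (nat_lit 558) (.f (nat_lit 557) (nat_lit 592) (nat_lit 557) (.d (nat_lit 589) (nat_lit 588) (nat_lit 1580) (nat_lit 590) (nat_lit 1581)))) (.a (.f (nat_lit 526) (nat_lit 525) (nat_lit 3597) (.f (nat_lit 590) (nat_lit 589) (nat_lit 1581) (.p (nat_lit 623) (.a (.d (nat_lit 591) (nat_lit 494) (nat_lit 4590) (nat_lit 655) (nat_lit 7694)) (.a (.f (nat_lit 622) (nat_lit 655) (nat_lit 4622) (.f (nat_lit 654) (nat_lit 527) (nat_lit 6670) (.d (nat_lit 653) (nat_lit 621) (nat_lit 5645) (nat_lit 685) (nat_lit 5677)))) (.f (nat_lit 591) (nat_lit 494) (nat_lit 4590) (.p (nat_lit 622) (.a (.d (nat_lit 654) (nat_lit 527) (nat_lit 6670) (nat_lit 686) (nat_lit 6702)) (.p (nat_lit 592) (.a (.d (nat_lit 557) (nat_lit 556) (nat_lit 556) (nat_lit 593) (nat_lit 557)) (.a (.d (nat_lit 593) (nat_lit 557) (nat_lit 3629) (nat_lit 621) (nat_lit 1613)) (.a (.d (nat_lit 621) (nat_lit 593) (nat_lit 1613) (nat_lit 653) (nat_lit 5645)) (.d (nat_lit 621) (nat_lit 620) (nat_lit 2636) (nat_lit 653) (nat_lit 5645)))))))))))))) (.a (.f (nat_lit 593) (nat_lit 594) (nat_lit 558) (.f (nat_lit 557) (nat_lit 592) (nat_lit 557) (.d (nat_lit 525) (nat_lit 524) (nat_lit 3596) (nat_lit 526) (nat_lit 3597)))) (.a (.f (nat_lit 526) (nat_lit 525) (nat_lit 3597) (.f (nat_lit 590) (nat_lit 589) (nat_lit 1581) (.f (nat_lit 593) (nat_lit 594) (nat_lit 558) (.p (nat_lit 623) (.a (.d (nat_lit 591) (nat_lit 494) (nat_lit 4590) (nat_lit 655) (nat_lit 7694)) (.a (.f (nat_lit 622) (nat_lit 655) (nat_lit 4622) (.f (nat_lit 654) (nat_lit 527) (nat_lit 6670) (.d (nat_lit 653) (nat_lit 621) (nat_lit 5645) (nat_lit 685) (nat_lit 5677)))) (.f (nat_lit 494) (nat_lit 591) (nat_lit 4590) (.p (nat_lit 462) (.a (.d (nat_lit 461) (nat_lit 429) (nat_lit 7597) (nat_lit 493) (nat_lit 7629)) (.f (nat_lit 430) (nat_lit 527) (nat_lit 4526) (.d (nat_lit 431) (nat_lit 399) (nat_lit 6542) (nat_lit 463) (nat_lit 6574)))))))))))) (.f (nat_lit 526) (nat_lit 525) (nat_lit 3597) (.f (nat_lit 589) (nat_lit 590) (nat_lit 1581) (.p (nat_lit 623) (.a (.f (nat_lit 591) (nat_lit 655) (nat_lit 6671) (.d (nat_lit 494) (nat_lit 462) (nat_lit 4558) (nat_lit 527) (nat_lit 7662))) (.a (.f (nat_lit 591) (nat_lit 655) (nat_lit 6671) (.f (nat_lit 557) (nat_lit 588) (nat_lit 1580) (.d (nat_lit 556) (nat_lit 527) (nat_lit 2572) (nat_lit 592) (nat_lit 556)))) (.a (.p (nat_lit 624) (.a (.f (nat_lit 557) (nat_lit 588) (nat_lit 1580) (.f (nat_lit 527) (nat_lit 556) (nat_lit 2572) (.d (nat_lit 592) (nat_lit 655) (nat_lit 5647) (nat_lit 656) (nat_lit 7695)))) (.a (.f (nat_lit 592) (nat_lit 655) (nat_lit 5647) (.f (nat_lit 656) (nat_lit 527) (nat_lit 7695) (.d (nat_lit 657) (nat_lit 625) (nat_lit 4624) (nat_lit 689) (nat_lit 4656)))) (.a (.f (nat_lit 557) (nat_lit 588) (nat_lit 1580) (.p (nat_lit 657) (.a (.f (nat_lit 527) (nat_lit 556) (nat_lit 2572) (.f (nat_lit 621) (nat_lit 653) (nat_lit 6669) (.d (nat_lit 656) (nat_lit 592) (nat_lit 7695) (nat_lit 622) (nat_lit 621)))) (.a (.f (nat_lit 527) (nat_lit 556) (nat_lit 2572) (.d (nat_lit 592) (nat_lit 625) (nat_lit 4624) (nat_lit 656) (nat_lit 7695))) (.a (.p (nat_lit 656) (.a (.d (nat_lit 592) (nat_lit 527) (nat_lit 7695) (nat_lit 689) (nat_lit 4656)) (.d (nat_lit 621) (nat_lit 622) (nat_lit 621) (nat_lit 653) (nat_lit 6669)))) (.a (.p (nat_lit 658) (.a (.f (nat_lit 621) (nat_lit 653) (nat_lit 6669) (.d (nat_lit 656) (nat_lit 622) (nat_lit 621) (nat_lit 659) (nat_lit 3695))) (.a (.f (nat_lit 659) (nat_lit 656) (nat_lit 3695) (.d (nat_lit 625) (nat_lit 626) (nat_lit 623) (nat_lit 660) (nat_lit 3696))) (.a (.f (nat_lit 621) (nat_lit 653) (nat_lit 6669) (.d (nat_lit 622) (nat_lit 625) (nat_lit 622) (nat_lit 656) (nat_lit 621))) (.f (nat_lit 625) (nat_lit 622) (nat_lit 622) (.d (nat_lit 659) (nat_lit 626) (nat_lit 623) (nat_lit 660) (nat_lit 3696))))))) (.f (nat_lit 625) (nat_lit 592) (nat_lit 4624) (.f (nat_lit 622) (nat_lit 658) (nat_lit 622) (.d (nat_lit 653) (nat_lit 621) (nat_lit 6669) (nat_lit 654) (nat_lit 1645)))))))))) (.a (.p (nat_lit 621) (.a (.d (nat_lit 557) (nat_lit 588) (nat_lit 1580) (nat_lit 653) (nat_lit 6669)) (.a (.f (nat_lit 622) (nat_lit 588) (nat_lit 3660) (.f (nat_lit 653) (nat_lit 652) (nat_lit 1644) (.f (nat_lit 625) (nat_lit 654) (nat_lit 1645) (.d (nat_lit 657) (nat_lit 656) (nat_lit 621) (nat_lit 658) (nat_lit 622))))) (.a (.f (nat_lit 653) (nat_lit 557) (nat_lit 6669) (.f (nat_lit 622) (nat_lit 652) (nat_lit 1644) (.f (nat_lit 625) (nat_lit 654) (nat_lit 1645) (.d (nat_lit 657) (nat_lit 656) (nat_lit 621) (nat_lit 658) (nat_lit 622))))) (.d (nat_lit 588) (nat_lit 557) (nat_lit 1580) (nat_lit 622) (nat_lit 3660)))))) (.f (nat_lit 557) (nat_lit 588) (nat_lit 1580) (.f (nat_lit 653) (nat_lit 621) (nat_lit 6669) (.f (nat_lit 655) (nat_lit 592) (nat_lit 5647) (.f (nat_lit 654) (nat_lit 652) (nat_lit 2668) (.d (nat_lit 625) (nat_lit 622) (nat_lit 1645) (nat_lit 626) (nat_lit 1646))))))))))) (.a (.f (nat_lit 557) (nat_lit 588) (nat_lit 1580) (.f (nat_lit 527) (nat_lit 556) (nat_lit 2572) (.d (nat_lit 494) (nat_lit 462) (nat_lit 5581) (nat_lit 591) (nat_lit 7662)))) (.f (nat_lit 655) (nat_lit 591) (nat_lit 6671) (.f (nat_lit 557) (nat_lit 588) (nat_lit 1580) (.f (nat_lit 653) (nat_lit 621) (nat_lit 6669) (.f (nat_lit 624) (nat_lit 592) (nat_lit 5647) (.f (nat_lit 654) (nat_lit 652) (nat_lit 2668) (.d (nat_lit 625) (nat_lit 622) (nat_lit 1645) (nat_lit 626) (nat_lit 1646)))))))))))))))))))) (.p (nat_lit 558) (.a (.f (nat_lit 590) (nat_lit 589) (nat_lit 1581) (.f (nat_lit 591) (nat_lit 562) (nat_lit 1582) (.f (nat_lit 623) (nat_lit 655) (nat_lit 6671) (.d (nat_lit 526) (nat_lit 494) (nat_lit 4590) (nat_lit 525) (nat_lit 3597))))) (.a (.f (nat_lit 593) (nat_lit 594) (nat_lit 558) (.f (nat_lit 557) (nat_lit 592) (nat_lit 557) (.d (nat_lit 589) (nat_lit 588) (nat_lit 1580) (nat_lit 590) (nat_lit 1581)))) (.f (nat_lit 593) (nat_lit 594) (nat_lit 558) (.f (nat_lit 557) (nat_lit 592) (nat_lit 557) (.d (nat_lit 525) (nat_lit 524) (nat_lit 3596) (nat_lit 526) (nat_lit 3597))))))))))))))) (.a (.p (nat_lit 623) (.a (.f (nat_lit 591) (nat_lit 655) (nat_lit 6671) (.p (nat_lit 527) (.a (.f (nat_lit 624) (nat_lit 656) (nat_lit 4623) (.f (nat_lit 495) (nat_lit 592) (nat_lit 7663) (.d (nat_lit 622) (nat_lit 590) (nat_lit 5614) (nat_lit 654) (nat_lit 5646)))) (.a (.f (nat_lit 624) (nat_lit 656) (nat_lit 4623) (.f (nat_lit 495) (nat_lit 592) (nat_lit 7663) (.d (nat_lit 494) (nat_lit 462) (nat_lit 7630) (nat_lit 526) (nat_lit 7662)))) (.a (.f (nat_lit 526) (nat_lit 494) (nat_lit 7662) (.f (nat_lit 525) (nat_lit 524) (nat_lit 524) (.f (nat_lit 622) (nat_lit 654) (nat_lit 5646) (.f (nat_lit 590) (nat_lit 495) (nat_lit 5614) (.d (nat_lit 493) (nat_lit 492) (nat_lit 3564) (nat_lit 558) (nat_lit 7661)))))) s21395))))) (.a (.f (nat_lit 591) (nat_lit 655) (nat_lit 6671) (.p (nat_lit 527) (.a (.f (nat_lit 624) (nat_lit 656) (nat_lit 4623) (.f (nat_lit 495) (nat_lit 592) (nat_lit 7663) (.d (nat_lit 622) (nat_lit 590) (nat_lit 5614) (nat_lit 654) (nat_lit 5646)))) (.a (.f (nat_lit 624) (nat_lit 656) (nat_lit 4623) (.f (nat_lit 592) (nat_lit 495) (nat_lit 7663) (.f (nat_lit 625) (nat_lit 657) (nat_lit 4624) (.d (nat_lit 590) (nat_lit 589) (nat_lit 589) (nat_lit 626) (nat_lit 3662))))) (.a (.f (nat_lit 526) (nat_lit 494) (nat_lit 7662) (.f (nat_lit 525) (nat_lit 524) (nat_lit 524) (.f (nat_lit 622) (nat_lit 654) (nat_lit 5646) (.f (nat_lit 590) (nat_lit 495) (nat_lit 5614) (.d (nat_lit 493) (nat_lit 492) (nat_lit 3564) (nat_lit 558) (nat_lit 7661)))))) (.a (.f (nat_lit 624) (nat_lit 656) (nat_lit 4623) (.f (nat_lit 592) (nat_lit 495) (nat_lit 7663) (.f (nat_lit 622) (nat_lit 654) (nat_lit 5646) (.d (nat_lit 593) (nat_lit 594) (nat_lit 1614) (nat_lit 621) (nat_lit 2637))))) (.f (nat_lit 624) (nat_lit 656) (nat_lit 4623) (.f (nat_lit 622) (nat_lit 654) (nat_lit 5646) (.p (nat_lit 592) (.a (.d (nat_lit 593) (nat_lit 594) (nat_lit 1614) (nat_lit 621) (nat_lit 2637)) (.a (.d (nat_lit 621) (nat_lit 593) (nat_lit 2637) (nat_lit 620) (nat_lit 2636)) (.f (nat_lit 625) (nat_lit 657) (nat_lit 4624) (.d (nat_lit 590) (nat_lit 589) (nat_lit 589) (nat_lit 626) (nat_lit 3662)))))))))))))) (.a (.f (nat_lit 591) (nat_lit 655) (nat_lit 6671) (.p (nat_lit 527) (.a (.f (nat_lit 624) (nat_lit 656) (nat_lit 4623) (.f (nat_lit 495) (nat_lit 592) (nat_lit 7663) (.d (nat_lit 494) (nat_lit 462) (nat_lit 7630) (nat_lit 526) (nat_lit 7662)))) (.a (.f (nat_lit 624) (nat_lit 656) (nat_lit 4623) (.f (nat_lit 592) (nat_lit 495) (nat_lit 7663) (.f (nat_lit 625) (nat_lit 657) (nat_lit 4624) (.d (nat_lit 590) (nat_lit 589) (nat_lit 589) (nat_lit 626) (nat_lit 3662))))) (.a (.f (nat_lit 494) (nat_lit 526) (nat_lit 7662) (.f (nat_lit 495) (nat_lit 462) (nat_lit 7630) (.d (nat_lit 463) (nat_lit 431) (nat_lit 4527) (nat_lit 592) (nat_lit 4559)))) (.a s21440 s21464)))))) (.a (.f (nat_lit 591) (nat_lit 655) (nat_lit 6671) s20820) (.a (.f (nat_lit 591) (nat_lit 655) (nat_lit 6671) (.p (nat_lit 527) (.a (.f (nat_lit 526) (nat_lit 494) (nat_lit 7662) (.f (nat_lit 525) (nat_lit 524) (nat_lit 524) (.f (nat_lit 622) (nat_lit 654) (nat_lit 5646) (.f (nat_lit 590) (nat_lit 495) (nat_lit 5614) (.d (nat_lit 493) (nat_lit 492) (nat_lit 3564) (nat_lit 558) (nat_lit 7661)))))) (.a (.f (nat_lit 494) (nat_lit 526) (nat_lit 7662) (.f (nat_lit 495) (nat_lit 462) (nat_lit 7630) (.d (nat_lit 463) (nat_lit 431) (nat_lit 4527) (nat_lit 592) (nat_lit 4559)))) (.a (.f (nat_lit 622) (nat_lit 654) (nat_lit 5646) (.f (nat_lit 495) (nat_lit 590) (nat_lit 5614) (.d (nat_lit 463) (nat_lit 431) (nat_lit 4527) (nat_lit 592) (nat_lit 4559)))) (.f (nat_lit 526) (nat_lit 494) (nat_lit 7662) (.f (nat_lit 525) (nat_lit 524) (nat_lit 524) (.f (nat_lit 557) (nat_lit 556) (nat_lit 1548) (.f (nat_lit 622) (nat_lit 654) (nat_lit 5646) (.p (nat_lit 558) (.a (.d (nat_lit 493) (nat_lit 492) (nat_lit 3564) (nat_lit 590) (nat_lit 7661)) (.p (nat_lit 621) (.a (.d (nat_lit 592) (nat_lit 593) (nat_lit 557) (nat_lit 620) (nat_lit 2636)) (.d (nat_lit 589) (nat_lit 588) (nat_lit 1580) (nat_lit 653) (nat_lit 6669))))))))))))))) (.a (.p (nat_lit 624) (.a (.f (nat_lit 592) (nat_lit 655) (nat_lit 5647) (.d (nat_lit 527) (nat_lit 495) (nat_lit 7663) (nat_lit 656) (nat_lit 7695))) (.a (.p (nat_lit 592) (.a (.d (nat_lit 527) (nat_lit 495) (nat_lit 7663) (nat_lit 656) (nat_lit 7695)) (.a s21491 (.a (.f (nat_lit 625) (nat_lit 657) (nat_lit 4624) (.p (nat_lit 622) (.a (.d (nat_lit 593) (nat_lit 594) (nat_lit 2638) (nat_lit 621) (nat_lit 2637)) (.a (.f (nat_lit 621) (nat_lit 593) (nat_lit 2637) (.d (nat_lit 653) (nat_lit 652) (nat_lit 1644) (nat_lit 654) (nat_lit 1645))) (.a (.f (nat_lit 593) (nat_lit 594) (nat_lit 2638) (.f (nat_lit 558) (nat_lit 557) (nat_lit 557) (.f (nat_lit 527) (nat_lit 656) (nat_lit 7695) (.d (nat_lit 654) (nat_lit 590) (nat_lit 6670) (nat_lit 653) (nat_lit 1645))))) (.p (nat_lit 621) (.a (.d (nat_lit 653) (nat_lit 652) (nat_lit 1644) (nat_lit 654) (nat_lit 1645)) (.d (nat_lit 589) (nat_lit 588) (nat_lit 3660) (nat_lit 590) (nat_lit 3661))))))))) s21517)))) (.a (.p (nat_lit 622) (.a (.p (nat_lit 621) (.a (.f (nat_lit 589) (nat_lit 588) (nat_lit 3660) (.f (nat_lit 653) (nat_lit 652) (nat_lit 1644) (.f (nat_lit 656) (nat_lit 657) (nat_lit 621) (.p (nat_lit 654) (.a (.d (nat_lit 557) (nat_lit 525) (nat_lit 4621) (nat_lit 686) (nat_lit 4653)) (.p (nat_lit 590) (.a (.f (nat_lit 655) (nat_lit 620) (nat_lit 620) (.d (nat_lit 685) (nat_lit 684) (nat_lit 1676) (nat_lit 717) (nat_lit 6733))) (.d (nat_lit 558) (nat_lit 526) (nat_lit 5645) (nat_lit 527) (nat_lit 6670))))))))) (.a (.p (nat_lit 620) (.a (.d (nat_lit 656) (nat_lit 655) (nat_lit 620) (nat_lit 657) (nat_lit 621)) (.d (nat_lit 652) (nat_lit 651) (nat_lit 1643) (nat_lit 653) (nat_lit 1644)))) (.a (.f (nat_lit 589) (nat_lit 588) (nat_lit 3660) (.f (nat_lit 653) (nat_lit 652) (nat_lit 1644) (.p (nat_lit 557) (.a (.d (nat_lit 654) (nat_lit 525) (nat_lit 4621) (nat_lit 686) (nat_lit 4653)) (.a (.f (nat_lit 558) (nat_lit 526) (nat_lit 6669) (.d (nat_lit 524) (nat_lit 525) (nat_lit 3596) (nat_lit 556) (nat_lit 7692))) (.f (nat_lit 558) (nat_lit 526) (nat_lit 6669) (.d (nat_lit 556) (nat_lit 524) (nat_lit 7692) (nat_lit 527) (nat_lit 2572)))))))) (.f (nat_lit 588) (nat_lit 589) (nat_lit 3660) (.f (nat_lit 620) (nat_lit 587) (nat_lit 3659) (.d (nat_lit 656) (nat_lit 655) (nat_lit 620) (nat_lit 657) (nat_lit 621)))))))) (.a (.p (nat_lit 625) (.a (.f (nat_lit 654) (nat_lit 653) (nat_lit 1645) (.f (nat_lit 626) (nat_lit 655) (nat_lit 1646) (.d (nat_lit 658) (nat_lit 657) (nat_lit 622) (nat_lit 659) (nat_lit 623)))) (.a (.f (nat_lit 654) (nat_lit 653) (nat_lit 1645) (.f (nat_lit 590) (nat_lit 589) (nat_lit 3661) (.f (nat_lit 655) (nat_lit 626) (nat_lit 1646) (.d (nat_lit 558) (nat_lit 526) (nat_lit 4622) (nat_lit 527) (nat_lit 6670))))) (.f (nat_lit 657) (nat_lit 658) (nat_lit 622) (.f (nat_lit 621) (nat_lit 656) (nat_lit 621) (.d (nat_lit 589) (nat_lit 588) (nat_lit 3660) (nat_lit 590) (nat_lit 3661))))))) (.a (.p (nat_lit 621) (.a (.p (nat_lit 620) (.a (.d (nat_lit 656) (nat_lit 655) (nat_lit 620) (nat_lit 657) (nat_lit 621)) (.d (nat_lit 652) (nat_lit 651) (nat_lit 1643) (nat_lit 653) (nat_lit 1644)))) (.a (.f (nat_lit 653) (nat_lit 652) (nat_lit 1644) (.f (nat_lit 625) (nat_lit 654) (nat_lit 1645) (.d (nat_lit 657) (nat_lit 656) (nat_lit 621) (nat_lit 658) (nat_lit 622)))) (.a (.f (nat_lit 653) (nat_lit 652) (nat_lit 1644) (.f (nat_lit 625) (nat_lit 654) (nat_lit 1645) (.f (nat_lit 588) (nat_lit 589) (nat_lit 3660) (.f (nat_lit 594) (nat_lit 593) (nat_lit 2638) (.f (nat_lit 626) (nat_lit 595) (nat_lit 2639) (.d (nat_lit 658) (nat_lit 657) (nat_lit 622) (nat_lit 659) (nat_lit 623))))))) (.a (.f (nat_lit 653) (nat_lit 652) (nat_lit 1644) (.f (nat_lit 589) (nat_lit 588) (nat_lit 3660) (.f (nat_lit 654) (nat_lit 625) (nat_lit 1645) (.d (nat_lit 557) (nat_lit 525) (nat_lit 4621) (nat_lit 686) (nat_lit 4653))))) (.f (nat_lit 588) (nat_lit 589) (nat_lit 3660) (.f (nat_lit 620) (nat_lit 587) (nat_lit 3659) (.d (nat_lit 656) (nat_lit 655) (nat_lit 620) (nat_lit 657) (nat_lit 621))))))))) (.a (.p (nat_lit 625) (.a (.f (nat_lit 654) (nat_lit 653) (nat_lit 1645) (.f (nat_lit 626) (nat_lit 655) (nat_lit 1646) (.d (nat_lit 658) (nat_lit 657) (nat_lit 622) (nat_lit 659) (nat_lit 623)))) (.a (.f (nat_lit 654) (nat_lit 653) (nat_lit 1645) (.f (nat_lit 590) (nat_lit 589) (nat_lit 3661) (.f (nat_lit 655) (nat_lit 626) (nat_lit 1646) (.d (nat_lit 558) (nat_lit 526) (nat_lit 4622) (nat_lit 527) (nat_lit 6670))))) (.a (.f (nat_lit 594) (nat_lit 593) (nat_lit 2638) (.f (nat_lit 626) (nat_lit 595) (nat_lit 2639) (.d (nat_lit 658) (nat_lit 657) (nat_lit 622) (nat_lit 659) (nat_lit 623)))) (.f (nat_lit 590) (nat_lit 589) (nat_lit 3661) (.f (nat_lit 654) (nat_lit 653) (nat_lit 1645) (.f (nat_lit 558) (nat_lit 527) (nat_lit 6670) (.d (nat_lit 655) (nat_lit 526) (nat_lit 4622) (nat_lit 687) (nat_lit 4654))))))))) (.a (.p (nat_lit 625) (.a (.f (nat_lit 657) (nat_lit 658) (nat_lit 622) (.f (nat_lit 621) (nat_lit 656) (nat_lit 621) (.d (nat_lit 589) (nat_lit 588) (nat_lit 3660) (nat_lit 590) (nat_lit 3661)))) (.a (.f (nat_lit 657) (nat_lit 658) (nat_lit 622) (.f (nat_lit 621) (nat_lit 656) (nat_lit 621) (.d (nat_lit 653) (nat_lit 652) (nat_lit 1644) (nat_lit 654) (nat_lit 1645)))) (.a (.p (nat_lit 621) (.a (.d (nat_lit 653) (nat_lit 652) (nat_lit 1644) (nat_lit 654) (nat_lit 1645)) (.d (nat_lit 589) (nat_lit 588) (nat_lit 3660) (nat_lit 590) (nat_lit 3661)))) (.f (nat_lit 594) (nat_lit 593) (nat_lit 2638) (.f (nat_lit 626) (nat_lit 595) (nat_lit 2639) (.d (nat_lit 658) (nat_lit 657) (nat_lit 622) (nat_lit 659) (nat_lit 623)))))))) (.a (.p (nat_lit 621) (.a (.f (nat_lit 588) (nat_lit 589) (nat_lit 3660) (.f (nat_lit 620) (nat_lit 587) (nat_lit 3659) (.d (nat_lit 656) (nat_lit 655) (nat_lit 620) (nat_lit 657) (nat_lit 621)))) (.a (.f (nat_lit 589) (nat_lit 588) (nat_lit 3660) (.f (nat_lit 625) (nat_lit 590) (nat_lit 3661) (.d (nat_lit 657) (nat_lit 656) (nat_lit 621) (nat_lit 658) (nat_lit 622)))) (.a (.p (nat_lit 620) (.a (.d (nat_lit 656) (nat_lit 655) (nat_lit 620) (nat_lit 657) (nat_lit 621)) (.d (nat_lit 652) (nat_lit 651) (nat_lit 1643) (nat_lit 653) (nat_lit 1644)))) (.a (.f (nat_lit 589) (nat_lit 588) (nat_lit 3660) (.f (nat_lit 625) (nat_lit 590) (nat_lit 3661) (.f (nat_lit 652) (nat_lit 653) (nat_lit 1644) (.f (nat_lit 594) (nat_lit 593) (nat_lit 2638) (.f (nat_lit 626) (nat_lit 595) (nat_lit 2639) (.d (nat_lit 658) (nat_lit 657) (nat_lit 622) (nat_lit 659) (nat_lit 623))))))) (.f (nat_lit 589) (nat_lit 588) (nat_lit 3660) (.f (nat_lit 590) (nat_lit 625) (nat_lit 3661) (.f (nat_lit 653) (nat_lit 652) (nat_lit 1644) (.d (nat_lit 558) (nat_lit 526) (nat_lit 5645) (nat_lit 685) (nat_lit 6701)))))))))) (.a (.p (nat_lit 625) (.a (.f (nat_lit 654) (nat_lit 653) (nat_lit 1645) (.f (nat_lit 626) (nat_lit 655) (nat_lit 1646) (.d (nat_lit 658) (nat_lit 657) (nat_lit 622) (nat_lit 659) (nat_lit 623)))) (.a (.f (nat_lit 594) (nat_lit 593) (nat_lit 2638) (.f (nat_lit 626) (nat_lit 595) (nat_lit 2639) (.d (nat_lit 654) (nat_lit 653) (nat_lit 1645) (nat_lit 655) (nat_lit 1646)))) (.a (.f (nat_lit 657) (nat_lit 658) (nat_lit 622) (.f (nat_lit 594) (nat_lit 593) (nat_lit 2638) (.f (nat_lit 626) (nat_lit 595) (nat_lit 2639) (.f (nat_lit 621) (nat_lit 656) (nat_lit 621) (.d (nat_lit 653) (nat_lit 652) (nat_lit 1644) (nat_lit 654) (nat_lit 1645)))))) (.a (.f (nat_lit 657) (nat_lit 658) (nat_lit 622) (.f (nat_lit 594) (nat_lit 593) (nat_lit 2638) (.f (nat_lit 626) (nat_lit 595) (nat_lit 2639) (.f (nat_lit 656) (nat_lit 621) (nat_lit 621) (.d (nat_lit 627) (nat_lit 628) (nat_lit 1648) (nat_lit 655) (nat_lit 1647)))))) (.f (nat_lit 657) (nat_lit 658) (nat_lit 622) (.f (nat_lit 621) (nat_lit 656) (nat_lit 621) (.d (nat_lit 653) (nat_lit 652) (nat_lit 1644) (nat_lit 654) (nat_lit 1645))))))))) (.a (.p (nat_lit 621) (.a (.f (nat_lit 589) (nat_lit 588) (nat_lit 3660) (.f (nat_lit 653) (nat_lit 652) (nat_lit 1644) (.p (nat_lit 557) (.a (.d (nat_lit 654) (nat_lit 525) (nat_lit 4621) (nat_lit 686) (nat_lit 4653)) (.a (.f (nat_lit 558) (nat_lit 526) (nat_lit 6669) (.d (nat_lit 524) (nat_lit 525) (nat_lit 3596) (nat_lit 556) (nat_lit 7692))) (.p (nat_lit 590) (.a (.d (nat_lit 558) (nat_lit 526) (nat_lit 6669) (nat_lit 685) (nat_lit 6701)) (.a (.f (nat_lit 686) (nat_lit 654) (nat_lit 7725) (.d (nat_lit 685) (nat_lit 717) (nat_lit 6733) (nat_lit 718) (nat_lit 4685))) (.f (nat_lit 558) (nat_lit 526) (nat_lit 5645) (.d (nat_lit 527) (nat_lit 556) (nat_lit 2572) (nat_lit 654) (nat_lit 6670))))))))))) (.a (.f (nat_lit 589) (nat_lit 588) (nat_lit 3660) (.f (nat_lit 653) (nat_lit 652) (nat_lit 1644) (.d (nat_lit 625) (nat_lit 590) (nat_lit 3661) (nat_lit 654) (nat_lit 1645)))) (.a (.f (nat_lit 653) (nat_lit 652) (nat_lit 1644) (.f (nat_lit 589) (nat_lit 588) (nat_lit 3660) (.f (nat_lit 654) (nat_lit 625) (nat_lit 1645) (.d (nat_lit 557) (nat_lit 525) (nat_lit 4621) (nat_lit 686) (nat_lit 4653))))) (.a (.f (nat_lit 589) (nat_lit 588) (nat_lit 3660) (.f (nat_lit 590) (nat_lit 625) (nat_lit 3661) (.f (nat_lit 653) (nat_lit 652) (nat_lit 1644) (.d (nat_lit 558) (nat_lit 526) (nat_lit 5645) (nat_lit 685) (nat_lit 6701))))) (.a (.f (nat_lit 653) (nat_lit 652) (nat_lit 1644) (.f (nat_lit 654) (nat_lit 625) (nat_lit 1645) (.p (nat_lit 620) (.a (.d (nat_lit 655) (nat_lit 619) (nat_lit 619) (nat_lit 656) (nat_lit 620)) (.a (.p (nat_lit 590) (.a (.d (nat_lit 558) (nat_lit 526) (nat_lit 5645) (nat_lit 527) (nat_lit 6670)) (.f (nat_lit 587) (nat_lit 588) (nat_lit 3659) (.d (nat_lit 619) (nat_lit 586) (nat_lit 3658) (nat_lit 618) (nat_lit 618))))) (.p (nat_lit 558) (.a (.d (nat_lit 590) (nat_lit 526) (nat_lit 5645) (nat_lit 527) (nat_lit 6670)) (.a (.p (nat_lit 524) (.a (.f (nat_lit 525) (nat_lit 557) (nat_lit 3596) (.d (nat_lit 526) (nat_lit 523) (nat_lit 523) (nat_lit 527) (nat_lit 524))) (.d (nat_lit 588) (nat_lit 556) (nat_lit 4620) (nat_lit 587) (nat_lit 3659)))) (.a (.d (nat_lit 590) (nat_lit 527) (nat_lit 6670) (nat_lit 685) (nat_lit 5677)) (.d (nat_lit 590) (nat_lit 526) (nat_lit 5645) (nat_lit 685) (nat_lit 5677))))))))))) (.a (.f (nat_lit 653) (nat_lit 652) (nat_lit 1644) (.f (nat_lit 654) (nat_lit 625) (nat_lit 1645) (.p (nat_lit 558) (.a (.d (nat_lit 590) (nat_lit 526) (nat_lit 5645) (nat_lit 527) (nat_lit 6670)) (.a (.p (nat_lit 557) (.a (.d (nat_lit 525) (nat_lit 524) (nat_lit 3596) (nat_lit 589) (nat_lit 4621)) (.a (.p (nat_lit 620) (.a (.d (nat_lit 655) (nat_lit 619) (nat_lit 619) (nat_lit 656) (nat_lit 620)) (.f (nat_lit 556) (nat_lit 527) (nat_lit 2572) (.d (nat_lit 524) (nat_lit 523) (nat_lit 3595) (nat_lit 525) (nat_lit 3596))))) (.d (nat_lit 589) (nat_lit 526) (nat_lit 6669) (nat_lit 686) (nat_lit 4653))))) (.a (.d (nat_lit 590) (nat_lit 527) (nat_lit 6670) (nat_lit 685) (nat_lit 5677)) (.d (nat_lit 590) (nat_lit 526) (nat_lit 5645) (nat_lit 685) (nat_lit 5677)))))))) (.f (nat_lit 589) (nat_lit 588) (nat_lit 3660) (.f (nat_lit 590) (nat_lit 625) (nat_lit 3661) (.p (nat_lit 654) (.a (.d (nat_lit 557) (nat_lit 525) (nat_lit 4621) (nat_lit 686) (nat_lit 7725)) (.p (nat_lit 655) (.a (.d (nat_lit 558) (nat_lit 526) (nat_lit 4622) (nat_lit 527) (nat_lit 6670)) (.d (nat_lit 620) (nat_lit 619) (nat_lit 619) (nat_lit 656) (nat_lit 620))))))))))))))) (.p (nat_lit 625) (.a (.f (nat_lit 657) (nat_lit 658) (nat_lit 622) (.f (nat_lit 621) (nat_lit 656) (nat_lit 621) (.d (nat_lit 589) (nat_lit 588) (nat_lit 3660) (nat_lit 590) (nat_lit 3661)))) (.a (.f (nat_lit 657) (nat_lit 658) (nat_lit 622) (.f (nat_lit 594) (nat_lit 593) (nat_lit 2638) (.f (nat_lit 626) (nat_lit 595) (nat_lit 2639) (.f (nat_lit 656) (nat_lit 621) (nat_lit 621) (.d (nat_lit 655) (nat_lit 627) (nat_lit 1647) (nat_lit 654) (nat_lit 1646)))))) (.a (.f (nat_lit 589) (nat_lit 590) (nat_lit 3661) (.f (nat_lit 621) (nat_lit 588) (nat_lit 3660) (.f (nat_lit 656) (nat_lit 657) (nat_lit 621) (.f (nat_lit 655) (nat_lit 620) (nat_lit 620) (.d (nat_lit 626) (nat_lit 627) (nat_lit 1647) (nat_lit 654) (nat_lit 1646)))))) (.a (.f (nat_lit 594) (nat_lit 593) (nat_lit 2638) (.f (nat_lit 626) (nat_lit 595) (nat_lit 2639) (.d (nat_lit 658) (nat_lit 657) (nat_lit 622) (nat_lit 659) (nat_lit 623)))) (.f (nat_lit 589) (nat_lit 590) (nat_lit 3661) (.f (nat_lit 621) (nat_lit 588) (nat_lit 3660) (.f (nat_lit 594) (nat_lit 593) (nat_lit 2638) (.f (nat_lit 626) (nat_lit 595) (nat_lit 2639) (.f (nat_lit 655) (nat_lit 654) (nat_lit 1646) (.d (nat_lit 656) (nat_lit 620) (nat_lit 620) (nat_lit 627) (nat_lit 1647))))))))))))))))))))) (.a (.f (nat_lit 592) (nat_lit 655) (nat_lit 5647) s21491) (.f (nat_lit 592) (nat_lit 655) (nat_lit 5647) s21517)))))) (.a (.f (nat_lit 591) (nat_lit 655) (nat_lit 6671) (.p (nat_lit 527) (.a (.f (nat_lit 624) (nat_lit 656) (nat_lit 4623) (.f (nat_lit 495) (nat_lit 592) (nat_lit 7663) (.d (nat_lit 494) (nat_lit 462) (nat_lit 7630) (nat_lit 526) (nat_lit 7662)))) (.a (.f (nat_lit 624) (nat_lit 656) (nat_lit 4623) (.f (nat_lit 592) (nat_lit 495) (nat_lit 7663) (.f (nat_lit 622) (nat_lit 654) (nat_lit 5646) (.d (nat_lit 593) (nat_lit 594) (nat_lit 1614) (nat_lit 621) (nat_lit 2637))))) (.a (.f (nat_lit 494) (nat_lit 526) (nat_lit 7662) (.f (nat_lit 495) (nat_lit 462) (nat_lit 7630) (.d (nat_lit 463) (nat_lit 431) (nat_lit 4527) (nat_lit 592) (nat_lit 4559)))) (.a s21890 s21906)))))) (.a (.p (nat_lit 527) (.a (.p (nat_lit 495) (.a (.d (nat_lit 463) (nat_lit 431) (nat_lit 4527) (nat_lit 592) (nat_lit 4559)) (.a (.d (nat_lit 592) (nat_lit 463) (nat_lit 4559) (nat_lit 624) (nat_lit 7663)) (.a (.f (nat_lit 463) (nat_lit 431) (nat_lit 4527) (.f (nat_lit 558) (nat_lit 590) (nat_lit 5582) (.f (nat_lit 557) (nat_lit 556) (nat_lit 2572) (.f (nat_lit 462) (nat_lit 430) (nat_lit 7598) (.f (nat_lit 494) (nat_lit 591) (nat_lit 7630) (.d (nat_lit 589) (nat_lit 526) (nat_lit 5581) (nat_lit 588) (nat_lit 1580))))))) (.f (nat_lit 624) (nat_lit 592) (nat_lit 7663) (.f (nat_lit 591) (nat_lit 656) (nat_lit 4623) (.d (nat_lit 622) (nat_lit 590) (nat_lit 5614) (nat_lit 654) (nat_lit 5646)))))))) (.a (.p (nat_lit 592) (.a (.d (nat_lit 495) (nat_lit 463) (nat_lit 4559) (nat_lit 624) (nat_lit 7663)) (.a (.f (nat_lit 495) (nat_lit 463) (nat_lit 4559) (.p (nat_lit 591) (.a (.d (nat_lit 622) (nat_lit 590) (nat_lit 5614) (nat_lit 654) (nat_lit 5646)) (.a (.f (nat_lit 526) (nat_lit 494) (nat_lit 7662) (.f (nat_lit 525) (nat_lit 524) (nat_lit 524) (.f (nat_lit 557) (nat_lit 556) (nat_lit 1548) (.f (nat_lit 558) (nat_lit 593) (nat_lit 557) (.f (nat_lit 493) (nat_lit 492) (nat_lit 3564) (.d (nat_lit 461) (nat_lit 429) (nat_lit 4525) (nat_lit 590) (nat_lit 4557))))))) (.f (nat_lit 622) (nat_lit 654) (nat_lit 5646) (.f (nat_lit 593) (nat_lit 594) (nat_lit 1614) (.f (nat_lit 526) (nat_lit 494) (nat_lit 7662) (.f (nat_lit 525) (nat_lit 524) (nat_lit 524) (.d (nat_lit 557) (nat_lit 556) (nat_lit 1548) (nat_lit 558) (nat_lit 557)))))))))) (.a (.d (nat_lit 624) (nat_lit 495) (nat_lit 7663) (nat_lit 656) (nat_lit 7695)) (.f (nat_lit 624) (nat_lit 656) (nat_lit 7695) (.f (nat_lit 625) (nat_lit 657) (nat_lit 4624) (.p (nat_lit 591) (.a (.d (nat_lit 590) (nat_lit 589) (nat_lit 589) (nat_lit 626) (nat_lit 3662)) (.f (nat_lit 622) (nat_lit 654) (nat_lit 5646) (.d (nat_lit 593) (nat_lit 594) (nat_lit 1614) (nat_lit 621) (nat_lit 2637))))))))))) (.a (.p (nat_lit 495) (.a (.d (nat_lit 463) (nat_lit 431) (nat_lit 4527) (nat_lit 592) (nat_lit 4559)) (.a (.d (nat_lit 592) (nat_lit 463) (nat_lit 4559) (nat_lit 624) (nat_lit 7663)) (.a (.f (nat_lit 463) (nat_lit 431) (nat_lit 4527) (.f (nat_lit 462) (nat_lit 430) (nat_lit 7598) (.f (nat_lit 494) (nat_lit 591) (nat_lit 7630) (.f (nat_lit 493) (nat_lit 492) (nat_lit 492) (.d (nat_lit 464) (nat_lit 432) (nat_lit 6575) (nat_lit 465) (nat_lit 1485)))))) (.f (nat_lit 624) (nat_lit 592) (nat_lit 7663) (.f (nat_lit 591) (nat_lit 656) (nat_lit 4623) (.d (nat_lit 494) (nat_lit 462) (nat_lit 7630) (nat_lit 526) (nat_lit 7662)))))))) (.a (.p (nat_lit 495) (.a (.d (nat_lit 463) (nat_lit 431) (nat_lit 4527) (nat_lit 592) (nat_lit 4559)) (.a (.f (nat_lit 463) (nat_lit 592) (nat_lit 4559) (.f (nat_lit 558) (nat_lit 590) (nat_lit 5582) (.f (nat_lit 557) (nat_lit 556) (nat_lit 2572) (.f (nat_lit 462) (nat_lit 430) (nat_lit 7598) (.f (nat_lit 494) (nat_lit 591) (nat_lit 7630) (.d (nat_lit 589) (nat_lit 526) (nat_lit 5581) (nat_lit 588) (nat_lit 1580))))))) (.a (.f (nat_lit 463) (nat_lit 431) (nat_lit 4527) (.f (nat_lit 558) (nat_lit 590) (nat_lit 5582) (.f (nat_lit 557) (nat_lit 556) (nat_lit 2572) (.f (nat_lit 462) (nat_lit 430) (nat_lit 7598) (.f (nat_lit 494) (nat_lit 591) (nat_lit 7630) (.d (nat_lit 589) (nat_lit 526) (nat_lit 5581) (nat_lit 588) (nat_lit 1580))))))) (.p (nat_lit 591) (.a (.d (nat_lit 622) (nat_lit 590) (nat_lit 5614) (nat_lit 654) (nat_lit 5646)) (.d (nat_lit 494) (nat_lit 462) (nat_lit 7630) (nat_lit 526) (nat_lit 7662)))))))) (.a (.p (nat_lit 495) (.a (.d (nat_lit 463) (nat_lit 431) (nat_lit 4527) (nat_lit 592) (nat_lit 4559)) (.a (.d (nat_lit 592) (nat_lit 463) (nat_lit 4559) (nat_lit 624) (nat_lit 7663)) (.a (.f (nat_lit 463) (nat_lit 431) (nat_lit 4527) (.f (nat_lit 558) (nat_lit 590) (nat_lit 5582) (.f (nat_lit 557) (nat_lit 556) (nat_lit 2572) (.f (nat_lit 525) (nat_lit 524) (nat_lit 3596) (.p (nat_lit 493) (.a (.d (nat_lit 492) (nat_lit 494) (nat_lit 492) (nat_lit 526) (nat_lit 3564)) (.a (.f (nat_lit 462) (nat_lit 430) (nat_lit 7598) (.d (nat_lit 589) (nat_lit 494) (nat_lit 6605) (nat_lit 588) (nat_lit 1580))) (.f (nat_lit 492) (nat_lit 526) (nat_lit 3564) (.d (nat_lit 589) (nat_lit 460) (nat_lit 7628) (nat_lit 588) (nat_lit 1580)))))))))) (.f (nat_lit 592) (nat_lit 624) (nat_lit 7663) (.p (nat_lit 557) (.a (.d (nat_lit 558) (nat_lit 556) (nat_lit 2572) (nat_lit 593) (nat_lit 557)) (.a (.f (nat_lit 558) (nat_lit 593) (nat_lit 557) (.f (nat_lit 525) (nat_lit 524) (nat_lit 3596) (.p (nat_lit 526) (.a (.f (nat_lit 493) (nat_lit 492) (nat_lit 3564) (.d (nat_lit 590) (nat_lit 461) (nat_lit 4557) (nat_lit 622) (nat_lit 6638))) (.a (.p (nat_lit 494) (.a (.d (nat_lit 589) (nat_lit 588) (nat_lit 1580) (nat_lit 621) (nat_lit 6637)) (.a (.d (nat_lit 462) (nat_lit 430) (nat_lit 5549) (nat_lit 589) (nat_lit 5581)) (.p (nat_lit 461) (.a (.d (nat_lit 493) (nat_lit 492) (nat_lit 3564) (nat_lit 590) (nat_lit 4557)) (.d (nat_lit 462) (nat_lit 429) (nat_lit 7597) (nat_lit 430) (nat_lit 5549))))))) (.f (nat_lit 589) (nat_lit 588) (nat_lit 1580) (.d (nat_lit 494) (nat_lit 462) (nat_lit 5581) (nat_lit 621) (nat_lit 6637)))))))) (.p (nat_lit 525) (.a (.d (nat_lit 526) (nat_lit 524) (nat_lit 524) (nat_lit 556) (nat_lit 1548)) (.a (.p (nat_lit 493) (.a (.d (nat_lit 492) (nat_lit 494) (nat_lit 492) (nat_lit 526) (nat_lit 3564)) (.a (.p (nat_lit 461) (.a (.p (nat_lit 429) (.a (.d (nat_lit 428) (nat_lit 396) (nat_lit 7564) (nat_lit 460) (nat_lit 7596)) (.p (nat_lit 397) (.a (.d (nat_lit 398) (nat_lit 366) (nat_lit 6509) (nat_lit 430) (nat_lit 6541)) (.d (nat_lit 526) (nat_lit 494) (nat_lit 4493) (nat_lit 524) (nat_lit 524)))))) (.a (.f (nat_lit 462) (nat_lit 430) (nat_lit 6573) (.f (nat_lit 460) (nat_lit 428) (nat_lit 7596) (.d (nat_lit 494) (nat_lit 459) (nat_lit 459) (nat_lit 589) (nat_lit 6605)))) (.a (.f (nat_lit 428) (nat_lit 460) (nat_lit 7596) (.f (nat_lit 429) (nat_lit 396) (nat_lit 7564) (.d (nat_lit 430) (nat_lit 398) (nat_lit 6541) (nat_lit 462) (nat_lit 6573)))) (.a (.p (nat_lit 589) (.a (.p (nat_lit 621) (.a (.d (nat_lit 620) (nat_lit 588) (nat_lit 5612) (nat_lit 652) (nat_lit 5644)) (.d (nat_lit 622) (nat_lit 590) (nat_lit 4589) (nat_lit 654) (nat_lit 4621)))) (.d (nat_lit 462) (nat_lit 430) (nat_lit 6573) (nat_lit 494) (nat_lit 6605)))) (.p (nat_lit 494) (.a (.p (nat_lit 429) (.a (.d (nat_lit 428) (nat_lit 396) (nat_lit 7564) (nat_lit 460) (nat_lit 7596)) (.d (nat_lit 526) (nat_lit 397) (nat_lit 4493) (nat_lit 524) (nat_lit 524)))) (.a (.f (nat_lit 460) (nat_lit 428) (nat_lit 7596) (.d (nat_lit 462) (nat_lit 459) (nat_lit 459) (nat_lit 589) (nat_lit 6605))) (.f (nat_lit 526) (nat_lit 524) (nat_lit 524) (.d (nat_lit 589) (nat_lit 462) (nat_lit 6605) (nat_lit 621) (nat_lit 6637))))))))))) (.a (.d (nat_lit 526) (nat_lit 492) (nat_lit 3564) (nat_lit 524) (nat_lit 524)) (.f (nat_lit 492) (nat_lit 494) (nat_lit 492) (.f (nat_lit 460) (nat_lit 589) (nat_lit 7628) (.d (nat_lit 428) (nat_lit 461) (nat_lit 7596) (nat_lit 524) (nat_lit 4524)))))))) (.a (.p (nat_lit 493) (.a (.f (nat_lit 492) (nat_lit 494) (nat_lit 492) (.f (nat_lit 460) (nat_lit 589) (nat_lit 7628) (.d (nat_lit 428) (nat_lit 461) (nat_lit 7596) (nat_lit 524) (nat_lit 4524)))) (.a (.p (nat_lit 589) (.a (.d (nat_lit 494) (nat_lit 462) (nat_lit 6605) (nat_lit 492) (nat_lit 492)) (.a (.d (nat_lit 492) (nat_lit 460) (nat_lit 7628) (nat_lit 494) (nat_lit 492)) (.p (nat_lit 621) (.a (.d (nat_lit 620) (nat_lit 588) (nat_lit 5612) (nat_lit 652) (nat_lit 5644)) (.d (nat_lit 622) (nat_lit 590) (nat_lit 4589) (nat_lit 654) (nat_lit 4621))))))) (.a (.p (nat_lit 461) (.a (.p (nat_lit 429) (.a (.d (nat_lit 556) (nat_lit 524) (nat_lit 5548) (nat_lit 588) (nat_lit 5580)) (.d (nat_lit 428) (nat_lit 396) (nat_lit 7564) (nat_lit 460) (nat_lit 7596)))) (.a (.f (nat_lit 462) (nat_lit 430) (nat_lit 6573) (.f (nat_lit 460) (nat_lit 428) (nat_lit 7596) (.d (nat_lit 494) (nat_lit 459) (nat_lit 459) (nat_lit 589) (nat_lit 6605)))) (.p (nat_lit 429) (.a (.d (nat_lit 556) (nat_lit 524) (nat_lit 5548) (nat_lit 588) (nat_lit 5580)) (.d (nat_lit 430) (nat_lit 398) (nat_lit 6541) (nat_lit 462) (nat_lit 6573))))))) (.a (.p (nat_lit 589) (.a (.p (nat_lit 621) (.a (.d (nat_lit 620) (nat_lit 588) (nat_lit 5612) (nat_lit 652) (nat_lit 5644)) (.d (nat_lit 622) (nat_lit 590) (nat_lit 4589) (nat_lit 654) (nat_lit 4621)))) (.a (.p (nat_lit 461) (.a (.d (nat_lit 588) (nat_lit 556) (nat_lit 5580) (nat_lit 620) (nat_lit 5612)) (.d (nat_lit 460) (nat_lit 428) (nat_lit 7596) (nat_lit 492) (nat_lit 7628)))) (.f (nat_lit 492) (nat_lit 460) (nat_lit 7628) (.f (nat_lit 621) (nat_lit 524) (nat_lit 7660) (.d (nat_lit 622) (nat_lit 590) (nat_lit 4589) (nat_lit 654) (nat_lit 4621))))))) (.a (.p (nat_lit 461) (.a (.p (nat_lit 429) (.a (.d (nat_lit 556) (nat_lit 524) (nat_lit 5548) (nat_lit 588) (nat_lit 5580)) (.d (nat_lit 428) (nat_lit 396) (nat_lit 7564) (nat_lit 460) (nat_lit 7596)))) (.a (.f (nat_lit 494) (nat_lit 492) (nat_lit 492) (.f (nat_lit 428) (nat_lit 460) (nat_lit 7596) (.f (nat_lit 429) (nat_lit 396) (nat_lit 7564) (.d (nat_lit 430) (nat_lit 398) (nat_lit 6541) (nat_lit 462) (nat_lit 6573))))) (.a (.f (nat_lit 494) (nat_lit 492) (nat_lit 492) (.f (nat_lit 460) (nat_lit 428) (nat_lit 7596) (.d (nat_lit 462) (nat_lit 430) (nat_lit 6573) (nat_lit 459) (nat_lit 459)))) (.p (nat_lit 429) (.a (.d (nat_lit 556) (nat_lit 524) (nat_lit 5548) (nat_lit 588) (nat_lit 5580)) (.d (nat_lit 430) (nat_lit 398) (nat_lit 6541) (nat_lit 462) (nat_lit 6573)))))))) (.p (nat_lit 589) (.a (.p (nat_lit 621) (.a (.d (nat_lit 620) (nat_lit 588) (nat_lit 5612) (nat_lit 652) (nat_lit 5644)) (.d (nat_lit 622) (nat_lit 590) (nat_lit 4589) (nat_lit 654) (nat_lit 4621)))) (.d (nat_lit 494) (nat_lit 462) (nat_lit 6605) (nat_lit 492) (nat_lit 492)))))))))) (.f (nat_lit 556) (nat_lit 526) (nat_lit 1548) (.p (nat_lit 493) (.a (.f (nat_lit 588) (nat_lit 461) (nat_lit 5580) (.d (nat_lit 620) (nat_lit 589) (nat_lit 5612) (nat_lit 652) (nat_lit 6668))) (.a (.p (nat_lit 589) (.a (.d (nat_lit 492) (nat_lit 460) (nat_lit 7628) (nat_lit 494) (nat_lit 492)) (.p (nat_lit 621) (.a (.d (nat_lit 620) (nat_lit 588) (nat_lit 5612) (nat_lit 652) (nat_lit 5644)) (.d (nat_lit 622) (nat_lit 590) (nat_lit 4589) (nat_lit 654) (nat_lit 4621)))))) (.a (.f (nat_lit 461) (nat_lit 588) (nat_lit 5580) (.f (nat_lit 428) (nat_lit 460) (nat_lit 7596) (.f (nat_lit 429) (nat_lit 396) (nat_lit 7564) (.d (nat_lit 430) (nat_lit 398) (nat_lit 6541) (nat_lit 462) (nat_lit 6573))))) (.f (nat_lit 494) (nat_lit 492) (nat_lit 492) (.f (nat_lit 462) (nat_lit 589) (nat_lit 6605) (.d (nat_lit 430) (nat_lit 398) (nat_lit 5517) (nat_lit 461) (nat_lit 6573))))))))))))))))))))) (.a (.p (nat_lit 592) (.a (.d (nat_lit 495) (nat_lit 463) (nat_lit 4559) (nat_lit 624) (nat_lit 7663)) (.a (.f (nat_lit 495) (nat_lit 463) (nat_lit 4559) (.p (nat_lit 622) (.a (.d (nat_lit 591) (nat_lit 590) (nat_lit 5614) (nat_lit 654) (nat_lit 5646)) (.a (.p (nat_lit 558) (.a (.d (nat_lit 557) (nat_lit 556) (nat_lit 2572) (nat_lit 593) (nat_lit 557)) (.d (nat_lit 590) (nat_lit 526) (nat_lit 6638) (nat_lit 654) (nat_lit 6670)))) (.a (.p (nat_lit 557) (.a (.d (nat_lit 558) (nat_lit 556) (nat_lit 2572) (nat_lit 593) (nat_lit 557)) (.a (.f (nat_lit 593) (nat_lit 558) (nat_lit 557) (.d (nat_lit 591) (nat_lit 594) (nat_lit 1614) (nat_lit 654) (nat_lit 5646))) (.p (nat_lit 525) (.a (.d (nat_lit 526) (nat_lit 524) (nat_lit 524) (nat_lit 556) (nat_lit 1548)) (.a (.p (nat_lit 621) (.a (.d (nat_lit 591) (nat_lit 620) (nat_lit 2636) (nat_lit 654) (nat_lit 5646)) (.a (.f (nat_lit 589) (nat_lit 654) (nat_lit 4621) (.d (nat_lit 524) (nat_lit 492) (nat_lit 7660) (nat_lit 526) (nat_lit 524))) (.f (nat_lit 620) (nat_lit 591) (nat_lit 2636) (.d (nat_lit 652) (nat_lit 589) (nat_lit 5644) (nat_lit 651) (nat_lit 1643)))))) (.a (.p (nat_lit 621) (.a (.d (nat_lit 591) (nat_lit 620) (nat_lit 2636) (nat_lit 654) (nat_lit 5646)) (.a (.f (nat_lit 589) (nat_lit 654) (nat_lit 4621) (.f (nat_lit 620) (nat_lit 652) (nat_lit 5644) (.f (nat_lit 493) (nat_lit 588) (nat_lit 5612) (.d (nat_lit 492) (nat_lit 460) (nat_lit 7628) (nat_lit 524) (nat_lit 7660))))) (.a (.f (nat_lit 620) (nat_lit 591) (nat_lit 2636) (.d (nat_lit 652) (nat_lit 589) (nat_lit 5644) (nat_lit 651) (nat_lit 1643))) (.d (nat_lit 654) (nat_lit 589) (nat_lit 4621) (nat_lit 591) (nat_lit 5646)))))) (.p (nat_lit 621) (.a (.d (nat_lit 591) (nat_lit 620) (nat_lit 2636) (nat_lit 654) (nat_lit 5646)) (.a (.p (nat_lit 620) (.a (.d (nat_lit 589) (nat_lit 652) (nat_lit 5644) (nat_lit 654) (nat_lit 4621)) (.a (.d (nat_lit 652) (nat_lit 589) (nat_lit 5644) (nat_lit 651) (nat_lit 1643)) (.a (.f (nat_lit 556) (nat_lit 526) (nat_lit 1548) (.d (nat_lit 588) (nat_lit 587) (nat_lit 3659) (nat_lit 652) (nat_lit 6668))) (.p (nat_lit 493) (.a (.d (nat_lit 588) (nat_lit 587) (nat_lit 3659) (nat_lit 589) (nat_lit 5612)) (.d (nat_lit 526) (nat_lit 492) (nat_lit 3564) (nat_lit 556) (nat_lit 1548)))))))) (.a (.f (nat_lit 620) (nat_lit 591) (nat_lit 2636) (.d (nat_lit 652) (nat_lit 589) (nat_lit 5644) (nat_lit 651) (nat_lit 1643))) (.d (nat_lit 654) (nat_lit 589) (nat_lit 4621) (nat_lit 591) (nat_lit 5646))))))))))))) (.f (nat_lit 590) (nat_lit 591) (nat_lit 5614) (.f (nat_lit 558) (nat_lit 526) (nat_lit 6638) (.d (nat_lit 557) (nat_lit 556) (nat_lit 2572) (nat_lit 593) (nat_lit 557))))))))) (.a (.d (nat_lit 624) (nat_lit 495) (nat_lit 7663) (nat_lit 656) (nat_lit 7695)) (.f (nat_lit 624) (nat_lit 656) (nat_lit 7695) (.f (nat_lit 625) (nat_lit 657) (nat_lit 4624) (.p (nat_lit 593) (.a (.d (nat_lit 594) (nat_lit 595) (nat_lit 1615) (nat_lit 622) (nat_lit 2638)) (.a (.f (nat_lit 594) (nat_lit 595) (nat_lit 3631) (.d (nat_lit 558) (nat_lit 557) (nat_lit 557) (nat_lit 591) (nat_lit 3630))) (.f (nat_lit 622) (nat_lit 621) (nat_lit 2637) (.d (nat_lit 654) (nat_lit 591) (nat_lit 5646) (nat_lit 653) (nat_lit 1645)))))))))))) (.a (.p (nat_lit 495) (.a (.d (nat_lit 463) (nat_lit 431) (nat_lit 4527) (nat_lit 592) (nat_lit 4559)) (.a (.d (nat_lit 592) (nat_lit 463) (nat_lit 4559) (nat_lit 624) (nat_lit 7663)) (.a (.f (nat_lit 463) (nat_lit 431) (nat_lit 4527) (.f (nat_lit 590) (nat_lit 558) (nat_lit 5582) (.f (nat_lit 591) (nat_lit 622) (nat_lit 5614) (.d (nat_lit 462) (nat_lit 430) (nat_lit 7598) (nat_lit 494) (nat_lit 7630))))) (.f (nat_lit 624) (nat_lit 592) (nat_lit 7663) (.f (nat_lit 591) (nat_lit 656) (nat_lit 4623) (.d (nat_lit 622) (nat_lit 590) (nat_lit 5614) (nat_lit 654) (nat_lit 5646)))))))) (.a (.p (nat_lit 591) (.a (.f (nat_lit 526) (nat_lit 494) (nat_lit 7662) (.f (nat_lit 525) (nat_lit 524) (nat_lit 524) (.f (nat_lit 622) (nat_lit 654) (nat_lit 5646) (.f (nat_lit 590) (nat_lit 495) (nat_lit 5614) (.d (nat_lit 493) (nat_lit 492) (nat_lit 3564) (nat_lit 558) (nat_lit 7661)))))) (.a s21440 (.a (.f (nat_lit 622) (nat_lit 654) (nat_lit 5646) (.f (nat_lit 590) (nat_lit 495) (nat_lit 5614) (.f (nat_lit 589) (nat_lit 588) (nat_lit 2604) (.d (nat_lit 624) (nat_lit 625) (nat_lit 3661) (nat_lit 656) (nat_lit 4623))))) (.a s21890 (.f (nat_lit 526) (nat_lit 494) (nat_lit 7662) (.f (nat_lit 525) (nat_lit 524) (nat_lit 524) (.f (nat_lit 557) (nat_lit 556) (nat_lit 1548) (.f (nat_lit 622) (nat_lit 654) (nat_lit 5646) (.p (nat_lit 590) (.a (.d (nat_lit 493) (nat_lit 492) (nat_lit 3564) (nat_lit 558) (nat_lit 7661)) (.f (nat_lit 589) (nat_lit 588) (nat_lit 2604) (.d (nat_lit 624) (nat_lit 625) (nat_lit 3661) (nat_lit 656) (nat_lit 4623)))))))))))))) (.a (.p (nat_lit 591) (.a (.f (nat_lit 624) (nat_lit 656) (nat_lit 4623) (.f (nat_lit 495) (nat_lit 592) (nat_lit 7663) (.d (nat_lit 622) (nat_lit 590) (nat_lit 5614) (nat_lit 654) (nat_lit 5646)))) (.a (.f (nat_lit 624) (nat_lit 656) (nat_lit 4623) (.f (nat_lit 592) (nat_lit 495) (nat_lit 7663) (.f (nat_lit 625) (nat_lit 657) (nat_lit 4624) (.d (nat_lit 590) (nat_lit 589) (nat_lit 589) (nat_lit 626) (nat_lit 3662))))) (.a (.f (nat_lit 526) (nat_lit 494) (nat_lit 7662) (.f (nat_lit 525) (nat_lit 524) (nat_lit 524) (.f (nat_lit 622) (nat_lit 654) (nat_lit 5646) (.f (nat_lit 590) (nat_lit 495) (nat_lit 5614) (.d (nat_lit 493) (nat_lit 492) (nat_lit 3564) (nat_lit 558) (nat_lit 7661)))))) (.a (.f (nat_lit 624) (nat_lit 656) (nat_lit 4623) (.f (nat_lit 592) (nat_lit 495) (nat_lit 7663) (.f (nat_lit 622) (nat_lit 654) (nat_lit 5646) (.d (nat_lit 593) (nat_lit 594) (nat_lit 1614) (nat_lit 621) (nat_lit 2637))))) (.f (nat_lit 624) (nat_lit 656) (nat_lit 4623) (.f (nat_lit 622) (nat_lit 654) (nat_lit 5646) (.f (nat_lit 526) (nat_lit 494) (nat_lit 7662) (.f (nat_lit 525) (nat_lit 524) (nat_lit 524) (.p (nat_lit 590) (.a (.d (nat_lit 493) (nat_lit 492) (nat_lit 3564) (nat_lit 558) (nat_lit 7661)) (.d (nat_lit 589) (nat_lit 588) (nat_lit 588) (nat_lit 625) (nat_lit 3661))))))))))))) (.p (nat_lit 591) (.a s21395 (.a s21464 (.a (.f (nat_lit 624) (nat_lit 656) (nat_lit 4623) (.f (nat_lit 622) (nat_lit 654) (nat_lit 5646) (.p (nat_lit 625) (.a (.d (nat_lit 657) (nat_lit 592) (nat_lit 4624) (nat_lit 658) (nat_lit 622)) (.d (nat_lit 590) (nat_lit 589) (nat_lit 3661) (nat_lit 626) (nat_lit 3662)))))) (.a (.f (nat_lit 526) (nat_lit 494) (nat_lit 7662) (.f (nat_lit 525) (nat_lit 524) (nat_lit 524) (.f (nat_lit 557) (nat_lit 556) (nat_lit 1548) (.f (nat_lit 622) (nat_lit 654) (nat_lit 5646) (.p (nat_lit 558) (.a (.d (nat_lit 493) (nat_lit 492) (nat_lit 3564) (nat_lit 590) (nat_lit 7661)) (.p (nat_lit 621) (.a (.d (nat_lit 592) (nat_lit 593) (nat_lit 557) (nat_lit 620) (nat_lit 2636)) (.d (nat_lit 589) (nat_lit 588) (nat_lit 1580) (nat_lit 653) (nat_lit 6669)))))))))) (.a s21906 (.a (.f (nat_lit 624) (nat_lit 656) (nat_lit 4623) (.f (nat_lit 622) (nat_lit 654) (nat_lit 5646) (.f (nat_lit 526) (nat_lit 494) (nat_lit 7662) (.f (nat_lit 525) (nat_lit 524) (nat_lit 524) (.p (nat_lit 592) (.a (.d (nat_lit 593) (nat_lit 594) (nat_lit 1614) (nat_lit 621) (nat_lit 2637)) (.a (.d (nat_lit 621) (nat_lit 593) (nat_lit 2637) (nat_lit 620) (nat_lit 2636)) (.a (.f (nat_lit 593) (nat_lit 594) (nat_lit 1614) (.d (nat_lit 557) (nat_lit 556) (nat_lit 1548) (nat_lit 558) (nat_lit 557))) (.f (nat_lit 625) (nat_lit 657) (nat_lit 4624) (.d (nat_lit 626) (nat_lit 590) (nat_lit 3662) (nat_lit 627) (nat_lit 3663))))))))))) (.f (nat_lit 526) (nat_lit 494) (nat_lit 7662) (.f (nat_lit 525) (nat_lit 524) (nat_lit 524) (.f (nat_lit 557) (nat_lit 556) (nat_lit 1548) (.f (nat_lit 622) (nat_lit 654) (nat_lit 5646) (.p (nat_lit 590) (.a (.d (nat_lit 493) (nat_lit 492) (nat_lit 3564) (nat_lit 558) (nat_lit 7661)) (.f (nat_lit 589) (nat_lit 588) (nat_lit 2604) (.d (nat_lit 624) (nat_lit 625) (nat_lit 3661) (nat_lit 656) (nat_lit 4623)))))))))))))))))))))))))) (.a (.f (nat_lit 591) (nat_lit 655) (nat_lit 6671) (.p (nat_lit 527) (.a (.f (nat_lit 624) (nat_lit 656) (nat_lit 4623) (.f (nat_lit 495) (nat_lit 592) (nat_lit 7663) (.d (nat_lit 622) (nat_lit 590) (nat_lit 5614) (nat_lit 654) (nat_lit 5646)))) (.a (.f (nat_lit 624) (nat_lit 656) (nat_lit 4623) (.f (nat_lit 495) (nat_lit 592) (nat_lit 7663) (.d (nat_lit 494) (nat_lit 462) (nat_lit 7630) (nat_lit 526) (nat_lit 7662)))) (.a (.f (nat_lit 526) (nat_lit 494) (nat_lit 7662) (.f (nat_lit 525) (nat_lit 524) (nat_lit 524) (.f (nat_lit 622) (nat_lit 654) (nat_lit 5646) (.f (nat_lit 495) (nat_lit 590) (nat_lit 5614) (.d (nat_lit 463) (nat_lit 431) (nat_lit 4527) (nat_lit 592) (nat_lit 4559)))))) (.a (.f (nat_lit 526) (nat_lit 494) (nat_lit 7662) (.f (nat_lit 525) (nat_lit 524) (nat_lit 524) (.f (nat_lit 622) (nat_lit 654) (nat_lit 5646) (.f (nat_lit 590) (nat_lit 495) (nat_lit 5614) (.d (nat_lit 493) (nat_lit 492) (nat_lit 3564) (nat_lit 558) (nat_lit 7661)))))) (.f (nat_lit 624) (nat_lit 656) (nat_lit 4623) (.f (nat_lit 622) (nat_lit 654) (nat_lit 5646) (.f (nat_lit 526) (nat_lit 494) (nat_lit 7662) (.f (nat_lit 525) (nat_lit 524) (nat_lit 524) (.p (nat_lit 592) (.a (.d (nat_lit 593) (nat_lit 594) (nat_lit 1614) (nat_lit 621) (nat_lit 2637)) (.a (.d (nat_lit 621) (nat_lit 593) (nat_lit 2637) (nat_lit 620) (nat_lit 2636)) (.a (.f (nat_lit 593) (nat_lit 594) (nat_lit 1614) (.d (nat_lit 557) (nat_lit 556) (nat_lit 1548) (nat_lit 558) (nat_lit 557))) (.f (nat_lit 625) (nat_lit 657) (nat_lit 4624) (.d (nat_lit 626) (nat_lit 590) (nat_lit 3662) (nat_lit 627) (nat_lit 3663))))))))))))))))) (.a (.f (nat_lit 591) (nat_lit 655) (nat_lit 6671) (.p (nat_lit 527) (.a (.f (nat_lit 526) (nat_lit 494) (nat_lit 7662) (.f (nat_lit 525) (nat_lit 524) (nat_lit 524) (.f (nat_lit 622) (nat_lit 654) (nat_lit 5646) (.f (nat_lit 590) (nat_lit 495) (nat_lit 5614) (.d (nat_lit 493) (nat_lit 492) (nat_lit 3564) (nat_lit 558) (nat_lit 7661)))))) (.a s21440 (.a (.f (nat_lit 622) (nat_lit 654) (nat_lit 5646) (.f (nat_lit 590) (nat_lit 495) (nat_lit 5614) (.f (nat_lit 589) (nat_lit 588) (nat_lit 2604) (.d (nat_lit 624) (nat_lit 625) (nat_lit 3661) (nat_lit 656) (nat_lit 4623))))) (.a s21890 (.f (nat_lit 526) (nat_lit 494) (nat_lit 7662) (.f (nat_lit 525) (nat_lit 524) (nat_lit 524) (.f (nat_lit 557) (nat_lit 556) (nat_lit 1548) (.f (nat_lit 622) (nat_lit 654) (nat_lit 5646) (.p (nat_lit 590) (.a (.d (nat_lit 493) (nat_lit 492) (nat_lit 3564) (nat_lit 558) (nat_lit 7661)) (.f (nat_lit 589) (nat_lit 588) (nat_lit 2604) (.d (nat_lit 624) (nat_lit 625) (nat_lit 3661) (nat_lit 656) (nat_lit 4623))))))))))))))) (.a (.f (nat_lit 591) (nat_lit 655) (nat_lit 6671) (.p (nat_lit 527) (.a s21395 (.a s21464 (.a (.f (nat_lit 624) (nat_lit 656) (nat_lit 4623) (.f (nat_lit 622) (nat_lit 654) (nat_lit 5646) (.p (nat_lit 625) (.a (.d (nat_lit 657) (nat_lit 592) (nat_lit 4624) (nat_lit 658) (nat_lit 622)) (.d (nat_lit 590) (nat_lit 589) (nat_lit 3661) (nat_lit 626) (nat_lit 3662)))))) (.a (.f (nat_lit 526) (nat_lit 494) (nat_lit 7662) (.f (nat_lit 525) (nat_lit 524) (nat_lit 524) (.f (nat_lit 557) (nat_lit 556) (nat_lit 1548) (.f (nat_lit 622) (nat_lit 654) (nat_lit 5646) (.p (nat_lit 558) (.a (.d (nat_lit 493) (nat_lit 492) (nat_lit 3564) (nat_lit 590) (nat_lit 7661)) (.p (nat_lit 621) (.a (.d (nat_lit 592) (nat_lit 593) (nat_lit 557) (nat_lit 620) (nat_lit 2636)) (.d (nat_lit 589) (nat_lit 588) (nat_lit 1580) (nat_lit 653) (nat_lit 6669)))))))))) (.a s21906 (.a (.f (nat_lit 624) (nat_lit 656) (nat_lit 4623) (.f (nat_lit 622) (nat_lit 654) (nat_lit 5646) (.f (nat_lit 526) (nat_lit 494) (nat_lit 7662) (.f (nat_lit 525) (nat_lit 524) (nat_lit 524) (.p (nat_lit 592) (.a (.d (nat_lit 593) (nat_lit 594) (nat_lit 1614) (nat_lit 621) (nat_lit 2637)) (.a (.d (nat_lit 621) (nat_lit 593) (nat_lit 2637) (nat_lit 620) (nat_lit 2636)) (.a (.f (nat_lit 593) (nat_lit 594) (nat_lit 1614) (.d (nat_lit 557) (nat_lit 556) (nat_lit 1548) (nat_lit 558) (nat_lit 557))) (.f (nat_lit 625) (nat_lit 657) (nat_lit 4624) (.d (nat_lit 626) (nat_lit 590) (nat_lit 3662) (nat_lit 627) (nat_lit 3663))))))))))) (.f (nat_lit 526) (nat_lit 494) (nat_lit 7662) (.f (nat_lit 525) (nat_lit 524) (nat_lit 524) (.f (nat_lit 557) (nat_lit 556) (nat_lit 1548) (.f (nat_lit 622) (nat_lit 654) (nat_lit 5646) (.p (nat_lit 590) (.a (.d (nat_lit 493) (nat_lit 492) (nat_lit 3564) (nat_lit 558) (nat_lit 7661)) (.f (nat_lit 589) (nat_lit 588) (nat_lit 2604) (.d (nat_lit 624) (nat_lit 625) (nat_lit 3661) (nat_lit 656) (nat_lit 4623))))))))))))))))) (.f (nat_lit 655) (nat_lit 591) (nat_lit 6671) (.f (nat_lit 624) (nat_lit 592) (nat_lit 5647) (.p (nat_lit 625) (.a (.f (nat_lit 626) (nat_lit 654) (nat_lit 1646) (.f (nat_lit 627) (nat_lit 656) (nat_lit 1647) (.d (nat_lit 659) (nat_lit 658) (nat_lit 623) (nat_lit 660) (nat_lit 624)))) (.a (.f (nat_lit 654) (nat_lit 626) (nat_lit 1646) (.d (nat_lit 653) (nat_lit 622) (nat_lit 1645) (nat_lit 652) (nat_lit 2668))) (.a (.p (nat_lit 622) (.a (.f (nat_lit 657) (nat_lit 658) (nat_lit 622) (.f (nat_lit 621) (nat_lit 656) (nat_lit 621) (.d (nat_lit 589) (nat_lit 588) (nat_lit 3660) (nat_lit 590) (nat_lit 3661)))) (.a (.f (nat_lit 657) (nat_lit 658) (nat_lit 622) (.f (nat_lit 621) (nat_lit 656) (nat_lit 621) (.p (nat_lit 620) (.a (.d (nat_lit 652) (nat_lit 651) (nat_lit 1643) (nat_lit 653) (nat_lit 1644)) (.d (nat_lit 588) (nat_lit 587) (nat_lit 3659) (nat_lit 589) (nat_lit 3660)))))) (.a (.f (nat_lit 590) (nat_lit 589) (nat_lit 3661) (.f (nat_lit 594) (nat_lit 593) (nat_lit 2638) (.p (nat_lit 656) (.a (.d (nat_lit 621) (nat_lit 620) (nat_lit 620) (nat_lit 657) (nat_lit 621)) (.d (nat_lit 626) (nat_lit 595) (nat_lit 2639) (nat_lit 627) (nat_lit 1647)))))) (.a (.f (nat_lit 594) (nat_lit 593) (nat_lit 2638) (.f (nat_lit 626) (nat_lit 595) (nat_lit 2639) (.d (nat_lit 658) (nat_lit 657) (nat_lit 622) (nat_lit 659) (nat_lit 623)))) (.f (nat_lit 590) (nat_lit 589) (nat_lit 3661) (.f (nat_lit 594) (nat_lit 593) (nat_lit 2638) (.f (nat_lit 626) (nat_lit 595) (nat_lit 2639) (.f (nat_lit 627) (nat_lit 656) (nat_lit 1647) (.d (nat_lit 659) (nat_lit 658) (nat_lit 623) (nat_lit 660) (nat_lit 624))))))))))) (.p (nat_lit 622) (.a (.f (nat_lit 654) (nat_lit 653) (nat_lit 1645) (.f (nat_lit 590) (nat_lit 589) (nat_lit 3661) (.d (nat_lit 558) (nat_lit 526) (nat_lit 4622) (nat_lit 687) (nat_lit 4654)))) (.a (.f (nat_lit 653) (nat_lit 654) (nat_lit 1645) (.f (nat_lit 621) (nat_lit 652) (nat_lit 1644) (.d (nat_lit 656) (nat_lit 620) (nat_lit 620) (nat_lit 657) (nat_lit 621)))) (.f (nat_lit 657) (nat_lit 658) (nat_lit 622) (.f (nat_lit 621) (nat_lit 656) (nat_lit 621) (.d (nat_lit 589) (nat_lit 588) (nat_lit 3660) (nat_lit 590) (nat_lit 3661))))))))))))))))))))))))) (.p (nat_lit 558) (.a (.p (nat_lit 557) (.a (.f (nat_lit 525) (nat_lit 524) (nat_lit 3596) (.f (nat_lit 589) (nat_lit 588) (nat_lit 1580) (.d (nat_lit 561) (nat_lit 526) (nat_lit 3597) (nat_lit 590) (nat_lit 1581)))) (.a (.f (nat_lit 525) (nat_lit 524) (nat_lit 3596) (.f (nat_lit 589) (nat_lit 588) (nat_lit 1580) (.f (nat_lit 526) (nat_lit 561) (nat_lit 3597) (.d (nat_lit 494) (nat_lit 462) (nat_lit 5581) (nat_lit 621) (nat_lit 6637))))) (.a (.f (nat_lit 525) (nat_lit 524) (nat_lit 3596) (.f (nat_lit 592) (nat_lit 593) (nat_lit 557) (.f (nat_lit 591) (nat_lit 556) (nat_lit 556) (.f (nat_lit 623) (nat_lit 655) (nat_lit 6671) (.f (nat_lit 526) (nat_lit 561) (nat_lit 3597) (.d (nat_lit 494) (nat_lit 462) (nat_lit 4558) (nat_lit 590) (nat_lit 4590))))))) (.a (.f (nat_lit 589) (nat_lit 588) (nat_lit 1580) (.f (nat_lit 525) (nat_lit 524) (nat_lit 3596) (.f (nat_lit 590) (nat_lit 561) (nat_lit 1581) (.d (nat_lit 493) (nat_lit 461) (nat_lit 4557) (nat_lit 622) (nat_lit 4589))))) (.a (.f (nat_lit 589) (nat_lit 588) (nat_lit 1580) (.f (nat_lit 590) (nat_lit 561) (nat_lit 1581) (.f (nat_lit 592) (nat_lit 593) (nat_lit 557) (.f (nat_lit 591) (nat_lit 556) (nat_lit 556) (.f (nat_lit 623) (nat_lit 655) (nat_lit 6671) (.f (nat_lit 621) (nat_lit 620) (nat_lit 1612) (.d (nat_lit 526) (nat_lit 494) (nat_lit 5613) (nat_lit 653) (nat_lit 6669)))))))) (.f (nat_lit 589) (nat_lit 588) (nat_lit 1580) (.f (nat_lit 525) (nat_lit 524) (nat_lit 3596) (.f (nat_lit 592) (nat_lit 593) (nat_lit 557) (.f (nat_lit 591) (nat_lit 556) (nat_lit 556) (.f (nat_lit 623) (nat_lit 655) (nat_lit 6671) (.p (nat_lit 590) (.a (.f (nat_lit 526) (nat_lit 494) (nat_lit 4590) (.d (nat_lit 621) (nat_lit 620) (nat_lit 1612) (nat_lit 653) (nat_lit 6669))) (.d (nat_lit 493) (nat_lit 461) (nat_lit 4557) (nat_lit 622) (nat_lit 4589))))))))))))))) (.a (.p (nat_lit 557) (.a (.f (nat_lit 525) (nat_lit 524) (nat_lit 3596) (.f (nat_lit 589) (nat_lit 588) (nat_lit 1580) (.d (nat_lit 561) (nat_lit 526) (nat_lit 3597) (nat_lit 590) (nat_lit 1581)))) (.a (.f (nat_lit 592) (nat_lit 593) (nat_lit 557) (.f (nat_lit 556) (nat_lit 591) (nat_lit 556) (.d (nat_lit 588) (nat_lit 587) (nat_lit 1579) (nat_lit 589) (nat_lit 1580)))) (.f (nat_lit 592) (nat_lit 593) (nat_lit 557) (.f (nat_lit 556) (nat_lit 591) (nat_lit 556) (.d (nat_lit 524) (nat_lit 523) (nat_lit 3595) (nat_lit 525) (nat_lit 3596))))))) (.a (.p (nat_lit 561) (.a (.f (nat_lit 590) (nat_lit 589) (nat_lit 1581) (.f (nat_lit 591) (nat_lit 562) (nat_lit 1582) (.f (nat_lit 526) (nat_lit 525) (nat_lit 3597) (.d (nat_lit 494) (nat_lit 462) (nat_lit 4558) (nat_lit 623) (nat_lit 4590))))) (.a (.f (nat_lit 593) (nat_lit 594) (nat_lit 558) (.f (nat_lit 590) (nat_lit 589) (nat_lit 1581) (.f (nat_lit 591) (nat_lit 562) (nat_lit 1582) (.f (nat_lit 592) (nat_lit 557) (nat_lit 557) (.d (nat_lit 625) (nat_lit 626) (nat_lit 590) (nat_lit 657) (nat_lit 7696)))))) (.a (.f (nat_lit 593) (nat_lit 594) (nat_lit 558) (.f (nat_lit 557) (nat_lit 592) (nat_lit 557) (.d (nat_lit 589) (nat_lit 588) (nat_lit 1580) (nat_lit 590) (nat_lit 1581)))) (.f (nat_lit 593) (nat_lit 594) (nat_lit 558) (.f (nat_lit 557) (nat_lit 592) (nat_lit 557) (.d (nat_lit 525) (nat_lit 524) (nat_lit 3596) (nat_lit 526) (nat_lit 3597)))))))) (.a s17999 (.a (.p (nat_lit 557) (.a (.f (nat_lit 525) (nat_lit 524) (nat_lit 3596) (.f (nat_lit 589) (nat_lit 588) (nat_lit 1580) (.f (nat_lit 526) (nat_lit 561) (nat_lit 3597) (.d (nat_lit 494) (nat_lit 462) (nat_lit 5581) (nat_lit 621) (nat_lit 6637))))) (.a (.f (nat_lit 592) (nat_lit 593) (nat_lit 557) (.f (nat_lit 556) (nat_lit 591) (nat_lit 556) (.d (nat_lit 588) (nat_lit 587) (nat_lit 1579) (nat_lit 589) (nat_lit 1580)))) (.f (nat_lit 592) (nat_lit 593) (nat_lit 557) (.f (nat_lit 556) (nat_lit 591) (nat_lit 556) (.d (nat_lit 524) (nat_lit 523) (nat_lit 3595) (nat_lit 525) (nat_lit 3596))))))) (.a (.p (nat_lit 592) (.a (.f (nat_lit 593) (nat_lit 557) (nat_lit 557) (.d (nat_lit 594) (nat_lit 561) (nat_lit 558) (nat_lit 595) (nat_lit 3631))) (.a (.f (nat_lit 557) (nat_lit 593) (nat_lit 557) (.f (nat_lit 591) (nat_lit 556) (nat_lit 556) (.f (nat_lit 623) (nat_lit 655) (nat_lit 6671) (.f (nat_lit 525) (nat_lit 524) (nat_lit 3596) (.f (nat_lit 526) (nat_lit 561) (nat_lit 3597) (.d (nat_lit 494) (nat_lit 462) (nat_lit 4558) (nat_lit 590) (nat_lit 4590))))))) (.a (.p (nat_lit 593) (.a (.d (nat_lit 594) (nat_lit 561) (nat_lit 558) (nat_lit 595) (nat_lit 3631)) (.a (.p (nat_lit 657) (.a (.p (nat_lit 655) (.a (.d (nat_lit 623) (nat_lit 591) (nat_lit 6671) (nat_lit 624) (nat_lit 5647)) (.a (.f (nat_lit 623) (nat_lit 591) (nat_lit 6671) (.p (nat_lit 656) (.a (.p (nat_lit 658) (.a (.p (nat_lit 659) (.a (.d (nat_lit 691) (nat_lit 690) (nat_lit 655) (nat_lit 692) (nat_lit 656)) (.d (nat_lit 687) (nat_lit 686) (nat_lit 1678) (nat_lit 688) (nat_lit 1679)))) (.a (.p (nat_lit 659) (.a (.d (nat_lit 691) (nat_lit 690) (nat_lit 655) (nat_lit 692) (nat_lit 656)) (.d (nat_lit 627) (nat_lit 626) (nat_lit 2671) (nat_lit 628) (nat_lit 2672)))) (.a (.p (nat_lit 654) (.a (.d (nat_lit 690) (nat_lit 689) (nat_lit 654) (nat_lit 691) (nat_lit 655)) (.d (nat_lit 686) (nat_lit 685) (nat_lit 1677) (nat_lit 687) (nat_lit 1678)))) (.f (nat_lit 687) (nat_lit 686) (nat_lit 1678) (.f (nat_lit 627) (nat_lit 626) (nat_lit 2671) (.d (nat_lit 659) (nat_lit 628) (nat_lit 2672) (nat_lit 688) (nat_lit 1679)))))))) (.a (.f (nat_lit 622) (nat_lit 658) (nat_lit 3694) (.d (nat_lit 621) (nat_lit 620) (nat_lit 620) (nat_lit 654) (nat_lit 3693))) (.a (.p (nat_lit 654) (.a (.p (nat_lit 653) (.a (.d (nat_lit 689) (nat_lit 688) (nat_lit 653) (nat_lit 690) (nat_lit 654)) (.d (nat_lit 685) (nat_lit 684) (nat_lit 1676) (nat_lit 686) (nat_lit 1677)))) (.f (nat_lit 622) (nat_lit 621) (nat_lit 3693) (.d (nat_lit 590) (nat_lit 526) (nat_lit 4622) (nat_lit 687) (nat_lit 4654))))) (.f (nat_lit 658) (nat_lit 622) (nat_lit 3694) (.p (nat_lit 659) (.a (.d (nat_lit 691) (nat_lit 690) (nat_lit 655) (nat_lit 692) (nat_lit 656)) (.d (nat_lit 687) (nat_lit 686) (nat_lit 1678) (nat_lit 688) (nat_lit 1679)))))))))) (.a (.f (nat_lit 624) (nat_lit 623) (nat_lit 5647) (.d (nat_lit 656) (nat_lit 687) (nat_lit 5679) (nat_lit 689) (nat_lit 4656))) (.p (nat_lit 656) (.a (.d (nat_lit 624) (nat_lit 687) (nat_lit 5679) (nat_lit 689) (nat_lit 4656)) (.a (.p (nat_lit 654) (.a (.p (nat_lit 653) (.a (.d (nat_lit 689) (nat_lit 688) (nat_lit 653) (nat_lit 690) (nat_lit 654)) (.d (nat_lit 685) (nat_lit 684) (nat_lit 1676) (nat_lit 686) (nat_lit 1677)))) (.a (.f (nat_lit 622) (nat_lit 621) (nat_lit 3693) (.f (nat_lit 590) (nat_lit 687) (nat_lit 4654) (.d (nat_lit 685) (nat_lit 653) (nat_lit 5677) (nat_lit 686) (nat_lit 1677)))) (.a (.p (nat_lit 687) (.a (.d (nat_lit 686) (nat_lit 658) (nat_lit 1678) (nat_lit 685) (nat_lit 1677)) (.d (nat_lit 622) (nat_lit 590) (nat_lit 4654) (nat_lit 621) (nat_lit 3693)))) (.p (nat_lit 653) (.a (.d (nat_lit 689) (nat_lit 688) (nat_lit 653) (nat_lit 690) (nat_lit 654)) (.d (nat_lit 621) (nat_lit 620) (nat_lit 3692) (nat_lit 622) (nat_lit 3693)))))))) (.a (.f (nat_lit 624) (nat_lit 689) (nat_lit 4656) (.d (nat_lit 688) (nat_lit 561) (nat_lit 6704) (nat_lit 591) (nat_lit 7727))) (.f (nat_lit 687) (nat_lit 624) (nat_lit 5679) (.f (nat_lit 686) (nat_lit 658) (nat_lit 1678) (.d (nat_lit 685) (nat_lit 654) (nat_lit 1677) (nat_lit 688) (nat_lit 2701)))))))))))) (.a (.d (nat_lit 625) (nat_lit 561) (nat_lit 7696) (nat_lit 624) (nat_lit 4624)) (.a (.d (nat_lit 625) (nat_lit 561) (nat_lit 7696) (nat_lit 689) (nat_lit 7728)) (.d (nat_lit 625) (nat_lit 624) (nat_lit 4624) (nat_lit 689) (nat_lit 7728)))))) (.d (nat_lit 594) (nat_lit 591) (nat_lit 3630) (nat_lit 595) (nat_lit 3631))))) (.a (.p (nat_lit 655) (.a (.d (nat_lit 623) (nat_lit 591) (nat_lit 6671) (nat_lit 624) (nat_lit 5647)) (.a (.f (nat_lit 591) (nat_lit 623) (nat_lit 6671) (.f (nat_lit 557) (nat_lit 556) (nat_lit 556) (.f (nat_lit 525) (nat_lit 524) (nat_lit 3596) (.f (nat_lit 561) (nat_lit 526) (nat_lit 3597) (.d (nat_lit 562) (nat_lit 563) (nat_lit 1583) (nat_lit 590) (nat_lit 1582)))))) (.a (.f (nat_lit 624) (nat_lit 623) (nat_lit 5647) (.f (nat_lit 656) (nat_lit 687) (nat_lit 5679) (.d (nat_lit 657) (nat_lit 625) (nat_lit 4624) (nat_lit 689) (nat_lit 4656)))) (.p (nat_lit 525) (.a (.f (nat_lit 557) (nat_lit 524) (nat_lit 3596) (.f (nat_lit 556) (nat_lit 591) (nat_lit 556) (.f (nat_lit 526) (nat_lit 561) (nat_lit 3597) (.p (nat_lit 493) (.a (.d (nat_lit 461) (nat_lit 429) (nat_lit 4525) (nat_lit 590) (nat_lit 4557)) (.a (.d (nat_lit 461) (nat_lit 429) (nat_lit 4525) (nat_lit 588) (nat_lit 5580)) (.f (nat_lit 555) (nat_lit 554) (nat_lit 2570) (.d (nat_lit 587) (nat_lit 586) (nat_lit 1578) (nat_lit 588) (nat_lit 1579))))))))) (.a (.f (nat_lit 526) (nat_lit 561) (nat_lit 3597) (.d (nat_lit 524) (nat_lit 523) (nat_lit 523) (nat_lit 557) (nat_lit 3596))) (.a (.f (nat_lit 557) (nat_lit 524) (nat_lit 3596) (.p (nat_lit 656) (.a (.f (nat_lit 624) (nat_lit 687) (nat_lit 5679) (.d (nat_lit 591) (nat_lit 556) (nat_lit 556) (nat_lit 688) (nat_lit 7727))) (.a (.f (nat_lit 624) (nat_lit 687) (nat_lit 5679) (.d (nat_lit 657) (nat_lit 625) (nat_lit 4624) (nat_lit 689) (nat_lit 4656))) (.a (.f (nat_lit 556) (nat_lit 591) (nat_lit 556) (.p (nat_lit 654) (.a (.f (nat_lit 588) (nat_lit 587) (nat_lit 1579) (.p (nat_lit 621) (.a (.d (nat_lit 620) (nat_lit 652) (nat_lit 6668) (nat_lit 653) (nat_lit 3692)) (.d (nat_lit 622) (nat_lit 590) (nat_lit 7693) (nat_lit 657) (nat_lit 3693))))) (.a (.p (nat_lit 653) (.a (.f (nat_lit 588) (nat_lit 587) (nat_lit 1579) (.d (nat_lit 620) (nat_lit 621) (nat_lit 3692) (nat_lit 652) (nat_lit 6668))) (.a (.p (nat_lit 652) (.a (.d (nat_lit 684) (nat_lit 683) (nat_lit 1675) (nat_lit 685) (nat_lit 1676)) (.d (nat_lit 688) (nat_lit 687) (nat_lit 652) (nat_lit 689) (nat_lit 653)))) (.p (nat_lit 657) (.a (.d (nat_lit 689) (nat_lit 688) (nat_lit 653) (nat_lit 690) (nat_lit 654)) (.d (nat_lit 685) (nat_lit 684) (nat_lit 1676) (nat_lit 686) (nat_lit 1677))))))) (.a (.p (nat_lit 653) (.a (.p (nat_lit 652) (.a (.d (nat_lit 684) (nat_lit 683) (nat_lit 1675) (nat_lit 685) (nat_lit 1676)) (.d (nat_lit 688) (nat_lit 687) (nat_lit 652) (nat_lit 689) (nat_lit 653)))) (.a (.p (nat_lit 652) (.a (.d (nat_lit 684) (nat_lit 683) (nat_lit 1675) (nat_lit 685) (nat_lit 1676)) (.d (nat_lit 588) (nat_lit 587) (nat_lit 1579) (nat_lit 620) (nat_lit 6668)))) (.a (.p (nat_lit 657) (.a (.d (nat_lit 689) (nat_lit 688) (nat_lit 653) (nat_lit 690) (nat_lit 654)) (.d (nat_lit 685) (nat_lit 684) (nat_lit 1676) (nat_lit 686) (nat_lit 1677)))) (.p (nat_lit 652) (.a (.d (nat_lit 688) (nat_lit 687) (nat_lit 652) (nat_lit 689) (nat_lit 653)) (.d (nat_lit 588) (nat_lit 587) (nat_lit 1579) (nat_lit 620) (nat_lit 6668)))))))) (.a (.p (nat_lit 657) (.a (.d (nat_lit 622) (nat_lit 590) (nat_lit 7693) (nat_lit 621) (nat_lit 3693)) (.p (nat_lit 653) (.a (.d (nat_lit 689) (nat_lit 688) (nat_lit 653) (nat_lit 690) (nat_lit 654)) (.d (nat_lit 685) (nat_lit 684) (nat_lit 1676) (nat_lit 686) (nat_lit 1677)))))) (.a (.p (nat_lit 620) (.a (.d (nat_lit 588) (nat_lit 587) (nat_lit 1579) (nat_lit 652) (nat_lit 6668)) (.f (nat_lit 621) (nat_lit 653) (nat_lit 3692) (.d (nat_lit 622) (nat_lit 590) (nat_lit 7693) (nat_lit 619) (nat_lit 619))))) (.p (nat_lit 657) (.a (.d (nat_lit 622) (nat_lit 590) (nat_lit 7693) (nat_lit 621) (nat_lit 3693)) (.p (nat_lit 658) (.a (.d (nat_lit 690) (nat_lit 689) (nat_lit 654) (nat_lit 691) (nat_lit 655)) (.d (nat_lit 686) (nat_lit 685) (nat_lit 1677) (nat_lit 687) (nat_lit 1678))))))))))))) (.f (nat_lit 556) (nat_lit 591) (nat_lit 556) (.p (nat_lit 657) (.a (.p (nat_lit 654) (.a (.d (nat_lit 689) (nat_lit 624) (nat_lit 4656) (nat_lit 690) (nat_lit 654)) (.d (nat_lit 622) (nat_lit 590) (nat_lit 7693) (nat_lit 621) (nat_lit 3693)))) (.a (.d (nat_lit 624) (nat_lit 625) (nat_lit 4624) (nat_lit 689) (nat_lit 4656)) (.a (.p (nat_lit 654) (.a (.d (nat_lit 622) (nat_lit 590) (nat_lit 7693) (nat_lit 621) (nat_lit 3693)) (.p (nat_lit 653) (.a (.d (nat_lit 689) (nat_lit 688) (nat_lit 653) (nat_lit 690) (nat_lit 654)) (.d (nat_lit 685) (nat_lit 684) (nat_lit 1676) (nat_lit 686) (nat_lit 1677)))))) (.p (nat_lit 654) (.a (.d (nat_lit 622) (nat_lit 590) (nat_lit 7693) (nat_lit 621) (nat_lit 3693)) (.d (nat_lit 625) (nat_lit 624) (nat_lit 4624) (nat_lit 626) (nat_lit 2670)))))))))))))) (.f (nat_lit 561) (nat_lit 526) (nat_lit 3597) (.p (nat_lit 562) (.a (.d (nat_lit 591) (nat_lit 563) (nat_lit 1583) (nat_lit 590) (nat_lit 1582)) (.a (.f (nat_lit 595) (nat_lit 594) (nat_lit 559) (.f (nat_lit 563) (nat_lit 596) (nat_lit 560) (.d (nat_lit 531) (nat_lit 530) (nat_lit 2575) (nat_lit 532) (nat_lit 2576)))) (.p (nat_lit 656) (.a (.f (nat_lit 624) (nat_lit 687) (nat_lit 5679) (.d (nat_lit 591) (nat_lit 590) (nat_lit 1582) (nat_lit 688) (nat_lit 7727))) (.a (.p (nat_lit 654) (.a (.p (nat_lit 653) (.a (.p (nat_lit 652) (.a (.d (nat_lit 684) (nat_lit 683) (nat_lit 1675) (nat_lit 685) (nat_lit 1676)) (.d (nat_lit 688) (nat_lit 687) (nat_lit 652) (nat_lit 689) (nat_lit 653)))) (.a (.f (nat_lit 590) (nat_lit 591) (nat_lit 1582) (.d (nat_lit 622) (nat_lit 685) (nat_lit 5677) (nat_lit 687) (nat_lit 4654))) (.a (.f (nat_lit 590) (nat_lit 591) (nat_lit 1582) (.d (nat_lit 685) (nat_lit 622) (nat_lit 5677) (nat_lit 684) (nat_lit 1676))) (.p (nat_lit 622) (.a (.d (nat_lit 590) (nat_lit 591) (nat_lit 1582) (nat_lit 687) (nat_lit 4654)) (.d (nat_lit 621) (nat_lit 620) (nat_lit 3692) (nat_lit 657) (nat_lit 3693)))))))) (.a (.p (nat_lit 653) (.a (.p (nat_lit 652) (.a (.d (nat_lit 684) (nat_lit 683) (nat_lit 1675) (nat_lit 685) (nat_lit 1676)) (.d (nat_lit 688) (nat_lit 687) (nat_lit 652) (nat_lit 689) (nat_lit 653)))) (.a (.p (nat_lit 652) (.a (.d (nat_lit 684) (nat_lit 683) (nat_lit 1675) (nat_lit 685) (nat_lit 1676)) (.d (nat_lit 620) (nat_lit 619) (nat_lit 3691) (nat_lit 621) (nat_lit 3692)))) (.a (.p (nat_lit 657) (.a (.d (nat_lit 689) (nat_lit 688) (nat_lit 653) (nat_lit 690) (nat_lit 654)) (.d (nat_lit 685) (nat_lit 684) (nat_lit 1676) (nat_lit 686) (nat_lit 1677)))) (.p (nat_lit 652) (.a (.d (nat_lit 688) (nat_lit 687) (nat_lit 652) (nat_lit 689) (nat_lit 653)) (.d (nat_lit 620) (nat_lit 619) (nat_lit 3691) (nat_lit 621) (nat_lit 3692)))))))) (.a (.p (nat_lit 685) (.a (.f (nat_lit 590) (nat_lit 591) (nat_lit 1582) (.d (nat_lit 622) (nat_lit 653) (nat_lit 5677) (nat_lit 687) (nat_lit 4654))) (.a (.f (nat_lit 684) (nat_lit 653) (nat_lit 1676) (.d (nat_lit 686) (nat_lit 657) (nat_lit 1677) (nat_lit 683) (nat_lit 2699))) (.f (nat_lit 686) (nat_lit 657) (nat_lit 1677) (.d (nat_lit 684) (nat_lit 683) (nat_lit 2699) (nat_lit 687) (nat_lit 2700)))))) (.a (.p (nat_lit 653) (.a (.p (nat_lit 652) (.a (.d (nat_lit 684) (nat_lit 683) (nat_lit 1675) (nat_lit 685) (nat_lit 1676)) (.d (nat_lit 688) (nat_lit 687) (nat_lit 652) (nat_lit 689) (nat_lit 653)))) (.a (.f (nat_lit 590) (nat_lit 591) (nat_lit 1582) (.d (nat_lit 622) (nat_lit 685) (nat_lit 5677) (nat_lit 687) (nat_lit 4654))) (.a (.f (nat_lit 590) (nat_lit 591) (nat_lit 1582) (.d (nat_lit 685) (nat_lit 622) (nat_lit 5677) (nat_lit 684) (nat_lit 1676))) (.p (nat_lit 652) (.a (.d (nat_lit 688) (nat_lit 687) (nat_lit 652) (nat_lit 689) (nat_lit 653)) (.d (nat_lit 620) (nat_lit 619) (nat_lit 3691) (nat_lit 621) (nat_lit 3692)))))))) (.a (.p (nat_lit 657) (.a (.f (nat_lit 590) (nat_lit 591) (nat_lit 1582) (.d (nat_lit 622) (nat_lit 621) (nat_lit 3693) (nat_lit 687) (nat_lit 4654))) (.a (.p (nat_lit 658) (.a (.d (nat_lit 690) (nat_lit 689) (nat_lit 654) (nat_lit 691) (nat_lit 655)) (.d (nat_lit 686) (nat_lit 685) (nat_lit 1677) (nat_lit 687) (nat_lit 1678)))) (.p (nat_lit 658) (.a (.d (nat_lit 690) (nat_lit 689) (nat_lit 654) (nat_lit 691) (nat_lit 655)) (.d (nat_lit 626) (nat_lit 625) (nat_lit 2670) (nat_lit 627) (nat_lit 2671))))))) (.a (.p (nat_lit 657) (.a (.p (nat_lit 653) (.a (.d (nat_lit 689) (nat_lit 688) (nat_lit 653) (nat_lit 690) (nat_lit 654)) (.d (nat_lit 685) (nat_lit 684) (nat_lit 1676) (nat_lit 686) (nat_lit 1677)))) (.a (.p (nat_lit 653) (.a (.d (nat_lit 685) (nat_lit 684) (nat_lit 1676) (nat_lit 686) (nat_lit 1677)) (.d (nat_lit 621) (nat_lit 620) (nat_lit 3692) (nat_lit 622) (nat_lit 3693)))) (.p (nat_lit 658) (.a (.d (nat_lit 690) (nat_lit 689) (nat_lit 654) (nat_lit 691) (nat_lit 655)) (.d (nat_lit 626) (nat_lit 625) (nat_lit 2670) (nat_lit 627) (nat_lit 2671))))))) (.p (nat_lit 622) (.a (.d (nat_lit 590) (nat_lit 591) (nat_lit 1582) (nat_lit 687) (nat_lit 4654)) (.f (nat_lit 621) (nat_lit 657) (nat_lit 3693) (.d (nat_lit 620) (nat_lit 619) (nat_lit 619) (nat_lit 653) (nat_lit 3692)))))))))))) (.a (.p (nat_lit 657) (.a (.d (nat_lit 624) (nat_lit 687) (nat_lit 5679) (nat_lit 689) (nat_lit 4656)) (.a (.p (nat_lit 654) (.a (.p (nat_lit 653) (.a (.d (nat_lit 689) (nat_lit 688) (nat_lit 653) (nat_lit 690) (nat_lit 654)) (.d (nat_lit 685) (nat_lit 684) (nat_lit 1676) (nat_lit 686) (nat_lit 1677)))) (.a (.p (nat_lit 653) (.a (.d (nat_lit 685) (nat_lit 684) (nat_lit 1676) (nat_lit 686) (nat_lit 1677)) (.d (nat_lit 621) (nat_lit 620) (nat_lit 3692) (nat_lit 622) (nat_lit 3693)))) (.a (.p (nat_lit 658) (.a (.d (nat_lit 690) (nat_lit 689) (nat_lit 654) (nat_lit 691) (nat_lit 655)) (.d (nat_lit 686) (nat_lit 685) (nat_lit 1677) (nat_lit 687) (nat_lit 1678)))) (.p (nat_lit 653) (.a (.d (nat_lit 689) (nat_lit 688) (nat_lit 653) (nat_lit 690) (nat_lit 654)) (.d (nat_lit 621) (nat_lit 620) (nat_lit 3692) (nat_lit 622) (nat_lit 3693)))))))) (.a (.d (nat_lit 624) (nat_lit 625) (nat_lit 4624) (nat_lit 689) (nat_lit 4656)) (.d (nat_lit 624) (nat_lit 625) (nat_lit 4624) (nat_lit 687) (nat_lit 5679)))))) (.a (.p (nat_lit 657) (.a (.d (nat_lit 624) (nat_lit 687) (nat_lit 5679) (nat_lit 689) (nat_lit 4656)) (.a (.p (nat_lit 654) (.a (.f (nat_lit 590) (nat_lit 591) (nat_lit 1582) (.d (nat_lit 622) (nat_lit 621) (nat_lit 3693) (nat_lit 687) (nat_lit 4654))) (.a (.p (nat_lit 658) (.a (.d (nat_lit 690) (nat_lit 689) (nat_lit 654) (nat_lit 691) (nat_lit 655)) (.d (nat_lit 686) (nat_lit 685) (nat_lit 1677) (nat_lit 687) (nat_lit 1678)))) (.p (nat_lit 653) (.a (.d (nat_lit 685) (nat_lit 684) (nat_lit 1676) (nat_lit 686) (nat_lit 1677)) (.d (nat_lit 621) (nat_lit 620) (nat_lit 3692) (nat_lit 622) (nat_lit 3693))))))) (.a (.d (nat_lit 624) (nat_lit 625) (nat_lit 4624) (nat_lit 689) (nat_lit 4656)) (.d (nat_lit 624) (nat_lit 625) (nat_lit 4624) (nat_lit 687) (nat_lit 5679)))))) (.p (nat_lit 624) (.a (.d (nat_lit 591) (nat_lit 590) (nat_lit 1582) (nat_lit 688) (nat_lit 7727)) (.d (nat_lit 657) (nat_lit 625) (nat_lit 4624) (nat_lit 689) (nat_lit 4656))))))))))))))))))))) (.f (nat_lit 557) (nat_lit 593) (nat_lit 557) (.f (nat_lit 556) (nat_lit 591) (nat_lit 556) (.d (nat_lit 524) (nat_lit 523) (nat_lit 3595) (nat_lit 525) (nat_lit 3596))))))))) (.a (.p (nat_lit 557) (.a (.f (nat_lit 589) (nat_lit 588) (nat_lit 1580) (.f (nat_lit 525) (nat_lit 524) (nat_lit 3596) (.f (nat_lit 590) (nat_lit 561) (nat_lit 1581) (.d (nat_lit 493) (nat_lit 461) (nat_lit 4557) (nat_lit 622) (nat_lit 4589))))) (.a (.f (nat_lit 592) (nat_lit 593) (nat_lit 557) (.f (nat_lit 591) (nat_lit 556) (nat_lit 556) (.f (nat_lit 589) (nat_lit 588) (nat_lit 1580) (.f (nat_lit 590) (nat_lit 561) (nat_lit 1581) (.f (nat_lit 624) (nat_lit 625) (nat_lit 589) (.f (nat_lit 655) (nat_lit 623) (nat_lit 5647) (.d (nat_lit 656) (nat_lit 687) (nat_lit 5679) (nat_lit 688) (nat_lit 7727)))))))) (.a (.f (nat_lit 592) (nat_lit 593) (nat_lit 557) (.f (nat_lit 556) (nat_lit 591) (nat_lit 556) (.d (nat_lit 588) (nat_lit 587) (nat_lit 1579) (nat_lit 589) (nat_lit 1580)))) (.f (nat_lit 592) (nat_lit 593) (nat_lit 557) (.f (nat_lit 556) (nat_lit 591) (nat_lit 556) (.d (nat_lit 524) (nat_lit 523) (nat_lit 3595) (nat_lit 525) (nat_lit 3596)))))))) (.a s20339 (.a (.p (nat_lit 655) (.a (.f (nat_lit 623) (nat_lit 591) (nat_lit 6671) (.f (nat_lit 592) (nat_lit 624) (nat_lit 5647) (.p (nat_lit 561) (.a (.f (nat_lit 594) (nat_lit 593) (nat_lit 558) (.f (nat_lit 562) (nat_lit 595) (nat_lit 559) (.f (nat_lit 531) (nat_lit 530) (nat_lit 2575) (.f (nat_lit 563) (nat_lit 532) (nat_lit 2576) (.f (nat_lit 526) (nat_lit 525) (nat_lit 3597) (.d (nat_lit 590) (nat_lit 589) (nat_lit 1581) (nat_lit 622) (nat_lit 4622))))))) (.a (.p (nat_lit 562) (.a (.d (nat_lit 594) (nat_lit 593) (nat_lit 558) (nat_lit 595) (nat_lit 559)) (.a (.f (nat_lit 531) (nat_lit 530) (nat_lit 2575) (.f (nat_lit 563) (nat_lit 532) (nat_lit 2576) (.f (nat_lit 596) (nat_lit 595) (nat_lit 560) (.d (nat_lit 564) (nat_lit 593) (nat_lit 1584) (nat_lit 597) (nat_lit 561))))) (.a (.f (nat_lit 531) (nat_lit 530) (nat_lit 2575) (.f (nat_lit 563) (nat_lit 532) (nat_lit 2576) (.d (nat_lit 593) (nat_lit 564) (nat_lit 1584) (nat_lit 594) (nat_lit 558)))) (.f (nat_lit 595) (nat_lit 594) (nat_lit 559) (.f (nat_lit 563) (nat_lit 596) (nat_lit 560) (.d (nat_lit 531) (nat_lit 530) (nat_lit 2575) (nat_lit 532) (nat_lit 2576)))))))) (.f (nat_lit 526) (nat_lit 525) (nat_lit 3597) (.d (nat_lit 590) (nat_lit 589) (nat_lit 1581) (nat_lit 622) (nat_lit 4622)))))))) (.a (.p (nat_lit 561) (.a (.f (nat_lit 591) (nat_lit 623) (nat_lit 6671) (.d (nat_lit 590) (nat_lit 562) (nat_lit 1582) (nat_lit 589) (nat_lit 1581))) (.a s22577 (.a (.f (nat_lit 623) (nat_lit 591) (nat_lit 6671) (.f (nat_lit 593) (nat_lit 594) (nat_lit 558) (.f (nat_lit 624) (nat_lit 592) (nat_lit 5647) (.f (nat_lit 625) (nat_lit 657) (nat_lit 7696) (.f (nat_lit 626) (nat_lit 654) (nat_lit 1646) (.f (nat_lit 627) (nat_lit 656) (nat_lit 1647) (.d (nat_lit 659) (nat_lit 658) (nat_lit 623) (nat_lit 660) (nat_lit 624)))))))) (.f (nat_lit 593) (nat_lit 594) (nat_lit 558) (.f (nat_lit 590) (nat_lit 589) (nat_lit 1581) (.f (nat_lit 562) (nat_lit 591) (nat_lit 1582) (.f (nat_lit 531) (nat_lit 530) (nat_lit 2575) (.f (nat_lit 563) (nat_lit 532) (nat_lit 2576) (.f (nat_lit 564) (nat_lit 592) (nat_lit 1584) (.d (nat_lit 596) (nat_lit 595) (nat_lit 560) (nat_lit 597) (nat_lit 561)))))))))))) (.a (.f (nat_lit 623) (nat_lit 591) (nat_lit 6671) (.f (nat_lit 624) (nat_lit 592) (nat_lit 5647) (.p (nat_lit 622) (.a (.f (nat_lit 590) (nat_lit 526) (nat_lit 4622) (.d (nat_lit 687) (nat_lit 654) (nat_lit 4654) (nat_lit 719) (nat_lit 7758))) (.a (.p (nat_lit 621) (.a (.d (nat_lit 656) (nat_lit 620) (nat_lit 620) (nat_lit 657) (nat_lit 621)) (.a (.f (nat_lit 653) (nat_lit 652) (nat_lit 1644) (.f (nat_lit 625) (nat_lit 654) (nat_lit 1645) (.d (nat_lit 657) (nat_lit 656) (nat_lit 621) (nat_lit 658) (nat_lit 622)))) (.f (nat_lit 653) (nat_lit 652) (nat_lit 1644) (.f (nat_lit 654) (nat_lit 625) (nat_lit 1645) (.f (nat_lit 588) (nat_lit 589) (nat_lit 3660) (.d (nat_lit 620) (nat_lit 587) (nat_lit 3659) (nat_lit 619) (nat_lit 619)))))))) (.f (nat_lit 590) (nat_lit 526) (nat_lit 4622) (.d (nat_lit 589) (nat_lit 561) (nat_lit 1581) (nat_lit 625) (nat_lit 3661)))))))) (.a (.f (nat_lit 591) (nat_lit 623) (nat_lit 6671) (.p (nat_lit 561) (.a (.d (nat_lit 590) (nat_lit 562) (nat_lit 1582) (nat_lit 589) (nat_lit 1581)) (.a (.f (nat_lit 594) (nat_lit 593) (nat_lit 558) (.f (nat_lit 562) (nat_lit 595) (nat_lit 559) (.f (nat_lit 563) (nat_lit 592) (nat_lit 1583) (.d (nat_lit 531) (nat_lit 530) (nat_lit 2575) (nat_lit 532) (nat_lit 2576))))) (.f (nat_lit 590) (nat_lit 589) (nat_lit 1581) (.f (nat_lit 593) (nat_lit 594) (nat_lit 558) (.f (nat_lit 526) (nat_lit 525) (nat_lit 3597) (.p (nat_lit 622) (.a (.d (nat_lit 654) (nat_lit 686) (nat_lit 6702) (nat_lit 687) (nat_lit 4654)) (.d (nat_lit 621) (nat_lit 592) (nat_lit 1613) (nat_lit 653) (nat_lit 5645))))))))))) (.a (.p (nat_lit 561) (.a (.f (nat_lit 594) (nat_lit 593) (nat_lit 558) (.f (nat_lit 562) (nat_lit 595) (nat_lit 559) (.f (nat_lit 531) (nat_lit 530) (nat_lit 2575) (.f (nat_lit 590) (nat_lit 589) (nat_lit 1581) (.f (nat_lit 526) (nat_lit 525) (nat_lit 3597) (.f (nat_lit 622) (nat_lit 623) (nat_lit 4622) (.f (nat_lit 654) (nat_lit 687) (nat_lit 4654) (.d (nat_lit 653) (nat_lit 621) (nat_lit 5645) (nat_lit 685) (nat_lit 5677))))))))) (.a s22577 (.a (.f (nat_lit 590) (nat_lit 589) (nat_lit 1581) (.f (nat_lit 526) (nat_lit 525) (nat_lit 3597) (.f (nat_lit 622) (nat_lit 623) (nat_lit 4622) (.f (nat_lit 654) (nat_lit 687) (nat_lit 4654) (.d (nat_lit 653) (nat_lit 621) (nat_lit 5645) (nat_lit 685) (nat_lit 5677)))))) (.a (.f (nat_lit 593) (nat_lit 594) (nat_lit 558) (.f (nat_lit 590) (nat_lit 589) (nat_lit 1581) (.f (nat_lit 526) (nat_lit 525) (nat_lit 3597) (.f (nat_lit 622) (nat_lit 623) (nat_lit 4622) (.f (nat_lit 654) (nat_lit 687) (nat_lit 4654) (.f (nat_lit 685) (nat_lit 653) (nat_lit 5677) (.f (nat_lit 657) (nat_lit 625) (nat_lit 7696) (.d (nat_lit 686) (nat_lit 656) (nat_lit 1677) (nat_lit 717) (nat_lit 5709))))))))) (.a (.f (nat_lit 526) (nat_lit 525) (nat_lit 3597) (.f (nat_lit 590) (nat_lit 589) (nat_lit 1581) (.f (nat_lit 623) (nat_lit 622) (nat_lit 4622) (.f (nat_lit 592) (nat_lit 624) (nat_lit 5647) (.p (nat_lit 562) (.a (.d (nat_lit 594) (nat_lit 593) (nat_lit 558) (nat_lit 595) (nat_lit 559)) (.a (.f (nat_lit 531) (nat_lit 530) (nat_lit 2575) (.f (nat_lit 563) (nat_lit 532) (nat_lit 2576) (.f (nat_lit 596) (nat_lit 595) (nat_lit 560) (.d (nat_lit 564) (nat_lit 593) (nat_lit 1584) (nat_lit 597) (nat_lit 561))))) (.a (.f (nat_lit 531) (nat_lit 530) (nat_lit 2575) (.f (nat_lit 563) (nat_lit 532) (nat_lit 2576) (.d (nat_lit 593) (nat_lit 564) (nat_lit 1584) (nat_lit 594) (nat_lit 558)))) (.f (nat_lit 595) (nat_lit 594) (nat_lit 559) (.f (nat_lit 563) (nat_lit 596) (nat_lit 560) (.d (nat_lit 531) (nat_lit 530) (nat_lit 2575) (nat_lit 532) (nat_lit 2576)))))))))))) s22746)))))) (.a (.f (nat_lit 623) (nat_lit 591) (nat_lit 6671) (.f (nat_lit 624) (nat_lit 592) (nat_lit 5647) (.p (nat_lit 625) (.a (.f (nat_lit 626) (nat_lit 654) (nat_lit 1646) (.f (nat_lit 594) (nat_lit 595) (nat_lit 2639) (.d (nat_lit 593) (nat_lit 561) (nat_lit 558) (nat_lit 622) (nat_lit 2638)))) (.a (.f (nat_lit 626) (nat_lit 654) (nat_lit 1646) (.f (nat_lit 627) (nat_lit 656) (nat_lit 1647) (.d (nat_lit 659) (nat_lit 658) (nat_lit 623) (nat_lit 660) (nat_lit 624)))) (.a (.p (nat_lit 593) (.a (.d (nat_lit 561) (nat_lit 594) (nat_lit 558) (nat_lit 657) (nat_lit 7696)) (.a (.f (nat_lit 657) (nat_lit 561) (nat_lit 7696) (.f (nat_lit 658) (nat_lit 622) (nat_lit 622) (.d (nat_lit 659) (nat_lit 626) (nat_lit 623) (nat_lit 656) (nat_lit 3695)))) (.a (.d (nat_lit 594) (nat_lit 561) (nat_lit 558) (nat_lit 622) (nat_lit 2638)) (.f (nat_lit 594) (nat_lit 622) (nat_lit 2638) (.d (nat_lit 595) (nat_lit 596) (nat_lit 1616) (nat_lit 626) (nat_lit 2639))))))) (.p (nat_lit 622) (.a (.f (nat_lit 657) (nat_lit 658) (nat_lit 622) (.d (nat_lit 593) (nat_lit 561) (nat_lit 7696) (nat_lit 594) (nat_lit 2638))) (.a (.f (nat_lit 657) (nat_lit 658) (nat_lit 622) (.f (nat_lit 621) (nat_lit 656) (nat_lit 621) (.d (nat_lit 653) (nat_lit 652) (nat_lit 1644) (nat_lit 654) (nat_lit 1645)))) (.a (.f (nat_lit 653) (nat_lit 654) (nat_lit 1645) (.f (nat_lit 621) (nat_lit 652) (nat_lit 1644) (.d (nat_lit 656) (nat_lit 620) (nat_lit 620) (nat_lit 657) (nat_lit 621)))) (.f (nat_lit 653) (nat_lit 654) (nat_lit 1645) (.f (nat_lit 621) (nat_lit 652) (nat_lit 1644) (.f (nat_lit 620) (nat_lit 656) (nat_lit 620) (.d (nat_lit 588) (nat_lit 587) (nat_lit 3659) (nat_lit 589) (nat_lit 3660))))))))))))))) (.a (.f (nat_lit 623) (nat_lit 591) (nat_lit 6671) (.f (nat_lit 624) (nat_lit 592) (nat_lit 5647) (.p (nat_lit 622) (.a (.f (nat_lit 590) (nat_lit 526) (nat_lit 4622) (.d (nat_lit 687) (nat_lit 654) (nat_lit 4654) (nat_lit 719) (nat_lit 7758))) (.a (.p (nat_lit 625) (.a (.d (nat_lit 654) (nat_lit 626) (nat_lit 1646) (nat_lit 653) (nat_lit 1645)) (.f (nat_lit 657) (nat_lit 658) (nat_lit 622) (.d (nat_lit 593) (nat_lit 561) (nat_lit 7696) (nat_lit 594) (nat_lit 2638))))) (.f (nat_lit 526) (nat_lit 590) (nat_lit 4622) (.f (nat_lit 561) (nat_lit 525) (nat_lit 3597) (.p (nat_lit 657) (.a (.d (nat_lit 656) (nat_lit 621) (nat_lit 621) (nat_lit 658) (nat_lit 3694)) (.d (nat_lit 593) (nat_lit 594) (nat_lit 558) (nat_lit 625) (nat_lit 7696))))))))))) (.a (.f (nat_lit 591) (nat_lit 623) (nat_lit 6671) (.p (nat_lit 590) (.a (.d (nat_lit 561) (nat_lit 562) (nat_lit 1582) (nat_lit 589) (nat_lit 1581)) (.a (.f (nat_lit 561) (nat_lit 562) (nat_lit 1582) (.p (nat_lit 654) (.a (.d (nat_lit 622) (nat_lit 686) (nat_lit 6702) (nat_lit 687) (nat_lit 4654)) (.a (.p (nat_lit 657) (.a (.p (nat_lit 656) (.a (.p (nat_lit 653) (.a (.d (nat_lit 689) (nat_lit 688) (nat_lit 653) (nat_lit 690) (nat_lit 654)) (.d (nat_lit 685) (nat_lit 684) (nat_lit 1676) (nat_lit 686) (nat_lit 1677)))) (.a (.p (nat_lit 658) (.a (.d (nat_lit 690) (nat_lit 689) (nat_lit 654) (nat_lit 691) (nat_lit 655)) (.d (nat_lit 686) (nat_lit 685) (nat_lit 1677) (nat_lit 687) (nat_lit 1678)))) (.a (.p (nat_lit 653) (.a (.d (nat_lit 685) (nat_lit 684) (nat_lit 1676) (nat_lit 686) (nat_lit 1677)) (.a (.p (nat_lit 652) (.a (.d (nat_lit 684) (nat_lit 683) (nat_lit 1675) (nat_lit 685) (nat_lit 1676)) (.d (nat_lit 688) (nat_lit 687) (nat_lit 652) (nat_lit 689) (nat_lit 653)))) (.p (nat_lit 652) (.a (.d (nat_lit 688) (nat_lit 687) (nat_lit 652) (nat_lit 689) (nat_lit 653)) (.d (nat_lit 620) (nat_lit 619) (nat_lit 3691) (nat_lit 621) (nat_lit 3692))))))) (.a (.p (nat_lit 653) (.a (.d (nat_lit 689) (nat_lit 688) (nat_lit 653) (nat_lit 690) (nat_lit 654)) (.p (nat_lit 652) (.a (.d (nat_lit 684) (nat_lit 683) (nat_lit 1675) (nat_lit 685) (nat_lit 1676)) (.d (nat_lit 620) (nat_lit 619) (nat_lit 3691) (nat_lit 621) (nat_lit 3692)))))) (.a (.p (nat_lit 658) (.a (.d (nat_lit 690) (nat_lit 689) (nat_lit 654) (nat_lit 691) (nat_lit 655)) (.f (nat_lit 687) (nat_lit 686) (nat_lit 1678) (.f (nat_lit 627) (nat_lit 626) (nat_lit 2671) (.d (nat_lit 659) (nat_lit 628) (nat_lit 2672) (nat_lit 688) (nat_lit 1679)))))) (.p (nat_lit 658) (.a (.d (nat_lit 686) (nat_lit 685) (nat_lit 1677) (nat_lit 687) (nat_lit 1678)) (.p (nat_lit 659) (.a (.d (nat_lit 691) (nat_lit 690) (nat_lit 655) (nat_lit 692) (nat_lit 656)) (.d (nat_lit 627) (nat_lit 626) (nat_lit 2671) (nat_lit 628) (nat_lit 2672)))))))))))) (.d (nat_lit 593) (nat_lit 594) (nat_lit 558) (nat_lit 625) (nat_lit 7696)))) (.a (.f (nat_lit 622) (nat_lit 686) (nat_lit 6702) (.f (nat_lit 526) (nat_lit 525) (nat_lit 3597) (.d (nat_lit 653) (nat_lit 621) (nat_lit 5645) (nat_lit 685) (nat_lit 5677)))) (.f (nat_lit 526) (nat_lit 525) (nat_lit 3597) (.p (nat_lit 653) (.a (.d (nat_lit 622) (nat_lit 621) (nat_lit 5645) (nat_lit 687) (nat_lit 4654)) (.a (.p (nat_lit 656) (.a (.p (nat_lit 652) (.a (.d (nat_lit 684) (nat_lit 683) (nat_lit 1675) (nat_lit 685) (nat_lit 1676)) (.d (nat_lit 688) (nat_lit 687) (nat_lit 652) (nat_lit 689) (nat_lit 653)))) (.f (nat_lit 593) (nat_lit 594) (nat_lit 558) (.d (nat_lit 625) (nat_lit 624) (nat_lit 2669) (nat_lit 657) (nat_lit 7696))))) (.d (nat_lit 622) (nat_lit 621) (nat_lit 5645) (nat_lit 685) (nat_lit 5677))))))))))) (.a (.d (nat_lit 589) (nat_lit 561) (nat_lit 1581) (nat_lit 588) (nat_lit 2604)) (.f (nat_lit 589) (nat_lit 588) (nat_lit 2604) (.p (nat_lit 654) (.a (.d (nat_lit 622) (nat_lit 686) (nat_lit 6702) (nat_lit 687) (nat_lit 4654)) (.a (.p (nat_lit 653) (.a (.f (nat_lit 621) (nat_lit 685) (nat_lit 6701) (.f (nat_lit 620) (nat_lit 656) (nat_lit 3692) (.d (nat_lit 619) (nat_lit 618) (nat_lit 2634) (nat_lit 652) (nat_lit 3691)))) (.a (.p (nat_lit 656) (.a (.p (nat_lit 652) (.a (.d (nat_lit 684) (nat_lit 683) (nat_lit 1675) (nat_lit 685) (nat_lit 1676)) (.d (nat_lit 688) (nat_lit 687) (nat_lit 652) (nat_lit 689) (nat_lit 653)))) (.a (.p (nat_lit 657) (.a (.d (nat_lit 685) (nat_lit 684) (nat_lit 1676) (nat_lit 686) (nat_lit 1677)) (.d (nat_lit 625) (nat_lit 624) (nat_lit 2669) (nat_lit 626) (nat_lit 2670)))) (.f (nat_lit 689) (nat_lit 688) (nat_lit 653) (.f (nat_lit 625) (nat_lit 624) (nat_lit 2669) (.d (nat_lit 657) (nat_lit 626) (nat_lit 2670) (nat_lit 690) (nat_lit 654))))))) (.a (.f (nat_lit 621) (nat_lit 685) (nat_lit 6701) (.p (nat_lit 652) (.a (.f (nat_lit 620) (nat_lit 619) (nat_lit 3691) (.d (nat_lit 684) (nat_lit 683) (nat_lit 1675) (nat_lit 716) (nat_lit 6732))) (.a (.p (nat_lit 651) (.a (.d (nat_lit 687) (nat_lit 686) (nat_lit 651) (nat_lit 688) (nat_lit 652)) (.d (nat_lit 683) (nat_lit 682) (nat_lit 1674) (nat_lit 684) (nat_lit 1675)))) (.p (nat_lit 651) (.a (.d (nat_lit 687) (nat_lit 686) (nat_lit 651) (nat_lit 688) (nat_lit 652)) (.d (nat_lit 619) (nat_lit 618) (nat_lit 3690) (nat_lit 620) (nat_lit 3691)))))))) (.a (.f (nat_lit 621) (nat_lit 685) (nat_lit 6701) (.f (nat_lit 656) (nat_lit 620) (nat_lit 3692) (.f (nat_lit 689) (nat_lit 688) (nat_lit 653) (.f (nat_lit 625) (nat_lit 624) (nat_lit 2669) (.d (nat_lit 657) (nat_lit 626) (nat_lit 2670) (nat_lit 690) (nat_lit 654)))))) (.p (nat_lit 652) (.a (.p (nat_lit 621) (.a (.d (nat_lit 620) (nat_lit 619) (nat_lit 3691) (nat_lit 656) (nat_lit 3692)) (.p (nat_lit 651) (.a (.d (nat_lit 687) (nat_lit 686) (nat_lit 651) (nat_lit 688) (nat_lit 652)) (.d (nat_lit 683) (nat_lit 682) (nat_lit 1674) (nat_lit 684) (nat_lit 1675)))))) (.a (.p (nat_lit 651) (.a (.d (nat_lit 687) (nat_lit 686) (nat_lit 651) (nat_lit 688) (nat_lit 652)) (.d (nat_lit 683) (nat_lit 682) (nat_lit 1674) (nat_lit 684) (nat_lit 1675)))) (.a (.f (nat_lit 620) (nat_lit 619) (nat_lit 3691) (.f (nat_lit 621) (nat_lit 656) (nat_lit 3692) (.d (nat_lit 684) (nat_lit 683) (nat_lit 1675) (nat_lit 716) (nat_lit 6732)))) (.p (nat_lit 656) (.a (.d (nat_lit 688) (nat_lit 687) (nat_lit 652) (nat_lit 689) (nat_lit 653)) (.d (nat_lit 620) (nat_lit 619) (nat_lit 3691) (nat_lit 621) (nat_lit 3692))))))))))))) (.a (.f (nat_lit 622) (nat_lit 686) (nat_lit 6702) (.f (nat_lit 653) (nat_lit 685) (nat_lit 5677) (.f (nat_lit 621) (nat_lit 526) (nat_lit 5645) (.d (nat_lit 620) (nat_lit 619) (nat_lit 619) (nat_lit 656) (nat_lit 3692))))) (.f (nat_lit 622) (nat_lit 687) (nat_lit 4654) (.f (nat_lit 653) (nat_lit 685) (nat_lit 5677) (.f (nat_lit 621) (nat_lit 526) (nat_lit 5645) (.d (nat_lit 620) (nat_lit 619) (nat_lit 619) (nat_lit 656) (nat_lit 3692))))))))))))))) (.a (.p (nat_lit 561) (.a (.f (nat_lit 590) (nat_lit 589) (nat_lit 1581) (.f (nat_lit 562) (nat_lit 591) (nat_lit 1582) (.d (nat_lit 594) (nat_lit 593) (nat_lit 558) (nat_lit 595) (nat_lit 559)))) (.a (.f (nat_lit 590) (nat_lit 589) (nat_lit 1581) (.f (nat_lit 526) (nat_lit 525) (nat_lit 3597) (.f (nat_lit 591) (nat_lit 562) (nat_lit 1582) (.p (nat_lit 654) (.a (.p (nat_lit 656) (.a (.p (nat_lit 653) (.a (.p (nat_lit 652) (.a (.d (nat_lit 684) (nat_lit 683) (nat_lit 1675) (nat_lit 685) (nat_lit 1676)) (.d (nat_lit 688) (nat_lit 687) (nat_lit 652) (nat_lit 689) (nat_lit 653)))) (.a (.p (nat_lit 652) (.a (.d (nat_lit 684) (nat_lit 683) (nat_lit 1675) (nat_lit 685) (nat_lit 1676)) (.d (nat_lit 620) (nat_lit 619) (nat_lit 3691) (nat_lit 621) (nat_lit 3692)))) (.a (.p (nat_lit 657) (.a (.d (nat_lit 689) (nat_lit 688) (nat_lit 653) (nat_lit 690) (nat_lit 654)) (.d (nat_lit 685) (nat_lit 684) (nat_lit 1676) (nat_lit 686) (nat_lit 1677)))) (.p (nat_lit 652) (.a (.d (nat_lit 688) (nat_lit 687) (nat_lit 652) (nat_lit 689) (nat_lit 653)) (.d (nat_lit 620) (nat_lit 619) (nat_lit 3691) (nat_lit 621) (nat_lit 3692)))))))) (.a (.p (nat_lit 657) (.a (.p (nat_lit 653) (.a (.d (nat_lit 689) (nat_lit 688) (nat_lit 653) (nat_lit 690) (nat_lit 654)) (.d (nat_lit 685) (nat_lit 684) (nat_lit 1676) (nat_lit 686) (nat_lit 1677)))) (.d (nat_lit 625) (nat_lit 593) (nat_lit 7696) (nat_lit 626) (nat_lit 2670)))) (.a (.p (nat_lit 657) (.a (.p (nat_lit 658) (.a (.d (nat_lit 690) (nat_lit 689) (nat_lit 654) (nat_lit 691) (nat_lit 655)) (.d (nat_lit 686) (nat_lit 685) (nat_lit 1677) (nat_lit 687) (nat_lit 1678)))) (.d (nat_lit 625) (nat_lit 593) (nat_lit 7696) (nat_lit 626) (nat_lit 2670)))) (.a (.p (nat_lit 653) (.a (.p (nat_lit 652) (.a (.d (nat_lit 684) (nat_lit 683) (nat_lit 1675) (nat_lit 685) (nat_lit 1676)) (.d (nat_lit 688) (nat_lit 687) (nat_lit 652) (nat_lit 689) (nat_lit 653)))) (.a (.p (nat_lit 652) (.a (.d (nat_lit 684) (nat_lit 683) (nat_lit 1675) (nat_lit 685) (nat_lit 1676)) (.d (nat_lit 620) (nat_lit 619) (nat_lit 3691) (nat_lit 621) (nat_lit 3692)))) (.f (nat_lit 624) (nat_lit 625) (nat_lit 2669) (.d (nat_lit 592) (nat_lit 687) (nat_lit 5679) (nat_lit 688) (nat_lit 7727)))))) (.p (nat_lit 625) (.a (.d (nat_lit 657) (nat_lit 593) (nat_lit 7696) (nat_lit 626) (nat_lit 2670)) (.a (.f (nat_lit 624) (nat_lit 653) (nat_lit 2669) (.d (nat_lit 657) (nat_lit 592) (nat_lit 4624) (nat_lit 593) (nat_lit 7696))) (.a (.f (nat_lit 624) (nat_lit 653) (nat_lit 2669) (.d (nat_lit 592) (nat_lit 657) (nat_lit 4624) (nat_lit 687) (nat_lit 5679))) (.f (nat_lit 624) (nat_lit 653) (nat_lit 2669) (.d (nat_lit 592) (nat_lit 687) (nat_lit 5679) (nat_lit 688) (nat_lit 7727)))))))))))) (.a (.d (nat_lit 622) (nat_lit 686) (nat_lit 6702) (nat_lit 687) (nat_lit 4654)) (.a (.f (nat_lit 622) (nat_lit 686) (nat_lit 6702) (.d (nat_lit 653) (nat_lit 621) (nat_lit 5645) (nat_lit 685) (nat_lit 5677))) (.f (nat_lit 622) (nat_lit 687) (nat_lit 4654) (.d (nat_lit 653) (nat_lit 621) (nat_lit 5645) (nat_lit 685) (nat_lit 5677)))))))))) (.a s22746 (.a (.f (nat_lit 526) (nat_lit 525) (nat_lit 3597) (.p (nat_lit 562) (.a (.d (nat_lit 594) (nat_lit 593) (nat_lit 558) (nat_lit 595) (nat_lit 559)) (.a (.f (nat_lit 531) (nat_lit 530) (nat_lit 2575) (.f (nat_lit 563) (nat_lit 532) (nat_lit 2576) (.p (nat_lit 564) (.a (.d (nat_lit 596) (nat_lit 595) (nat_lit 560) (nat_lit 597) (nat_lit 561)) (.d (nat_lit 592) (nat_lit 591) (nat_lit 1583) (nat_lit 593) (nat_lit 1584)))))) (.a (.f (nat_lit 593) (nat_lit 594) (nat_lit 558) (.f (nat_lit 531) (nat_lit 530) (nat_lit 2575) (.f (nat_lit 563) (nat_lit 532) (nat_lit 2576) (.d (nat_lit 592) (nat_lit 564) (nat_lit 1584) (nat_lit 591) (nat_lit 1583))))) (.f (nat_lit 595) (nat_lit 594) (nat_lit 559) (.f (nat_lit 563) (nat_lit 596) (nat_lit 560) (.d (nat_lit 531) (nat_lit 530) (nat_lit 2575) (nat_lit 532) (nat_lit 2576))))))))) (.a (.f (nat_lit 590) (nat_lit 589) (nat_lit 1581) (.f (nat_lit 562) (nat_lit 591) (nat_lit 1582) (.f (nat_lit 595) (nat_lit 594) (nat_lit 559) (.f (nat_lit 563) (nat_lit 596) (nat_lit 560) (.d (nat_lit 531) (nat_lit 530) (nat_lit 2575) (nat_lit 532) (nat_lit 2576)))))) (.f (nat_lit 593) (nat_lit 594) (nat_lit 558) (.f (nat_lit 590) (nat_lit 589) (nat_lit 1581) (.f (nat_lit 526) (nat_lit 525) (nat_lit 3597) (.p (nat_lit 654) (.a (.f (nat_lit 622) (nat_lit 687) (nat_lit 4654) (.d (nat_lit 653) (nat_lit 621) (nat_lit 5645) (nat_lit 685) (nat_lit 5677))) (.a (.p (nat_lit 656) (.a (.p (nat_lit 653) (.a (.p (nat_lit 652) (.a (.d (nat_lit 684) (nat_lit 683) (nat_lit 1675) (nat_lit 685) (nat_lit 1676)) (.d (nat_lit 688) (nat_lit 687) (nat_lit 652) (nat_lit 689) (nat_lit 653)))) (.a (.p (nat_lit 652) (.a (.d (nat_lit 684) (nat_lit 683) (nat_lit 1675) (nat_lit 685) (nat_lit 1676)) (.d (nat_lit 620) (nat_lit 619) (nat_lit 3691) (nat_lit 621) (nat_lit 3692)))) (.a (.p (nat_lit 657) (.a (.d (nat_lit 689) (nat_lit 688) (nat_lit 653) (nat_lit 690) (nat_lit 654)) (.d (nat_lit 685) (nat_lit 684) (nat_lit 1676) (nat_lit 686) (nat_lit 1677)))) (.p (nat_lit 652) (.a (.d (nat_lit 688) (nat_lit 687) (nat_lit 652) (nat_lit 689) (nat_lit 653)) (.d (nat_lit 620) (nat_lit 619) (nat_lit 3691) (nat_lit 621) (nat_lit 3692)))))))) (.a (.f (nat_lit 657) (nat_lit 625) (nat_lit 7696) (.p (nat_lit 653) (.a (.d (nat_lit 689) (nat_lit 688) (nat_lit 653) (nat_lit 690) (nat_lit 654)) (.d (nat_lit 685) (nat_lit 684) (nat_lit 1676) (nat_lit 686) (nat_lit 1677))))) (.a (.f (nat_lit 657) (nat_lit 625) (nat_lit 7696) (.p (nat_lit 658) (.a (.d (nat_lit 690) (nat_lit 689) (nat_lit 654) (nat_lit 691) (nat_lit 655)) (.d (nat_lit 686) (nat_lit 685) (nat_lit 1677) (nat_lit 687) (nat_lit 1678))))) (.a (.p (nat_lit 653) (.a (.p (nat_lit 652) (.a (.d (nat_lit 684) (nat_lit 683) (nat_lit 1675) (nat_lit 685) (nat_lit 1676)) (.d (nat_lit 688) (nat_lit 687) (nat_lit 652) (nat_lit 689) (nat_lit 653)))) (.a (.p (nat_lit 652) (.a (.d (nat_lit 684) (nat_lit 683) (nat_lit 1675) (nat_lit 685) (nat_lit 1676)) (.d (nat_lit 620) (nat_lit 619) (nat_lit 3691) (nat_lit 621) (nat_lit 3692)))) (.f (nat_lit 624) (nat_lit 625) (nat_lit 2669) (.d (nat_lit 592) (nat_lit 687) (nat_lit 5679) (nat_lit 688) (nat_lit 6704)))))) (.f (nat_lit 625) (nat_lit 657) (nat_lit 7696) (.f (nat_lit 624) (nat_lit 653) (nat_lit 2669) (.d (nat_lit 592) (nat_lit 687) (nat_lit 5679) (nat_lit 688) (nat_lit 6704))))))))) (.a (.p (nat_lit 656) (.a (.f (nat_lit 622) (nat_lit 687) (nat_lit 4654) (.f (nat_lit 685) (nat_lit 653) (nat_lit 5677) (.d (nat_lit 686) (nat_lit 591) (nat_lit 6702) (nat_lit 657) (nat_lit 1677)))) (.a (.f (nat_lit 657) (nat_lit 625) (nat_lit 7696) (.p (nat_lit 653) (.a (.d (nat_lit 689) (nat_lit 688) (nat_lit 653) (nat_lit 690) (nat_lit 654)) (.d (nat_lit 685) (nat_lit 684) (nat_lit 1676) (nat_lit 686) (nat_lit 1677))))) (.a (.f (nat_lit 687) (nat_lit 622) (nat_lit 4654) (.p (nat_lit 653) (.a (.d (nat_lit 688) (nat_lit 652) (nat_lit 652) (nat_lit 689) (nat_lit 653)) (.d (nat_lit 624) (nat_lit 592) (nat_lit 5679) (nat_lit 625) (nat_lit 2669))))) (.f (nat_lit 657) (nat_lit 625) (nat_lit 7696) (.f (nat_lit 622) (nat_lit 687) (nat_lit 4654) (.d (nat_lit 686) (nat_lit 591) (nat_lit 6702) (nat_lit 685) (nat_lit 1677)))))))) (.a (.f (nat_lit 657) (nat_lit 625) (nat_lit 7696) (.f (nat_lit 622) (nat_lit 687) (nat_lit 4654) (.f (nat_lit 591) (nat_lit 686) (nat_lit 6702) (.d (nat_lit 621) (nat_lit 592) (nat_lit 1613) (nat_lit 656) (nat_lit 3693))))) (.p (nat_lit 656) (.a (.p (nat_lit 622) (.a (.d (nat_lit 653) (nat_lit 621) (nat_lit 5645) (nat_lit 685) (nat_lit 5677)) (.a (.f (nat_lit 685) (nat_lit 653) (nat_lit 5677) (.d (nat_lit 686) (nat_lit 591) (nat_lit 6702) (nat_lit 657) (nat_lit 1677))) (.f (nat_lit 591) (nat_lit 686) (nat_lit 6702) (.d (nat_lit 621) (nat_lit 592) (nat_lit 1613) (nat_lit 657) (nat_lit 3693)))))) (.a (.f (nat_lit 657) (nat_lit 625) (nat_lit 7696) (.p (nat_lit 653) (.a (.d (nat_lit 689) (nat_lit 688) (nat_lit 653) (nat_lit 690) (nat_lit 654)) (.d (nat_lit 685) (nat_lit 684) (nat_lit 1676) (nat_lit 686) (nat_lit 1677))))) (.a (.p (nat_lit 653) (.a (.d (nat_lit 622) (nat_lit 621) (nat_lit 5645) (nat_lit 685) (nat_lit 5677)) (.f (nat_lit 624) (nat_lit 625) (nat_lit 2669) (.d (nat_lit 688) (nat_lit 592) (nat_lit 6704) (nat_lit 689) (nat_lit 653))))) (.a (.f (nat_lit 657) (nat_lit 625) (nat_lit 7696) (.f (nat_lit 622) (nat_lit 621) (nat_lit 3693) (.d (nat_lit 686) (nat_lit 591) (nat_lit 6702) (nat_lit 685) (nat_lit 1677)))) (.f (nat_lit 657) (nat_lit 625) (nat_lit 7696) (.p (nat_lit 653) (.a (.d (nat_lit 689) (nat_lit 688) (nat_lit 653) (nat_lit 690) (nat_lit 654)) (.d (nat_lit 621) (nat_lit 620) (nat_lit 3692) (nat_lit 622) (nat_lit 5645)))))))))))))))))))))))) (.f (nat_lit 623) (nat_lit 591) (nat_lit 6671) (.f (nat_lit 624) (nat_lit 592) (nat_lit 5647) (.p (nat_lit 622) (.a (.f (nat_lit 590) (nat_lit 526) (nat_lit 4622) (.d (nat_lit 687) (nat_lit 654) (nat_lit 4654) (nat_lit 719) (nat_lit 7758))) (.a (.p (nat_lit 621) (.a (.d (nat_lit 656) (nat_lit 620) (nat_lit 620) (nat_lit 657) (nat_lit 621)) (.a (.f (nat_lit 653) (nat_lit 652) (nat_lit 1644) (.f (nat_lit 625) (nat_lit 654) (nat_lit 1645) (.d (nat_lit 657) (nat_lit 656) (nat_lit 621) (nat_lit 658) (nat_lit 622)))) (.f (nat_lit 653) (nat_lit 652) (nat_lit 1644) (.f (nat_lit 654) (nat_lit 625) (nat_lit 1645) (.f (nat_lit 588) (nat_lit 589) (nat_lit 3660) (.d (nat_lit 620) (nat_lit 587) (nat_lit 3659) (nat_lit 619) (nat_lit 619)))))))) (.f (nat_lit 590) (nat_lit 526) (nat_lit 4622) (.f (nat_lit 589) (nat_lit 625) (nat_lit 3661) (.d (nat_lit 588) (nat_lit 587) (nat_lit 587) (nat_lit 621) (nat_lit 3660))))))))))))))))))) (.a (.p (nat_lit 561) (.a (.f (nat_lit 590) (nat_lit 589) (nat_lit 1581) (.f (nat_lit 591) (nat_lit 562) (nat_lit 1582) (.f (nat_lit 593) (nat_lit 594) (nat_lit 558) (.f (nat_lit 592) (nat_lit 557) (nat_lit 557) (.f (nat_lit 655) (nat_lit 623) (nat_lit 6671) (.f (nat_lit 622) (nat_lit 621) (nat_lit 1613) (.d (nat_lit 654) (nat_lit 686) (nat_lit 6702) (nat_lit 687) (nat_lit 4654)))))))) (.a (.f (nat_lit 593) (nat_lit 594) (nat_lit 558) (.f (nat_lit 590) (nat_lit 589) (nat_lit 1581) (.f (nat_lit 591) (nat_lit 562) (nat_lit 1582) (.f (nat_lit 592) (nat_lit 557) (nat_lit 557) (.d (nat_lit 625) (nat_lit 626) (nat_lit 590) (nat_lit 657) (nat_lit 7696)))))) (.a (.f (nat_lit 590) (nat_lit 589) (nat_lit 1581) (.f (nat_lit 591) (nat_lit 562) (nat_lit 1582) (.f (nat_lit 655) (nat_lit 623) (nat_lit 6671) (.p (nat_lit 592) (.a (.d (nat_lit 557) (nat_lit 556) (nat_lit 556) (nat_lit 593) (nat_lit 557)) (.a (.f (nat_lit 593) (nat_lit 557) (nat_lit 557) (.d (nat_lit 625) (nat_lit 626) (nat_lit 590) (nat_lit 657) (nat_lit 7696))) (.a (.p (nat_lit 622) (.a (.d (nat_lit 654) (nat_lit 686) (nat_lit 6702) (nat_lit 687) (nat_lit 4654)) (.f (nat_lit 593) (nat_lit 621) (nat_lit 1613) (.d (nat_lit 625) (nat_lit 626) (nat_lit 590) (nat_lit 657) (nat_lit 7696))))) (.p (nat_lit 654) (.a (.p (nat_lit 656) (.a (.d (nat_lit 624) (nat_lit 687) (nat_lit 5679) (nat_lit 688) (nat_lit 7727)) (.a (.p (nat_lit 653) (.a (.p (nat_lit 652) (.a (.d (nat_lit 684) (nat_lit 683) (nat_lit 1675) (nat_lit 685) (nat_lit 1676)) (.d (nat_lit 688) (nat_lit 687) (nat_lit 652) (nat_lit 689) (nat_lit 653)))) (.a (.p (nat_lit 652) (.a (.d (nat_lit 684) (nat_lit 683) (nat_lit 1675) (nat_lit 685) (nat_lit 1676)) (.d (nat_lit 620) (nat_lit 619) (nat_lit 3691) (nat_lit 621) (nat_lit 3692)))) (.a (.p (nat_lit 657) (.a (.d (nat_lit 689) (nat_lit 688) (nat_lit 653) (nat_lit 690) (nat_lit 654)) (.d (nat_lit 685) (nat_lit 684) (nat_lit 1676) (nat_lit 686) (nat_lit 1677)))) (.p (nat_lit 652) (.a (.d (nat_lit 688) (nat_lit 687) (nat_lit 652) (nat_lit 689) (nat_lit 653)) (.d (nat_lit 620) (nat_lit 619) (nat_lit 3691) (nat_lit 621) (nat_lit 3692)))))))) (.a (.f (nat_lit 624) (nat_lit 687) (nat_lit 5679) (.d (nat_lit 657) (nat_lit 625) (nat_lit 4624) (nat_lit 689) (nat_lit 4656))) (.f (nat_lit 624) (nat_lit 688) (nat_lit 7727) (.d (nat_lit 657) (nat_lit 625) (nat_lit 4624) (nat_lit 689) (nat_lit 4656))))))) (.a (.d (nat_lit 622) (nat_lit 686) (nat_lit 6702) (nat_lit 687) (nat_lit 4654)) (.a (.p (nat_lit 656) (.a (.f (nat_lit 622) (nat_lit 686) (nat_lit 6702) (.f (nat_lit 621) (nat_lit 657) (nat_lit 3693) (.d (nat_lit 653) (nat_lit 526) (nat_lit 5645) (nat_lit 685) (nat_lit 5677)))) (.a (.f (nat_lit 624) (nat_lit 688) (nat_lit 7727) (.d (nat_lit 657) (nat_lit 625) (nat_lit 4624) (nat_lit 689) (nat_lit 4656))) (.p (nat_lit 653) (.a (.d (nat_lit 622) (nat_lit 685) (nat_lit 5677) (nat_lit 686) (nat_lit 6702)) (.d (nat_lit 688) (nat_lit 624) (nat_lit 7727) (nat_lit 689) (nat_lit 653))))))) (.p (nat_lit 656) (.a (.d (nat_lit 624) (nat_lit 687) (nat_lit 5679) (nat_lit 688) (nat_lit 7727)) (.a (.f (nat_lit 622) (nat_lit 687) (nat_lit 4654) (.f (nat_lit 621) (nat_lit 657) (nat_lit 3693) (.d (nat_lit 653) (nat_lit 526) (nat_lit 5645) (nat_lit 685) (nat_lit 5677)))) (.f (nat_lit 624) (nat_lit 688) (nat_lit 7727) (.d (nat_lit 657) (nat_lit 625) (nat_lit 4624) (nat_lit 689) (nat_lit 4656))))))))))))))))) (.a (.f (nat_lit 593) (nat_lit 594) (nat_lit 558) (.f (nat_lit 557) (nat_lit 592) (nat_lit 557) (.d (nat_lit 589) (nat_lit 588) (nat_lit 1580) (nat_lit 590) (nat_lit 1581)))) (.a (.p (nat_lit 562) (.a (.d (nat_lit 594) (nat_lit 593) (nat_lit 558) (nat_lit 595) (nat_lit 559)) (.a (.f (nat_lit 531) (nat_lit 530) (nat_lit 2575) (.f (nat_lit 563) (nat_lit 532) (nat_lit 2576) (.f (nat_lit 592) (nat_lit 591) (nat_lit 1583) (.d (nat_lit 593) (nat_lit 557) (nat_lit 557) (nat_lit 564) (nat_lit 1584))))) (.f (nat_lit 595) (nat_lit 594) (nat_lit 559) (.f (nat_lit 563) (nat_lit 596) (nat_lit 560) (.d (nat_lit 531) (nat_lit 530) (nat_lit 2575) (nat_lit 532) (nat_lit 2576))))))) (.a (.f (nat_lit 590) (nat_lit 589) (nat_lit 1581) (.f (nat_lit 562) (nat_lit 591) (nat_lit 1582) (.d (nat_lit 594) (nat_lit 593) (nat_lit 558) (nat_lit 595) (nat_lit 559)))) (.f (nat_lit 590) (nat_lit 589) (nat_lit 1581) (.f (nat_lit 562) (nat_lit 591) (nat_lit 1582) (.f (nat_lit 595) (nat_lit 594) (nat_lit 559) (.f (nat_lit 563) (nat_lit 596) (nat_lit 560) (.d (nat_lit 531) (nat_lit 530) (nat_lit 2575) (nat_lit 532) (nat_lit 2576))))))))))))) (.a (.p (nat_lit 561) (.a (.f (nat_lit 590) (nat_lit 589) (nat_lit 1581) (.f (nat_lit 591) (nat_lit 562) (nat_lit 1582) (.f (nat_lit 526) (nat_lit 525) (nat_lit 3597) (.d (nat_lit 494) (nat_lit 462) (nat_lit 4558) (nat_lit 623) (nat_lit 4590))))) (.a (.f (nat_lit 593) (nat_lit 594) (nat_lit 558) (.f (nat_lit 590) (nat_lit 589) (nat_lit 1581) (.f (nat_lit 591) (nat_lit 562) (nat_lit 1582) (.f (nat_lit 592) (nat_lit 557) (nat_lit 557) (.d (nat_lit 625) (nat_lit 626) (nat_lit 590) (nat_lit 657) (nat_lit 7696)))))) (.f (nat_lit 593) (nat_lit 594) (nat_lit 558) (.f (nat_lit 557) (nat_lit 592) (nat_lit 557) (.d (nat_lit 525) (nat_lit 524) (nat_lit 3596) (nat_lit 526) (nat_lit 3597))))))) (.p (nat_lit 557) (.a (.f (nat_lit 589) (nat_lit 588) (nat_lit 1580) (.f (nat_lit 525) (nat_lit 524) (nat_lit 3596) (.f (nat_lit 592) (nat_lit 593) (nat_lit 557) (.f (nat_lit 591) (nat_lit 556) (nat_lit 556) (.f (nat_lit 623) (nat_lit 655) (nat_lit 6671) (.p (nat_lit 590) (.a (.f (nat_lit 526) (nat_lit 494) (nat_lit 4590) (.d (nat_lit 621) (nat_lit 620) (nat_lit 1612) (nat_lit 653) (nat_lit 6669))) (.d (nat_lit 493) (nat_lit 461) (nat_lit 4557) (nat_lit 622) (nat_lit 4589))))))))) (.a (.f (nat_lit 592) (nat_lit 593) (nat_lit 557) (.f (nat_lit 556) (nat_lit 591) (nat_lit 556) (.d (nat_lit 588) (nat_lit 587) (nat_lit 1579) (nat_lit 589) (nat_lit 1580)))) (.a (.f (nat_lit 589) (nat_lit 588) (nat_lit 1580) (.f (nat_lit 525) (nat_lit 524) (nat_lit 3596) (.f (nat_lit 592) (nat_lit 593) (nat_lit 557) (.p (nat_lit 621) (.a (.d (nat_lit 526) (nat_lit 494) (nat_lit 6637) (nat_lit 653) (nat_lit 6669)) (.a (.f (nat_lit 622) (nat_lit 654) (nat_lit 4621) (.f (nat_lit 590) (nat_lit 493) (nat_lit 4589) (.d (nat_lit 653) (nat_lit 526) (nat_lit 6669) (nat_lit 685) (nat_lit 6701)))) (.f (nat_lit 622) (nat_lit 654) (nat_lit 4621) (.f (nat_lit 590) (nat_lit 493) (nat_lit 4589) (.d (nat_lit 620) (nat_lit 591) (nat_lit 1612) (nat_lit 652) (nat_lit 5644)))))))))) (.a (.f (nat_lit 525) (nat_lit 524) (nat_lit 3596) (.f (nat_lit 589) (nat_lit 588) (nat_lit 1580) (.p (nat_lit 493) (.a (.d (nat_lit 590) (nat_lit 461) (nat_lit 4557) (nat_lit 622) (nat_lit 4589)) (.a (.f (nat_lit 461) (nat_lit 590) (nat_lit 4557) (.d (nat_lit 462) (nat_lit 430) (nat_lit 6573) (nat_lit 494) (nat_lit 6605))) (.f (nat_lit 494) (nat_lit 462) (nat_lit 6605) (.f (nat_lit 621) (nat_lit 526) (nat_lit 6637) (.p (nat_lit 653) (.a (.d (nat_lit 654) (nat_lit 622) (nat_lit 4621) (nat_lit 686) (nat_lit 4653)) (.d (nat_lit 652) (nat_lit 620) (nat_lit 5644) (nat_lit 684) (nat_lit 5676))))))))))) (.f (nat_lit 592) (nat_lit 593) (nat_lit 557) (.f (nat_lit 556) (nat_lit 591) (nat_lit 556) (.d (nat_lit 524) (nat_lit 523) (nat_lit 3595) (nat_lit 525) (nat_lit 3596))))))))))))))))))))))))))))))))))))))))))))))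
end Vale.Agent.Lib.P062.Part4
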