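import Vale.Agent.Lib.P062.Part4.K_0

set_option maxRecDepth 100000
set_option linter.all false

namespace Vale.Agent.Lib.P062.Part4
open Vale.Agent.Lib.P062 Vale.Agent.Lib.P062.V2

noncomputable def s1220 : Cert := .r (nat_lit 20261306493394176462141987312728159077430979534299843783091083809018741648436612084358255167519588626691602336650743786505212557593231839736698986280612611538028772450245904695296) (.p (nat_lit 559) (.a (.f (nat_lit 557) (nat_lit 593) (nat_lit 557) (.d (nat_lit 589) (nat_lit 561) (nat_lit 1581) (nat_lit 588) (nat_lit 1580))) (.a (.f (nat_lit 557) (nat_lit 593) (nat_lit 557) (.f (nat_lit 556) (nat_lit 591) (nat_lit 556) (.d (nat_lit 524) (nat_lit 523) (nat_lit 3595) (nat_lit 525) (nat_lit 3596)))) (.a (.f (nat_lit 589) (nat_lit 561) (nat_lit 1581) (.d (nat_lit 588) (nat_lit 557) (nat_lit 1580) (nat_lit 587) (nat_lit 2603))) (.f (nat_lit 561) (nat_lit 589) (nat_lit 1581) (.f (nat_lit 593) (nat_lit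 594) (nat_lit 558) (.f (nat_lit 562) (nat_lit 591) (nat_lit 1582) (.f (nat_lit 563) (nat_lit 564) (nat_lit 1584) (.d (nat_lit 531) (nat_lit 530) (nat_lit 2575) (nat_lit 532) (nat_lit 2576))))))))))
noncomputable def s1279 : Cert := .r (nat_lit 17404329768881130783254602814453279293064266359110361593699229303641907658539147938513488958585288400317754175296927681921620498241416468414202990400922520629108074620762937451477571993600) (.p (nat_lit 654) (.a (.f (nat_lit 653) (nat_lit 685) (nat_lit 5677) (.f (nat_lit 621) (nat_lit 526) (nat_lit 5645) (.f (nat_lit 591) (nat_lit 593) (nat_lit 1613) (.d (nat_lit 620) (nat_lit 589) (nat_lit 1612) (nat_lit 619) (nat_lit 2635))))) (.a (.f (nat_lit 653) (nat_lit 685) (nat_lit 5677) (.f (nat_lit 621) (nat_lit 526) (nat_lit 5645) (.f (nat_lit 655) (nat_lit 687) (nat_lit 4654) (.d (nat_lit 656) (nat_lit 620) (nat_lit 3692) (nat_lit 657) (nat_lit 3693))))) (.a (.f (nat_lit 687) (nat_lit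 655) (nat_lit 4654) (.f (nat_lit 686) (nat_lit 719) (nat_lit 4686) (.d (nat_lit 685) (nat_lit 653) (nat_lit 5677) (nat_lit 717) (nat_lit 5709)))) (.f (nat_lit 687) (nat_lit 655) (nat_lit 4654) (.f (nat_lit 686) (nat_lit 719) (nat_lit 4686) (.f (nat_lit 591) (nat_lit 559) (nat_lit 6702) (.f (nat_lit 621) (nat_lit 593) (nat_lit 1613) (.d (nat_lit 620) (nat_lit 589) (nat_lit 1612) (nat_lit 619) (nat_lit 2635))))))))))
noncomputable def s1290 : Cert := .r (nat_lit 17404329768881130783254602814453279293064266359110361593699229303641907658539147938513488958585288400317754175296927681921620498241416468414202990400922520629108074620762937451477571993600) (.p (nat_lit 526) (.a (.f (nat_lit 525) (nat_lit 493) (nat_lit 7661) (.f (nat_lit 557) (nat_lit 654) (nat_lit 7693) (.d (nat_lit 559) (nat_lit 524) (nat_lit 3596) (nat_lit 593) (nat_lit 557)))) (.a (.f (nat_lit 621) (nat_lit 653) (nat_lit 5645) (.f (nat_lit 494) (nat_lit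 589) (nat_lit 5613) (.d (nat_lit 493) (nat_lit 461) (nat_lit 7629) (nat_lit 525) (nat_lit 7661)))) (.a (.f (nat_lit 621) (nat_lit 653) (nat_lit 5645) (.f (nat_lit 494) (nat_lit 589) (nat_lit 5613) (.f (nat_lit 463) (nat_lit 495) (nat_lit 6606) (.f (nat_lit 462) (nat_lit 431) (nat_lit 6574) (.d (nat_lit 461) (nat_lit 429) (nat_lit 7597) (nat_lit 493) (nat_lit 7629)))))) (.f (nat_lit 653) (nat_lit 621) (nat_lit 5645) (.f (nat_lit 654) (nat_lit 685) (nat_lit 5677) (.f (nat_lit 557) (nat_lit 525) (nat_lit 7693) (.f (nat_lit 589) (nat_lit 686) (nat_lit 7725) (.d (nat_lit 559) (nat_lit 588) (nat_lit 1580) (nat_lit 593) (nat_lit 557))))))))))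
noncomputable def s1364 : Cert := .r (nat_lit 20261306493394176462361660837852338588310400359870448366043705738623327421537234915052192549388313620359524245151910332264486039557759227193886889896603544140031141355561586524160) (.p (nat_lit 494) (.a (.f (nat_lit 589) (nat_lit 621) (nat_lit 5613) (.f (nat_lit 557) (nat_lit 462) (nat_lit 5581) (.f (nat_lit 588) (nat_lit 559) (nat_lit 1580) (.f (nat_lit 493) (nat_lit 461) (nat_lit 7629) (.d (nat_lit 525) (nat_lit 620) (nat_lit 5612) (nat_lit 622) (nat_lit 7661)))))) (.a (.f (nat_lit 621) (nat_lit 589) (nat_lit 5613) (.f (nat_lit 622) (nat_lit 653) (nat_lit 5645) (.d (nat_lit 493) (nat_lit 461) (nat_lit 7629) (nat_lit 525) (nat_lit 7661)))) (.a (.f (nat_lit 461) (nat_lit 493) (nat_lit 7629) (.f (nat_lit 462) (nat_lit 429) (nat_lit 7597) (.d (nat_lit 463) (nat_lit 431) (nat_lit 6574) (nat_lit 495) (nat_lit 6606)))) (.f (nat_lit 589) (nat_lit 621) (nat_lit 5613) (.f (nat_lit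 557) (nat_lit 462) (nat_lit 5581) (.f (nat_lit 556) (nat_lit 591) (nat_lit 3628) (.f (nat_lit 588) (nat_lit 559) (nat_lit 1580) (.f (nat_lit 555) (nat_lit 554) (nat_lit 554) (.f (nat_lit 587) (nat_lit 586) (nat_lit 2602) (.f (nat_lit 523) (nat_lit 522) (nat_lit 3594) (.d (nat_lit 491) (nat_lit 459) (nat_lit 4555) (nat_lit 620) (nat_lit 4587)))))))))))))
noncomputable def s1371 : Cert := .r (nat_lit 20261306493394176462361660837852338588310400359870448366043705738623327421537234915052192549388313620359524245151910332264486039557759227193886889896603544140031141355561586524160) (.p (nat_lit 494) (.a (.f (nat_lit 589) (nat_lit 621) (nat_lit 5613) (.d (nat_lit 561) (nat_lit 559) (nat_lit 1581) (nat_lit 591) (nat_lit 2605))) (.a (.f (nat_lit 589) (nat_lit 621) (nat_lit 5613) (.f (nat_lit 557) (nat_lit 462) (nat_lit 5581) (.f (nat_lit 588) (nat_lit 559) (nat_lit 1580) (.f (nat_lit 493) (nat_lit 461) (nat_lit 7629) (.d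 (nat_lit 525) (nat_lit 620) (nat_lit 5612) (nat_lit 622) (nat_lit 7661)))))) (.a (.f (nat_lit 621) (nat_lit 589) (nat_lit 5613) (.f (nat_lit 622) (nat_lit 653) (nat_lit 5645) (.d (nat_lit 493) (nat_lit 461) (nat_lit 7629) (nat_lit 525) (nat_lit 7661)))) (.f (nat_lit 493) (nat_lit 461) (nat_lit 7629) (.f (nat_lit 525) (nat_lit 622) (nat_lit 7661) (.f (nat_lit 559) (nat_lit 561) (nat_lit 3597) (.d (nat_lit 524) (nat_lit 523) (nat_lit 523) (nat_lit 557) (nat_lit 3596)))))))))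
noncomputable def s1386 : Cert := .r (nat_lit 20261306493394176462361660837852338588310400359870448366043705738623327421537234915052192549388313620359524245151910332264486039557759227193886889896603544140031141355561586524160) (.p (nat_lit 525) (.a (.f (nat_lit 622) (nat_lit 493) (nat_lit 7661) (.f (nat_lit 654) (nat_lit 557) (nat_lit 7693) (.d (nat_lit 653) (nat_lit 621) (nat_lit 5645) (nat_lit 685) (nat_lit 5677)))) (.a (.f (nat_lit 559) (nat_lit 561) (nat_lit 3597) (.f (nat_lit 622) (nat_lit 493) (nat_lit 7661) (.f (nat_lit 653) (nat_lit 621) (nat_lit 5645) (.f (nat_lit 654) (nat_lit 685) (nat_lit 5677) (.f (nat_lit 687) (nat_lit 655) (nat_lit 4654) (.d (nat_lit 686) (nat_lit 591) (nat_lit 6702) (nat_lit 719) (nat_lit 4686))))))) (.f (nat_lit 559) (nat_lit 561) (nat_lit 3597) (.d (nat_lit 524) (nat_lit 523) (nat_lit 523) (nat_lit 557) (nat_lit 3596))))))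
noncomputable def s1390 : Cert := .r (nat_lit 20261306493394176462361660837852338588310400359870448366043705738623327421537234915052192549388313620359524245151910332264486039557759227193886889896603544140031141355561586524160) (.p (nat_lit 494) (.a (.f (nat_lit 589) (nat_lit 621) (nat_lit 5613) (.f (nat_lit 559) (nat_lit 561) (nat_lit 1581) (.d (nat_lit 557) (nat_lit 462) (nat_lit 5581) (nat_lit 588) (nat_lit 1580)))) (.a (.f (nat_lit 589) (nat_lit 621) (nat_lit 5613) (.f (nat_lit 557) (nat_lit 462) (nat_lit 5581) (.f (nat_lit 588) (nat_lit 559) (nat_lit 1580) (.f (nat_lit 493) (nat_lit 461) (nat_lit 7629) (.d (nat_lit 525) (nat_lit 620) (nat_lit 5612) (nat_lit 622) (nat_lit 7661)))))) (.a (.f (nat_lit 621) (nat_lit 589) (nat_lit 5613) (.f (nat_lit 622) (nat_lit 653) (nat_lit 5645) (.d (nat_lit 493) (nat_lit 461) (nat_lit 7629) (nat_lit 525) (nat_lit 7661)))) (.f (nat_lit 493) (nat_lit 461) (nat_lit 7629) (.f (nat_lit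 525) (nat_lit 622) (nat_lit 7661) (.f (nat_lit 559) (nat_lit 561) (nat_lit 3597) (.d (nat_lit 524) (nat_lit 523) (nat_lit 523) (nat_lit 557) (nat_lit 3596)))))))))
noncomputable def s1400 : Cert := .r (nat_lit 20261306493394176462361660837852338588310400359870448366043705738623327421537234915052192549388313620359524245151910332264486039557759227193886889896603544140031141355561586524160) (.p (nat_lit 494) (.a (.f (nat_lit 589) (nat_lit 621) (nat_lit 5613) (.d (nat_lit 561) (nat_lit 559) (nat_lit 1581) (nat_lit 591) (nat_lit 2605))) (.a (.f (nat_lit 589) (nat_lit 621) (nat_lit 5613) (.f (nat_lit 557) (nat_lit 462) (nat_lit 5581) (.f (nat_lit 556) (nat_lit 591) (nat_lit 3628) (.f (nat_lit 588) (nat_lit 559) (nat_lit 1580) (.f (nat_lit 555) (nat_lit 554) (nat_lit 554) (.f (nat_lit 587) (nat_lit 586) (nat_lit 2602) (.f (nat_lit 523) (nat_lit 522) (nat_lit 3594) (.d (nat_lit 491) (nat_lit 459) (nat_lit 4555) (nat_lit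 620) (nat_lit 4587))))))))) (.a (.f (nat_lit 589) (nat_lit 621) (nat_lit 5613) (.f (nat_lit 591) (nat_lit 561) (nat_lit 2605) (.d (nat_lit 557) (nat_lit 462) (nat_lit 5581) (nat_lit 556) (nat_lit 3628)))) (.a (.f (nat_lit 589) (nat_lit 621) (nat_lit 5613) (.f (nat_lit 559) (nat_lit 561) (nat_lit 1581) (.d (nat_lit 557) (nat_lit 462) (nat_lit 5581) (nat_lit 588) (nat_lit 1580)))) (.a (.f (nat_lit 463) (nat_lit 495) (nat_lit 6606) (.f (nat_lit 462) (nat_lit 431) (nat_lit 6574) (.f (nat_lit 559) (nat_lit 591) (nat_lit 4558) (.d (nat_lit 561) (nat_lit 525) (nat_lit 3597) (nat_lit 589) (nat_lit 1581))))) (.f (nat_lit 463) (nat_lit 495) (nat_lit 6606) (.f (nat_lit 462) (nat_lit 431) (nat_lit 6574) (.f (nat_lit 559) (nat_lit 591) (nat_lit 4558) (.f (nat_lit 525) (nat_lit 561) (nat_lit 3597) (.d (nat_lit 524) (nat_lit 523) (nat_lit 523) (nat_lit 557) (nat_lit 3596))))))))))))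
noncomputable def s1412 : Cert := .r (nat_lit 20261306493394176462361660837852338588310400359870448366043705738623327421537234915052192549388313620359524245151910332264486039557759227193886889896603544140031141355561586524160) (.p (nat_lit 494) (.a (.f (nat_lit 493) (nat_lit 461) (nat_lit 7629) (.f (nat_lit 525) (nat_lit 622) (nat_lit 7661) (.f (nat_lit 559) (nat_lit 561) (nat_lit 3597) (.d (nat_lit 524) (nat_lit 523) (nat_lit 523) (nat_lit 557) (nat_lit 3596))))) (.a (.f (nat_lit 493) (nat_lit 461) (nat_lit 7629) (.f (nat_lit 525) (nat_lit 622) (nat_lit 7661) (.f (nat_lit 495) (nat_lit 463) (nat_lit 6606) (.f (nat_lit 524) (nat_lit 523) (nat_lit 2539) (.f (nat_lit 557) (nat_lit 559) (nat_lit 3596) (.d (nat_lit 462) (nat_lit 430) (nat_lit 5549) (nat_lit 589) (nat_lit 6605))))))) (.a (.f (nat_lit 493) (nat_lit 461) (nat_lit 7629) (.f (nat_lit 525) (nat_lit 622) (nat_lit 7661) (.f (nat_lit 463) (nat_lit 495) (nat_lit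 6606) (.f (nat_lit 462) (nat_lit 431) (nat_lit 6574) (.d (nat_lit 430) (nat_lit 398) (nat_lit 5517) (nat_lit 557) (nat_lit 5549)))))) (.a (.f (nat_lit 461) (nat_lit 493) (nat_lit 7629) (.f (nat_lit 462) (nat_lit 429) (nat_lit 7597) (.d (nat_lit 463) (nat_lit 431) (nat_lit 6574) (nat_lit 495) (nat_lit 6606)))) (.f (nat_lit 463) (nat_lit 495) (nat_lit 6606) (.f (nat_lit 462) (nat_lit 431) (nat_lit 6574) (.f (nat_lit 559) (nat_lit 591) (nat_lit 4558) (.d (nat_lit 561) (nat_lit 525) (nat_lit 3597) (nat_lit 589) (nat_lit 1581))))))))))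
noncomputable def s1413 : Cert := .r (nat_lit 20261306493394176462141987312728159077430979534299843783091083809018741648436612084358255167519588626691602336650743786505212557593231839736698986280612611538028772450245904695296) (.p (nat_lit 526) (.a s1364 (.a s1371 (.a (.p (nat_lit 494) (.a (.f (nat_lit 621) (nat_lit 589) (nat_lit 5613) (.f (nat_lit 622) (nat_lit 653) (nat_lit 5645) (.d (nat_lit 493) (nat_lit 461) (nat_lit 7629) (nat_lit 525) (nat_lit 7661)))) (.a (.f (nat_lit 461) (nat_lit 493) (nat_lit 7629) (.f (nat_lit 462) (nat_lit 429) (nat_lit 7597) (.d (nat_lit 463) (nat_lit 431) (nat_lit 6574) (nat_lit 495) (nat_lit 6606)))) (.f (nat_lit 589) (nat_lit 621) (nat_lit 5613) (.f (nat_lit 591) (nat_lit 561) (nat_lit 2605) (.d (nat_lit 557) (nat_lit 462) (nat_lit 5581) (nat_lit 556) (nat_lit 3628))))))) (.a (.p (nat_lit 494) (.a (.f (nat_lit 589) (nat_lit 621) (nat_lit 5613) (.d (nat_lit 561) (nat_lit 559) (nat_lit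 1581) (nat_lit 591) (nat_lit 2605))) (.f (nat_lit 461) (nat_lit 493) (nat_lit 7629) (.f (nat_lit 462) (nat_lit 429) (nat_lit 7597) (.d (nat_lit 463) (nat_lit 431) (nat_lit 6574) (nat_lit 495) (nat_lit 6606)))))) (.a s1386 (.a s1390 (.a s1400 s1412))))))))
noncomputable def s1532 : Cert := .r (nat_lit 69617319010688342355100537185339881929686688642612915748223131080142370096074338672598701469547924183724844772003335469090402206514095436155034630569484847469405046205819747100288287244288) (.p (nat_lit 656) (.a (.d (nat_lit 657) (nat_lit 625) (nat_lit 4624) (nat_lit 689) (nat_lit 4656)) (.a (.f (nat_lit 687) (nat_lit 655) (nat_lit 5679) (.f (nat_lit 688) (nat_lit 719) (nat_lit 5711) (.f (nat_lit 721) (nat_lit 689) (nat_lit 4688) (.f (nat_lit 720) (nat_lit 753) (nat_lit 4720) (.d (nat_lit 593) (nat_lit 561) (nat_lit 6704) (nat_lit 625) (nat_lit 6736)))))) (.a (.f (nat_lit 687) (nat_lit 655) (nat_lit 5679) (.f (nat_lit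 688) (nat_lit 719) (nat_lit 5711) (.d (nat_lit 689) (nat_lit 657) (nat_lit 4656) (nat_lit 721) (nat_lit 4688)))) (.f (nat_lit 625) (nat_lit 657) (nat_lit 4624) (.f (nat_lit 687) (nat_lit 655) (nat_lit 5679) (.f (nat_lit 688) (nat_lit 719) (nat_lit 5711) (.d (nat_lit 593) (nat_lit 561) (nat_lit 6704) (nat_lit 720) (nat_lit 6736)))))))))
noncomputable def s1563 : Cert := .r (nat_lit 69617319014740603652835881871387155234072588204148507771897385865294379207100366808744119581266388098712250821112903717734250633450028200877116442393593123674594463868965432455172573888512) (.p (nat_lit 591) (.a (.f (nat_lit 557) (nat_lit 593) (nat_lit 3629) (.d (nat_lit 556) (nat_lit 555) (nat_lit 555) (nat_lit 589) (nat_lit 3628))) (.a (.f (nat_lit 589) (nat_lit 561) (nat_lit 2605) (.f (nat_lit 557) (nat_lit 556) (nat_lit 3628) (.f (nat_lit 621) (nat_lit 620) (nat_lit 1612) (.d (nat_lit 526) (nat_lit 494) (nat_lit 5613) (nat_lit 653)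 (nat_lit 6669))))) (.a (.f (nat_lit 561) (nat_lit 589) (nat_lit 2605) (.d (nat_lit 562) (nat_lit 563) (nat_lit 1583) (nat_lit 593) (nat_lit 2606))) (.f (nat_lit 623) (nat_lit 655) (nat_lit 5647) (.f (nat_lit 593) (nat_lit 557) (nat_lit 3629) (.d (nat_lit 622) (nat_lit 594) (nat_lit 1614) (nat_lit 621) (nat_lit 1613))))))))
noncomputable def s1598 : Cert := .r (nat_lit 87021648763360427942696308223698447214408695485827889831296771385845203056620773098820996455493421331510416369718229063005127345186232111698087593057816658023089926951699597456404241186816) (.p (nat_lit 526) (.a (.f (nat_lit 621) (nat_lit 653) (nat_lit 5645) (.f (nat_lit 494) (nat_lit 589) (nat_lit 5613) (.d (nat_lit 493) (nat_lit 461) (nat_lit 7629) (nat_lit 525) (nat_lit 7661)))) (.a (.f (nat_lit 621) (nat_lit 653) (nat_lit 5645) (.f (nat_lit 494) (nat_lit 589) (nat_lit 5613) (.f (nat_lit 463) (nat_lit 495) (nat_lit 6606) (.f (nat_lit 462) (nat_lit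 431) (nat_lit 6574) (.d (nat_lit 461) (nat_lit 429) (nat_lit 7597) (nat_lit 493) (nat_lit 7629)))))) (.a (.f (nat_lit 525) (nat_lit 493) (nat_lit 7661) (.f (nat_lit 654) (nat_lit 557) (nat_lit 7693) (.d (nat_lit 653) (nat_lit 621) (nat_lit 5645) (nat_lit 685) (nat_lit 5677)))) (.a (.f (nat_lit 653) (nat_lit 621) (nat_lit 5645) (.f (nat_lit 654) (nat_lit 685) (nat_lit 5677) (.f (nat_lit 687) (nat_lit 655) (nat_lit 4654) (.f (nat_lit 686) (nat_lit 719) (nat_lit 4686) (.d (nat_lit 557) (nat_lit 525) (nat_lit 7693) (nat_lit 589) (nat_lit 7725)))))) (.a (.f (nat_lit 525) (nat_lit 493) (nat_lit 7661) (.f (nat_lit 654) (nat_lit 557) (nat_lit 7693) (.f (nat_lit 687) (nat_lit 655) (nat_lit 4654) (.f (nat_lit 686) (nat_lit 719) (nat_lit 4686) (.d (nat_lit 685) (nat_lit 653) (nat_lit 5677) (nat_lit 717) (nat_lit 5709)))))) (.f (nat_lit 493) (nat_lit 525) (nat_lit 7661) (.f (nat_lit 494) (nat_lit 461) (nat_lit 7629) (.f (nat_lit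 463) (nat_lit 495) (nat_lit 6606) (.f (nat_lit 462) (nat_lit 431) (nat_lit 6574) (.d (nat_lit 589) (nat_lit 557) (nat_lit 5581) (nat_lit 621) (nat_lit 5613))))))))))))
noncomputable def s1611 : Cert := .r (nat_lit 87021648763360427942696308223698447214408695485827889831296771385845203056620773098820996455493421331510416369718229063005127345186232111698087593057816658023089926951699597456404241186816) (.p (nat_lit 525) (.a (.f (nat_lit 557) (nat_lit 654) (nat_lit 7693) (.d (nat_lit 493) (nat_lit 526) (nat_lit 7661) (nat_lit 589) (nat_lit 4589))) (.a (.f (nat_lit 526) (nat_lit 493) (nat_lit 7661) (.f (nat_lit 621) (nat_lit 653) (nat_lit 5645) (.f (nat_lit 623) (nat_lit 593) (nat_lit 2637) (.d (nat_lit 589) (nat_lit 494) (nat_lit 5613) (nat_lit 588) (nat_lit 3660))))) (.a (.f (nat_lit 654) (nat_lit 557) (nat_lit 7693) (.f (nat_lit 653) (nat_lit 685) (nat_lit 5677) (.f (nat_lit 623) (nat_lit 625) (nat_lit 1645) (.d (nat_lit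 621) (nat_lit 526) (nat_lit 5645) (nat_lit 652) (nat_lit 1644))))) (.f (nat_lit 557) (nat_lit 654) (nat_lit 7693) (.d (nat_lit 493) (nat_lit 461) (nat_lit 4557) (nat_lit 589) (nat_lit 4589)))))))
noncomputable def s1638 : Cert := .r (nat_lit 69617319014740603652835881871387155234072588204148507771897385865294379207100366808744119581266388098712250821112903717734250633450028200877116442393593123674594463868965432455172573888512) (.p (nat_lit 591) (.a (.f (nat_lit 557) (nat_lit 593) (nat_lit 3629) (.d (nat_lit 556) (nat_lit 555) (nat_lit 555) (nat_lit 589) (nat_lit 3628))) (.a (.f (nat_lit 589) (nat_lit 561) (nat_lit 2605) (.f (nat_lit 557) (nat_lit 556) (nat_lit 3628) (.f (nat_lit 621) (nat_lit 620) (nat_lit 1612) (.d (nat_lit 526) (nat_lit 494) (nat_lit 5613) (nat_lit 653) (nat_lit 6669))))) (.a (.f (nat_lit 561) (nat_lit 589) (nat_lit 2605) (.d (nat_lit 562) (nat_lit 563) (nat_lit 1583) (nat_lit 593) (nat_lit 2606)))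 (.f (nat_lit 593) (nat_lit 557) (nat_lit 3629) (.f (nat_lit 622) (nat_lit 621) (nat_lit 1613) (.f (nat_lit 594) (nat_lit 623) (nat_lit 1614) (.d (nat_lit 562) (nat_lit 561) (nat_lit 2606) (nat_lit 563) (nat_lit 2607)))))))))
noncomputable def s1664 : Cert := .r (nat_lit 87021648763360427942696308223698447214408695485827889831296771385845203056620773098820996455493421331510416369718229063005127345186232111698087593057816658023089926951699597456404241186816) (.p (nat_lit 525) (.a (.f (nat_lit 557) (nat_lit 654) (nat_lit 7693) (.d (nat_lit 493) (nat_lit 526) (nat_lit 7661) (nat_lit 589) (nat_lit 4589))) (.a (.f (nat_lit 526) (nat_lit 493) (nat_lit 7661) (.f (nat_lit 621) (nat_lit 653) (nat_lit 5645) (.f (nat_lit 623) (nat_lit 593) (nat_lit 2637) (.d (nat_lit 589) (nat_lit 494) (nat_lit 5613) (nat_lit 588) (nat_lit 3660))))) (.a (.f (nat_lit 654) (nat_lit 557) (nat_lit 7693) (.f (nat_lit 653) (nat_lit 685) (nat_lit 5677)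 (.f (nat_lit 621) (nat_lit 526) (nat_lit 5645) (.d (nat_lit 623) (nat_lit 593) (nat_lit 2637) (nat_lit 652) (nat_lit 1644))))) (.f (nat_lit 557) (nat_lit 654) (nat_lit 7693) (.d (nat_lit 493) (nat_lit 461) (nat_lit 4557) (nat_lit 589) (nat_lit 4589)))))))
noncomputable def s1684 : Cert := .r (nat_lit 69617319014740603652835881871387155234072588204148507771897385865294379207100366808744119581266388098712250821112903717734250633450028200877116442393593123674594463868965432455172573888512) (.p (nat_lit 622) (.a (.f (nat_lit 625) (nat_lit 657) (nat_lit 4624) (.f (nat_lit 623) (nat_lit 589) (nat_lit 3661) (.d (nat_lit 593) (nat_lit 594) (nat_lit 2638) (nat_lit 621) (nat_lit 2637)))) (.a (.p (nat_lit 526) (.a (.f (nat_lit 621) (nat_lit 653) (nat_lit 5645) (.f (nat_lit 494) (nat_lit 589) (nat_lit 5613) (.d (nat_lit 493) (nat_lit 461) (nat_lit 7629) (nat_lit 525) (nat_lit 7661)))) (.a (.f (nat_lit 621) (nat_lit 653) (nat_lit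 5645) (.f (nat_lit 494) (nat_lit 589) (nat_lit 5613) (.f (nat_lit 463) (nat_lit 495) (nat_lit 6606) (.f (nat_lit 462) (nat_lit 431) (nat_lit 6574) (.d (nat_lit 461) (nat_lit 429) (nat_lit 7597) (nat_lit 493) (nat_lit 7629)))))) (.a (.f (nat_lit 525) (nat_lit 493) (nat_lit 7661) (.f (nat_lit 654) (nat_lit 557) (nat_lit 7693) (.d (nat_lit 653) (nat_lit 621) (nat_lit 5645) (nat_lit 685) (nat_lit 5677)))) (.a (.f (nat_lit 657) (nat_lit 625) (nat_lit 4624) (.f (nat_lit 653) (nat_lit 621) (nat_lit 5645) (.f (nat_lit 654) (nat_lit 685) (nat_lit 5677) (.f (nat_lit 557) (nat_lit 525) (nat_lit 7693) (.f (nat_lit 686) (nat_lit 589) (nat_lit 7725) (.f (nat_lit 687) (nat_lit 719) (nat_lit 4686) (.d (nat_lit 689) (nat_lit 656) (nat_lit 4656) (nat_lit 688) (nat_lit 3725)))))))) (.a (.f (nat_lit 657) (nat_lit 625) (nat_lit 4624) (.f (nat_lit 525) (nat_lit 493) (nat_lit 7661) (.f (nat_lit 654) (nat_lit 557) (nat_lit 7693) (.f (nat_lit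 656) (nat_lit 689) (nat_lit 4656) (.f (nat_lit 685) (nat_lit 653) (nat_lit 5677) (.f (nat_lit 686) (nat_lit 717) (nat_lit 5709) (.d (nat_lit 687) (nat_lit 688) (nat_lit 2701) (nat_lit 719) (nat_lit 4686)))))))) (.f (nat_lit 493) (nat_lit 525) (nat_lit 7661) (.f (nat_lit 494) (nat_lit 461) (nat_lit 7629) (.f (nat_lit 463) (nat_lit 495) (nat_lit 6606) (.f (nat_lit 462) (nat_lit 431) (nat_lit 6574) (.d (nat_lit 589) (nat_lit 557) (nat_lit 5581) (nat_lit 621) (nat_lit 5613)))))))))))) (.a s1611 (.a s1664 (.a (.p (nat_lit 654) (.a (.f (nat_lit 685) (nat_lit 653) (nat_lit 5677) (.f (nat_lit 686) (nat_lit 717) (nat_lit 5709) (.f (nat_lit 657) (nat_lit 625) (nat_lit 4624) (.f (nat_lit 687) (nat_lit 719) (nat_lit 4686) (.d (nat_lit 656) (nat_lit 688) (nat_lit 2701) (nat_lit 689) (nat_lit 4656)))))) (.a (.f (nat_lit 557) (nat_lit 525) (nat_lit 7693) (.f (nat_lit 686) (nat_lit 589) (nat_lit 7725) (.d (nat_lit 685) (nat_lit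 653) (nat_lit 5677) (nat_lit 717) (nat_lit 5709)))) (.a (.f (nat_lit 625) (nat_lit 657) (nat_lit 4624) (.f (nat_lit 589) (nat_lit 623) (nat_lit 3661) (.d (nat_lit 557) (nat_lit 525) (nat_lit 7693) (nat_lit 686) (nat_lit 7725)))) (.f (nat_lit 625) (nat_lit 657) (nat_lit 4624) (.d (nat_lit 623) (nat_lit 589) (nat_lit 3661) (nat_lit 653) (nat_lit 1645))))))) (.f (nat_lit 657) (nat_lit 625) (nat_lit 4624) (.f (nat_lit 656) (nat_lit 689) (nat_lit 4656) (.f (nat_lit 621) (nat_lit 623) (nat_lit 621) (.f (nat_lit 653) (nat_lit 526) (nat_lit 5645) (.d (nat_lit 685) (nat_lit 654) (nat_lit 5677) (nat_lit 717) (nat_lit 6733))))))))))))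
noncomputable def s1687 : Cert := .r (nat_lit 69617319014740603652835881871387155234072588204148507771897385865294379207100366808744119581266388098712250821112903717734250633450028200877116442393593123674594463868965432455172573888512) (.p (nat_lit 591) (.a (.f (nat_lit 593) (nat_lit 557) (nat_lit 3629) (.f (nat_lit 562) (nat_lit 561) (nat_lit 2606) (.f (nat_lit 594) (nat_lit 563) (nat_lit 2607) (.d (nat_lit 626) (nat_lit 625) (nat_lit 590) (nat_lit 627) (nat_lit 591))))) (.a (.f (nat_lit 625) (nat_lit 657) (nat_lit 4624) (.d (nat_lit 626) (nat_lit 593) (nat_lit 590) (nat_lit 627) (nat_lit 3663))) (.a (.f (nat_lit 593) (nat_lit 557) (nat_lit 3629) (.f (nat_lit 622) (nat_lit 621) (nat_lit 1613) (.f (nat_lit 594) (nat_lit 623) (nat_lit 1614) (.d (nat_lit 562) (nat_lit 561) (nat_lit 2606) (nat_lit 563) (nat_lit 2607))))) (.f (nat_lit 625) (nat_lit 657) (nat_lit 4624) (.d (nat_lit 626) (nat_lit 623) (nat_lit 3662) (nat_lit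 627) (nat_lit 3663)))))))
noncomputable def s1818 : Cert := .r (nat_lit 69617319014740603652835881871387155234072588204148507771897385865294379207100366808744119581266388098712250821112903717734250633450028200877116442393593123674594463868965432455172573888512) (.p (nat_lit 622) (.a (.f (nat_lit 623) (nat_lit 655) (nat_lit 5647) (.f (nat_lit 621) (nat_lit 593) (nat_lit 2637) (.d (nat_lit 653) (nat_lit 526) (nat_lit 5645) (nat_lit 652) (nat_lit 1644)))) (.a s1598 (.a s1664 (.f (nat_lit 655) (nat_lit 623) (nat_lit 5647) (.d (nat_lit 687) (nat_lit 654) (nat_lit 4654) (nat_lit 656) (nat_lit 5679)))))))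
noncomputable def s1850 : Cert := .r (nat_lit 20261306493394176462361660837852338588310400359870448366043705738623327421537234915052192549388313620359524245151910332264486039557759227193886889896603544140031141355561586524160) (.p (nat_lit 494) (.a (.f (nat_lit 589) (nat_lit 621) (nat_lit 5613) (.f (nat_lit 557) (nat_lit 462) (nat_lit 5581) (.d (nat_lit 591) (nat_lit 556) (nat_lit 3628) (nat_lit 593) (nat_lit 3629)))) (.a (.f (nat_lit 621) (nat_lit 589) (nat_lit 5613) (.f (nat_lit 622) (nat_lit 653) (nat_lit 5645) (.d (nat_lit 493) (nat_lit 461) (nat_lit 7629) (nat_lit 525) (nat_lit 7661)))) (.f (nat_lit 493) (nat_lit 461) (nat_lit 7629) (.f (nat_lit 525) (nat_lit 622) (nat_lit 7661) (.f (nat_lit 463) (nat_lit 495) (nat_lit 6606) (.f (nat_lit 462) (nat_lit 431) (nat_lit 6574) (.d (nat_lit 430) (nat_lit 398) (nat_lit 5517) (nat_lit 557) (nat_lit 5549)))))))))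
noncomputable def s1861 : Cert := .r (nat_lit 20261306493394176462361660837852338588310400359870448366043705738623327421537234915052192549388313620359524245151910332264486039557759227193886889896603544140031141355561586524160) (.p (nat_lit 494) (.a (.f (nat_lit 589) (nat_lit 621) (nat_lit 5613) (.f (nat_lit 557) (nat_lit 462) (nat_lit 5581) (.d (nat_lit 593) (nat_lit 559) (nat_lit 557) (nat_lit 591) (nat_lit 3629)))) (.a (.f (nat_lit 589) (nat_lit 621) (nat_lit 5613) (.f (nat_lit 557) (nat_lit 462) (nat_lit 5581) (.d (nat_lit 591) (nat_lit 556) (nat_lit 3628) (nat_lit 593) (nat_lit 3629)))) (.a (.f (nat_lit 589) (nat_lit 621) (nat_lit 5613) (.f (nat_lit 557) (nat_lit 462) (nat_lit 5581) (.f (nat_lit 588) (nat_lit 559) (nat_lit 1580) (.f (nat_lit 493) (nat_lit 461) (nat_lit 7629) (.d (nat_lit 525) (nat_lit 620) (nat_lit 5612) (nat_lit 622) (nat_lit 7661)))))) (.a (.f (nat_lit 621) (nat_lit 589) (nat_lit 5613) (.f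 (nat_lit 622) (nat_lit 653) (nat_lit 5645) (.d (nat_lit 493) (nat_lit 461) (nat_lit 7629) (nat_lit 525) (nat_lit 7661)))) (.a (.f (nat_lit 461) (nat_lit 493) (nat_lit 7629) (.f (nat_lit 462) (nat_lit 429) (nat_lit 7597) (.f (nat_lit 557) (nat_lit 589) (nat_lit 5581) (.d (nat_lit 559) (nat_lit 591) (nat_lit 4558) (nat_lit 593) (nat_lit 557))))) (.f (nat_lit 591) (nat_lit 623) (nat_lit 4590) (.f (nat_lit 593) (nat_lit 557) (nat_lit 3629) (.d (nat_lit 559) (nat_lit 462) (nat_lit 4558) (nat_lit 594) (nat_lit 3630))))))))))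
noncomputable def s1865 : Cert := .r (nat_lit 20261306493394176462361660837852338588310400359870448366043705738623327421537234915052192549388313620359524245151910332264486039557759227193886889896603544140031141355561586524160) (.p (nat_lit 494) (.a (.f (nat_lit 589) (nat_lit 621) (nat_lit 5613) (.f (nat_lit 557) (nat_lit 462) (nat_lit 5581) (.d (nat_lit 593) (nat_lit 559) (nat_lit 557) (nat_lit 591) (nat_lit 3629)))) (.a (.f (nat_lit 589) (nat_lit 621) (nat_lit 5613) (.f (nat_lit 557) (nat_lit 462) (nat_lit 5581) (.d (nat_lit 591) (nat_lit 556) (nat_lit 3628) (nat_lit 593) (nat_lit 3629)))) (.a (.f (nat_lit 461) (nat_lit 493) (nat_lit 7629) (.f (nat_lit 462) (nat_lit 429) (nat_lit 7597) (.d (nat_lit 463) (nat_lit 431) (nat_lit 6574) (nat_lit 495) (nat_lit 6606)))) (.f (nat_lit 591) (nat_lit 623) (nat_lit 4590) (.f (nat_lit 589) (nat_lit 621) (nat_lit 5613) (.d (nat_lit 557) (nat_lit 556) (nat_lit 3628) (nat_lit 593)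 (nat_lit 3629))))))))
noncomputable def s1871 : Cert := .r (nat_lit 20261306493394176462361660837852338588310400359870448366043705738623327421537234915052192549388313620359524245151910332264486039557759227193886889896603544140031141355561586524160) (.p (nat_lit 494) (.a (.f (nat_lit 621) (nat_lit 589) (nat_lit 5613) (.f (nat_lit 622) (nat_lit 653) (nat_lit 5645) (.d (nat_lit 493) (nat_lit 461) (nat_lit 7629) (nat_lit 525) (nat_lit 7661)))) (.a (.f (nat_lit 461) (nat_lit 493) (nat_lit 7629) (.f (nat_lit 462) (nat_lit 429) (nat_lit 7597) (.d (nat_lit 463) (nat_lit 431) (nat_lit 6574) (nat_lit 495) (nat_lit 6606)))) (.f (nat_lit 621) (nat_lit 589) (nat_lit 5613) (.f (nat_lit 622) (nat_lit 653) (nat_lit 5645) (.f (nat_lit 591) (nat_lit 593) (nat_lit 1613) (.f (nat_lit 462) (nat_lit 559) (nat_lit 4558) (.d (nat_lit 463) (nat_lit 431) (nat_lit 6574) (nat_lit 495) (nat_lit 6606)))))))))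
noncomputable def s1876 : Cert := .r (nat_lit 20261306493394176462361660837852338588310400359870448366043705738623327421537234915052192549388313620359524245151910332264486039557759227193886889896603544140031141355561586524160) (.p (nat_lit 494) (.a (.f (nat_lit 589) (nat_lit 621) (nat_lit 5613) (.f (nat_lit 557) (nat_lit 462) (nat_lit 5581) (.f (nat_lit 588) (nat_lit 559) (nat_lit 1580) (.f (nat_lit 493) (nat_lit 461) (nat_lit 7629) (.d (nat_lit 525) (nat_lit 620) (nat_lit 5612) (nat_lit 622) (nat_lit 7661)))))) (.a (.f (nat_lit 621) (nat_lit 589) (nat_lit 5613) (.f (nat_lit 622) (nat_lit 653) (nat_lit 5645) (.d (nat_lit 493) (nat_lit 461) (nat_lit 7629) (nat_lit 525) (nat_lit 7661)))) (.a (.f (nat_lit 461) (nat_lit 493) (nat_lit 7629) (.f (nat_lit 462) (nat_lit 429) (nat_lit 7597) (.d (nat_lit 463) (nat_lit 431) (nat_lit 6574) (nat_lit 495) (nat_lit 6606)))) (.f (nat_lit 589) (nat_lit 621) (nat_lit 5613) (.f (nat_lit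 557) (nat_lit 462) (nat_lit 5581) (.d (nat_lit 559) (nat_lit 588) (nat_lit 1580) (nat_lit 593) (nat_lit 557))))))))
noncomputable def s1881 : Cert := .r (nat_lit 20261306493394176462361660837852338588310400359870448366043705738623327421537234915052192549388313620359524245151910332264486039557759227193886889896603544140031141355561586524160) (.p (nat_lit 494) (.a (.f (nat_lit 589) (nat_lit 621) (nat_lit 5613) (.f (nat_lit 557) (nat_lit 462) (nat_lit 5581) (.d (nat_lit 593) (nat_lit 559) (nat_lit 557) (nat_lit 591) (nat_lit 3629)))) (.a (.f (nat_lit 589) (nat_lit 621) (nat_lit 5613) (.f (nat_lit 557) (nat_lit 462) (nat_lit 5581) (.d (nat_lit 591) (nat_lit 556) (nat_lit 3628) (nat_lit 593) (nat_lit 3629)))) (.a (.f (nat_lit 589) (nat_lit 621) (nat_lit 5613) (.f (nat_lit 557) (nat_lit 462) (nat_lit 5581) (.f (nat_lit 556) (nat_lit 591) (nat_lit 3628) (.f (nat_lit 588) (nat_lit 559) (nat_lit 1580) (.f (nat_lit 555) (nat_lit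 554) (nat_lit 554) (.f (nat_lit 587) (nat_lit 586) (nat_lit 2602) (.f (nat_lit 523) (nat_lit 522) (nat_lit 3594) (.d (nat_lit 491) (nat_lit 459) (nat_lit 4555) (nat_lit 620) (nat_lit 4587))))))))) (.a (.f (nat_lit 621) (nat_lit 589) (nat_lit 5613) (.f (nat_lit 622) (nat_lit 653) (nat_lit 5645) (.f (nat_lit 591) (nat_lit 593) (nat_lit 1613) (.f (nat_lit 462) (nat_lit 559) (nat_lit 4558) (.d (nat_lit 463) (nat_lit 431) (nat_lit 6574) (nat_lit 495) (nat_lit 6606)))))) (.a (.f (nat_lit 589) (nat_lit 621) (nat_lit 5613) (.f (nat_lit 557) (nat_lit 462) (nat_lit 5581) (.d (nat_lit 559) (nat_lit 588) (nat_lit 1580) (nat_lit 593) (nat_lit 557)))) (.a (.f (nat_lit 591) (nat_lit 623) (nat_lit 4590) (.f (nat_lit 589) (nat_lit 621) (nat_lit 5613) (.d (nat_lit 557) (nat_lit 556) (nat_lit 3628) (nat_lit 593) (nat_lit 3629)))) (.a (.f (nat_lit 463) (nat_lit 495) (nat_lit 6606) (.f (nat_lit 462) (nat_lit 431) (nat_lit 6574) (.f (nat_lit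 559) (nat_lit 591) (nat_lit 4558) (.d (nat_lit 557) (nat_lit 589) (nat_lit 5581) (nat_lit 593) (nat_lit 557))))) (.f (nat_lit 591) (nat_lit 623) (nat_lit 4590) (.f (nat_lit 593) (nat_lit 557) (nat_lit 3629) (.d (nat_lit 559) (nat_lit 462) (nat_lit 4558) (nat_lit 594) (nat_lit 3630))))))))))))
noncomputable def s1885 : Cert := .r (nat_lit 20261306493394176462361660837852338588310400359870448366043705738623327421537234915052192549388313620359524245151910332264486039557759227193886889896603544140031141355561586524160) (.p (nat_lit 494) (.a (.f (nat_lit 493) (nat_lit 461) (nat_lit 7629) (.f (nat_lit 525) (nat_lit 622) (nat_lit 7661) (.f (nat_lit 495) (nat_lit 463) (nat_lit 6606) (.f (nat_lit 524) (nat_lit 523) (nat_lit 2539) (.f (nat_lit 557) (nat_lit 559) (nat_lit 3596) (.d (nat_lit 462) (nat_lit 430) (nat_lit 5549) (nat_lit 589) (nat_lit 6605))))))) (.a (.f (nat_lit 461) (nat_lit 493) (nat_lit 7629) (.f (nat_lit 462)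 (nat_lit 429) (nat_lit 7597) (.f (nat_lit 557) (nat_lit 589) (nat_lit 5581) (.d (nat_lit 559) (nat_lit 591) (nat_lit 4558) (nat_lit 593) (nat_lit 557))))) (.a (.f (nat_lit 493) (nat_lit 461) (nat_lit 7629) (.f (nat_lit 525) (nat_lit 622) (nat_lit 7661) (.f (nat_lit 463) (nat_lit 495) (nat_lit 6606) (.f (nat_lit 462) (nat_lit 431) (nat_lit 6574) (.d (nat_lit 430) (nat_lit 398) (nat_lit 5517) (nat_lit 557) (nat_lit 5549)))))) (.a (.f (nat_lit 461) (nat_lit 493) (nat_lit 7629) (.f (nat_lit 462) (nat_lit 429) (nat_lit 7597) (.d (nat_lit 463) (nat_lit 431) (nat_lit 6574) (nat_lit 495) (nat_lit 6606)))) (.a (.f (nat_lit 463) (nat_lit 495) (nat_lit 6606) (.f (nat_lit 462) (nat_lit 431) (nat_lit 6574) (.f (nat_lit 559) (nat_lit 591) (nat_lit 4558) (.d (nat_lit 557) (nat_lit 589) (nat_lit 5581) (nat_lit 593) (nat_lit 557))))) (.f (nat_lit 591) (nat_lit 623) (nat_lit 4590) (.f (nat_lit 557) (nat_lit 593) (nat_lit 3629) (.d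 (nat_lit 556) (nat_lit 555) (nat_lit 555) (nat_lit 589) (nat_lit 3628))))))))))
noncomputable def s1890 : Cert := .r (nat_lit 20261306493394176462361660837852338588310400359870448366043705738623327421537234915052192549388313620359524245151910332264486039557759227193886889896603544140031141355561586524160) (.p (nat_lit 494) (.a (.f (nat_lit 493) (nat_lit 461) (nat_lit 7629) (.f (nat_lit 525) (nat_lit 622) (nat_lit 7661) (.f (nat_lit 463) (nat_lit 495) (nat_lit 6606) (.f (nat_lit 462) (nat_lit 431) (nat_lit 6574) (.d (nat_lit 430) (nat_lit 398) (nat_lit 5517) (nat_lit 557) (nat_lit 5549)))))) (.a (.f (nat_lit 591) (nat_lit 623) (nat_lit 4590) (.f (nat_lit 593) (nat_lit 557) (nat_lit 3629) (.d (nat_lit 559) (nat_lit 462) (nat_lit 4558) (nat_lit 594) (nat_lit 3630)))) (.a (.f (nat_lit 461) (nat_lit 493) (nat_lit 7629) (.f (nat_lit 462) (nat_lit 429) (nat_lit 7597) (.d (nat_lit 463) (nat_lit 431) (nat_lit 6574) (nat_lit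 495) (nat_lit 6606)))) (.f (nat_lit 591) (nat_lit 623) (nat_lit 4590) (.f (nat_lit 593) (nat_lit 557) (nat_lit 3629) (.f (nat_lit 594) (nat_lit 559) (nat_lit 3630) (.d (nat_lit 626) (nat_lit 625) (nat_lit 590) (nat_lit 627) (nat_lit 591)))))))))
noncomputable def s1896 : Cert := .r (nat_lit 20261306493394176462141987312728159077430979534299843783091083809018741648436612084358255167519588626691602336650743786505212557593231839736698986280612611538028772450245904695296) (.p (nat_lit 591) (.a (.f (nat_lit 557) (nat_lit 593) (nat_lit 3629) (.d (nat_lit 556) (nat_lit 555) (nat_lit 555) (nat_lit 589) (nat_lit 3628))) (.a (.f (nat_lit 589) (nat_lit 561) (nat_lit 2605) (.f (nat_lit 557) (nat_lit 556) (nat_lit 3628) (.f (nat_lit 621) (nat_lit 620) (nat_lit 1612) (.d (nat_lit 526) (nat_lit 494) (nat_lit 5613) (nat_lit 653) (nat_lit 6669))))) (.a (.f (nat_lit 589) (nat_lit 561) (nat_lit 2605) (.f (nat_lit 621) (nat_lit 620)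 (nat_lit 1612) (.f (nat_lit 622) (nat_lit 593) (nat_lit 1613) (.d (nat_lit 526) (nat_lit 494) (nat_lit 5613) (nat_lit 653) (nat_lit 5645))))) (.f (nat_lit 593) (nat_lit 557) (nat_lit 3629) (.f (nat_lit 622) (nat_lit 621) (nat_lit 1613) (.f (nat_lit 623) (nat_lit 594) (nat_lit 1614) (.d (nat_lit 526) (nat_lit 494) (nat_lit 4590) (nat_lit 655) (nat_lit 4622)))))))))
noncomputable def s1934 : Cert := .r (nat_lit 17404329768881130783254602814453279293064266359110361593699229303641907658539147938513488958585288400317754175296927681921620498241416468414202990400922520629108074620762937451477571993600) (.p (nat_lit 654) (.a (.f (nat_lit 687) (nat_lit 655) (nat_lit 4654) (.f (nat_lit 686) (nat_lit 719) (nat_lit 4686) (.d (nat_lit 685) (nat_lit 653) (nat_lit 5677) (nat_lit 717) (nat_lit 5709)))) (.a (.f (nat_lit 685) (nat_lit 653) (nat_lit 5677) (.f (nat_lit 686) (nat_lit 717) (nat_lit 5709) (.f (nat_lit 591) (nat_lit 559)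 (nat_lit 6702) (.f (nat_lit 623) (nat_lit 718) (nat_lit 6734) (.f (nat_lit 589) (nat_lit 561) (nat_lit 2605) (.d (nat_lit 588) (nat_lit 587) (nat_lit 587) (nat_lit 624) (nat_lit 588))))))) (.f (nat_lit 655) (nat_lit 687) (nat_lit 4654) (.d (nat_lit 623) (nat_lit 526) (nat_lit 4622) (nat_lit 624) (nat_lit 5647))))))
noncomputable def s1944 : Cert := .r (nat_lit 17404329768881130783254602814453279293064266359110361593699229303641907658539147938513488958585288400317754175296927681921620498241416468414202990400922520629108074620762937451477571993600) (.p (nat_lit 654) (.a (.f (nat_lit 687) (nat_lit 655) (nat_lit 4654) (.f (nat_lit 686) (nat_lit 719) (nat_lit 4686) (.d (nat_lit 685) (nat_lit 653) (nat_lit 5677) (nat_lit 717) (nat_lit 5709)))) (.a (.f (nat_lit 685) (nat_lit 653) (nat_lit 5677) (.f (nat_lit 686) (nat_lit 717) (nat_lit 5709) (.f (nat_lit 591) (nat_lit 559) (nat_lit 6702) (.f (nat_lit 589) (nat_lit 561) (nat_lit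 2605) (.d (nat_lit 621) (nat_lit 620) (nat_lit 1612) (nat_lit 718) (nat_lit 7757)))))) (.a (.f (nat_lit 687) (nat_lit 655) (nat_lit 4654) (.f (nat_lit 686) (nat_lit 719) (nat_lit 4686) (.f (nat_lit 591) (nat_lit 559) (nat_lit 6702) (.f (nat_lit 621) (nat_lit 593) (nat_lit 1613) (.d (nat_lit 620) (nat_lit 589) (nat_lit 1612) (nat_lit 619) (nat_lit 2635)))))) (.f (nat_lit 655) (nat_lit 687) (nat_lit 4654) (.f (nat_lit 623) (nat_lit 624) (nat_lit 5647) (.f (nat_lit 591) (nat_lit 559) (nat_lit 6671) (.d (nat_lit 593) (nat_lit 594) (nat_lit 1614) (nat_lit 621) (nat_lit 1613)))))))))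
noncomputable def s1945 : Cert := .r (nat_lit 17404329768881130783254602814453279293064266359110361593699229303641907658539147938513488958585288400317754175296927681921620498241416468414202990400922520629108074620762937451477571993600) (.p (nat_lit 526) (.a (.f (nat_lit 621) (nat_lit 653) (nat_lit 5645) (.f (nat_lit 591) (nat_lit 593) (nat_lit 1613) (.d (nat_lit 589) (nat_lit 494) (nat_lit 5613) (nat_lit 620) (nat_lit 1612)))) (.a (.f (nat_lit 621) (nat_lit 653) (nat_lit 5645) (.f (nat_lit 494) (nat_lit 589) (nat_lit 5613) (.d (nat_lit 493) (nat_lit 461) (nat_lit 7629) (nat_lit 525) (nat_lit 7661)))) (.a (.f (nat_lit 621) (nat_lit 653) (nat_lit 5645) (.f (nat_lit 591) (nat_lit 593) (nat_lit 1613) (.d (nat_lit 620) (nat_lit 589) (nat_lit 1612) (nat_lit 619) (nat_lit 2635)))) (.a (.f (nat_lit 623) (nat_lit 655) (nat_lit 4622) (.f (nat_lit 591) (nat_lit 494) (nat_lit 4590) (.f (nat_lit 589) (nat_lit 561) (nat_lit 2605)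 (.d (nat_lit 588) (nat_lit 559) (nat_lit 2604) (nat_lit 587) (nat_lit 587))))) (.f (nat_lit 621) (nat_lit 653) (nat_lit 5645) (.f (nat_lit 591) (nat_lit 593) (nat_lit 1613) (.f (nat_lit 493) (nat_lit 525) (nat_lit 7661) (.f (nat_lit 494) (nat_lit 461) (nat_lit 7629) (.f (nat_lit 463) (nat_lit 495) (nat_lit 6606) (.d (nat_lit 462) (nat_lit 431) (nat_lit 6574) (nat_lit 559) (nat_lit 4558))))))))))))
noncomputable def s1975 : Cert := .r (nat_lit 17404329768881130783254602814453279293064266359110361593699229303641907658539147938513488958585288400317754175296927681921620498241416468414202990400922520629108074620762937451477571993600) (.p (nat_lit 526) (.a (.f (nat_lit 621) (nat_lit 653) (nat_lit 5645) (.f (nat_lit 494) (nat_lit 589) (nat_lit 5613) (.d (nat_lit 493) (nat_lit 461) (nat_lit 7629) (nat_lit 525) (nat_lit 7661)))) (.a (.f (nat_lit 621) (nat_lit 653) (nat_lit 5645) (.f (nat_lit 494) (nat_lit 589) (nat_lit 5613)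 (.f (nat_lit 463) (nat_lit 495) (nat_lit 6606) (.f (nat_lit 462) (nat_lit 431) (nat_lit 6574) (.d (nat_lit 461) (nat_lit 429) (nat_lit 7597) (nat_lit 493) (nat_lit 7629)))))) (.a (.f (nat_lit 525) (nat_lit 493) (nat_lit 7661) (.f (nat_lit 654) (nat_lit 557) (nat_lit 7693) (.d (nat_lit 653) (nat_lit 621) (nat_lit 5645) (nat_lit 685) (nat_lit 5677)))) (.a (.f (nat_lit 653) (nat_lit 621) (nat_lit 5645) (.f (nat_lit 654) (nat_lit 685) (nat_lit 5677) (.f (nat_lit 687) (nat_lit 655) (nat_lit 4654) (.f (nat_lit 686) (nat_lit 719) (nat_lit 4686) (.d (nat_lit 557) (nat_lit 525) (nat_lit 7693) (nat_lit 589) (nat_lit 7725)))))) (.a (.f (nat_lit 525) (nat_lit 493) (nat_lit 7661) (.f (nat_lit 654) (nat_lit 557) (nat_lit 7693) (.f (nat_lit 687) (nat_lit 655) (nat_lit 4654) (.f (nat_lit 686) (nat_lit 719) (nat_lit 4686) (.d (nat_lit 685) (nat_lit 653) (nat_lit 5677) (nat_lit 717) (nat_lit 5709)))))) (.f (nat_lit 493) (nat_lit 525)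 (nat_lit 7661) (.f (nat_lit 494) (nat_lit 461) (nat_lit 7629) (.f (nat_lit 463) (nat_lit 495) (nat_lit 6606) (.f (nat_lit 462) (nat_lit 431) (nat_lit 6574) (.d (nat_lit 589) (nat_lit 557) (nat_lit 5581) (nat_lit 621) (nat_lit 5613))))))))))))
noncomputable def s1990 : Cert := .r (nat_lit 17404329768881130783254602814453279293064266359110361593699229303641907658539147938513488958585288400317754175296927681921620498241416468414202990400922520629108074620762937451477571993600) (.p (nat_lit 526) (.a (.f (nat_lit 621) (nat_lit 653) (nat_lit 5645) (.f (nat_lit 494) (nat_lit 589) (nat_lit 5613) (.d (nat_lit 493) (nat_lit 461) (nat_lit 7629) (nat_lit 525) (nat_lit 7661)))) (.a (.f (nat_lit 621) (nat_lit 653) (nat_lit 5645) (.f (nat_lit 494) (nat_lit 589) (nat_lit 5613) (.f (nat_lit 463) (nat_lit 495) (nat_lit 6606) (.f (nat_lit 462) (nat_lit 431) (nat_lit 6574) (.d (nat_lit 461) (nat_lit 429) (nat_lit 7597) (nat_lit 493)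 (nat_lit 7629)))))) (.a (.f (nat_lit 525) (nat_lit 493) (nat_lit 7661) (.f (nat_lit 559) (nat_lit 561) (nat_lit 3597) (.d (nat_lit 524) (nat_lit 523) (nat_lit 523) (nat_lit 557) (nat_lit 3596)))) (.f (nat_lit 621) (nat_lit 653) (nat_lit 5645) (.f (nat_lit 589) (nat_lit 494) (nat_lit 5613) (.f (nat_lit 559) (nat_lit 561) (nat_lit 1581) (.d (nat_lit 557) (nat_lit 588) (nat_lit 1580) (nat_lit 593) (nat_lit 557)))))))))
noncomputable def s2081 : Cert := .r (nat_lit 20261306493394176462361660837852338588310400359870448366043705738623327421537234915052192549388313620359524245151910332264486039557759227193886889896603544140031141355561586524160) (.p (nat_lit 494) (.a (.f (nat_lit 493) (nat_lit 461) (nat_lit 7629) (.f (nat_lit 525) (nat_lit 622) (nat_lit 7661) (.f (nat_lit 463) (nat_lit 495) (nat_lit 6606) (.f (nat_lit 462) (nat_lit 431) (nat_lit 6574) (.d (nat_lit 430) (nat_lit 398) (nat_lit 5517) (nat_lit 557) (nat_lit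 5549)))))) (.a (.f (nat_lit 591) (nat_lit 623) (nat_lit 4590) (.f (nat_lit 593) (nat_lit 557) (nat_lit 3629) (.d (nat_lit 559) (nat_lit 462) (nat_lit 4558) (nat_lit 594) (nat_lit 3630)))) (.a (.f (nat_lit 461) (nat_lit 493) (nat_lit 7629) (.f (nat_lit 462) (nat_lit 429) (nat_lit 7597) (.d (nat_lit 463) (nat_lit 431) (nat_lit 6574) (nat_lit 495) (nat_lit 6606)))) (.f (nat_lit 591) (nat_lit 623) (nat_lit 4590) (.f (nat_lit 593) (nat_lit 557) (nat_lit 3629) (.f (nat_lit 622) (nat_lit 621) (nat_lit 1613) (.d (nat_lit 493) (nat_lit 461) (nat_lit 7629) (nat_lit 525) (nat_lit 7661)))))))))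
noncomputable def s2145 : Cert := .r (nat_lit 69617319014740603652835881871387155234072588204148507771897385865294379207100366808744119581266388098712250821112903717734250633450028200877116442393593123674594463868965432455172573888512) (.p (nat_lit 589) (.a (.f (nat_lit 591) (nat_lit 625) (nat_lit 589) (.f (nat_lit 588) (nat_lit 559) (nat_lit 2604) (.d (nat_lit 620) (nat_lit 619) (nat_lit 1611) (nat_lit 621) (nat_lit 1612)))) (.a (.f (nat_lit 591) (nat_lit 625) (nat_lit 589) (.d (nat_lit 623) (nat_lit 588) (nat_lit 588) (nat_lit 655) (nat_lit 5647))) (.a (.f (nat_lit 623) (nat_lit 655) (nat_lit 5647) (.f (nat_lit 588) (nat_lit 591) (nat_lit 588) (.d (nat_lit 587) (nat_lit 559) (nat_lit 2603) (nat_lit 622) (nat_lit 587)))) (.a (.f (nat_lit 623) (nat_lit 655) (nat_lit 5647) (.f (nat_lit 622) (nat_lit 625) (nat_lit 3661) (.d (nat_lit 588) (nat_lit 587) (nat_lit 587) (nat_lit 621) (nat_lit 3660)))) (.f (nat_lit 591)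 (nat_lit 625) (nat_lit 589) (.f (nat_lit 623) (nat_lit 655) (nat_lit 5647) (.f (nat_lit 621) (nat_lit 620) (nat_lit 1612) (.f (nat_lit 526) (nat_lit 494) (nat_lit 4590) (.d (nat_lit 653) (nat_lit 622) (nat_lit 5645) (nat_lit 685) (nat_lit 6701)))))))))))
noncomputable def s2155 : Cert := .r (nat_lit 69617319014740603652835881871387155234072588204148507771897385865294379207100366808744119581266388098712250821112903717734250633450028200877116442393593123674594463868965432455172573888512) (.p (nat_lit 656) (.a (.f (nat_lit 687) (nat_lit 655) (nat_lit 5679) (.f (nat_lit 688) (nat_lit 719) (nat_lit 5711) (.d (nat_lit 689) (nat_lit 657) (nat_lit 4656) (nat_lit 721) (nat_lit 4688)))) (.a (.d (nat_lit 655) (nat_lit 623) (nat_lit 5647) (nat_lit 687) (nat_lit 5679)) (.a (.f (nat_lit 689) (nat_lit 657) (nat_lit 4656) (.f (nat_lit 688) (nat_lit 721) (nat_lit 4688) (.f (nat_lit 591) (nat_lit 559) (nat_lit 7727) (.f (nat_lit 719)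 (nat_lit 687) (nat_lit 5711) (.d (nat_lit 720) (nat_lit 623) (nat_lit 7759) (nat_lit 751) (nat_lit 5743)))))) (.f (nat_lit 623) (nat_lit 655) (nat_lit 5647) (.f (nat_lit 689) (nat_lit 657) (nat_lit 4656) (.f (nat_lit 688) (nat_lit 721) (nat_lit 4688) (.d (nat_lit 591) (nat_lit 559) (nat_lit 7727) (nat_lit 720) (nat_lit 7759)))))))))
noncomputable def s2401 : Cert := .r (nat_lit 69617319010688342355100537185339881929686688642612915748223131080142370096074338672598701469547924183724844772003335469090402206514095436155034630569484847469405046205819747100288287244288) (.p (nat_lit 594) (.a (.f (nat_lit 623) (nat_lit 655) (nat_lit 5647) (.f (nat_lit 593) (nat_lit 595) (nat_lit 1615) (.d (nat_lit 622) (nat_lit 591) (nat_lit 1614) (nat_lit 621) (nat_lit 2637)))) (.a (.p (nat_lit 593) (.a (.f (nat_lit 625) (nat_lit 657) (nat_lit 4624) (.f (nat_lit 595) (nat_lit 596) (nat_lit 1616) (.f (nat_lit 627) (nat_lit 628) (nat_lit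 592) (.f (nat_lit 626) (nat_lit 591) (nat_lit 591) (.f (nat_lit 659) (nat_lit 660) (nat_lit 624) (.d (nat_lit 562) (nat_lit 530) (nat_lit 4626) (nat_lit 691) (nat_lit 7730))))))) (.a (.d (nat_lit 559) (nat_lit 561) (nat_lit 558) (nat_lit 591) (nat_lit 3630)) (.d (nat_lit 559) (nat_lit 561) (nat_lit 558) (nat_lit 595) (nat_lit 3631))))) (.a (.f (nat_lit 625) (nat_lit 657) (nat_lit 4624) (.f (nat_lit 623) (nat_lit 655) (nat_lit 5647) (.f (nat_lit 626) (nat_lit 595) (nat_lit 2639) (.d (nat_lit 591) (nat_lit 590) (nat_lit 3662) (nat_lit 627) (nat_lit 3663))))) (.a (.f (nat_lit 623) (nat_lit 655) (nat_lit 5647) (.f (nat_lit 625) (nat_lit 657) (nat_lit 4624) (.f (nat_lit 593) (nat_lit 622) (nat_lit 2638) (.d (nat_lit 559) (nat_lit 561) (nat_lit 558) (nat_lit 591) (nat_lit 3630))))) (.f (nat_lit 623) (nat_lit 655) (nat_lit 5647) (.f (nat_lit 593) (nat_lit 595) (nat_lit 1615) (.d (nat_lit 622) (nat_lit 621) (nat_lit 2637)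 (nat_lit 625) (nat_lit 2638)))))))))
noncomputable def s2412 : Cert := .r (nat_lit 69617319010688342355100537185339881929686688642612915748223131080142370096074338672598701469547924183724844772003335469090402206514095436155034630569484847469405046205819747100288287244288) (.p (nat_lit 593) (.a (.f (nat_lit 559) (nat_lit 557) (nat_lit 557) (.d (nat_lit 594) (nat_lit 561) (nat_lit 558) (nat_lit 595) (nat_lit 3631))) (.a (.f (nat_lit 623) (nat_lit 655) (nat_lit 5647) (.f (nat_lit 594) (nat_lit 595) (nat_lit 1615) (.d (nat_lit 622) (nat_lit 621) (nat_lit 2637) (nat_lit 625) (nat_lit 2638)))) (.a (.f (nat_lit 559) (nat_lit 557) (nat_lit 557) (.f (nat_lit 561) (nat_lit 594) (nat_lit 558) (.f (nat_lit 656) (nat_lit 688) (nat_lit 6704) (.d (nat_lit 655) (nat_lit 623) (nat_lit 5647) (nat_lit 687) (nat_lit 5679))))) (.f (nat_lit 655) (nat_lit 623) (nat_lit 5647) (.f (nat_lit 656) (nat_lit 687) (nat_lit 5679) (.f (nat_lit 688)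 (nat_lit 561) (nat_lit 6704) (.f (nat_lit 720) (nat_lit 625) (nat_lit 6736) (.d (nat_lit 721) (nat_lit 689) (nat_lit 4688) (nat_lit 753) (nat_lit 4720))))))))))
noncomputable def s2433 : Cert := .r (nat_lit 87021648763360427942696308223698447214408695485827889831296771385845203056620773098820996455493421331510416369718229063005127345186232111698087593057816658023089926951699597456404241186816) (.p (nat_lit 526) (.a (.f (nat_lit 621) (nat_lit 653) (nat_lit 5645) (.f (nat_lit 494) (nat_lit 589) (nat_lit 5613) (.d (nat_lit 493) (nat_lit 461) (nat_lit 7629) (nat_lit 525) (nat_lit 7661)))) (.a (.f (nat_lit 621) (nat_lit 653) (nat_lit 5645) (.f (nat_lit 494) (nat_lit 589) (nat_lit 5613) (.f (nat_lit 463) (nat_lit 495) (nat_lit 6606) (.f (nat_lit 462) (nat_lit 431) (nat_lit 6574) (.d (nat_lit 461) (nat_lit 429) (nat_lit 7597) (nat_lit 493) (nat_lit 7629)))))) (.a (.f (nat_lit 525) (nat_lit 493) (nat_lit 7661) (.f (nat_lit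 557) (nat_lit 654) (nat_lit 7693) (.d (nat_lit 559) (nat_lit 524) (nat_lit 3596) (nat_lit 593) (nat_lit 557)))) (.f (nat_lit 653) (nat_lit 621) (nat_lit 5645) (.f (nat_lit 654) (nat_lit 685) (nat_lit 5677) (.f (nat_lit 557) (nat_lit 525) (nat_lit 7693) (.f (nat_lit 589) (nat_lit 686) (nat_lit 7725) (.d (nat_lit 559) (nat_lit 588) (nat_lit 1580) (nat_lit 593) (nat_lit 557))))))))))
noncomputable def s2479 : Cert := .r (nat_lit 69617319014740603652835881871606828759196767715027928597467990448247001136704952581844742411960325480580975814780825626235417179209301682841643829850781027290585396470967801360488255717376) (.p (nat_lit 494) (.a (.f (nat_lit 621) (nat_lit 589) (nat_lit 5613) (.f (nat_lit 622) (nat_lit 653) (nat_lit 5645) (.d (nat_lit 493) (nat_lit 461) (nat_lit 7629) (nat_lit 525) (nat_lit 7661)))) (.a (.f (nat_lit 589) (nat_lit 621) (nat_lit 5613) (.f (nat_lit 462) (nat_lit 557) (nat_lit 5581) (.d (nat_lit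 463) (nat_lit 431) (nat_lit 6574) (nat_lit 495) (nat_lit 6606)))) (.f (nat_lit 493) (nat_lit 461) (nat_lit 7629) (.f (nat_lit 525) (nat_lit 622) (nat_lit 7661) (.f (nat_lit 463) (nat_lit 495) (nat_lit 6606) (.f (nat_lit 462) (nat_lit 431) (nat_lit 6574) (.d (nat_lit 430) (nat_lit 398) (nat_lit 5517) (nat_lit 557) (nat_lit 5549)))))))))
noncomputable def s2494 : Cert := .r (nat_lit 69617319014740603652835881871606828759196767715027928597467990448247001136704952581844742411960325480580975814780825626235417179209301682841643829850781027290585396470967801360488255717376) (.p (nat_lit 494) (.a (.f (nat_lit 589) (nat_lit 621) (nat_lit 5613) (.f (nat_lit 462) (nat_lit 557) (nat_lit 5581) (.d (nat_lit 463) (nat_lit 431) (nat_lit 6574) (nat_lit 495) (nat_lit 6606)))) (.a (.f (nat_lit 589) (nat_lit 621) (nat_lit 5613) (.f (nat_lit 559) (nat_lit 561) (nat_lit 1581) (.d (nat_lit 557) (nat_lit 462) (nat_lit 5581) (nat_lit 588)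 (nat_lit 1580)))) (.a (.f (nat_lit 463) (nat_lit 495) (nat_lit 6606) (.f (nat_lit 462) (nat_lit 431) (nat_lit 6574) (.d (nat_lit 461) (nat_lit 429) (nat_lit 7597) (nat_lit 493) (nat_lit 7629)))) (.f (nat_lit 589) (nat_lit 621) (nat_lit 5613) (.f (nat_lit 559) (nat_lit 561) (nat_lit 1581) (.d (nat_lit 557) (nat_lit 588) (nat_lit 1580) (nat_lit 593) (nat_lit 557))))))))
noncomputable def s2548 : Cert := .r (nat_lit 69617319014740603652835881871606828759196767715027928597467990448247001136704952581844742411960325480580975814780825626235417179209301682841643829850781027290585396470967801360488255717376) (.p (nat_lit 525) (.a (.f (nat_lit 622) (nat_lit 493) (nat_lit 7661) (.f (nat_lit 557) (nat_lit 654) (nat_lit 7693) (.d (nat_lit 559) (nat_lit 524) (nat_lit 3596) (nat_lit 593) (nat_lit 557)))) (.a (.f (nat_lit 622) (nat_lit 493) (nat_lit 7661) (.f (nat_lit 654) (nat_lit 557) (nat_lit 7693) (.d (nat_lit 653) (nat_lit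 621) (nat_lit 5645) (nat_lit 685) (nat_lit 5677)))) (.a (.f (nat_lit 559) (nat_lit 561) (nat_lit 3597) (.f (nat_lit 622) (nat_lit 493) (nat_lit 7661) (.f (nat_lit 621) (nat_lit 653) (nat_lit 5645) (.f (nat_lit 623) (nat_lit 593) (nat_lit 2637) (.f (nat_lit 588) (nat_lit 589) (nat_lit 3660) (.f (nat_lit 620) (nat_lit 587) (nat_lit 3659) (.f (nat_lit 651) (nat_lit 652) (nat_lit 1643) (.f (nat_lit 619) (nat_lit 650) (nat_lit 1642) (.d (nat_lit 524) (nat_lit 523) (nat_lit 523) (nat_lit 556) (nat_lit 5643)))))))))) (.f (nat_lit 559) (nat_lit 561) (nat_lit 3597) (.d (nat_lit 524) (nat_lit 523) (nat_lit 523) (nat_lit 557) (nat_lit 3596)))))))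
noncomputable def s2559 : Cert := .r (nat_lit 69617319014740603652835881871606828759196767715027928597467990448247001136704952581844742411960325480580975814780825626235417179209301682841643829850781027290585396470967801360488255717376) (.p (nat_lit 494) (.a (.f (nat_lit 493) (nat_lit 461) (nat_lit 7629) (.f (nat_lit 525) (nat_lit 622) (nat_lit 7661) (.f (nat_lit 463) (nat_lit 495) (nat_lit 6606) (.f (nat_lit 462) (nat_lit 431) (nat_lit 6574) (.d (nat_lit 430) (nat_lit 398) (nat_lit 5517) (nat_lit 557) (nat_lit 5549)))))) (.a (.f (nat_lit 493) (nat_lit 461) (nat_lit 7629) (.f (nat_lit 525) (nat_lit 622) (nat_lit 7661) (.f (nat_lit 559) (nat_lit 561) (nat_lit 3597) (.d (nat_lit 524) (nat_lit 523) (nat_lit 523) (nat_lit 557) (nat_lit 3596))))) (.a (.f (nat_lit 463) (nat_lit 495) (nat_lit 6606) (.f (nat_lit 462) (nat_lit 431) (nat_lit 6574) (.d (nat_lit 461) (nat_lit 429) (nat_lit 7597) (nat_lit 493) (nat_lit 7629))))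 (.f (nat_lit 463) (nat_lit 495) (nat_lit 6606) (.f (nat_lit 462) (nat_lit 431) (nat_lit 6574) (.f (nat_lit 557) (nat_lit 589) (nat_lit 5581) (.f (nat_lit 525) (nat_lit 430) (nat_lit 5549) (.d (nat_lit 559) (nat_lit 524) (nat_lit 3596) (nat_lit 593) (nat_lit 557))))))))))
noncomputable def s2563 : Cert := .r (nat_lit 69617319014740603652835881871387155234072588204148507771897385865294379207100366808744119581266388098712250821112903717734250633450028200877116442393593123674594463868965432455172573888512) (.p (nat_lit 526) (.a s2479 (.a (.p (nat_lit 494) (.a (.f (nat_lit 621) (nat_lit 589) (nat_lit 5613) (.f (nat_lit 622) (nat_lit 653) (nat_lit 5645) (.d (nat_lit 493) (nat_lit 461) (nat_lit 7629) (nat_lit 525) (nat_lit 7661)))) (.a (.f (nat_lit 589) (nat_lit 621) (nat_lit 5613) (.f (nat_lit 559) (nat_lit 561) (nat_lit 1581) (.d (nat_lit 557) (nat_lit 462) (nat_lit 5581) (nat_lit 588) (nat_lit 1580)))) (.f (nat_lit 493)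 (nat_lit 461) (nat_lit 7629) (.f (nat_lit 525) (nat_lit 622) (nat_lit 7661) (.f (nat_lit 559) (nat_lit 561) (nat_lit 3597) (.d (nat_lit 524) (nat_lit 523) (nat_lit 523) (nat_lit 557) (nat_lit 3596)))))))) (.a s2494 (.a (.p (nat_lit 656) (.a (.f (nat_lit 689) (nat_lit 657) (nat_lit 4656) (.f (nat_lit 688) (nat_lit 721) (nat_lit 4688) (.f (nat_lit 561) (nat_lit 593) (nat_lit 6704) (.d (nat_lit 559) (nat_lit 525) (nat_lit 3597) (nat_lit 589) (nat_lit 1581))))) (.a (.p (nat_lit 494) (.a (.f (nat_lit 461) (nat_lit 493) (nat_lit 7629) (.f (nat_lit 462) (nat_lit 429) (nat_lit 7597) (.d (nat_lit 463) (nat_lit 431) (nat_lit 6574) (nat_lit 495) (nat_lit 6606)))) (.a (.f (nat_lit 621) (nat_lit 589) (nat_lit 5613) (.f (nat_lit 622) (nat_lit 653) (nat_lit 5645) (.d (nat_lit 493) (nat_lit 461) (nat_lit 7629) (nat_lit 525) (nat_lit 7661)))) (.f (nat_lit 621) (nat_lit 589) (nat_lit 5613) (.f (nat_lit 622) (nat_lit 653) (nat_lit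 5645) (.d (nat_lit 623) (nat_lit 593) (nat_lit 2637) (nat_lit 657) (nat_lit 621))))))) (.a (.p (nat_lit 494) (.a (.f (nat_lit 461) (nat_lit 493) (nat_lit 7629) (.f (nat_lit 462) (nat_lit 429) (nat_lit 7597) (.d (nat_lit 463) (nat_lit 431) (nat_lit 6574) (nat_lit 495) (nat_lit 6606)))) (.a (.f (nat_lit 621) (nat_lit 589) (nat_lit 5613) (.f (nat_lit 622) (nat_lit 653) (nat_lit 5645) (.d (nat_lit 493) (nat_lit 461) (nat_lit 7629) (nat_lit 525) (nat_lit 7661)))) (.f (nat_lit 589) (nat_lit 621) (nat_lit 5613) (.f (nat_lit 561) (nat_lit 559) (nat_lit 1581) (.f (nat_lit 688) (nat_lit 593) (nat_lit 6704) (.f (nat_lit 721) (nat_lit 689) (nat_lit 4688) (.f (nat_lit 720) (nat_lit 753) (nat_lit 4720) (.d (nat_lit 719) (nat_lit 687) (nat_lit 5711) (nat_lit 751) (nat_lit 5743)))))))))) (.a (.p (nat_lit 494) (.a (.f (nat_lit 461) (nat_lit 493) (nat_lit 7629) (.f (nat_lit 462) (nat_lit 429) (nat_lit 7597) (.d (nat_lit 463) (nat_lit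 431) (nat_lit 6574) (nat_lit 495) (nat_lit 6606)))) (.a (.f (nat_lit 621) (nat_lit 589) (nat_lit 5613) (.f (nat_lit 622) (nat_lit 653) (nat_lit 5645) (.d (nat_lit 493) (nat_lit 461) (nat_lit 7629) (nat_lit 525) (nat_lit 7661)))) (.f (nat_lit 621) (nat_lit 589) (nat_lit 5613) (.f (nat_lit 622) (nat_lit 653) (nat_lit 5645) (.d (nat_lit 657) (nat_lit 623) (nat_lit 621) (nat_lit 689) (nat_lit 4656))))))) (.a (.f (nat_lit 689) (nat_lit 657) (nat_lit 4656) (.f (nat_lit 688) (nat_lit 721) (nat_lit 4688) (.f (nat_lit 561) (nat_lit 593) (nat_lit 6704) (.f (nat_lit 589) (nat_lit 559) (nat_lit 1581) (.f (nat_lit 494) (nat_lit 621) (nat_lit 5613) (.f (nat_lit 463) (nat_lit 495) (nat_lit 6606) (.f (nat_lit 462) (nat_lit 431) (nat_lit 6574) (.d (nat_lit 461) (nat_lit 429) (nat_lit 7597) (nat_lit 493) (nat_lit 7629))))))))) (.f (nat_lit 689) (nat_lit 657) (nat_lit 4656) (.f (nat_lit 688) (nat_lit 721) (nat_lit 4688) (.f (nat_lit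 561) (nat_lit 593) (nat_lit 6704) (.f (nat_lit 525) (nat_lit 559) (nat_lit 3597) (.f (nat_lit 493) (nat_lit 622) (nat_lit 7661) (.d (nat_lit 461) (nat_lit 429) (nat_lit 4525) (nat_lit 494) (nat_lit 7629))))))))))))) (.a s2548 (.a (.p (nat_lit 589) (.a (.f (nat_lit 621) (nat_lit 494) (nat_lit 5613) (.d (nat_lit 653) (nat_lit 622) (nat_lit 5645) (nat_lit 685) (nat_lit 6701))) (.f (nat_lit 559) (nat_lit 561) (nat_lit 1581) (.d (nat_lit 557) (nat_lit 588) (nat_lit 1580) (nat_lit 593) (nat_lit 557))))) (.a s2559 (.p (nat_lit 525) (.a (.f (nat_lit 493) (nat_lit 622) (nat_lit 7661) (.d (nat_lit 461) (nat_lit 429) (nat_lit 4525) (nat_lit 494) (nat_lit 7629))) (.a (.f (nat_lit 622) (nat_lit 493) (nat_lit 7661) (.f (nat_lit 557) (nat_lit 654) (nat_lit 7693) (.d (nat_lit 559) (nat_lit 524) (nat_lit 3596) (nat_lit 593) (nat_lit 557)))) (.f (nat_lit 559) (nat_lit 561) (nat_lit 3597) (.d (nat_lit 524) (nat_lit 523) (nat_lit 523)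 (nat_lit 557) (nat_lit 3596))))))))))))))
noncomputable def s2904 : Cert := .r (nat_lit 16209045194715341169889328670281870870648320287896358692834964590898661937229787932041754039510650896287619396121528265811588831646207381755109511917282835312024913084449269219328) (.p (nat_lit 558) (.a (.p (nat_lit 624) (.a (.f (nat_lit 655) (nat_lit 623) (nat_lit 5647) (.f (nat_lit 656) (nat_lit 687) (nat_lit 5679) (.f (nat_lit 689) (nat_lit 657) (nat_lit 4656) (.f (nat_lit 688) (nat_lit 721) (nat_lit 4688) (.f (nat_lit 559) (nat_lit 591) (nat_lit 7727) (.d (nat_lit 593) (nat_lit 557) (nat_lit 557) (nat_lit 561) (nat_lit 6704))))))) (.a (.f (nat_lit 657) (nat_lit 625) (nat_lit 4624) (.f (nat_lit 656) (nat_lit 689) (nat_lit 4656) (.f (nat_lit 687) (nat_lit 655) (nat_lit 5679) (.f (nat_lit 688) (nat_lit 719) (nat_lit 5711) (.f (nat_lit 559) (nat_lit 591) (nat_lit 7727) (.d (nat_lit 593) (nat_lit 557) (nat_lit 557) (nat_lit 561) (nat_lit 6704))))))) (.a (.f (nat_lit 655) (nat_lit 623) (nat_lit 5647) (.f (nat_lit 656) (nat_lit 687) (nat_lit 5679) (.d (nat_lit 657) (nat_lit 625) (nat_lit 4624) (nat_lit 689) (nat_lit 4656)))) (.a (.p (nat_lit 559) (.a (.f (nat_lit 593) (nat_lit 557) (nat_lit 557) (.d (nat_lit 594) (nat_lit 561) (nat_lit 558) (nat_lit 591) (nat_lit 3630))) (.a (.f (nat_lit 557) (nat_lit 593) (nat_lit 557) (.f (nat_lit 591) (nat_lit 556) (nat_lit 556) (.f (nat_lit 589) (nat_lit 588) (nat_lit 1580) (.f (nat_lit 590) (nat_lit 625) (nat_lit 589) (.f (nat_lit 621) (nat_lit 620) (nat_lit 1612) (.d (nat_lit 653) (nat_lit 526) (nat_lit 6669) (nat_lit 685) (nat_lit 6701))))))) (.a (.f (nat_lit 655) (nat_lit 623) (nat_lit 5647) (.f (nat_lit 656) (nat_lit 687) (nat_lit 5679) (.f (nat_lit 591) (nat_lit 688) (nat_lit 7727) (.f (nat_lit 557) (nat_lit 556) (nat_lit 556) (.f (nat_lit 589) (nat_lit 588) (nat_lit 1580) (.d (nat_lit 590) (nat_lit 561) (nat_lit 1581) (nat_lit 625) (nat_lit 589))))))) (.a (.f (nat_lit 655) (nat_lit 623) (nat_lit 5647) (.f (nat_lit 656) (nat_lit 687) (nat_lit 5679) (.f (nat_lit 688) (nat_lit 591) (nat_lit 7727) (.f (nat_lit 593) (nat_lit 561) (nat_lit 6704) (.f (nat_lit 720) (nat_lit 625) (nat_lit 6736) (.d (nat_lit 721) (nat_lit 689) (nat_lit 4688) (nat_lit 753) (nat_lit 4720))))))) (.f (nat_lit 593) (nat_lit 557) (nat_lit 557) (.d (nat_lit 594) (nat_lit 561) (nat_lit 558) (nat_lit 595) (nat_lit 3631)))))))) (.a (.p (nat_lit 593) (.a (.f (nat_lit 559) (nat_lit 557) (nat_lit 557) (.d (nat_lit 594) (nat_lit 561) (nat_lit 558) (nat_lit 591) (nat_lit 3630))) (.a (.f (nat_lit 559) (nat_lit 557) (nat_lit 557) (.d (nat_lit 594) (nat_lit 591) (nat_lit 3630) (nat_lit 595) (nat_lit 3631))) (.a (.f (nat_lit 657) (nat_lit 625) (nat_lit 4624) (.f (nat_lit 656) (nat_lit 689) (nat_lit 4656) (.f (nat_lit 688) (nat_lit 561) (nat_lit 6704) (.f (nat_lit 719) (nat_lit 687) (nat_lit 5711) (.f (nat_lit 720) (nat_lit 751) (nat_lit 5743) (.f (nat_lit 591) (nat_lit 623) (nat_lit 7759) (.f (nat_lit 590) (nat_lit 557) (nat_lit 3629) (.f (nat_lit 621) (nat_lit 622) (nat_lit 1613) (.f (nat_lit 589) (nat_lit 620) (nat_lit 1612) (.f (nat_lit 721) (nat_lit 753) (nat_lit 4720) (.f (nat_lit 685) (nat_lit 653) (nat_lit 6701) (.f (nat_lit 718) (nat_lit 686) (nat_lit 3757) (.f (nat_lit 717) (nat_lit 684) (nat_lit 3756) (.d (nat_lit 749) (nat_lit 748) (nat_lit 1740) (nat_lit 750) (nat_lit 1741))))))))))))))) (.a (.f (nat_lit 657) (nat_lit 625) (nat_lit 4624) (.f (nat_lit 656) (nat_lit 689) (nat_lit 4656) (.f (nat_lit 688) (nat_lit 561) (nat_lit 6704) (.f (nat_lit 591) (nat_lit 559) (nat_lit 7727) (.f (nat_lit 623) (nat_lit 720) (nat_lit 7759) (.d (nat_lit 622) (nat_lit 594) (nat_lit 1614) (nat_lit 621) (nat_lit 621))))))) (.f (nat_lit 559) (nat_lit 557) (nat_lit 557) (.d (nat_lit 594) (nat_lit 561) (nat_lit 558) (nat_lit 595) (nat_lit 3631)))))))) (.p (nat_lit 593) (.a (.f (nat_lit 559) (nat_lit 557) (nat_lit 557) (.d (nat_lit 594) (nat_lit 561) (nat_lit 558) (nat_lit 591) (nat_lit 3630))) (.a (.f (nat_lit 559) (nat_lit 557) (nat_lit 557) (.d (nat_lit 594) (nat_lit 591) (nat_lit 3630) (nat_lit 595) (nat_lit 3631))) (.a (.f (nat_lit 625) (nat_lit 657) (nat_lit 4624) (.f (nat_lit 623) (nat_lit 655) (nat_lit 5647) (.d (nat_lit 594) (nat_lit 595) (nat_lit 1615) (nat_lit 622) (nat_lit 2638)))) (.f (nat_lit 625) (nat_lit 657) (nat_lit 4624) (.f (nat_lit 623) (nat_lit 655) (nat_lit 5647) (.f (nat_lit 622) (nat_lit 621) (nat_lit 2637) (.f (nat_lit 590) (nat_lit 589) (nat_lit 3661) (.d (nat_lit 557) (nat_lit 559) (nat_lit 557) (nat_lit 591) (nat_lit 3629)))))))))))))))) (.a (.p (nat_lit 590) (.a s1220 (.a (.p (nat_lit 622) (.a (.p (nat_lit 526) (.a (.f (nat_lit 621) (nat_lit 653) (nat_lit 5645) (.f (nat_lit 591) (nat_lit 593) (nat_lit 1613) (.d (nat_lit 589) (nat_lit 494) (nat_lit 5613) (nat_lit 620) (nat_lit 1612)))) (.a (.f (nat_lit 621) (nat_lit 653) (nat_lit 5645) (.f (nat_lit 589) (nat_lit 494) (nat_lit 5613) (.f (nat_lit 591) (nat_lit 620) (nat_lit 1612) (.f (nat_lit 557) (nat_lit 556) (nat_lit 3628) (.d (nat_lit 654) (nat_lit 525) (nat_lit 7693) (nat_lit 686) (nat_lit 7725)))))) (.a (.f (nat_lit 621) (nat_lit 653) (nat_lit 5645) (.f (nat_lit 591) (nat_lit 593) (nat_lit 1613) (.d (nat_lit 620) (nat_lit 589) (nat_lit 1612) (nat_lit 619) (nat_lit 2635)))) (.f (nat_lit 525) (nat_lit 493) (nat_lit 7661) (.f (nat_lit 557) (nat_lit 654) (nat_lit 7693) (.d (nat_lit 559) (nat_lit 524) (nat_lit 3596) (nat_lit 593) (nat_lit 557)))))))) (.a (.p (nat_lit 526) (.a (.f (nat_lit 621) (nat_lit 653) (nat_lit 5645) (.f (nat_lit 591) (nat_lit 593) (nat_lit 1613) (.d (nat_lit 589) (nat_lit 494) (nat_lit 5613) (nat_lit 620) (nat_lit 1612)))) (.a (.f (nat_lit 621) (nat_lit 653) (nat_lit 5645) (.f (nat_lit 589) (nat_lit 494) (nat_lit 5613) (.f (nat_lit 591) (nat_lit 620) (nat_lit 1612) (.f (nat_lit 557) (nat_lit 556) (nat_lit 3628) (.d (nat_lit 654) (nat_lit 525) (nat_lit 7693) (nat_lit 686) (nat_lit 7725)))))) (.a (.f (nat_lit 621) (nat_lit 653) (nat_lit 5645) (.f (nat_lit 591) (nat_lit 593) (nat_lit 1613) (.d (nat_lit 620) (nat_lit 589) (nat_lit 1612) (nat_lit 619) (nat_lit 2635)))) (.a (.f (nat_lit 621) (nat_lit 653) (nat_lit 5645) (.f (nat_lit 494) (nat_lit 589) (nat_lit 5613) (.d (nat_lit 493) (nat_lit 461) (nat_lit 7629) (nat_lit 525) (nat_lit 7661)))) (.a (.f (nat_lit 525) (nat_lit 493) (nat_lit 7661) (.f (nat_lit 557) (nat_lit 654) (nat_lit 7693) (.f (nat_lit 591) (nat_lit 593) (nat_lit 3629) (.d (nat_lit 556) (nat_lit 555) (nat_lit 555) (nat_lit 589) (nat_lit 3628))))) (.f (nat_lit 525) (nat_lit 493) (nat_lit 7661) (.f (nat_lit 654) (nat_lit 557) (nat_lit 7693) (.d (nat_lit 653) (nat_lit 621) (nat_lit 5645) (nat_lit 685) (nat_lit 5677)))))))))) (.a (.p (nat_lit 526) (.a (.f (nat_lit 621) (nat_lit 653) (nat_lit 5645) (.f (nat_lit 589) (nat_lit 494) (nat_lit 5613) (.f (nat_lit 591) (nat_lit 620) (nat_lit 1612) (.f (nat_lit 557) (nat_lit 556) (nat_lit 3628) (.d (nat_lit 654) (nat_lit 525) (nat_lit 7693) (nat_lit 686) (nat_lit 7725)))))) (.a (.f (nat_lit 621) (nat_lit 653) (nat_lit 5645) (.f (nat_lit 589) (nat_lit 494) (nat_lit 5613) (.f (nat_lit 591) (nat_lit 620) (nat_lit 1612) (.f (nat_lit 588) (nat_lit 559) (nat_lit 2604) (.d (nat_lit 556) (nat_lit 555) (nat_lit 3627) (nat_lit 557) (nat_lit 3628)))))) (.a (.f (nat_lit 621) (nat_lit 653) (nat_lit 5645) (.f (nat_lit 494) (nat_lit 589) (nat_lit 5613) (.d (nat_lit 493) (nat_lit 461) (nat_lit 7629) (nat_lit 525) (nat_lit 7661)))) (.a (.f (nat_lit 525) (nat_lit 493) (nat_lit 7661) (.f (nat_lit 654) (nat_lit 557) (nat_lit 7693) (.d (nat_lit 653) (nat_lit 621) (nat_lit 5645) (nat_lit 685) (nat_lit 5677)))) (.f (nat_lit 525) (nat_lit 493) (nat_lit 7661) (.f (nat_lit 557) (nat_lit 654) (nat_lit 7693) (.f (nat_lit 559) (nat_lit 524) (nat_lit 3596) (.f (nat_lit 556) (nat_lit 591) (nat_lit 556) (.d (nat_lit 588) (nat_lit 587) (nat_lit 1579) (nat_lit 589) (nat_lit 1580))))))))))) (.a (.p (nat_lit 654) (.a (.f (nat_lit 653) (nat_lit 685) (nat_lit 5677) (.f (nat_lit 621) (nat_lit 526) (nat_lit 5645) (.f (nat_lit 591) (nat_lit 593) (nat_lit 1613) (.d (nat_lit 620) (nat_lit 589) (nat_lit 1612) (nat_lit 619) (nat_lit 2635))))) (.a (.f (nat_lit 653) (nat_lit 685) (nat_lit 5677) (.f (nat_lit 621) (nat_lit 526) (nat_lit 5645) (.f (nat_lit 655) (nat_lit 687) (nat_lit 4654) (.d (nat_lit 656) (nat_lit 620) (nat_lit 3692) (nat_lit 657) (nat_lit 3693))))) (.a (.f (nat_lit 687) (nat_lit 655) (nat_lit 4654) (.f (nat_lit 686) (nat_lit 719) (nat_lit 4686) (.d (nat_lit 685) (nat_lit 653) (nat_lit 5677) (nat_lit 717) (nat_lit 5709)))) (.f (nat_lit 687) (nat_lit 655) (nat_lit 4654) (.f (nat_lit 686) (nat_lit 719) (nat_lit 4686) (.f (nat_lit 591) (nat_lit 559) (nat_lit 6702) (.d (nat_lit 557) (nat_lit 589) (nat_lit 7725) (nat_lit 593) (nat_lit 3629))))))))) (.a s1279 (.a s1290 (.a (.p (nat_lit 557) (.a (.d (nat_lit 593) (nat_lit 559) (nat_lit 557) (nat_lit 591) (nat_lit 3629)) (.a (.f (nat_lit 591) (nat_lit 593) (nat_lit 3629) (.d (nat_lit 556) (nat_lit 555) (nat_lit 555) (nat_lit 589) (nat_lit 3628))) (.f (nat_lit 525) (nat_lit 654) (nat_lit 7693) (.d (nat_lit 493) (nat_lit 461) (nat_lit 4557) (nat_lit 526) (nat_lit 7661)))))) (.a (.p (nat_lit 526) (.a (.f (nat_lit 525) (nat_lit 493) (nat_lit 7661) (.f (nat_lit 557) (nat_lit 654) (nat_lit 7693) (.d (nat_lit 559) (nat_lit 524) (nat_lit 3596) (nat_lit 593) (nat_lit 557)))) (.a (.f (nat_lit 525) (nat_lit 493) (nat_lit 7661) (.f (nat_lit 654) (nat_lit 557) (nat_lit 7693) (.d (nat_lit 653) (nat_lit 621) (nat_lit 5645) (nat_lit 685) (nat_lit 5677)))) (.a (.f (nat_lit 653) (nat_lit 621) (nat_lit 5645) (.f (nat_lit 654) (nat_lit 685) (nat_lit 5677) (.f (nat_lit 687) (nat_lit 655) (nat_lit 4654) (.f (nat_lit 686) (nat_lit 719) (nat_lit 4686) (.f (nat_lit 591) (nat_lit 559) (nat_lit 6702) (.f (nat_lit 593) (nat_lit 557) (nat_lit 3629) (.f (nat_lit 625) (nat_lit 626) (nat_lit 590) (.d (nat_lit 689) (nat_lit 657) (nat_lit 7728) (nat_lit 688) (nat_lit 3725))))))))) (.f (nat_lit 621) (nat_lit 653) (nat_lit 5645) (.f (nat_lit 591) (nat_lit 593) (nat_lit 1613) (.f (nat_lit 493) (nat_lit 525) (nat_lit 7661) (.f (nat_lit 494) (nat_lit 461) (nat_lit 7629) (.f (nat_lit 463) (nat_lit 495) (nat_lit 6606) (.d (nat_lit 462) (nat_lit 431) (nat_lit 6574) (nat_lit 559) (nat_lit 4558))))))))))) (.a (.p (nat_lit 557) (.a (.d (nat_lit 593) (nat_lit 559) (nat_lit 557) (nat_lit 591) (nat_lit 3629)) (.a (.f (nat_lit 591) (nat_lit 593) (nat_lit 3629) (.d (nat_lit 556) (nat_lit 555) (nat_lit 555) (nat_lit 589) (nat_lit 3628))) (.a (.f (nat_lit 654) (nat_lit 525) (nat_lit 7693) (.f (nat_lit 589) (nat_lit 686) (nat_lit 7725) (.f (nat_lit 591) (nat_lit 556) (nat_lit 3628) (.f (nat_lit 588) (nat_lit 559) (nat_lit 2604) (.d (nat_lit 620) (nat_lit 619) (nat_lit 1611) (nat_lit 621) (nat_lit 1612)))))) (.f (nat_lit 654) (nat_lit 525) (nat_lit 7693) (.f (nat_lit 686) (nat_lit 589) (nat_lit 7725) (.d (nat_lit 685) (nat_lit 653) (nat_lit 5677) (nat_lit 717) (nat_lit 5709)))))))) (.p (nat_lit 526) (.a (.f (nat_lit 621) (nat_lit 653) (nat_lit 5645) (.f (nat_lit 591) (nat_lit 593) (nat_lit 1613) (.d (nat_lit 589) (nat_lit 494) (nat_lit 5613) (nat_lit 620) (nat_lit 1612)))) (.a (.f (nat_lit 621) (nat_lit 653) (nat_lit 5645) (.f (nat_lit 494) (nat_lit 589) (nat_lit 5613) (.d (nat_lit 493) (nat_lit 461) (nat_lit 7629) (nat_lit 525) (nat_lit 7661)))) (.a (.f (nat_lit 621) (nat_lit 653) (nat_lit 5645) (.f (nat_lit 591) (nat_lit 593) (nat_lit 1613) (.d (nat_lit 620) (nat_lit 589) (nat_lit 1612) (nat_lit 619) (nat_lit 2635)))) (.a (.f (nat_lit 493) (nat_lit 525) (nat_lit 7661) (.f (nat_lit 494) (nat_lit 461) (nat_lit 7629) (.f (nat_lit 463) (nat_lit 495) (nat_lit 6606) (.f (nat_lit 462) (nat_lit 431) (nat_lit 6574) (.f (nat_lit 557) (nat_lit 589) (nat_lit 5581) (.d (nat_lit 591) (nat_lit 559) (nat_lit 4558) (nat_lit 593) (nat_lit 3629))))))) (.f (nat_lit 621) (nat_lit 653) (nat_lit 5645) (.f (nat_lit 591) (nat_lit 593) (nat_lit 1613) (.f (nat_lit 493) (nat_lit 525) (nat_lit 7661) (.f (nat_lit 494) (nat_lit 461) (nat_lit 7629) (.f (nat_lit 463) (nat_lit 495) (nat_lit 6606) (.d (nat_lit 462) (nat_lit 431) (nat_lit 6574) (nat_lit 559) (nat_lit 4558)))))))))))))))))))))) (.a (.p (nat_lit 591) (.a (.f (nat_lit 593) (nat_lit 557) (nat_lit 3629) (.f (nat_lit 625) (nat_lit 626) (nat_lit 590) (.d (nat_lit 624) (nat_lit 589) (nat_lit 589) (nat_lit 657) (nat_lit 4624)))) (.a (.f (nat_lit 557) (nat_lit 593) (nat_lit 3629) (.d (nat_lit 556) (nat_lit 555) (nat_lit 555) (nat_lit 589) (nat_lit 3628))) (.a (.f (nat_lit 589) (nat_lit 561) (nat_lit 2605) (.f (nat_lit 557) (nat_lit 556) (nat_lit 3628) (.f (nat_lit 621) (nat_lit 620) (nat_lit 1612) (.d (nat_lit 526) (nat_lit 494) (nat_lit 5613) (nat_lit 653) (nat_lit 6669))))) (.a (.f (nat_lit 589) (nat_lit 561) (nat_lit 2605) (.f (nat_lit 621) (nat_lit 620) (nat_lit 1612) (.f (nat_lit 622) (nat_lit 593) (nat_lit 1613) (.d (nat_lit 526) (nat_lit 494) (nat_lit 5613) (nat_lit 653) (nat_lit 5645))))) (.f (nat_lit 593) (nat_lit 557) (nat_lit 3629) (.f (nat_lit 625) (nat_lit 626) (nat_lit 590) (.d (nat_lit 657) (nat_lit 561) (nat_lit 7696) (nat_lit 624) (nat_lit 4624))))))))) (.a s1413 (.a (.p (nat_lit 591) (.a (.f (nat_lit 589) (nat_lit 561) (nat_lit 2605) (.f (nat_lit 588) (nat_lit 559) (nat_lit 2604) (.d (nat_lit 620) (nat_lit 619) (nat_lit 1611) (nat_lit 621) (nat_lit 1612)))) (.a (.p (nat_lit 589) (.a (.f (nat_lit 621) (nat_lit 620) (nat_lit 1612) (.f (nat_lit 622) (nat_lit 593) (nat_lit 1613) (.d (nat_lit 526) (nat_lit 494) (nat_lit 5613) (nat_lit 653) (nat_lit 5645)))) (.a (.f (nat_lit 588) (nat_lit 559) (nat_lit 2604) (.d (nat_lit 620) (nat_lit 619) (nat_lit 1611) (nat_lit 621) (nat_lit 1612))) (.a (.f (nat_lit 588) (nat_lit 559) (nat_lit 2604) (.f (nat_lit 619) (nat_lit 620) (nat_lit 1611) (.f (nat_lit 587) (nat_lit 618) (nat_lit 1610) (.d (nat_lit 555) (nat_lit 554) (nat_lit 3626) (nat_lit 556) (nat_lit 3627))))) (.f (nat_lit 559) (nat_lit 588) (nat_lit 2604) (.f (nat_lit 593) (nat_lit 594) (nat_lit 3630) (.d (nat_lit 625) (nat_lit 624) (nat_lit 589) (nat_lit 626) (nat_lit 590)))))))) (.a (.f (nat_lit 589) (nat_lit 561) (nat_lit 2605) (.f (nat_lit 621) (nat_lit 620) (nat_lit 1612) (.f (nat_lit 622) (nat_lit 593) (nat_lit 1613) (.d (nat_lit 526) (nat_lit 494) (nat_lit 5613) (nat_lit 653) (nat_lit 5645))))) (.a (.f (nat_lit 561) (nat_lit 589) (nat_lit 2605) (.d (nat_lit 562) (nat_lit 563) (nat_lit 1583) (nat_lit 593) (nat_lit 2606))) (.p (nat_lit 593) (.a (.f (nat_lit 561) (nat_lit 562) (nat_lit 2606) (.d (nat_lit 625) (nat_lit 626) (nat_lit 590) (nat_lit 657) (nat_lit 7696))) (.a (.f (nat_lit 594) (nat_lit 559) (nat_lit 3630) (.d (nat_lit 626) (nat_lit 625) (nat_lit 590) (nat_lit 627) (nat_lit 591))) (.f (nat_lit 594) (nat_lit 559) (nat_lit 3630) (.d (nat_lit 562) (nat_lit 561) (nat_lit 2606) (nat_lit 563) (nat_lit 2607))))))))))) (.a (.p (nat_lit 559) (.a (.f (nat_lit 557) (nat_lit 593) (nat_lit 557) (.d (nat_lit 589) (nat_lit 561) (nat_lit 1581) (nat_lit 588) (nat_lit 1580))) (.a (.f (nat_lit 557) (nat_lit 593) (nat_lit 557) (.f (nat_lit 589) (nat_lit 588) (nat_lit 1580) (.f (nat_lit 525) (nat_lit 524) (nat_lit 3596) (.d (nat_lit 493) (nat_lit 461) (nat_lit 4557) (nat_lit 622) (nat_lit 4589))))) (.a (.f (nat_lit 589) (nat_lit 561) (nat_lit 1581) (.d (nat_lit 588) (nat_lit 557) (nat_lit 1580) (nat_lit 587) (nat_lit 2603))) (.a (.f (nat_lit 561) (nat_lit 589) (nat_lit 1581) (.p (nat_lit 562) (.a (.d (nat_lit 594) (nat_lit 593) (nat_lit 558) (nat_lit 595) (nat_lit 559)) (.a (.f (nat_lit 531) (nat_lit 530) (nat_lit 2575) (.f (nat_lit 563) (nat_lit 532) (nat_lit 2576) (.d (nat_lit 595) (nat_lit 594) (nat_lit 559) (nat_lit 596) (nat_lit 560)))) (.a (.f (nat_lit 593) (nat_lit 594) (nat_lit 558) (.f (nat_lit 563) (nat_lit 564) (nat_lit 1584) (.d (nat_lit 531) (nat_lit 530) (nat_lit 2575) (nat_lit 532) (nat_lit 2576)))) (.f (nat_lit 531) (nat_lit 530) (nat_lit 2575) (.f (nat_lit 563) (nat_lit 532) (nat_lit 2576) (.f (nat_lit 564) (nat_lit 593) (nat_lit 1584) (.d (nat_lit 596) (nat_lit 595) (nat_lit 560) (nat_lit 597) (nat_lit 561)))))))))) (.f (nat_lit 593) (nat_lit 557) (nat_lit 557) (.d (nat_lit 594) (nat_lit 561) (nat_lit 558) (nat_lit 595) (nat_lit 3631)))))))) (.p (nat_lit 593) (.a (.d (nat_lit 557) (nat_lit 559) (nat_lit 557) (nat_lit 591) (nat_lit 3629)) (.a (.f (nat_lit 591) (nat_lit 557) (nat_lit 3629) (.f (nat_lit 625) (nat_lit 626) (nat_lit 590) (.d (nat_lit 657) (nat_lit 561) (nat_lit 7696) (nat_lit 624) (nat_lit 4624)))) (.a (.p (nat_lit 625) (.a (.d (nat_lit 657) (nat_lit 624) (nat_lit 4624) (nat_lit 689) (nat_lit 7728)) (.f (nat_lit 591) (nat_lit 626) (nat_lit 590) (.f (nat_lit 594) (nat_lit 559) (nat_lit 3630) (.d (nat_lit 562) (nat_lit 561) (nat_lit 2606) (nat_lit 563) (nat_lit 2607)))))) (.f (nat_lit 559) (nat_lit 557) (nat_lit 557) (.d (nat_lit 594) (nat_lit 561) (nat_lit 558) (nat_lit 595) (nat_lit 3631)))))))))))))) (.a (.p (nat_lit 624) (.a (.f (nat_lit 655) (nat_lit 623) (nat_lit 5647) (.f (nat_lit 656) (nat_lit 687) (nat_lit 5679) (.d (nat_lit 657) (nat_lit 625) (nat_lit 4624) (nat_lit 689) (nat_lit 4656)))) (.a (.f (nat_lit 657) (nat_lit 625) (nat_lit 4624) (.f (nat_lit 656) (nat_lit 689) (nat_lit 4656) (.f (nat_lit 687) (nat_lit 655) (nat_lit 5679) (.f (nat_lit 688) (nat_lit 719) (nat_lit 5711) (.f (nat_lit 559) (nat_lit 591) (nat_lit 7727) (.f (nat_lit 557) (nat_lit 593) (nat_lit 557) (.f (nat_lit 588) (nat_lit 589) (nat_lit 1580) (.f (nat_lit 556) (nat_lit 587) (nat_lit 1579) (.d (nat_lit 524) (nat_lit 523) (nat_lit 3595) (nat_lit 525) (nat_lit 3596)))))))))) (.a (.p (nat_lit 593) (.a (.f (nat_lit 559) (nat_lit 557) (nat_lit 557) (.d (nat_lit 594) (nat_lit 591) (nat_lit 3630) (nat_lit 595) (nat_lit 3631))) (.a (.f (nat_lit 623) (nat_lit 655) (nat_lit 5647) (.f (nat_lit 622) (nat_lit 621) (nat_lit 2637) (.d (nat_lit 594) (nat_lit 591) (nat_lit 1614) (nat_lit 595) (nat_lit 1615)))) (.a (.f (nat_lit 623) (nat_lit 655) (nat_lit 5647) (.f (nat_lit 622) (nat_lit 621) (nat_lit 2637) (.d (nat_lit 594) (nat_lit 591) (nat_lit 1614) (nat_lit 625) (nat_lit 2638)))) (.a (.f (nat_lit 623) (nat_lit 655) (nat_lit 5647) (.f (nat_lit 622) (nat_lit 621) (nat_lit 2637) (.f (nat_lit 557) (nat_lit 559) (nat_lit 557) (.f (nat_lit 590) (nat_lit 591) (nat_lit 3629) (.f (nat_lit 589) (nat_lit 625) (nat_lit 3661) (.d (nat_lit 525) (nat_lit 493) (nat_lit 4589) (nat_lit 654) (nat_lit 7693))))))) (.f (nat_lit 623) (nat_lit 655) (nat_lit 5647) (.f (nat_lit 594) (nat_lit 595) (nat_lit 1615) (.d (nat_lit 622) (nat_lit 621) (nat_lit 2637) (nat_lit 625) (nat_lit 2638))))))))) (.a (.p (nat_lit 656) (.a (.d (nat_lit 657) (nat_lit 625) (nat_lit 4624) (nat_lit 689) (nat_lit 4656)) (.a (.p (nat_lit 559) (.a (.f (nat_lit 557) (nat_lit 593) (nat_lit 557) (.d (nat_lit 591) (nat_lit 556) (nat_lit 556) (nat_lit 688) (nat_lit 7727))) (.a (.f (nat_lit 688) (nat_lit 591) (nat_lit 7727) (.f (nat_lit 721) (nat_lit 689) (nat_lit 4688) (.f (nat_lit 720) (nat_lit 753) (nat_lit 4720) (.d (nat_lit 719) (nat_lit 687) (nat_lit 5711) (nat_lit 751) (nat_lit 5743))))) (.f (nat_lit 557) (nat_lit 593) (nat_lit 557) (.f (nat_lit 588) (nat_lit 589) (nat_lit 1580) (.f (nat_lit 556) (nat_lit 587) (nat_lit 1579) (.d (nat_lit 524) (nat_lit 523) (nat_lit 3595) (nat_lit 525) (nat_lit 3596)))))))) (.p (nat_lit 559) (.a (.f (nat_lit 557) (nat_lit 593) (nat_lit 557) (.d (nat_lit 591) (nat_lit 556) (nat_lit 556) (nat_lit 688) (nat_lit 7727))) (.a (.f (nat_lit 591) (nat_lit 688) (nat_lit 7727) (.f (nat_lit 557) (nat_lit 556) (nat_lit 556) (.f (nat_lit 589) (nat_lit 588) (nat_lit 1580) (.d (nat_lit 625) (nat_lit 590) (nat_lit 589) (nat_lit 657) (nat_lit 4624))))) (.a (.f (nat_lit 591) (nat_lit 688) (nat_lit 7727) (.f (nat_lit 593) (nat_lit 594) (nat_lit 3630) (.f (nat_lit 625) (nat_lit 657) (nat_lit 4624) (.d (nat_lit 590) (nat_lit 589) (nat_lit 589) (nat_lit 626) (nat_lit 590))))) (.f (nat_lit 557) (nat_lit 593) (nat_lit 557) (.f (nat_lit 588) (nat_lit 589) (nat_lit 1580) (.f (nat_lit 556) (nat_lit 587) (nat_lit 1579) (.d (nat_lit 524) (nat_lit 523) (nat_lit 3595) (nat_lit 525) (nat_lit 3596)))))))))))) (.f (nat_lit 655) (nat_lit 623) (nat_lit 5647) (.f (nat_lit 656) (nat_lit 687) (nat_lit 5679) (.f (nat_lit 689) (nat_lit 657) (nat_lit 4656) (.f (nat_lit 688) (nat_lit 721) (nat_lit 4688) (.f (nat_lit 559) (nat_lit 591) (nat_lit 7727) (.f (nat_lit 557) (nat_lit 593) (nat_lit 557) (.f (nat_lit 588) (nat_lit 589) (nat_lit 1580) (.f (nat_lit 556) (nat_lit 587) (nat_lit 1579) (.d (nat_lit 524) (nat_lit 523) (nat_lit 3595) (nat_lit 525) (nat_lit 3596))))))))))))))) (.a (.p (nat_lit 624) (.a (.f (nat_lit 655) (nat_lit 623) (nat_lit 5647) (.f (nat_lit 656) (nat_lit 687) (nat_lit 5679) (.d (nat_lit 657) (nat_lit 625) (nat_lit 4624) (nat_lit 689) (nat_lit 4656)))) (.a s1532 (.a (.p (nat_lit 590) (.a (.p (nat_lit 591) (.a (.f (nat_lit 557) (nat_lit 593) (nat_lit 3629) (.d (nat_lit 589) (nat_lit 556) (nat_lit 3628) (nat_lit 625) (nat_lit 589))) (.a (.f (nat_lit 557) (nat_lit 593) (nat_lit 3629) (.d (nat_lit 556) (nat_lit 555) (nat_lit 555) (nat_lit 589) (nat_lit 3628))) (.a (.d (nat_lit 589) (nat_lit 561) (nat_lit 2605) (nat_lit 625) (nat_lit 589)) (.f (nat_lit 593) (nat_lit 557) (nat_lit 3629) (.f (nat_lit 562) (nat_lit 561) (nat_lit 2606) (.f (nat_lit 594) (nat_lit 563) (nat_lit 2607) (.d (nat_lit 626) (nat_lit 625) (nat_lit 590) (nat_lit 627) (nat_lit 591))))))))) (.a (.p (nat_lit 589) (.a (.f (nat_lit 591) (nat_lit 625) (nat_lit 589) (.d (nat_lit 557) (nat_lit 556) (nat_lit 3628) (nat_lit 593) (nat_lit 3629))) (.a (.f (nat_lit 623) (nat_lit 655) (nat_lit 5647) (.f (nat_lit 591) (nat_lit 588) (nat_lit 588) (.d (nat_lit 557) (nat_lit 556) (nat_lit 3628) (nat_lit 593) (nat_lit 3629)))) (.a (.f (nat_lit 591) (nat_lit 625) (nat_lit 589) (.d (nat_lit 623) (nat_lit 588) (nat_lit 588) (nat_lit 655) (nat_lit 5647))) (.f (nat_lit 623) (nat_lit 655) (nat_lit 5647) (.f (nat_lit 622) (nat_lit 625) (nat_lit 3661) (.d (nat_lit 588) (nat_lit 587) (nat_lit 587) (nat_lit 621) (nat_lit 3660)))))))) (.a s1563 (.a (.p (nat_lit 589) (.a (.d (nat_lit 591) (nat_lit 561) (nat_lit 2605) (nat_lit 625) (nat_lit 589)) (.a (.f (nat_lit 591) (nat_lit 625) (nat_lit 589) (.d (nat_lit 623) (nat_lit 588) (nat_lit 588) (nat_lit 655) (nat_lit 5647))) (.a (.f (nat_lit 591) (nat_lit 561) (nat_lit 2605) (.f (nat_lit 557) (nat_lit 556) (nat_lit 3628) (.f (nat_lit 621) (nat_lit 620) (nat_lit 1612) (.d (nat_lit 526) (nat_lit 494) (nat_lit 5613) (nat_lit 653) (nat_lit 6669))))) (.f (nat_lit 623) (nat_lit 655) (nat_lit 5647) (.f (nat_lit 622) (nat_lit 625) (nat_lit 3661) (.d (nat_lit 588) (nat_lit 587) (nat_lit 587) (nat_lit 621) (nat_lit 3660)))))))) (.a (.p (nat_lit 589) (.a (.d (nat_lit 591) (nat_lit 561) (nat_lit 2605) (nat_lit 625) (nat_lit 589)) (.a (.f (nat_lit 591) (nat_lit 625) (nat_lit 589) (.d (nat_lit 623) (nat_lit 588) (nat_lit 588) (nat_lit 655) (nat_lit 5647))) (.a (.f (nat_lit 591) (nat_lit 561) (nat_lit 2605) (.d (nat_lit 623) (nat_lit 588) (nat_lit 588) (nat_lit 655) (nat_lit 5647))) (.f (nat_lit 623) (nat_lit 655) (nat_lit 5647) (.f (nat_lit 622) (nat_lit 625) (nat_lit 3661) (.d (nat_lit 588) (nat_lit 587) (nat_lit 587) (nat_lit 621) (nat_lit 3660)))))))) (.a (.p (nat_lit 622) (.a (.f (nat_lit 623) (nat_lit 655) (nat_lit 5647) (.f (nat_lit 621) (nat_lit 593) (nat_lit 2637) (.d (nat_lit 653) (nat_lit 526) (nat_lit 5645) (nat_lit 652) (nat_lit 1644)))) (.a s1598 (.a s1611 (.f (nat_lit 655) (nat_lit 623) (nat_lit 5647) (.d (nat_lit 687) (nat_lit 654) (nat_lit 4654) (nat_lit 656) (nat_lit 5679))))))) (.p (nat_lit 593) (.a (.f (nat_lit 623) (nat_lit 655) (nat_lit 5647) (.f (nat_lit 622) (nat_lit 621) (nat_lit 2637) (.d (nat_lit 594) (nat_lit 595) (nat_lit 1615) (nat_lit 625) (nat_lit 2638)))) (.a (.f (nat_lit 591) (nat_lit 557) (nat_lit 3629) (.f (nat_lit 562) (nat_lit 561) (nat_lit 2606) (.f (nat_lit 594) (nat_lit 563) (nat_lit 2607) (.d (nat_lit 626) (nat_lit 625) (nat_lit 590) (nat_lit 627) (nat_lit 591))))) (.a (.f (nat_lit 591) (nat_lit 557) (nat_lit 3629) (.f (nat_lit 622) (nat_lit 621) (nat_lit 1613) (.f (nat_lit 594) (nat_lit 623) (nat_lit 1614) (.f (nat_lit 627) (nat_lit 626) (nat_lit 591) (.f (nat_lit 595) (nat_lit 628) (nat_lit 592) (.d (nat_lit 563) (nat_lit 562) (nat_lit 2607) (nat_lit 564) (nat_lit 2608))))))) (.f (nat_lit 591) (nat_lit 557) (nat_lit 3629) (.f (nat_lit 655) (nat_lit 623) (nat_lit 5647) (.f (nat_lit 656) (nat_lit 687) (nat_lit 5679) (.d (nat_lit 561) (nat_lit 562) (nat_lit 2606) (nat_lit 688) (nat_lit 6704)))))))))))))))) (.a (.p (nat_lit 590) (.a (.f (nat_lit 625) (nat_lit 657) (nat_lit 4624) (.f (nat_lit 591) (nat_lit 589) (nat_lit 589) (.d (nat_lit 626) (nat_lit 593) (nat_lit 590) (nat_lit 627) (nat_lit 3663)))) (.a (.p (nat_lit 591) (.a (.f (nat_lit 557) (nat_lit 593) (nat_lit 3629) (.d (nat_lit 589) (nat_lit 556) (nat_lit 3628) (nat_lit 625) (nat_lit 589))) (.a (.f (nat_lit 557) (nat_lit 593) (nat_lit 3629) (.d (nat_lit 556) (nat_lit 555) (nat_lit 555) (nat_lit 589) (nat_lit 3628))) (.a (.d (nat_lit 589) (nat_lit 561) (nat_lit 2605) (nat_lit 625) (nat_lit 589)) (.f (nat_lit 593) (nat_lit 557) (nat_lit 3629) (.f (nat_lit 562) (nat_lit 561) (nat_lit 2606) (.f (nat_lit 594) (nat_lit 563) (nat_lit 2607) (.d (nat_lit 626) (nat_lit 625) (nat_lit 590) (nat_lit 627) (nat_lit 591))))))))) (.a s1638 (.a (.f (nat_lit 625) (nat_lit 657) (nat_lit 4624) (.f (nat_lit 591) (nat_lit 589) (nat_lit 589) (.d (nat_lit 626) (nat_lit 623) (nat_lit 3662) (nat_lit 627) (nat_lit 3663)))) (.a s1684 s1687)))))) (.a (.p (nat_lit 590) (.a (.f (nat_lit 655) (nat_lit 623) (nat_lit 5647) (.f (nat_lit 656) (nat_lit 687) (nat_lit 5679) (.f (nat_lit 689) (nat_lit 657) (nat_lit 4656) (.f (nat_lit 688) (nat_lit 721) (nat_lit 4688) (.f (nat_lit 653) (nat_lit 654) (nat_lit 653) (.f (nat_lit 593) (nat_lit 561) (nat_lit 6704) (.f (nat_lit 591) (nat_lit 557) (nat_lit 3629) (.f (nat_lit 621) (nat_lit 622) (nat_lit 1613) (.d (nat_lit 589) (nat_lit 620) (nat_lit 1612) (nat_lit 685) (nat_lit 6701)))))))))) (.a (.p (nat_lit 622) (.a (.p (nat_lit 526) (.a (.f (nat_lit 621) (nat_lit 653) (nat_lit 5645) (.f (nat_lit 494) (nat_lit 589) (nat_lit 5613) (.d (nat_lit 493) (nat_lit 461) (nat_lit 7629) (nat_lit 525) (nat_lit 7661)))) (.a (.f (nat_lit 621) (nat_lit 653) (nat_lit 5645) (.f (nat_lit 494) (nat_lit 589) (nat_lit 5613) (.f (nat_lit 463) (nat_lit 495) (nat_lit 6606) (.f (nat_lit 462) (nat_lit 431) (nat_lit 6574) (.d (nat_lit 461) (nat_lit 429) (nat_lit 7597) (nat_lit 493) (nat_lit 7629)))))) (.a (.f (nat_lit 621) (nat_lit 653) (nat_lit 5645) (.f (nat_lit 591) (nat_lit 593) (nat_lit 1613) (.d (nat_lit 620) (nat_lit 589) (nat_lit 1612) (nat_lit 619) (nat_lit 2635)))) (.a (.f (nat_lit 525) (nat_lit 493) (nat_lit 7661) (.f (nat_lit 557) (nat_lit 654) (nat_lit 7693) (.f (nat_lit 591) (nat_lit 593) (nat_lit 3629) (.d (nat_lit 556) (nat_lit 555) (nat_lit 555) (nat_lit 589) (nat_lit 3628))))) (.f (nat_lit 525) (nat_lit 493) (nat_lit 7661) (.f (nat_lit 654) (nat_lit 557) (nat_lit 7693) (.d (nat_lit 653) (nat_lit 621) (nat_lit 5645) (nat_lit 685) (nat_lit 5677))))))))) (.a (.p (nat_lit 526) (.a (.f (nat_lit 621) (nat_lit 653) (nat_lit 5645) (.f (nat_lit 494) (nat_lit 589) (nat_lit 5613) (.d (nat_lit 493) (nat_lit 461) (nat_lit 7629) (nat_lit 525) (nat_lit 7661)))) (.a (.f (nat_lit 621) (nat_lit 653) (nat_lit 5645) (.f (nat_lit 591) (nat_lit 593) (nat_lit 1613) (.d (nat_lit 589) (nat_lit 494) (nat_lit 5613) (nat_lit 620) (nat_lit 1612)))) (.a (.f (nat_lit 621) (nat_lit 653) (nat_lit 5645) (.f (nat_lit 591) (nat_lit 593) (nat_lit 1613) (.d (nat_lit 620) (nat_lit 589) (nat_lit 1612) (nat_lit 619) (nat_lit 2635)))) (.a (.f (nat_lit 525) (nat_lit 493) (nat_lit 7661) (.f (nat_lit 557) (nat_lit 654) (nat_lit 7693) (.f (nat_lit 591) (nat_lit 593) (nat_lit 3629) (.d (nat_lit 556) (nat_lit 555) (nat_lit 555) (nat_lit 589) (nat_lit 3628))))) (.f (nat_lit 525) (nat_lit 493) (nat_lit 7661) (.f (nat_lit 654) (nat_lit 557) (nat_lit 7693) (.d (nat_lit 653) (nat_lit 621) (nat_lit 5645) (nat_lit 685) (nat_lit 5677))))))))) (.a s1598 (.a (.p (nat_lit 656) (.a (.f (nat_lit 687) (nat_lit 655) (nat_lit 5679) (.f (nat_lit 688) (nat_lit 719) (nat_lit 5711) (.f (nat_lit 721) (nat_lit 689) (nat_lit 4688) (.f (nat_lit 720) (nat_lit 753) (nat_lit 4720) (.f (nat_lit 685) (nat_lit 686) (nat_lit 685) (.f (nat_lit 653) (nat_lit 654) (nat_lit 5677) (.d (nat_lit 621) (nat_lit 526) (nat_lit 5645) (nat_lit 589) (nat_lit 6701)))))))) (.a (.f (nat_lit 689) (nat_lit 657) (nat_lit 4656) (.f (nat_lit 688) (nat_lit 721) (nat_lit 4688) (.f (nat_lit 593) (nat_lit 561) (nat_lit 6704) (.d (nat_lit 591) (nat_lit 557) (nat_lit 3629) (nat_lit 621) (nat_lit 1613))))) (.a (.f (nat_lit 687) (nat_lit 655) (nat_lit 5679) (.f (nat_lit 688) (nat_lit 719) (nat_lit 5711) (.f (nat_lit 593) (nat_lit 561) (nat_lit 6704) (.d (nat_lit 591) (nat_lit 557) (nat_lit 3629) (nat_lit 621) (nat_lit 1613))))) (.a (.f (nat_lit 655) (nat_lit 687) (nat_lit 5679) (.f (nat_lit 657) (nat_lit 689) (nat_lit 4656) (.f (nat_lit 654) (nat_lit 621) (nat_lit 3693) (.d (nat_lit 685) (nat_lit 653) (nat_lit 5677) (nat_lit 686) (nat_lit 1677))))) (.f (nat_lit 687) (nat_lit 655) (nat_lit 5679) (.f (nat_lit 688) (nat_lit 719) (nat_lit 5711) (.d (nat_lit 689) (nat_lit 657) (nat_lit 4656) (nat_lit 721) (nat_lit 4688))))))))) (.a (.p (nat_lit 656) (.a (.f (nat_lit 687) (nat_lit 655) (nat_lit 5679) (.f (nat_lit 688) (nat_lit 719) (nat_lit 5711) (.f (nat_lit 721) (nat_lit 689) (nat_lit 4688) (.f (nat_lit 720) (nat_lit 753) (nat_lit 4720) (.f (nat_lit 685) (nat_lit 686) (nat_lit 685) (.f (nat_lit 653) (nat_lit 654) (nat_lit 5677) (.d (nat_lit 621) (nat_lit 526) (nat_lit 5645) (nat_lit 589) (nat_lit 6701)))))))) (.a (.f (nat_lit 689) (nat_lit 657) (nat_lit 4656) (.f (nat_lit 688) (nat_lit 721) (nat_lit 4688) (.f (nat_lit 719) (nat_lit 687) (nat_lit 5711) (.f (nat_lit 720) (nat_lit 751) (nat_lit 5743) (.f (nat_lit 717) (nat_lit 718) (nat_lit 2733) (.f (nat_lit 593) (nat_lit 561) (nat_lit 6704) (.f (nat_lit 621) (nat_lit 591) (nat_lit 1613) (.d (nat_lit 653) (nat_lit 526) (nat_lit 5645) (nat_lit 685) (nat_lit 6733))))))))) (.a (.f (nat_lit 687) (nat_lit 655) (nat_lit 5679) (.f (nat_lit 688) (nat_lit 719) (nat_lit 5711) (.f (nat_lit 593) (nat_lit 561) (nat_lit 6704) (.f (nat_lit 621) (nat_lit 591) (nat_lit 1613) (.f (nat_lit 653) (nat_lit 526) (nat_lit 5645) (.d (nat_lit 685) (nat_lit 589) (nat_lit 6701) (nat_lit 654) (nat_lit 5677))))))) (.a (.f (nat_lit 689) (nat_lit 657) (nat_lit 4656) (.f (nat_lit 688) (nat_lit 721) (nat_lit 4688) (.f (nat_lit 593) (nat_lit 561) (nat_lit 6704) (.f (nat_lit 621) (nat_lit 591) (nat_lit 1613) (.f (nat_lit 653) (nat_lit 526) (nat_lit 5645) (.d (nat_lit 654) (nat_lit 655) (nat_lit 653) (nat_lit 685) (nat_lit 5677))))))) (.a (.f (nat_lit 655) (nat_lit 687) (nat_lit 5679) (.f (nat_lit 657) (nat_lit 689) (nat_lit 4656) (.f (nat_lit 654) (nat_lit 621) (nat_lit 3693) (.d (nat_lit 685) (nat_lit 653) (nat_lit 5677) (nat_lit 686) (nat_lit 1677))))) (.f (nat_lit 687) (nat_lit 655) (nat_lit 5679) (.f (nat_lit 688) (nat_lit 719) (nat_lit 5711) (.d (nat_lit 689) (nat_lit 657) (nat_lit 4656) (nat_lit 721) (nat_lit 4688)))))))))) (.a (.p (nat_lit 557) (.a (.f (nat_lit 591) (nat_lit 593) (nat_lit 3629) (.d (nat_lit 556) (nat_lit 555) (nat_lit 555) (nat_lit 589) (nat_lit 3628))) (.f (nat_lit 654) (nat_lit 525) (nat_lit 7693) (.f (nat_lit 687) (nat_lit 655) (nat_lit 4654) (.f (nat_lit 686) (nat_lit 719) (nat_lit 4686) (.d (nat_lit 685) (nat_lit 653) (nat_lit 5677) (nat_lit 717) (nat_lit 5709))))))) (.a (.p (nat_lit 656) (.a (.f (nat_lit 687) (nat_lit 655) (nat_lit 5679) (.f (nat_lit 688) (nat_lit 719) (nat_lit 5711) (.d (nat_lit 689) (nat_lit 657) (nat_lit 4656) (nat_lit 721) (nat_lit 4688)))) (.a (.f (nat_lit 687) (nat_lit 655) (nat_lit 5679) (.f (nat_lit 688) (nat_lit 719) (nat_lit 5711) (.f (nat_lit 593) (nat_lit 561) (nat_lit 6704) (.d (nat_lit 591) (nat_lit 557) (nat_lit 3629) (nat_lit 621) (nat_lit 1613))))) (.a (.f (nat_lit 689) (nat_lit 657) (nat_lit 4656) (.f (nat_lit 688) (nat_lit 721) (nat_lit 4688) (.f (nat_lit 593) (nat_lit 561) (nat_lit 6704) (.d (nat_lit 591) (nat_lit 557) (nat_lit 3629) (nat_lit 621) (nat_lit 1613))))) (.f (nat_lit 655) (nat_lit 687) (nat_lit 5679) (.f (nat_lit 657) (nat_lit 689) (nat_lit 4656) (.f (nat_lit 654) (nat_lit 621) (nat_lit 3693) (.d (nat_lit 685) (nat_lit 653) (nat_lit 5677) (nat_lit 686) (nat_lit 1677))))))))) (.a (.p (nat_lit 591) (.a (.d (nat_lit 593) (nat_lit 557) (nat_lit 3629) (nat_lit 621) (nat_lit 1613)) (.a (.f (nat_lit 589) (nat_lit 561) (nat_lit 2605) (.f (nat_lit 621) (nat_lit 620) (nat_lit 1612) (.d (nat_lit 526) (nat_lit 494) (nat_lit 5613) (nat_lit 653) (nat_lit 5645)))) (.f (nat_lit 557) (nat_lit 593) (nat_lit 3629) (.d (nat_lit 589) (nat_lit 556) (nat_lit 3628) (nat_lit 561) (nat_lit 2605)))))) (.p (nat_lit 656) (.a (.f (nat_lit 687) (nat_lit 655) (nat_lit 5679) (.f (nat_lit 688) (nat_lit 719) (nat_lit 5711) (.d (nat_lit 689) (nat_lit 657) (nat_lit 4656) (nat_lit 721) (nat_lit 4688)))) (.a (.f (nat_lit 687) (nat_lit 655) (nat_lit 5679) (.f (nat_lit 688) (nat_lit 719) (nat_lit 5711) (.f (nat_lit 593) (nat_lit 561) (nat_lit 6704) (.d (nat_lit 591) (nat_lit 557) (nat_lit 3629) (nat_lit 621) (nat_lit 1613))))) (.a (.f (nat_lit 689) (nat_lit 657) (nat_lit 4656) (.f (nat_lit 688) (nat_lit 721) (nat_lit 4688) (.f (nat_lit 593) (nat_lit 561) (nat_lit 6704) (.d (nat_lit 591) (nat_lit 557) (nat_lit 3629) (nat_lit 621) (nat_lit 1613))))) (.f (nat_lit 655) (nat_lit 687) (nat_lit 5679) (.f (nat_lit 657) (nat_lit 689) (nat_lit 4656) (.f (nat_lit 654) (nat_lit 621) (nat_lit 3693) (.f (nat_lit 557) (nat_lit 525) (nat_lit 7693) (.d (nat_lit 686) (nat_lit 589) (nat_lit 7725) (nat_lit 685) (nat_lit 1677))))))))))))))))))) (.a (.p (nat_lit 656) (.a (.f (nat_lit 687) (nat_lit 655) (nat_lit 5679) (.f (nat_lit 688) (nat_lit 719) (nat_lit 5711) (.d (nat_lit 689) (nat_lit 657) (nat_lit 4656) (nat_lit 721) (nat_lit 4688)))) (.a (.d (nat_lit 655) (nat_lit 623) (nat_lit 5647) (nat_lit 687) (nat_lit 5679)) (.a (.f (nat_lit 689) (nat_lit 657) (nat_lit 4656) (.f (nat_lit 688) (nat_lit 721) (nat_lit 4688) (.f (nat_lit 719) (nat_lit 687) (nat_lit 5711) (.f (nat_lit 720) (nat_lit 751) (nat_lit 5743) (.f (nat_lit 591) (nat_lit 623) (nat_lit 7759) (.f (nat_lit 557) (nat_lit 593) (nat_lit 3629) (.d (nat_lit 556) (nat_lit 555) (nat_lit 555) (nat_lit 589) (nat_lit 3628)))))))) (.f (nat_lit 623) (nat_lit 655) (nat_lit 5647) (.f (nat_lit 689) (nat_lit 657) (nat_lit 4656) (.f (nat_lit 688) (nat_lit 721) (nat_lit 4688) (.f (nat_lit 591) (nat_lit 720) (nat_lit 7759) (.f (nat_lit 593) (nat_lit 557) (nat_lit 3629) (.d (nat_lit 622) (nat_lit 594) (nat_lit 1614) (nat_lit 621) (nat_lit 2637))))))))))) (.a s1563 (.a s1638 (.a (.p (nat_lit 656) (.a (.f (nat_lit 687) (nat_lit 655) (nat_lit 5679) (.f (nat_lit 688) (nat_lit 719) (nat_lit 5711) (.d (nat_lit 689) (nat_lit 657) (nat_lit 4656) (nat_lit 721) (nat_lit 4688)))) (.a (.d (nat_lit 655) (nat_lit 623) (nat_lit 5647) (nat_lit 687) (nat_lit 5679)) (.a (.f (nat_lit 689) (nat_lit 657) (nat_lit 4656) (.f (nat_lit 688) (nat_lit 721) (nat_lit 4688) (.f (nat_lit 719) (nat_lit 687) (nat_lit 5711) (.f (nat_lit 720) (nat_lit 751) (nat_lit 5743) (.f (nat_lit 591) (nat_lit 623) (nat_lit 7759) (.f (nat_lit 589) (nat_lit 561) (nat_lit 2605) (.f (nat_lit 557) (nat_lit 556) (nat_lit 3628) (.f (nat_lit 621) (nat_lit 620) (nat_lit 1612) (.d (nat_lit 526) (nat_lit 494) (nat_lit 5613) (nat_lit 653) (nat_lit 6669)))))))))) (.f (nat_lit 623) (nat_lit 655) (nat_lit 5647) (.f (nat_lit 689) (nat_lit 657) (nat_lit 4656) (.f (nat_lit 688) (nat_lit 721) (nat_lit 4688) (.f (nat_lit 591) (nat_lit 720) (nat_lit 7759) (.d (nat_lit 589) (nat_lit 561) (nat_lit 2605) (nat_lit 588) (nat_lit 588)))))))))) (.a (.f (nat_lit 655) (nat_lit 623) (nat_lit 5647) (.f (nat_lit 656) (nat_lit 687) (nat_lit 5679) (.f (nat_lit 689) (nat_lit 657) (nat_lit 4656) (.f (nat_lit 688) (nat_lit 721) (nat_lit 4688) (.f (nat_lit 653) (nat_lit 654) (nat_lit 653) (.f (nat_lit 561) (nat_lit 593) (nat_lit 6704) (.f (nat_lit 589) (nat_lit 591) (nat_lit 2605) (.f (nat_lit 621) (nat_lit 685) (nat_lit 6701) (.d (nat_lit 526) (nat_lit 494) (nat_lit 5613) (nat_lit 622) (nat_lit 5645)))))))))) (.a s1818 (.a (.f (nat_lit 655) (nat_lit 623) (nat_lit 5647) (.f (nat_lit 656) (nat_lit 687) (nat_lit 5679) (.f (nat_lit 689) (nat_lit 657) (nat_lit 4656) (.f (nat_lit 688) (nat_lit 721) (nat_lit 4688) (.f (nat_lit 593) (nat_lit 561) (nat_lit 6704) (.f (nat_lit 557) (nat_lit 591) (nat_lit 3629) (.f (nat_lit 654) (nat_lit 653) (nat_lit 653) (.f (nat_lit 622) (nat_lit 525) (nat_lit 7693) (.f (nat_lit 686) (nat_lit 589) (nat_lit 7725) (.f (nat_lit 717) (nat_lit 685) (nat_lit 5709) (.f (nat_lit 718) (nat_lit 749) (nat_lit 5741) (.d (nat_lit 719) (nat_lit 720) (nat_lit 2733) (nat_lit 751) (nat_lit 4718))))))))))))) (.p (nat_lit 656) (.a (.f (nat_lit 687) (nat_lit 655) (nat_lit 5679) (.f (nat_lit 688) (nat_lit 719) (nat_lit 5711) (.d (nat_lit 689) (nat_lit 657) (nat_lit 4656) (nat_lit 721) (nat_lit 4688)))) (.a (.d (nat_lit 655) (nat_lit 623) (nat_lit 5647) (nat_lit 687) (nat_lit 5679)) (.a (.f (nat_lit 689) (nat_lit 657) (nat_lit 4656) (.f (nat_lit 688) (nat_lit 721) (nat_lit 4688) (.f (nat_lit 719) (nat_lit 687) (nat_lit 5711) (.f (nat_lit 720) (nat_lit 751) (nat_lit 5743) (.f (nat_lit 591) (nat_lit 623) (nat_lit 7759) (.d (nat_lit 593) (nat_lit 557) (nat_lit 3629) (nat_lit 561) (nat_lit 6704))))))) (.f (nat_lit 623) (nat_lit 655) (nat_lit 5647) (.f (nat_lit 689) (nat_lit 657) (nat_lit 4656) (.f (nat_lit 688) (nat_lit 721) (nat_lit 4688) (.f (nat_lit 591) (nat_lit 720) (nat_lit 7759) (.f (nat_lit 593) (nat_lit 557) (nat_lit 3629) (.d (nat_lit 622) (nat_lit 594) (nat_lit 1614) (nat_lit 621) (nat_lit 2637))))))))))))))))))))) (.p (nat_lit 590) (.a (.f (nat_lit 625) (nat_lit 657) (nat_lit 4624) (.f (nat_lit 591) (nat_lit 589) (nat_lit 589) (.d (nat_lit 626) (nat_lit 593) (nat_lit 590) (nat_lit 627) (nat_lit 3663)))) (.a (.p (nat_lit 591) (.a (.f (nat_lit 557) (nat_lit 593) (nat_lit 3629) (.d (nat_lit 589) (nat_lit 556) (nat_lit 3628) (nat_lit 625) (nat_lit 589))) (.a (.f (nat_lit 557) (nat_lit 593) (nat_lit 3629) (.d (nat_lit 556) (nat_lit 555) (nat_lit 555) (nat_lit 589) (nat_lit 3628))) (.a (.d (nat_lit 589) (nat_lit 561) (nat_lit 2605) (nat_lit 625) (nat_lit 589)) (.f (nat_lit 593) (nat_lit 557) (nat_lit 3629) (.f (nat_lit 562) (nat_lit 561) (nat_lit 2606) (.f (nat_lit 594) (nat_lit 563) (nat_lit 2607) (.d (nat_lit 626) (nat_lit 625) (nat_lit 590) (nat_lit 627) (nat_lit 591))))))))) (.a s1563 (.a (.f (nat_lit 623) (nat_lit 655) (nat_lit 5647) (.f (nat_lit 625) (nat_lit 657) (nat_lit 4624) (.d (nat_lit 591) (nat_lit 589) (nat_lit 589) (nat_lit 626) (nat_lit 3662)))) (.a (.f (nat_lit 623) (nat_lit 655) (nat_lit 5647) (.f (nat_lit 625) (nat_lit 657) (nat_lit 4624) (.f (nat_lit 622) (nat_lit 589) (nat_lit 3661) (.d (nat_lit 593) (nat_lit 594) (nat_lit 2638) (nat_lit 621) (nat_lit 2637))))) s1687)))))))))))) (.a (.p (nat_lit 590) (.a s1220 (.a (.p (nat_lit 526) (.a s1850 (.a s1861 (.a s1364 (.a s1865 (.a s1871 (.a (.p (nat_lit 622) (.a (.f (nat_lit 621) (nat_lit 653) (nat_lit 5645) (.f (nat_lit 591) (nat_lit 593) (nat_lit 1613) (.d (nat_lit 620) (nat_lit 589) (nat_lit 1612) (nat_lit 619) (nat_lit 2635)))) (.a (.f (nat_lit 525) (nat_lit 493) (nat_lit 7661) (.f (nat_lit 654) (nat_lit 557) (nat_lit 7693) (.d (nat_lit 653) (nat_lit 621) (nat_lit 5645) (nat_lit 685) (nat_lit 5677)))) (.f (nat_lit 525) (nat_lit 493) (nat_lit 7661) (.f (nat_lit 557) (nat_lit 654) (nat_lit 7693) (.d (nat_lit 559) (nat_lit 524) (nat_lit 3596) (nat_lit 593) (nat_lit 557))))))) (.a s1876 (.a s1881 (.a s1885 s1890)))))))))) (.a s1896 (.a s1413 (.a (.p (nat_lit 622) (.a (.p (nat_lit 621) (.a (.f (nat_lit 591) (nat_lit 593) (nat_lit 1613) (.d (nat_lit 620) (nat_lit 589) (nat_lit 1612) (nat_lit 619) (nat_lit 2635))) (.a (.f (nat_lit 653) (nat_lit 526) (nat_lit 5645) (.d (nat_lit 685) (nat_lit 589) (nat_lit 6701) (nat_lit 654) (nat_lit 5677))) (.f (nat_lit 653) (nat_lit 526) (nat_lit 5645) (.d (nat_lit 685) (nat_lit 654) (nat_lit 5677) (nat_lit 717) (nat_lit 6733)))))) (.a (.p (nat_lit 526) (.a (.f (nat_lit 621) (nat_lit 653) (nat_lit 5645) (.f (nat_lit 494) (nat_lit 589) (nat_lit 5613) (.d (nat_lit 493) (nat_lit 461) (nat_lit 7629) (nat_lit 525) (nat_lit 7661)))) (.a (.f (nat_lit 621) (nat_lit 653) (nat_lit 5645) (.f (nat_lit 494) (nat_lit 589) (nat_lit 5613) (.f (nat_lit 463) (nat_lit 495) (nat_lit 6606) (.f (nat_lit 462) (nat_lit 431) (nat_lit 6574) (.d (nat_lit 461) (nat_lit 429) (nat_lit 7597) (nat_lit 493) (nat_lit 7629)))))) (.a (.f (nat_lit 653) (nat_lit 621) (nat_lit 5645) (.f (nat_lit 654) (nat_lit 685) (nat_lit 5677) (.f (nat_lit 687) (nat_lit 655) (nat_lit 4654) (.f (nat_lit 686) (nat_lit 719) (nat_lit 4686) (.f (nat_lit 559) (nat_lit 591) (nat_lit 6702) (.d (nat_lit 525) (nat_lit 493) (nat_lit 7661) (nat_lit 561) (nat_lit 3597))))))) (.a (.f (nat_lit 621) (nat_lit 653) (nat_lit 5645) (.f (nat_lit 589) (nat_lit 494) (nat_lit 5613) (.d (nat_lit 591) (nat_lit 561) (nat_lit 2605) (nat_lit 620) (nat_lit 1612)))) (.f (nat_lit 623) (nat_lit 655) (nat_lit 4622) (.f (nat_lit 591) (nat_lit 494) (nat_lit 4590) (.f (nat_lit 589) (nat_lit 561) (nat_lit 2605) (.d (nat_lit 588) (nat_lit 559) (nat_lit 2604) (nat_lit 587) (nat_lit 587)))))))))) (.a (.p (nat_lit 655) (.a (.f (nat_lit 654) (nat_lit 687) (nat_lit 4654) (.f (nat_lit 653) (nat_lit 685) (nat_lit 5677) (.f (nat_lit 621) (nat_lit 526) (nat_lit 5645) (.d (nat_lit 620) (nat_lit 619) (nat_lit 619) (nat_lit 656) (nat_lit 3692))))) (.a (.d (nat_lit 623) (nat_lit 526) (nat_lit 4622) (nat_lit 624) (nat_lit 5647)) (.f (nat_lit 687) (nat_lit 654) (nat_lit 4654) (.d (nat_lit 624) (nat_lit 623) (nat_lit 5647) (nat_lit 656) (nat_lit 5679)))))) (.a s1934 (.a s1944 (.a s1945 (.p (nat_lit 591) (.a (.f (nat_lit 621) (nat_lit 593) (nat_lit 1613) (.d (nat_lit 620) (nat_lit 589) (nat_lit 1612) (nat_lit 619) (nat_lit 2635))) (.a (.f (nat_lit 589) (nat_lit 561) (nat_lit 2605) (.f (nat_lit 588) (nat_lit 559) (nat_lit 2604) (.d (nat_lit 623) (nat_lit 587) (nat_lit 587) (nat_lit 624) (nat_lit 588)))) (.f (nat_lit 593) (nat_lit 621) (nat_lit 1613) (.f (nat_lit 594) (nat_lit 559) (nat_lit 3630) (.d (nat_lit 626) (nat_lit 625) (nat_lit 590) (nat_lit 627) (nat_lit 591)))))))))))))) (.a (.p (nat_lit 622) (.a s1290 (.a (.p (nat_lit 526) (.a (.f (nat_lit 525) (nat_lit 493) (nat_lit 7661) (.f (nat_lit 557) (nat_lit 654) (nat_lit 7693) (.d (nat_lit 559) (nat_lit 524) (nat_lit 3596) (nat_lit 593) (nat_lit 557)))) (.a (.f (nat_lit 621) (nat_lit 653) (nat_lit 5645) (.f (nat_lit 494) (nat_lit 589) (nat_lit 5613) (.d (nat_lit 493) (nat_lit 461) (nat_lit 7629) (nat_lit 525) (nat_lit 7661)))) (.f (nat_lit 621) (nat_lit 653) (nat_lit 5645) (.f (nat_lit 589) (nat_lit 494) (nat_lit 5613) (.f (nat_lit 559) (nat_lit 561) (nat_lit 1581) (.d (nat_lit 557) (nat_lit 588) (nat_lit 1580) (nat_lit 593) (nat_lit 557)))))))) (.a s1975 (.a (.p (nat_lit 655) (.a (.f (nat_lit 654) (nat_lit 687) (nat_lit 4654) (.f (nat_lit 653) (nat_lit 685) (nat_lit 5677) (.f (nat_lit 621) (nat_lit 526) (nat_lit 5645) (.d (nat_lit 620) (nat_lit 619) (nat_lit 619) (nat_lit 656) (nat_lit 3692))))) (.a (.d (nat_lit 623) (nat_lit 526) (nat_lit 4622) (nat_lit 624) (nat_lit 5647)) (.f (nat_lit 687) (nat_lit 654) (nat_lit 4654) (.d (nat_lit 624) (nat_lit 623) (nat_lit 5647) (nat_lit 656) (nat_lit 5679)))))) (.a (.p (nat_lit 557) (.a (.f (nat_lit 525) (nat_lit 654) (nat_lit 7693) (.d (nat_lit 493) (nat_lit 461) (nat_lit 4557) (nat_lit 526) (nat_lit 7661))) (.f (nat_lit 559) (nat_lit 593) (nat_lit 557) (.d (nat_lit 589) (nat_lit 561) (nat_lit 1581) (nat_lit 588) (nat_lit 1580))))) (.a (.p (nat_lit 557) (.a (.f (nat_lit 654) (nat_lit 525) (nat_lit 7693) (.f (nat_lit 686) (nat_lit 589) (nat_lit 7725) (.d (nat_lit 685) (nat_lit 653) (nat_lit 5677) (nat_lit 717) (nat_lit 5709)))) (.a (.f (nat_lit 559) (nat_lit 593) (nat_lit 557) (.d (nat_lit 589) (nat_lit 561) (nat_lit 1581) (nat_lit 588) (nat_lit 1580))) (.f (nat_lit 654) (nat_lit 525) (nat_lit 7693) (.f (nat_lit 655) (nat_lit 687) (nat_lit 4654) (.f (nat_lit 653) (nat_lit 685) (nat_lit 5677) (.f (nat_lit 624) (nat_lit 623) (nat_lit 5647) (.f (nat_lit 656) (nat_lit 625) (nat_lit 2669) (.f (nat_lit 688) (nat_lit 689) (nat_lit 653) (.d (nat_lit 593) (nat_lit 559) (nat_lit 557) (nat_lit 561) (nat_lit 6704))))))))))) s1990))))))) (.p (nat_lit 526) (.a s1386 (.a s1890 (.a (.p (nat_lit 494) (.a (.f (nat_lit 493) (nat_lit 461) (nat_lit 7629) (.f (nat_lit 525) (nat_lit 622) (nat_lit 7661) (.f (nat_lit 463) (nat_lit 495) (nat_lit 6606) (.f (nat_lit 462) (nat_lit 431) (nat_lit 6574) (.d (nat_lit 430) (nat_lit 398) (nat_lit 5517) (nat_lit 557) (nat_lit 5549)))))) (.a (.f (nat_lit 591) (nat_lit 623) (nat_lit 4590) (.f (nat_lit 593) (nat_lit 557) (nat_lit 3629) (.f (nat_lit 622) (nat_lit 621) (nat_lit 1613) (.d (nat_lit 493) (nat_lit 461) (nat_lit 7629) (nat_lit 525) (nat_lit 7661))))) (.a (.f (nat_lit 461) (nat_lit 493) (nat_lit 7629) (.f (nat_lit 462) (nat_lit 429) (nat_lit 7597) (.d (nat_lit 463) (nat_lit 431) (nat_lit 6574) (nat_lit 495) (nat_lit 6606)))) (.f (nat_lit 591) (nat_lit 623) (nat_lit 4590) (.f (nat_lit 593) (nat_lit 557) (nat_lit 3629) (.f (nat_lit 562) (nat_lit 561) (nat_lit 2606) (.f (nat_lit 594) (nat_lit 563) (nat_lit 2607) (.d (nat_lit 626) (nat_lit 625) (nat_lit 590) (nat_lit 627) (nat_lit 591)))))))))) (.a (.p (nat_lit 494) (.a (.f (nat_lit 461) (nat_lit 493) (nat_lit 7629) (.f (nat_lit 462) (nat_lit 429) (nat_lit 7597) (.d (nat_lit 463) (nat_lit 431) (nat_lit 6574) (nat_lit 495) (nat_lit 6606)))) (.a (.f (nat_lit 591) (nat_lit 623) (nat_lit 4590) (.f (nat_lit 593) (nat_lit 557) (nat_lit 3629) (.d (nat_lit 559) (nat_lit 462) (nat_lit 4558) (nat_lit 594) (nat_lit 3630)))) (.f (nat_lit 591) (nat_lit 623) (nat_lit 4590) (.f (nat_lit 593) (nat_lit 557) (nat_lit 3629) (.f (nat_lit 594) (nat_lit 559) (nat_lit 3630) (.d (nat_lit 626) (nat_lit 625) (nat_lit 590) (nat_lit 627) (nat_lit 591)))))))) (.a (.p (nat_lit 494) (.a (.f (nat_lit 461) (nat_lit 493) (nat_lit 7629) (.f (nat_lit 462) (nat_lit 429) (nat_lit 7597) (.d (nat_lit 463) (nat_lit 431) (nat_lit 6574) (nat_lit 495) (nat_lit 6606)))) (.a (.f (nat_lit 591) (nat_lit 623) (nat_lit 4590) (.f (nat_lit 559) (nat_lit 462) (nat_lit 4558) (.d (nat_lit 561) (nat_lit 525) (nat_lit 3597) (nat_lit 562) (nat_lit 1582)))) (.f (nat_lit 591) (nat_lit 623) (nat_lit 4590) (.f (nat_lit 493) (nat_lit 461) (nat_lit 7629) (.f (nat_lit 622) (nat_lit 525) (nat_lit 7661) (.d (nat_lit 621) (nat_lit 593) (nat_lit 1613) (nat_lit 653) (nat_lit 5645)))))))) (.a (.p (nat_lit 525) (.a (.f (nat_lit 493) (nat_lit 622) (nat_lit 7661) (.d (nat_lit 461) (nat_lit 429) (nat_lit 4525) (nat_lit 494) (nat_lit 7629))) (.a (.f (nat_lit 622) (nat_lit 493) (nat_lit 7661) (.f (nat_lit 654) (nat_lit 557) (nat_lit 7693) (.d (nat_lit 653) (nat_lit 621) (nat_lit 5645) (nat_lit 685) (nat_lit 5677)))) (.f (nat_lit 559) (nat_lit 561) (nat_lit 3597) (.d (nat_lit 524) (nat_lit 523) (nat_lit 523) (nat_lit 557) (nat_lit 3596)))))) (.p (nat_lit 622) (.a (.f (nat_lit 655) (nat_lit 623) (nat_lit 4622) (.f (nat_lit 654) (nat_lit 687) (nat_lit 4654) (.d (nat_lit 653) (nat_lit 621) (nat_lit 5645) (nat_lit 685) (nat_lit 5677)))) (.a (.f (nat_lit 621) (nat_lit 653) (nat_lit 5645) (.f (nat_lit 593) (nat_lit 591) (nat_lit 1613) (.f (nat_lit 559) (nat_lit 557) (nat_lit 557) (.d (nat_lit 561) (nat_lit 525) (nat_lit 3597) (nat_lit 594) (nat_lit 558))))) (.f (nat_lit 623) (nat_lit 655) (nat_lit 4622) (.f (nat_lit 591) (nat_lit 494) (nat_lit 4590) (.d (nat_lit 593) (nat_lit 557) (nat_lit 3629) (nat_lit 594) (nat_lit 1614))))))))))))))))))))) (.a (.p (nat_lit 559) (.a (.f (nat_lit 593) (nat_lit 557) (nat_lit 557) (.d (nat_lit 594) (nat_lit 561) (nat_lit 558) (nat_lit 591) (nat_lit 3630))) (.a (.f (nat_lit 557) (nat_lit 593) (nat_lit 557) (.f (nat_lit 556) (nat_lit 591) (nat_lit 556) (.d (nat_lit 588) (nat_lit 587) (nat_lit 1579) (nat_lit 589) (nat_lit 1580)))) (.a (.p (nat_lit 525) (.a (.f (nat_lit 557) (nat_lit 524) (nat_lit 3596) (.f (nat_lit 589) (nat_lit 588) (nat_lit 1580) (.d (nat_lit 561) (nat_lit 526) (nat_lit 3597) (nat_lit 590) (nat_lit 1581)))) (.a (.f (nat_lit 557) (nat_lit 524) (nat_lit 3596) (.f (nat_lit 556) (nat_lit 591) (nat_lit 556) (.d (nat_lit 588) (nat_lit 587) (nat_lit 1579) (nat_lit 589) (nat_lit 1580)))) (.a (.f (nat_lit 561) (nat_lit 526) (nat_lit 3597) (.f (nat_lit 590) (nat_lit 589) (nat_lit 1581) (.f (nat_lit 562) (nat_lit 591) (nat_lit 1582) (.f (nat_lit 595) (nat_lit 594) (nat_lit 559) (.f (nat_lit 563) (nat_lit 596) (nat_lit 560) (.d (nat_lit 531) (nat_lit 530) (nat_lit 2575) (nat_lit 532) (nat_lit 2576))))))) (.f (nat_lit 557) (nat_lit 524) (nat_lit 3596) (.f (nat_lit 556) (nat_lit 591) (nat_lit 556) (.f (nat_lit 526) (nat_lit 561) (nat_lit 3597) (.f (nat_lit 555) (nat_lit 554) (nat_lit 2570) (.d (nat_lit 587) (nat_lit 586) (nat_lit 1578) (nat_lit 588) (nat_lit 1579)))))))))) (.a (.p (nat_lit 561) (.a (.f (nat_lit 590) (nat_lit 589) (nat_lit 1581) (.f (nat_lit 562) (nat_lit 591) (nat_lit 1582) (.f (nat_lit 531) (nat_lit 530) (nat_lit 2575) (.f (nat_lit 563) (nat_lit 532) (nat_lit 2576) (.d (nat_lit 595) (nat_lit 594) (nat_lit 559) (nat_lit 596) (nat_lit 560)))))) (.a (.f (nat_lit 593) (nat_lit 594) (nat_lit 558) (.f (nat_lit 590) (nat_lit 589) (nat_lit 1581) (.f (nat_lit 591) (nat_lit 562) (nat_lit 1582) (.d (nat_lit 625) (nat_lit 626) (nat_lit 590) (nat_lit 657) (nat_lit 7696))))) (.a (.f (nat_lit 590) (nat_lit 589) (nat_lit 1581) (.f (nat_lit 562) (nat_lit 591) (nat_lit 1582) (.f (nat_lit 531) (nat_lit 530) (nat_lit 2575) (.f (nat_lit 563) (nat_lit 532) (nat_lit 2576) (.f (nat_lit 564) (nat_lit 593) (nat_lit 1584) (.d (nat_lit 596) (nat_lit 595) (nat_lit 560) (nat_lit 597) (nat_lit 561))))))) (.a (.p (nat_lit 562) (.a (.d (nat_lit 594) (nat_lit 593) (nat_lit 558) (nat_lit 595) (nat_lit 559)) (.a (.f (nat_lit 531) (nat_lit 530) (nat_lit 2575) (.f (nat_lit 563) (nat_lit 532) (nat_lit 2576) (.d (nat_lit 595) (nat_lit 594) (nat_lit 559) (nat_lit 596) (nat_lit 560)))) (.a (.f (nat_lit 593) (nat_lit 594) (nat_lit 558) (.f (nat_lit 563) (nat_lit 564) (nat_lit 1584) (.d (nat_lit 531) (nat_lit 530) (nat_lit 2575) (nat_lit 532) (nat_lit 2576)))) (.f (nat_lit 531) (nat_lit 530) (nat_lit 2575) (.f (nat_lit 563) (nat_lit 532) (nat_lit 2576) (.f (nat_lit 564) (nat_lit 593) (nat_lit 1584) (.d (nat_lit 596) (nat_lit 595) (nat_lit 560) (nat_lit 597) (nat_lit 561))))))))) (.f (nat_lit 593) (nat_lit 594) (nat_lit 558) (.f (nat_lit 625) (nat_lit 657) (nat_lit 7696) (.f (nat_lit 590) (nat_lit 589) (nat_lit 1581) (.f (nat_lit 591) (nat_lit 626) (nat_lit 590) (.f (nat_lit 526) (nat_lit 525) (nat_lit 3597) (.d (nat_lit 494) (nat_lit 462) (nat_lit 4558) (nat_lit 623) (nat_lit 4590)))))))))))) (.f (nat_lit 557) (nat_lit 593) (nat_lit 557) (.f (nat_lit 589) (nat_lit 588) (nat_lit 1580) (.f (nat_lit 525) (nat_lit 524) (nat_lit 3596) (.d (nat_lit 561) (nat_lit 526) (nat_lit 3597) (nat_lit 590) (nat_lit 1581)))))))))) (.a (.p (nat_lit 590) (.a s1220 (.a (.p (nat_lit 526) (.a s1850 (.a s1861 (.a s1364 (.a s1865 (.a s1871 (.a (.p (nat_lit 622) (.a (.f (nat_lit 621) (nat_lit 653) (nat_lit 5645) (.f (nat_lit 591) (nat_lit 593) (nat_lit 1613) (.d (nat_lit 620) (nat_lit 589) (nat_lit 1612) (nat_lit 619) (nat_lit 2635)))) (.a (.f (nat_lit 525) (nat_lit 493) (nat_lit 7661) (.f (nat_lit 654) (nat_lit 557) (nat_lit 7693) (.d (nat_lit 653) (nat_lit 621) (nat_lit 5645) (nat_lit 685) (nat_lit 5677)))) (.f (nat_lit 525) (nat_lit 493) (nat_lit 7661) (.f (nat_lit 557) (nat_lit 654) (nat_lit 7693) (.d (nat_lit 559) (nat_lit 524) (nat_lit 3596) (nat_lit 593) (nat_lit 557))))))) (.a s1876 (.a s1881 (.a s1885 s2081)))))))))) (.a s1896 (.a s1413 (.a (.p (nat_lit 622) (.a s1279 (.a (.p (nat_lit 621) (.a (.f (nat_lit 591) (nat_lit 593) (nat_lit 1613) (.d (nat_lit 620) (nat_lit 589) (nat_lit 1612) (nat_lit 619) (nat_lit 2635))) (.a (.f (nat_lit 653) (nat_lit 526) (nat_lit 5645) (.d (nat_lit 685) (nat_lit 589) (nat_lit 6701) (nat_lit 654) (nat_lit 5677))) (.f (nat_lit 653) (nat_lit 526) (nat_lit 5645) (.d (nat_lit 685) (nat_lit 654) (nat_lit 5677) (nat_lit 717) (nat_lit 6733)))))) (.a (.p (nat_lit 654) (.a (.f (nat_lit 653) (nat_lit 685) (nat_lit 5677) (.f (nat_lit 621) (nat_lit 526) (nat_lit 5645) (.f (nat_lit 655) (nat_lit 687) (nat_lit 4654) (.d (nat_lit 656) (nat_lit 620) (nat_lit 3692) (nat_lit 657) (nat_lit 3693))))) (.a (.f (nat_lit 687) (nat_lit 655) (nat_lit 4654) (.f (nat_lit 686) (nat_lit 719) (nat_lit 4686) (.d (nat_lit 685) (nat_lit 653) (nat_lit 5677) (nat_lit 717) (nat_lit 5709)))) (.a (.f (nat_lit 685) (nat_lit 653) (nat_lit 5677) (.f (nat_lit 686) (nat_lit 717) (nat_lit 5709) (.f (nat_lit 591) (nat_lit 559) (nat_lit 6702) (.f (nat_lit 589) (nat_lit 561) (nat_lit 2605) (.d (nat_lit 621) (nat_lit 620) (nat_lit 1612) (nat_lit 718) (nat_lit 7757)))))) (.f (nat_lit 687) (nat_lit 655) (nat_lit 4654) (.f (nat_lit 686) (nat_lit 719) (nat_lit 4686) (.f (nat_lit 591) (nat_lit 559) (nat_lit 6702) (.f (nat_lit 589) (nat_lit 561) (nat_lit 2605) (.d (nat_lit 621) (nat_lit 620) (nat_lit 1612) (nat_lit 718) (nat_lit 7757)))))))))) (.a (.p (nat_lit 655) (.a (.f (nat_lit 654) (nat_lit 687) (nat_lit 4654) (.f (nat_lit 653) (nat_lit 685) (nat_lit 5677) (.f (nat_lit 621) (nat_lit 526) (nat_lit 5645) (.d (nat_lit 620) (nat_lit 619) (nat_lit 619) (nat_lit 656) (nat_lit 3692))))) (.a (.d (nat_lit 623) (nat_lit 526) (nat_lit 4622) (nat_lit 624) (nat_lit 5647)) (.f (nat_lit 687) (nat_lit 654) (nat_lit 4654) (.d (nat_lit 624) (nat_lit 623) (nat_lit 5647) (nat_lit 656) (nat_lit 5679)))))) (.a s1934 (.a s1944 (.a s1945 (.p (nat_lit 591) (.a (.f (nat_lit 621) (nat_lit 593) (nat_lit 1613) (.d (nat_lit 620) (nat_lit 589) (nat_lit 1612) (nat_lit 619) (nat_lit 2635))) (.a (.f (nat_lit 589) (nat_lit 561) (nat_lit 2605) (.f (nat_lit 588) (nat_lit 559) (nat_lit 2604) (.d (nat_lit 623) (nat_lit 587) (nat_lit 587) (nat_lit 624) (nat_lit 588)))) (.f (nat_lit 593) (nat_lit 621) (nat_lit 1613) (.f (nat_lit 594) (nat_lit 559) (nat_lit 3630) (.d (nat_lit 562) (nat_lit 561) (nat_lit 2606) (nat_lit 563) (nat_lit 2607))))))))))))))) (.a (.p (nat_lit 622) (.a s1290 (.a (.p (nat_lit 526) (.a (.f (nat_lit 525) (nat_lit 493) (nat_lit 7661) (.f (nat_lit 557) (nat_lit 654) (nat_lit 7693) (.d (nat_lit 559) (nat_lit 524) (nat_lit 3596) (nat_lit 593) (nat_lit 557)))) (.a (.f (nat_lit 621) (nat_lit 653) (nat_lit 5645) (.f (nat_lit 494) (nat_lit 589) (nat_lit 5613) (.d (nat_lit 493) (nat_lit 461) (nat_lit 7629) (nat_lit 525) (nat_lit 7661)))) (.f (nat_lit 621) (nat_lit 653) (nat_lit 5645) (.f (nat_lit 589) (nat_lit 494) (nat_lit 5613) (.f (nat_lit 559) (nat_lit 561) (nat_lit 1581) (.d (nat_lit 557) (nat_lit 588) (nat_lit 1580) (nat_lit 593) (nat_lit 557)))))))) (.a s1975 (.a (.p (nat_lit 655) (.a (.f (nat_lit 654) (nat_lit 687) (nat_lit 4654) (.f (nat_lit 653) (nat_lit 685) (nat_lit 5677) (.f (nat_lit 621) (nat_lit 526) (nat_lit 5645) (.d (nat_lit 620) (nat_lit 619) (nat_lit 619) (nat_lit 656) (nat_lit 3692))))) (.a (.d (nat_lit 623) (nat_lit 526) (nat_lit 4622) (nat_lit 624) (nat_lit 5647)) (.f (nat_lit 687) (nat_lit 654) (nat_lit 4654) (.d (nat_lit 624) (nat_lit 623) (nat_lit 5647) (nat_lit 656) (nat_lit 5679)))))) (.a (.p (nat_lit 557) (.a (.f (nat_lit 525) (nat_lit 654) (nat_lit 7693) (.d (nat_lit 493) (nat_lit 461) (nat_lit 4557) (nat_lit 526) (nat_lit 7661))) (.f (nat_lit 559) (nat_lit 593) (nat_lit 557) (.d (nat_lit 589) (nat_lit 561) (nat_lit 1581) (nat_lit 588) (nat_lit 1580))))) (.a (.p (nat_lit 557) (.a (.f (nat_lit 654) (nat_lit 525) (nat_lit 7693) (.f (nat_lit 686) (nat_lit 589) (nat_lit 7725) (.d (nat_lit 685) (nat_lit 653) (nat_lit 5677) (nat_lit 717) (nat_lit 5709)))) (.a (.f (nat_lit 559) (nat_lit 593) (nat_lit 557) (.d (nat_lit 589) (nat_lit 561) (nat_lit 1581) (nat_lit 588) (nat_lit 1580))) (.f (nat_lit 654) (nat_lit 525) (nat_lit 7693) (.f (nat_lit 655) (nat_lit 687) (nat_lit 4654) (.f (nat_lit 653) (nat_lit 685) (nat_lit 5677) (.f (nat_lit 623) (nat_lit 624) (nat_lit 5647) (.f (nat_lit 652) (nat_lit 651) (nat_lit 2667) (.f (nat_lit 620) (nat_lit 619) (nat_lit 3691) (.f (nat_lit 656) (nat_lit 621) (nat_lit 620) (.f (nat_lit 657) (nat_lit 658) (nat_lit 3694) (.d (nat_lit 689) (nat_lit 688) (nat_lit 653) (nat_lit 690) (nat_lit 654))))))))))))) s1990))))))) (.p (nat_lit 526) (.a s1386 (.a s2081 (.a (.p (nat_lit 494) (.a (.f (nat_lit 493) (nat_lit 461) (nat_lit 7629) (.f (nat_lit 525) (nat_lit 622) (nat_lit 7661) (.f (nat_lit 463) (nat_lit 495) (nat_lit 6606) (.f (nat_lit 462) (nat_lit 431) (nat_lit 6574) (.d (nat_lit 430) (nat_lit 398) (nat_lit 5517) (nat_lit 557) (nat_lit 5549)))))) (.a (.f (nat_lit 591) (nat_lit 623) (nat_lit 4590) (.f (nat_lit 593) (nat_lit 557) (nat_lit 3629) (.f (nat_lit 622) (nat_lit 621) (nat_lit 1613) (.d (nat_lit 493) (nat_lit 461) (nat_lit 7629) (nat_lit 525) (nat_lit 7661))))) (.a (.f (nat_lit 461) (nat_lit 493) (nat_lit 7629) (.f (nat_lit 462) (nat_lit 429) (nat_lit 7597) (.d (nat_lit 463) (nat_lit 431) (nat_lit 6574) (nat_lit 495) (nat_lit 6606)))) (.a (.f (nat_lit 591) (nat_lit 623) (nat_lit 4590) (.f (nat_lit 557) (nat_lit 593) (nat_lit 3629) (.f (nat_lit 463) (nat_lit 495) (nat_lit 6606) (.f (nat_lit 462) (nat_lit 431) (nat_lit 6574) (.f (nat_lit 430) (nat_lit 525) (nat_lit 5549) (.d (nat_lit 429) (nat_lit 397) (nat_lit 7565) (nat_lit 461) (nat_lit 7597))))))) (.f (nat_lit 591) (nat_lit 623) (nat_lit 4590) (.f (nat_lit 557) (nat_lit 593) (nat_lit 3629) (.f (nat_lit 463) (nat_lit 495) (nat_lit 6606) (.f (nat_lit 462) (nat_lit 431) (nat_lit 6574) (.f (nat_lit 525) (nat_lit 430) (nat_lit 5549) (.d (nat_lit 622) (nat_lit 493) (nat_lit 7661) (nat_lit 654) (nat_lit 7693)))))))))))) (.a (.p (nat_lit 494) (.a (.f (nat_lit 461) (nat_lit 493) (nat_lit 7629) (.f (nat_lit 462) (nat_lit 429) (nat_lit 7597) (.d (nat_lit 463) (nat_lit 431) (nat_lit 6574) (nat_lit 495) (nat_lit 6606)))) (.a (.f (nat_lit 591) (nat_lit 623) (nat_lit 4590) (.f (nat_lit 593) (nat_lit 557) (nat_lit 3629) (.d (nat_lit 559) (nat_lit 462) (nat_lit 4558) (nat_lit 594) (nat_lit 3630)))) (.f (nat_lit 591) (nat_lit 623) (nat_lit 4590) (.f (nat_lit 593) (nat_lit 557) (nat_lit 3629) (.f (nat_lit 594) (nat_lit 559) (nat_lit 3630) (.d (nat_lit 562) (nat_lit 561) (nat_lit 2606) (nat_lit 563) (nat_lit 2607)))))))) (.a (.p (nat_lit 494) (.a (.f (nat_lit 461) (nat_lit 493) (nat_lit 7629) (.f (nat_lit 462) (nat_lit 429) (nat_lit 7597) (.d (nat_lit 463) (nat_lit 431) (nat_lit 6574) (nat_lit 495) (nat_lit 6606)))) (.a (.f (nat_lit 591) (nat_lit 623) (nat_lit 4590) (.f (nat_lit 559) (nat_lit 462) (nat_lit 4558) (.d (nat_lit 561) (nat_lit 525) (nat_lit 3597) (nat_lit 562) (nat_lit 1582)))) (.f (nat_lit 591) (nat_lit 623) (nat_lit 4590) (.f (nat_lit 493) (nat_lit 461) (nat_lit 7629) (.f (nat_lit 622) (nat_lit 525) (nat_lit 7661) (.d (nat_lit 621) (nat_lit 593) (nat_lit 1613) (nat_lit 653) (nat_lit 5645)))))))) (.a (.p (nat_lit 525) (.a (.f (nat_lit 493) (nat_lit 622) (nat_lit 7661) (.d (nat_lit 461) (nat_lit 429) (nat_lit 4525) (nat_lit 494) (nat_lit 7629))) (.a (.f (nat_lit 622) (nat_lit 493) (nat_lit 7661) (.f (nat_lit 654) (nat_lit 557) (nat_lit 7693) (.d (nat_lit 653) (nat_lit 621) (nat_lit 5645) (nat_lit 685) (nat_lit 5677)))) (.f (nat_lit 559) (nat_lit 561) (nat_lit 3597) (.d (nat_lit 524) (nat_lit 523) (nat_lit 523) (nat_lit 557) (nat_lit 3596)))))) (.p (nat_lit 622) (.a (.f (nat_lit 655) (nat_lit 623) (nat_lit 4622) (.f (nat_lit 654) (nat_lit 687) (nat_lit 4654) (.d (nat_lit 653) (nat_lit 621) (nat_lit 5645) (nat_lit 685) (nat_lit 5677)))) (.a (.f (nat_lit 621) (nat_lit 653) (nat_lit 5645) (.f (nat_lit 593) (nat_lit 591) (nat_lit 1613) (.f (nat_lit 559) (nat_lit 557) (nat_lit 557) (.d (nat_lit 561) (nat_lit 525) (nat_lit 3597) (nat_lit 594) (nat_lit 558))))) (.f (nat_lit 623) (nat_lit 655) (nat_lit 4622) (.f (nat_lit 591) (nat_lit 494) (nat_lit 4590) (.d (nat_lit 593) (nat_lit 557) (nat_lit 3629) (nat_lit 594) (nat_lit 1614))))))))))))))))))))) (.a (.p (nat_lit 590) (.a s1413 (.a (.p (nat_lit 624) (.a (.p (nat_lit 656) (.a (.f (nat_lit 687) (nat_lit 655) (nat_lit 5679) (.f (nat_lit 688) (nat_lit 719) (nat_lit 5711) (.f (nat_lit 591) (nat_lit 559) (nat_lit 7727) (.f (nat_lit 589) (nat_lit 625) (nat_lit 589) (.f (nat_lit 557) (nat_lit 556) (nat_lit 3628) (.f (nat_lit 621) (nat_lit 620) (nat_lit 1612) (.d (nat_lit 526) (nat_lit 494) (nat_lit 5613) (nat_lit 653) (nat_lit 6669)))))))) (.a (.f (nat_lit 687) (nat_lit 655) (nat_lit 5679) (.f (nat_lit 688) (nat_lit 719) (nat_lit 5711) (.d (nat_lit 689) (nat_lit 657) (nat_lit 4656) (nat_lit 721) (nat_lit 4688)))) (.d (nat_lit 657) (nat_lit 625) (nat_lit 4624) (nat_lit 689) (nat_lit 4656))))) (.a (.f (nat_lit 623) (nat_lit 655) (nat_lit 5647) (.f (nat_lit 625) (nat_lit 657) (nat_lit 4624) (.d (nat_lit 591) (nat_lit 589) (nat_lit 589) (nat_lit 626) (nat_lit 3662)))) (.a s2145 (.a (.f (nat_lit 625) (nat_lit 657) (nat_lit 4624) (.f (nat_lit 591) (nat_lit 589) (nat_lit 589) (.d (nat_lit 626) (nat_lit 623) (nat_lit 3662) (nat_lit 627) (nat_lit 3663)))) (.a s2155 (.f (nat_lit 655) (nat_lit 623) (nat_lit 5647) (.f (nat_lit 656) (nat_lit 687) (nat_lit 5679) (.d (nat_lit 657) (nat_lit 625) (nat_lit 4624) (nat_lit 689) (nat_lit 4656)))))))))) (.a (.p (nat_lit 526) (.a (.p (nat_lit 494) (.a (.f (nat_lit 621) (nat_lit 589) (nat_lit 5613) (.f (nat_lit 622) (nat_lit 653) (nat_lit 5645) (.d (nat_lit 493) (nat_lit 461) (nat_lit 7629) (nat_lit 525) (nat_lit 7661)))) (.a (.f (nat_lit 461) (nat_lit 493) (nat_lit 7629) (.f (nat_lit 462) (nat_lit 429) (nat_lit 7597) (.d (nat_lit 463) (nat_lit 431) (nat_lit 6574) (nat_lit 495) (nat_lit 6606)))) (.f (nat_lit 589) (nat_lit 621) (nat_lit 5613) (.f (nat_lit 591) (nat_lit 561) (nat_lit 2605) (.d (nat_lit 557) (nat_lit 462) (nat_lit 5581) (nat_lit 556) (nat_lit 3628))))))) (.a (.p (nat_lit 494) (.a (.f (nat_lit 621) (nat_lit 589) (nat_lit 5613) (.f (nat_lit 622) (nat_lit 653) (nat_lit 5645) (.d (nat_lit 493) (nat_lit 461) (nat_lit 7629) (nat_lit 525) (nat_lit 7661)))) (.a (.f (nat_lit 461) (nat_lit 493) (nat_lit 7629) (.f (nat_lit 462) (nat_lit 429) (nat_lit 7597) (.d (nat_lit 463) (nat_lit 431) (nat_lit 6574) (nat_lit 495) (nat_lit 6606)))) (.f (nat_lit 589) (nat_lit 621) (nat_lit 5613) (.f (nat_lit 462) (nat_lit 557) (nat_lit 5581) (.d (nat_lit 463) (nat_lit 431) (nat_lit 6574) (nat_lit 495) (nat_lit 6606))))))) (.a (.p (nat_lit 494) (.a (.f (nat_lit 621) (nat_lit 589) (nat_lit 5613) (.f (nat_lit 622) (nat_lit 653) (nat_lit 5645) (.d (nat_lit 493) (nat_lit 461) (nat_lit 7629) (nat_lit 525) (nat_lit 7661)))) (.a (.f (nat_lit 589) (nat_lit 621) (nat_lit 5613) (.f (nat_lit 591) (nat_lit 561) (nat_lit 2605) (.d (nat_lit 557) (nat_lit 462) (nat_lit 5581) (nat_lit 556) (nat_lit 3628)))) (.f (nat_lit 623) (nat_lit 591) (nat_lit 4590) (.d (nat_lit 655) (nat_lit 622) (nat_lit 4622) (nat_lit 624) (nat_lit 5647)))))) (.a (.p (nat_lit 494) (.a (.f (nat_lit 461) (nat_lit 493) (nat_lit 7629) (.f (nat_lit 462) (nat_lit 429) (nat_lit 7597) (.d (nat_lit 463) (nat_lit 431) (nat_lit 6574) (nat_lit 495) (nat_lit 6606)))) (.a (.f (nat_lit 589) (nat_lit 621) (nat_lit 5613) (.f (nat_lit 591) (nat_lit 561) (nat_lit 2605) (.d (nat_lit 557) (nat_lit 462) (nat_lit 5581) (nat_lit 556) (nat_lit 3628)))) (.f (nat_lit 591) (nat_lit 623) (nat_lit 4590) (.d (nat_lit 589) (nat_lit 561) (nat_lit 2605) (nat_lit 621) (nat_lit 5613)))))) (.a (.p (nat_lit 494) (.a (.f (nat_lit 621) (nat_lit 589) (nat_lit 5613) (.f (nat_lit 622) (nat_lit 653) (nat_lit 5645) (.d (nat_lit 493) (nat_lit 461) (nat_lit 7629) (nat_lit 525) (nat_lit 7661)))) (.a (.f (nat_lit 461) (nat_lit 493) (nat_lit 7629) (.f (nat_lit 462) (nat_lit 429) (nat_lit 7597) (.d (nat_lit 463) (nat_lit 431) (nat_lit 6574) (nat_lit 495) (nat_lit 6606)))) (.f (nat_lit 591) (nat_lit 623) (nat_lit 4590) (.d (nat_lit 589) (nat_lit 561) (nat_lit 2605) (nat_lit 621) (nat_lit 5613)))))) (.a (.p (nat_lit 622) (.a (.f (nat_lit 525) (nat_lit 493) (nat_lit 7661) (.f (nat_lit 654) (nat_lit 557) (nat_lit 7693) (.d (nat_lit 653) (nat_lit 621) (nat_lit 5645) (nat_lit 685) (nat_lit 5677)))) (.a (.f (nat_lit 655) (nat_lit 623) (nat_lit 4622) (.f (nat_lit 654) (nat_lit 687) (nat_lit 4654) (.d (nat_lit 653) (nat_lit 621) (nat_lit 5645) (nat_lit 685) (nat_lit 5677)))) (.a (.f (nat_lit 525) (nat_lit 493) (nat_lit 7661) (.f (nat_lit 654) (nat_lit 557) (nat_lit 7693) (.f (nat_lit 687) (nat_lit 655) (nat_lit 4654) (.f (nat_lit 686) (nat_lit 719) (nat_lit 4686) (.d (nat_lit 685) (nat_lit 653) (nat_lit 5677) (nat_lit 717) (nat_lit 5709)))))) (.a (.f (nat_lit 623) (nat_lit 655) (nat_lit 4622) (.f (nat_lit 621) (nat_lit 653) (nat_lit 5645) (.f (nat_lit 620) (nat_lit 591) (nat_lit 2636) (.f (nat_lit 588) (nat_lit 587) (nat_lit 3659) (.f (nat_lit 589) (nat_lit 624) (nat_lit 3660) (.f (nat_lit 652) (nat_lit 651) (nat_lit 1643) (.d (nat_lit 525) (nat_lit 493) (nat_lit 7661) (nat_lit 557) (nat_lit 5644)))))))) (.f (nat_lit 655) (nat_lit 623) (nat_lit 4622) (.f (nat_lit 654) (nat_lit 687) (nat_lit 4654) (.d (nat_lit 525) (nat_lit 493) (nat_lit 7661) (nat_lit 557) (nat_lit 7693))))))))) (.a (.p (nat_lit 494) (.a (.f (nat_lit 589) (nat_lit 621) (nat_lit 5613) (.f (nat_lit 591) (nat_lit 561) (nat_lit 2605) (.d (nat_lit 557) (nat_lit 462) (nat_lit 5581) (nat_lit 556) (nat_lit 3628)))) (.a (.f (nat_lit 589) (nat_lit 621) (nat_lit 5613) (.f (nat_lit 462) (nat_lit 557) (nat_lit 5581) (.d (nat_lit 463) (nat_lit 431) (nat_lit 6574) (nat_lit 495) (nat_lit 6606)))) (.a (.f (nat_lit 591) (nat_lit 623) (nat_lit 4590) (.d (nat_lit 589) (nat_lit 561) (nat_lit 2605) (nat_lit 621) (nat_lit 5613))) (.f (nat_lit 623) (nat_lit 591) (nat_lit 4590) (.d (nat_lit 655) (nat_lit 622) (nat_lit 4622) (nat_lit 624) (nat_lit 5647))))))) (.p (nat_lit 494) (.a (.f (nat_lit 493) (nat_lit 461) (nat_lit 7629) (.f (nat_lit 525) (nat_lit 622) (nat_lit 7661) (.f (nat_lit 463) (nat_lit 495) (nat_lit 6606) (.f (nat_lit 462) (nat_lit 431) (nat_lit 6574) (.d (nat_lit 430) (nat_lit 398) (nat_lit 5517) (nat_lit 557) (nat_lit 5549)))))) (.a (.f (nat_lit 623) (nat_lit 591) (nat_lit 4590) (.d (nat_lit 655) (nat_lit 622) (nat_lit 4622) (nat_lit 624) (nat_lit 5647))) (.f (nat_lit 461) (nat_lit 493) (nat_lit 7629) (.f (nat_lit 462) (nat_lit 429) (nat_lit 7597) (.d (nat_lit 463) (nat_lit 431) (nat_lit 6574) (nat_lit 495) (nat_lit 6606))))))))))))))) (.a (.p (nat_lit 526) (.a s1364 (.a s1371 (.a (.p (nat_lit 494) (.a (.f (nat_lit 621) (nat_lit 589) (nat_lit 5613) (.f (nat_lit 622) (nat_lit 653) (nat_lit 5645) (.d (nat_lit 493) (nat_lit 461) (nat_lit 7629) (nat_lit 525) (nat_lit 7661)))) (.a (.f (nat_lit 461) (nat_lit 493) (nat_lit 7629) (.f (nat_lit 462) (nat_lit 429) (nat_lit 7597) (.d (nat_lit 463) (nat_lit 431) (nat_lit 6574) (nat_lit 495) (nat_lit 6606)))) (.f (nat_lit 589) (nat_lit 621) (nat_lit 5613) (.f (nat_lit 591) (nat_lit 561) (nat_lit 2605) (.d (nat_lit 557) (nat_lit 462) (nat_lit 5581) (nat_lit 556) (nat_lit 3628))))))) (.a (.p (nat_lit 494) (.a (.f (nat_lit 589) (nat_lit 621) (nat_lit 5613) (.d (nat_lit 561) (nat_lit 559) (nat_lit 1581) (nat_lit 591) (nat_lit 2605))) (.f (nat_lit 461) (nat_lit 493) (nat_lit 7629) (.f (nat_lit 462) (nat_lit 429) (nat_lit 7597) (.d (nat_lit 463) (nat_lit 431) (nat_lit 6574) (nat_lit 495) (nat_lit 6606)))))) (.a (.p (nat_lit 525) (.a (.f (nat_lit 622) (nat_lit 493) (nat_lit 7661) (.f (nat_lit 654) (nat_lit 557) (nat_lit 7693) (.d (nat_lit 653) (nat_lit 621) (nat_lit 5645) (nat_lit 685) (nat_lit 5677)))) (.a (.f (nat_lit 561) (nat_lit 559) (nat_lit 3597) (.f (nat_lit 591) (nat_lit 589) (nat_lit 2605) (.f (nat_lit 622) (nat_lit 493) (nat_lit 7661) (.f (nat_lit 621) (nat_lit 653) (nat_lit 5645) (.d (nat_lit 620) (nat_lit 619) (nat_lit 2635) (nat_lit 623) (nat_lit 2636)))))) (.f (nat_lit 559) (nat_lit 561) (nat_lit 3597) (.d (nat_lit 524) (nat_lit 523) (nat_lit 523) (nat_lit 557) (nat_lit 3596)))))) (.a s1390 (.a s1400 (.a s1412 (.p (nat_lit 525) (.a (.f (nat_lit 493) (nat_lit 622) (nat_lit 7661) (.d (nat_lit 461) (nat_lit 429) (nat_lit 4525) (nat_lit 494) (nat_lit 7629))) (.a (.f (nat_lit 622) (nat_lit 493) (nat_lit 7661) (.f (nat_lit 654) (nat_lit 557) (nat_lit 7693) (.d (nat_lit 653) (nat_lit 621) (nat_lit 5645) (nat_lit 685) (nat_lit 5677)))) (.f (nat_lit 559) (nat_lit 561) (nat_lit 3597) (.d (nat_lit 524) (nat_lit 523) (nat_lit 523) (nat_lit 557) (nat_lit 3596))))))))))))))) (.a (.p (nat_lit 624) (.a s2145 (.a (.f (nat_lit 657) (nat_lit 625) (nat_lit 4624) (.f (nat_lit 656) (nat_lit 689) (nat_lit 4656) (.f (nat_lit 687) (nat_lit 655) (nat_lit 5679) (.f (nat_lit 688) (nat_lit 719) (nat_lit 5711) (.f (nat_lit 591) (nat_lit 559) (nat_lit 7727) (.f (nat_lit 589) (nat_lit 561) (nat_lit 2605) (.f (nat_lit 621) (nat_lit 620) (nat_lit 1612) (.d (nat_lit 685) (nat_lit 653) (nat_lit 6701) (nat_lit 686) (nat_lit 2701))))))))) (.a (.f (nat_lit 623) (nat_lit 655) (nat_lit 5647) (.f (nat_lit 625) (nat_lit 657) (nat_lit 4624) (.d (nat_lit 591) (nat_lit 589) (nat_lit 589) (nat_lit 626) (nat_lit 3662)))) (.a (.f (nat_lit 625) (nat_lit 657) (nat_lit 4624) (.f (nat_lit 591) (nat_lit 589) (nat_lit 589) (.d (nat_lit 626) (nat_lit 623) (nat_lit 3662) (nat_lit 627) (nat_lit 3663)))) (.a s2155 (.f (nat_lit 655) (nat_lit 623) (nat_lit 5647) (.f (nat_lit 656) (nat_lit 687) (nat_lit 5679) (.d (nat_lit 657) (nat_lit 625) (nat_lit 4624) (nat_lit 689) (nat_lit 4656)))))))))) (.a (.p (nat_lit 624) (.a (.p (nat_lit 589) (.a (.d (nat_lit 591) (nat_lit 561) (nat_lit 2605) (nat_lit 625) (nat_lit 589)) (.a (.f (nat_lit 591) (nat_lit 625) (nat_lit 589) (.f (nat_lit 588) (nat_lit 559) (nat_lit 2604) (.d (nat_lit 620) (nat_lit 619) (nat_lit 1611) (nat_lit 621) (nat_lit 1612)))) (.a (.d (nat_lit 561) (nat_lit 559) (nat_lit 1581) (nat_lit 591) (nat_lit 2605)) (.f (nat_lit 559) (nat_lit 561) (nat_lit 1581) (.d (nat_lit 588) (nat_lit 557) (nat_lit 1580) (nat_lit 587) (nat_lit 2603))))))) (.a (.f (nat_lit 623) (nat_lit 655) (nat_lit 5647) (.f (nat_lit 625) (nat_lit 657) (nat_lit 4624) (.d (nat_lit 591) (nat_lit 589) (nat_lit 589) (nat_lit 626) (nat_lit 3662)))) (.a s2155 (.f (nat_lit 655) (nat_lit 623) (nat_lit 5647) (.f (nat_lit 656) (nat_lit 687) (nat_lit 5679) (.d (nat_lit 657) (nat_lit 625) (nat_lit 4624) (nat_lit 689) (nat_lit 4656)))))))) (.a (.p (nat_lit 622) (.a s1975 (.a (.p (nat_lit 655) (.a (.f (nat_lit 654) (nat_lit 687) (nat_lit 4654) (.f (nat_lit 653) (nat_lit 685) (nat_lit 5677) (.f (nat_lit 621) (nat_lit 526) (nat_lit 5645) (.d (nat_lit 620) (nat_lit 619) (nat_lit 619) (nat_lit 656) (nat_lit 3692))))) (.a (.d (nat_lit 623) (nat_lit 526) (nat_lit 4622) (nat_lit 624) (nat_lit 5647)) (.f (nat_lit 687) (nat_lit 654) (nat_lit 4654) (.d (nat_lit 624) (nat_lit 623) (nat_lit 5647) (nat_lit 656) (nat_lit 5679)))))) (.a (.p (nat_lit 526) (.a (.f (nat_lit 621) (nat_lit 653) (nat_lit 5645) (.f (nat_lit 494) (nat_lit 589) (nat_lit 5613) (.d (nat_lit 493) (nat_lit 461) (nat_lit 7629) (nat_lit 525) (nat_lit 7661)))) (.a (.f (nat_lit 621) (nat_lit 653) (nat_lit 5645) (.f (nat_lit 494) (nat_lit 589) (nat_lit 5613) (.f (nat_lit 463) (nat_lit 495) (nat_lit 6606) (.f (nat_lit 462) (nat_lit 431) (nat_lit 6574) (.d (nat_lit 461) (nat_lit 429) (nat_lit 7597) (nat_lit 493) (nat_lit 7629)))))) (.a (.f (nat_lit 525) (nat_lit 493) (nat_lit 7661) (.f (nat_lit 654) (nat_lit 557) (nat_lit 7693) (.d (nat_lit 653) (nat_lit 621) (nat_lit 5645) (nat_lit 685) (nat_lit 5677)))) (.a (.f (nat_lit 621) (nat_lit 653) (nat_lit 5645) (.f (nat_lit 589) (nat_lit 494) (nat_lit 5613) (.f (nat_lit 559) (nat_lit 561) (nat_lit 1581) (.d (nat_lit 588) (nat_lit 557) (nat_lit 1580) (nat_lit 587) (nat_lit 2603))))) (.f (nat_lit 525) (nat_lit 493) (nat_lit 7661) (.f (nat_lit 559) (nat_lit 561) (nat_lit 3597) (.d (nat_lit 524) (nat_lit 523) (nat_lit 523) (nat_lit 557) (nat_lit 3596))))))))) (.a (.p (nat_lit 654) (.a (.f (nat_lit 687) (nat_lit 655) (nat_lit 4654) (.f (nat_lit 686) (nat_lit 719) (nat_lit 4686) (.d (nat_lit 685) (nat_lit 653) (nat_lit 5677) (nat_lit 717) (nat_lit 5709)))) (.a (.f (nat_lit 557) (nat_lit 525) (nat_lit 7693) (.f (nat_lit 589) (nat_lit 686) (nat_lit 7725) (.d (nat_lit 559) (nat_lit 561) (nat_lit 1581) (nat_lit 588) (nat_lit 1580)))) (.f (nat_lit 655) (nat_lit 687) (nat_lit 4654) (.d (nat_lit 623) (nat_lit 526) (nat_lit 4622) (nat_lit 624) (nat_lit 5647)))))) (.a (.p (nat_lit 624) (.a (.f (nat_lit 657) (nat_lit 625) (nat_lit 4624) (.f (nat_lit 656) (nat_lit 689) (nat_lit 4656) (.f (nat_lit 655) (nat_lit 687) (nat_lit 5679) (.f (nat_lit 654) (nat_lit 621) (nat_lit 3693) (.d (nat_lit 685) (nat_lit 653) (nat_lit 5677) (nat_lit 686) (nat_lit 1677)))))) (.a (.f (nat_lit 623) (nat_lit 655) (nat_lit 5647) (.f (nat_lit 589) (nat_lit 625) (nat_lit 3661) (.d (nat_lit 588) (nat_lit 587) (nat_lit 587) (nat_lit 621) (nat_lit 3660)))) (.a (.f (nat_lit 625) (nat_lit 657) (nat_lit 4624) (.f (nat_lit 589) (nat_lit 623) (nat_lit 3661) (.f (nat_lit 559) (nat_lit 561) (nat_lit 1581) (.d (nat_lit 588) (nat_lit 557) (nat_lit 1580) (nat_lit 587) (nat_lit 2603))))) (.f (nat_lit 655) (nat_lit 623) (nat_lit 5647) (.d (nat_lit 687) (nat_lit 654) (nat_lit 4654) (nat_lit 656) (nat_lit 5679))))))) (.a (.p (nat_lit 526) (.a (.f (nat_lit 621) (nat_lit 653) (nat_lit 5645) (.f (nat_lit 494) (nat_lit 589) (nat_lit 5613) (.d (nat_lit 493) (nat_lit 461) (nat_lit 7629) (nat_lit 525) (nat_lit 7661)))) (.a (.f (nat_lit 621) (nat_lit 653) (nat_lit 5645) (.f (nat_lit 494) (nat_lit 589) (nat_lit 5613) (.f (nat_lit 463) (nat_lit 495) (nat_lit 6606) (.f (nat_lit 462) (nat_lit 431) (nat_lit 6574) (.d (nat_lit 461) (nat_lit 429) (nat_lit 7597) (nat_lit 493) (nat_lit 7629)))))) (.a (.f (nat_lit 525) (nat_lit 493) (nat_lit 7661) (.f (nat_lit 559) (nat_lit 561) (nat_lit 3597) (.d (nat_lit 524) (nat_lit 523) (nat_lit 523) (nat_lit 557) (nat_lit 3596)))) (.f (nat_lit 621) (nat_lit 653) (nat_lit 5645) (.f (nat_lit 589) (nat_lit 494) (nat_lit 5613) (.f (nat_lit 559) (nat_lit 561) (nat_lit 1581) (.d (nat_lit 588) (nat_lit 557) (nat_lit 1580) (nat_lit 587) (nat_lit 2603))))))))) (.p (nat_lit 624) (.a (.f (nat_lit 623) (nat_lit 655) (nat_lit 5647) (.f (nat_lit 589) (nat_lit 625) (nat_lit 3661) (.d (nat_lit 588) (nat_lit 587) (nat_lit 587) (nat_lit 621) (nat_lit 3660)))) (.a (.f (nat_lit 657) (nat_lit 625) (nat_lit 4624) (.f (nat_lit 656) (nat_lit 689) (nat_lit 4656) (.f (nat_lit 655) (nat_lit 687) (nat_lit 5679) (.f (nat_lit 654) (nat_lit 621) (nat_lit 3693) (.f (nat_lit 686) (nat_lit 685) (nat_lit 1677) (.d (nat_lit 557) (nat_lit 525) (nat_lit 7693) (nat_lit 589) (nat_lit 7725))))))) (.a (.f (nat_lit 625) (nat_lit 657) (nat_lit 4624) (.f (nat_lit 589) (nat_lit 623) (nat_lit 3661) (.f (nat_lit 559) (nat_lit 561) (nat_lit 1581) (.d (nat_lit 588) (nat_lit 557) (nat_lit 1580) (nat_lit 587) (nat_lit 2603))))) (.f (nat_lit 655) (nat_lit 623) (nat_lit 5647) (.d (nat_lit 687) (nat_lit 654) (nat_lit 4654) (nat_lit 656) (nat_lit 5679)))))))))))))) (.a (.p (nat_lit 624) (.a (.f (nat_lit 625) (nat_lit 657) (nat_lit 4624) (.f (nat_lit 589) (nat_lit 591) (nat_lit 589) (.f (nat_lit 559) (nat_lit 561) (nat_lit 1581) (.d (nat_lit 588) (nat_lit 557) (nat_lit 1580) (nat_lit 587) (nat_lit 2603))))) (.a (.f (nat_lit 623) (nat_lit 655) (nat_lit 5647) (.f (nat_lit 625) (nat_lit 657) (nat_lit 4624) (.d (nat_lit 591) (nat_lit 589) (nat_lit 589) (nat_lit 626) (nat_lit 3662)))) (.a (.p (nat_lit 589) (.a (.d (nat_lit 591) (nat_lit 561) (nat_lit 2605) (nat_lit 625) (nat_lit 589)) (.a (.f (nat_lit 591) (nat_lit 625) (nat_lit 589) (.d (nat_lit 623) (nat_lit 588) (nat_lit 588) (nat_lit 655) (nat_lit 5647))) (.a (.d (nat_lit 561) (nat_lit 559) (nat_lit 1581) (nat_lit 591) (nat_lit 2605)) (.f (nat_lit 559) (nat_lit 561) (nat_lit 1581) (.d (nat_lit 588) (nat_lit 557) (nat_lit 1580) (nat_lit 587) (nat_lit 2603))))))) (.a s2155 (.f (nat_lit 655) (nat_lit 623) (nat_lit 5647) (.f (nat_lit 656) (nat_lit 687) (nat_lit 5679) (.d (nat_lit 657) (nat_lit 625) (nat_lit 4624) (nat_lit 689) (nat_lit 4656))))))))) (.p (nat_lit 622) (.a (.p (nat_lit 655) (.a (.f (nat_lit 654) (nat_lit 687) (nat_lit 4654) (.f (nat_lit 653) (nat_lit 685) (nat_lit 5677) (.f (nat_lit 621) (nat_lit 526) (nat_lit 5645) (.d (nat_lit 620) (nat_lit 619) (nat_lit 619) (nat_lit 656) (nat_lit 3692))))) (.a (.d (nat_lit 623) (nat_lit 526) (nat_lit 4622) (nat_lit 624) (nat_lit 5647)) (.f (nat_lit 687) (nat_lit 654) (nat_lit 4654) (.d (nat_lit 624) (nat_lit 623) (nat_lit 5647) (nat_lit 656) (nat_lit 5679)))))) (.a (.p (nat_lit 525) (.a (.f (nat_lit 654) (nat_lit 557) (nat_lit 7693) (.f (nat_lit 653) (nat_lit 685) (nat_lit 5677) (.f (nat_lit 621) (nat_lit 526) (nat_lit 5645) (.f (nat_lit 655) (nat_lit 687) (nat_lit 4654) (.d (nat_lit 656) (nat_lit 620) (nat_lit 3692) (nat_lit 657) (nat_lit 3693)))))) (.a (.f (nat_lit 526) (nat_lit 493) (nat_lit 7661) (.f (nat_lit 559) (nat_lit 561) (nat_lit 3597) (.f (nat_lit 653) (nat_lit 621) (nat_lit 5645) (.f (nat_lit 654) (nat_lit 685) (nat_lit 5677) (.f (nat_lit 687) (nat_lit 655) (nat_lit 4654) (.d (nat_lit 686) (nat_lit 591) (nat_lit 6702) (nat_lit 719) (nat_lit 4686))))))) (.a (.f (nat_lit 654) (nat_lit 557) (nat_lit 7693) (.f (nat_lit 526) (nat_lit 493) (nat_lit 7661) (.d (nat_lit 653) (nat_lit 621) (nat_lit 5645) (nat_lit 685) (nat_lit 5677)))) (.a (.f (nat_lit 526) (nat_lit 493) (nat_lit 7661) (.f (nat_lit 559) (nat_lit 561) (nat_lit 3597) (.d (nat_lit 524) (nat_lit 523) (nat_lit 523) (nat_lit 557) (nat_lit 3596)))) (.f (nat_lit 654) (nat_lit 557) (nat_lit 7693) (.f (nat_lit 685) (nat_lit 653) (nat_lit 5677) (.f (nat_lit 686) (nat_lit 717) (nat_lit 5709) (.d (nat_lit 687) (nat_lit 655) (nat_lit 4654) (nat_lit 719) (nat_lit 4686)))))))))) (.a (.p (nat_lit 525) (.a (.f (nat_lit 654) (nat_lit 557) (nat_lit 7693) (.f (nat_lit 526) (nat_lit 493) (nat_lit 7661) (.d (nat_lit 653) (nat_lit 621) (nat_lit 5645) (nat_lit 685) (nat_lit 5677)))) (.a (.f (nat_lit 526) (nat_lit 493) (nat_lit 7661) (.f (nat_lit 559) (nat_lit 561) (nat_lit 3597) (.f (nat_lit 653) (nat_lit 621) (nat_lit 5645) (.f (nat_lit 654) (nat_lit 685) (nat_lit 5677) (.f (nat_lit 591) (nat_lit 686) (nat_lit 6702) (.d (nat_lit 494) (nat_lit 462) (nat_lit 4558) (nat_lit 623) (nat_lit 4590))))))) (.a (.f (nat_lit 654) (nat_lit 557) (nat_lit 7693) (.f (nat_lit 653) (nat_lit 685) (nat_lit 5677) (.f (nat_lit 526) (nat_lit 621) (nat_lit 5645) (.f (nat_lit 559) (nat_lit 561) (nat_lit 3597) (.f (nat_lit 591) (nat_lit 686) (nat_lit 6702) (.d (nat_lit 494) (nat_lit 462) (nat_lit 4558) (nat_lit 623) (nat_lit 4590))))))) (.a (.f (nat_lit 526) (nat_lit 493) (nat_lit 7661) (.f (nat_lit 559) (nat_lit 561) (nat_lit 3597) (.d (nat_lit 524) (nat_lit 523) (nat_lit 523) (nat_lit 557) (nat_lit 3596)))) (.f (nat_lit 654) (nat_lit 557) (nat_lit 7693) (.f (nat_lit 685) (nat_lit 653) (nat_lit 5677) (.f (nat_lit 686) (nat_lit 717) (nat_lit 5709) (.f (nat_lit 719) (nat_lit 687) (nat_lit 4686) (.f (nat_lit 718) (nat_lit 751) (nat_lit 4718) (.d (nat_lit 591) (nat_lit 559) (nat_lit 6702) (nat_lit 623) (nat_lit 6734)))))))))))) (.a (.p (nat_lit 526) (.a (.f (nat_lit 525) (nat_lit 493) (nat_lit 7661) (.f (nat_lit 654) (nat_lit 557) (nat_lit 7693) (.d (nat_lit 653) (nat_lit 621) (nat_lit 5645) (nat_lit 685) (nat_lit 5677)))) (.a (.f (nat_lit 623) (nat_lit 655) (nat_lit 4622) (.f (nat_lit 591) (nat_lit 494) (nat_lit 4590) (.d (nat_lit 621) (nat_lit 620) (nat_lit 2636) (nat_lit 653) (nat_lit 5645)))) (.f (nat_lit 525) (nat_lit 493) (nat_lit 7661) (.f (nat_lit 559) (nat_lit 561) (nat_lit 3597) (.d (nat_lit 524) (nat_lit 523) (nat_lit 523) (nat_lit 557) (nat_lit 3596))))))) (.a (.p (nat_lit 526) (.a (.f (nat_lit 525) (nat_lit 493) (nat_lit 7661) (.f (nat_lit 654) (nat_lit 557) (nat_lit 7693) (.f (nat_lit 687) (nat_lit 655) (nat_lit 4654) (.f (nat_lit 686) (nat_lit 719) (nat_lit 4686) (.d (nat_lit 685) (nat_lit 653) (nat_lit 5677) (nat_lit 717) (nat_lit 5709)))))) (.a (.f (nat_lit 525) (nat_lit 493) (nat_lit 7661) (.f (nat_lit 559) (nat_lit 561) (nat_lit 3597) (.d (nat_lit 524) (nat_lit 523) (nat_lit 523) (nat_lit 557) (nat_lit 3596)))) (.a (.f (nat_lit 623) (nat_lit 655) (nat_lit 4622) (.f (nat_lit 494) (nat_lit 591) (nat_lit 4590) (.f (nat_lit 463) (nat_lit 495) (nat_lit 6606) (.f (nat_lit 462) (nat_lit 431) (nat_lit 6574) (.d (nat_lit 461) (nat_lit 429) (nat_lit 7597) (nat_lit 493) (nat_lit 7629)))))) (.f (nat_lit 655) (nat_lit 623) (nat_lit 4622) (.f (nat_lit 654) (nat_lit 687) (nat_lit 4654) (.f (nat_lit 685) (nat_lit 653) (nat_lit 5677) (.f (nat_lit 686) (nat_lit 717) (nat_lit 5709) (.f (nat_lit 559) (nat_lit 591) (nat_lit 6702) (.d (nat_lit 525) (nat_lit 557) (nat_lit 7693) (nat_lit 561) (nat_lit 3597))))))))))) (.a (.p (nat_lit 654) (.a (.f (nat_lit 687) (nat_lit 655) (nat_lit 4654) (.f (nat_lit 686) (nat_lit 719) (nat_lit 4686) (.d (nat_lit 685) (nat_lit 653) (nat_lit 5677) (nat_lit 717) (nat_lit 5709)))) (.a (.f (nat_lit 685) (nat_lit 653) (nat_lit 5677) (.f (nat_lit 686) (nat_lit 717) (nat_lit 5709) (.f (nat_lit 591) (nat_lit 559) (nat_lit 6702) (.f (nat_lit 719) (nat_lit 687) (nat_lit 4686) (.d (nat_lit 718) (nat_lit 623) (nat_lit 6734) (nat_lit 751) (nat_lit 4718)))))) (.a (.f (nat_lit 685) (nat_lit 653) (nat_lit 5677) (.f (nat_lit 686) (nat_lit 717) (nat_lit 5709) (.f (nat_lit 591) (nat_lit 559) (nat_lit 6702) (.f (nat_lit 623) (nat_lit 718) (nat_lit 6734) (.f (nat_lit 624) (nat_lit 655) (nat_lit 5647) (.d (nat_lit 625) (nat_lit 626) (nat_lit 3662) (nat_lit 657) (nat_lit 4624))))))) (.f (nat_lit 655) (nat_lit 687) (nat_lit 4654) (.f (nat_lit 624) (nat_lit 623) (nat_lit 5647) (.f (nat_lit 657) (nat_lit 625) (nat_lit 4624) (.d (nat_lit 656) (nat_lit 621) (nat_lit 3693) (nat_lit 689) (nat_lit 4656))))))))) (.a (.p (nat_lit 526) (.a (.f (nat_lit 525) (nat_lit 493) (nat_lit 7661) (.f (nat_lit 559) (nat_lit 561) (nat_lit 3597) (.d (nat_lit 524) (nat_lit 523) (nat_lit 523) (nat_lit 557) (nat_lit 3596)))) (.f (nat_lit 623) (nat_lit 655) (nat_lit 4622) (.f (nat_lit 591) (nat_lit 494) (nat_lit 4590) (.d (nat_lit 621) (nat_lit 620) (nat_lit 2636) (nat_lit 653) (nat_lit 5645)))))) (.p (nat_lit 654) (.a (.f (nat_lit 655) (nat_lit 687) (nat_lit 4654) (.d (nat_lit 623) (nat_lit 526) (nat_lit 4622) (nat_lit 624) (nat_lit 5647))) (.a (.f (nat_lit 525) (nat_lit 557) (nat_lit 7693) (.f (nat_lit 526) (nat_lit 493) (nat_lit 7661) (.f (nat_lit 559) (nat_lit 561) (nat_lit 3597) (.f (nat_lit 686) (nat_lit 591) (nat_lit 6702) (.d (nat_lit 687) (nat_lit 655) (nat_lit 4654) (nat_lit 719) (nat_lit 4686)))))) (.a (.f (nat_lit 525) (nat_lit 557) (nat_lit 7693) (.f (nat_lit 526) (nat_lit 493) (nat_lit 7661) (.f (nat_lit 559) (nat_lit 561) (nat_lit 3597) (.f (nat_lit 591) (nat_lit 686) (nat_lit 6702) (.d (nat_lit 494) (nat_lit 462) (nat_lit 4558) (nat_lit 623) (nat_lit 4590)))))) (.f (nat_lit 655) (nat_lit 687) (nat_lit 4654) (.f (nat_lit 624) (nat_lit 623) (nat_lit 5647) (.f (nat_lit 657) (nat_lit 625) (nat_lit 4624) (.d (nat_lit 656) (nat_lit 621) (nat_lit 3693) (nat_lit 689) (nat_lit 4656)))))))))))))))))))))))))) (.a (.p (nat_lit 624) (.a (.f (nat_lit 655) (nat_lit 623) (nat_lit 5647) (.f (nat_lit 656) (nat_lit 687) (nat_lit 5679) (.d (nat_lit 657) (nat_lit 625) (nat_lit 4624) (nat_lit 689) (nat_lit 4656)))) (.a s1532 (.a (.p (nat_lit 656) (.a (.d (nat_lit 655) (nat_lit 623) (nat_lit 5647) (nat_lit 687) (nat_lit 5679)) (.a (.f (nat_lit 687) (nat_lit 655) (nat_lit 5679) (.f (nat_lit 688) (nat_lit 719) (nat_lit 5711) (.f (nat_lit 721) (nat_lit 689) (nat_lit 4688) (.f (nat_lit 720) (nat_lit 753) (nat_lit 4720) (.d (nat_lit 593) (nat_lit 561) (nat_lit 6704) (nat_lit 625) (nat_lit 6736)))))) (.a (.p (nat_lit 593) (.a (.f (nat_lit 688) (nat_lit 561) (nat_lit 6704) (.f (nat_lit 720) (nat_lit 625) (nat_lit 6736) (.d (nat_lit 719) (nat_lit 687) (nat_lit 5711) (nat_lit 751) (nat_lit 5743)))) (.a (.p (nat_lit 594) (.a (.d (nat_lit 595) (nat_lit 559) (nat_lit 3631) (nat_lit 623) (nat_lit 1615)) (.a (.d (nat_lit 559) (nat_lit 591) (nat_lit 3630) (nat_lit 595) (nat_lit 3631)) (.a (.f (nat_lit 595) (nat_lit 623) (nat_lit 1615) (.f (nat_lit 596) (nat_lit 625) (nat_lit 1616) (.d (nat_lit 564) (nat_lit 563) (nat_lit 2608) (nat_lit 565) (nat_lit 2609)))) (.f (nat_lit 591) (nat_lit 559) (nat_lit 3630) (.f (nat_lit 622) (nat_lit 623) (nat_lit 1614) (.f (nat_lit 590) (nat_lit 621) (nat_lit 1613) (.d (nat_lit 626) (nat_lit 625) (nat_lit 590) (nat_lit 627) (nat_lit 591))))))))) (.f (nat_lit 688) (nat_lit 561) (nat_lit 6704) (.f (nat_lit 591) (nat_lit 559) (nat_lit 7727) (.f (nat_lit 623) (nat_lit 720) (nat_lit 7759) (.d (nat_lit 622) (nat_lit 594) (nat_lit 1614) (nat_lit 621) (nat_lit 2637)))))))) (.p (nat_lit 593) (.a (.f (nat_lit 623) (nat_lit 655) (nat_lit 5647) (.f (nat_lit 594) (nat_lit 595) (nat_lit 1615) (.d (nat_lit 622) (nat_lit 591) (nat_lit 1614) (nat_lit 621) (nat_lit 2637)))) (.a (.f (nat_lit 688) (nat_lit 561) (nat_lit 6704) (.f (nat_lit 591) (nat_lit 559) (nat_lit 7727) (.f (nat_lit 625) (nat_lit 720) (nat_lit 6736) (.d (nat_lit 590) (nat_lit 589) (nat_lit 589) (nat_lit 626) (nat_lit 590))))) (.f (nat_lit 688) (nat_lit 561) (nat_lit 6704) (.f (nat_lit 720) (nat_lit 625) (nat_lit 6736) (.d (nat_lit 721) (nat_lit 689) (nat_lit 4688) (nat_lit 753) (nat_lit 4720))))))))))) (.a (.p (nat_lit 593) (.a (.f (nat_lit 657) (nat_lit 625) (nat_lit 4624) (.f (nat_lit 656) (nat_lit 689) (nat_lit 4656) (.f (nat_lit 688) (nat_lit 561) (nat_lit 6704) (.f (nat_lit 591) (nat_lit 559) (nat_lit 7727) (.f (nat_lit 623) (nat_lit 720) (nat_lit 7759) (.d (nat_lit 622) (nat_lit 594) (nat_lit 1614) (nat_lit 621) (nat_lit 621))))))) (.a (.p (nat_lit 656) (.a (.f (nat_lit 688) (nat_lit 561) (nat_lit 6704) (.f (nat_lit 720) (nat_lit 625) (nat_lit 6736) (.d (nat_lit 719) (nat_lit 687) (nat_lit 5711) (nat_lit 751) (nat_lit 5743)))) (.a (.d (nat_lit 657) (nat_lit 625) (nat_lit 4624) (nat_lit 689) (nat_lit 4656)) (.f (nat_lit 688) (nat_lit 561) (nat_lit 6704) (.d (nat_lit 689) (nat_lit 657) (nat_lit 4656) (nat_lit 721) (nat_lit 4688)))))) (.a (.p (nat_lit 594) (.a (.f (nat_lit 625) (nat_lit 657) (nat_lit 4624) (.f (nat_lit 595) (nat_lit 596) (nat_lit 1616) (.f (nat_lit 627) (nat_lit 628) (nat_lit 592) (.f (nat_lit 626) (nat_lit 591) (nat_lit 591) (.f (nat_lit 659) (nat_lit 660) (nat_lit 624) (.d (nat_lit 562) (nat_lit 530) (nat_lit 4626) (nat_lit 691) (nat_lit 7730))))))) (.a (.f (nat_lit 595) (nat_lit 623) (nat_lit 1615) (.f (nat_lit 596) (nat_lit 625) (nat_lit 1616) (.d (nat_lit 564) (nat_lit 563) (nat_lit 2608) (nat_lit 565) (nat_lit 2609)))) (.a (.f (nat_lit 595) (nat_lit 623) (nat_lit 1615) (.f (nat_lit 627) (nat_lit 628) (nat_lit 592) (.f (nat_lit 563) (nat_lit 564) (nat_lit 2608) (.d (nat_lit 591) (nat_lit 562) (nat_lit 2607) (nat_lit 626) (nat_lit 591))))) (.f (nat_lit 591) (nat_lit 559) (nat_lit 3630) (.f (nat_lit 625) (nat_lit 657) (nat_lit 4624) (.d (nat_lit 590) (nat_lit 589) (nat_lit 589) (nat_lit 626) (nat_lit 590)))))))) (.a (.p (nat_lit 594) (.a (.f (nat_lit 595) (nat_lit 623) (nat_lit 1615) (.d (nat_lit 596) (nat_lit 561) (nat_lit 3632) (nat_lit 625) (nat_lit 1616))) (.a (.d (nat_lit 559) (nat_lit 561) (nat_lit 558) (nat_lit 591) (nat_lit 3630)) (.f (nat_lit 595) (nat_lit 623) (nat_lit 1615) (.f (nat_lit 596) (nat_lit 625) (nat_lit 1616) (.d (nat_lit 564) (nat_lit 563) (nat_lit 2608) (nat_lit 565) (nat_lit 2609))))))) (.p (nat_lit 594) (.a (.f (nat_lit 595) (nat_lit 623) (nat_lit 1615) (.f (nat_lit 627) (nat_lit 628) (nat_lit 592) (.f (nat_lit 563) (nat_lit 564) (nat_lit 2608) (.d (nat_lit 591) (nat_lit 562) (nat_lit 2607) (nat_lit 626) (nat_lit 591))))) (.a (.d (nat_lit 559) (nat_lit 561) (nat_lit 558) (nat_lit 591) (nat_lit 3630)) (.d (nat_lit 559) (nat_lit 561) (nat_lit 558) (nat_lit 595) (nat_lit 3631)))))))))) (.a (.p (nat_lit 656) (.a (.d (nat_lit 655) (nat_lit 623) (nat_lit 5647) (nat_lit 687) (nat_lit 5679)) (.a (.f (nat_lit 687) (nat_lit 655) (nat_lit 5679) (.f (nat_lit 688) (nat_lit 719) (nat_lit 5711) (.d (nat_lit 689) (nat_lit 657) (nat_lit 4656) (nat_lit 721) (nat_lit 4688)))) (.a (.f (nat_lit 689) (nat_lit 657) (nat_lit 4656) (.f (nat_lit 688) (nat_lit 721) (nat_lit 4688) (.f (nat_lit 719) (nat_lit 687) (nat_lit 5711) (.f (nat_lit 720) (nat_lit 751) (nat_lit 5743) (.d (nat_lit 591) (nat_lit 559) (nat_lit 7727) (nat_lit 623) (nat_lit 7759)))))) (.f (nat_lit 623) (nat_lit 655) (nat_lit 5647) (.f (nat_lit 689) (nat_lit 657) (nat_lit 4656) (.f (nat_lit 688) (nat_lit 721) (nat_lit 4688) (.d (nat_lit 591) (nat_lit 559) (nat_lit 7727) (nat_lit 720) (nat_lit 7759))))))))) s2401)))))) (.a (.p (nat_lit 624) (.a (.f (nat_lit 655) (nat_lit 623) (nat_lit 5647) (.f (nat_lit 656) (nat_lit 687) (nat_lit 5679) (.d (nat_lit 657) (nat_lit 625) (nat_lit 4624) (nat_lit 689) (nat_lit 4656)))) (.a s1532 (.a s2412 (.a (.p (nat_lit 590) (.a s1684 (.a (.p (nat_lit 559) (.a (.f (nat_lit 589) (nat_lit 561) (nat_lit 1581) (.d (nat_lit 588) (nat_lit 557) (nat_lit 1580) (nat_lit 587) (nat_lit 2603))) (.a (.f (nat_lit 557) (nat_lit 593) (nat_lit 557) (.f (nat_lit 589) (nat_lit 588) (nat_lit 1580) (.f (nat_lit 525) (nat_lit 524) (nat_lit 3596) (.d (nat_lit 493) (nat_lit 461) (nat_lit 4557) (nat_lit 622) (nat_lit 4589))))) (.a (.f (nat_lit 561) (nat_lit 589) (nat_lit 1581) (.f (nat_lit 593) (nat_lit 594) (nat_lit 558) (.f (nat_lit 657) (nat_lit 625) (nat_lit 4624) (.d (nat_lit 656) (nat_lit 688) (nat_lit 6704) (nat_lit 689) (nat_lit 4656))))) (.f (nat_lit 593) (nat_lit 557) (nat_lit 557) (.d (nat_lit 594) (nat_lit 561) (nat_lit 558) (nat_lit 595) (nat_lit 3631))))))) (.a (.p (nat_lit 622) (.a s2433 (.a s1611 (.a (.p (nat_lit 526) (.a (.f (nat_lit 621) (nat_lit 653) (nat_lit 5645) (.f (nat_lit 494) (nat_lit 589) (nat_lit 5613) (.d (nat_lit 493) (nat_lit 461) (nat_lit 7629) (nat_lit 525) (nat_lit 7661)))) (.a (.f (nat_lit 621) (nat_lit 653) (nat_lit 5645) (.f (nat_lit 494) (nat_lit 589) (nat_lit 5613) (.f (nat_lit 463) (nat_lit 495) (nat_lit 6606) (.f (nat_lit 462) (nat_lit 431) (nat_lit 6574) (.d (nat_lit 461) (nat_lit 429) (nat_lit 7597) (nat_lit 493) (nat_lit 7629)))))) (.a (.f (nat_lit 525) (nat_lit 493) (nat_lit 7661) (.f (nat_lit 654) (nat_lit 557) (nat_lit 7693) (.d (nat_lit 653) (nat_lit 621) (nat_lit 5645) (nat_lit 685) (nat_lit 5677)))) (.a (.f (nat_lit 621) (nat_lit 653) (nat_lit 5645) (.f (nat_lit 589) (nat_lit 494) (nat_lit 5613) (.d (nat_lit 623) (nat_lit 588) (nat_lit 3660) (nat_lit 625) (nat_lit 3661)))) (.f (nat_lit 525) (nat_lit 493) (nat_lit 7661) (.f (nat_lit 559) (nat_lit 561) (nat_lit 3597) (.d (nat_lit 557) (nat_lit 524) (nat_lit 3596) (nat_lit 654) (nat_lit 7693))))))))) (.a (.p (nat_lit 589) (.a (.f (nat_lit 559) (nat_lit 561) (nat_lit 1581) (.d (nat_lit 557) (nat_lit 588) (nat_lit 1580) (nat_lit 593) (nat_lit 557))) (.a (.f (nat_lit 623) (nat_lit 625) (nat_lit 3661) (.d (nat_lit 588) (nat_lit 587) (nat_lit 587) (nat_lit 621) (nat_lit 3660))) (.f (nat_lit 623) (nat_lit 625) (nat_lit 3661) (.f (nat_lit 621) (nat_lit 593) (nat_lit 2637) (.d (nat_lit 526) (nat_lit 494) (nat_lit 5613) (nat_lit 653) (nat_lit 5645))))))) (.a (.p (nat_lit 621) (.a (.f (nat_lit 653) (nat_lit 526) (nat_lit 5645) (.d (nat_lit 685) (nat_lit 589) (nat_lit 6701) (nat_lit 654) (nat_lit 5677))) (.a (.f (nat_lit 653) (nat_lit 526) (nat_lit 5645) (.d (nat_lit 685) (nat_lit 654) (nat_lit 5677) (nat_lit 717) (nat_lit 6733))) (.f (nat_lit 623) (nat_lit 593) (nat_lit 2637) (.d (nat_lit 589) (nat_lit 588) (nat_lit 3660) (nat_lit 625) (nat_lit 3661)))))) (.a (.p (nat_lit 557) (.a (.f (nat_lit 559) (nat_lit 593) (nat_lit 557) (.d (nat_lit 589) (nat_lit 561) (nat_lit 1581) (nat_lit 588) (nat_lit 1580))) (.a (.f (nat_lit 525) (nat_lit 654) (nat_lit 7693) (.d (nat_lit 559) (nat_lit 524) (nat_lit 3596) (nat_lit 593) (nat_lit 557))) (.f (nat_lit 525) (nat_lit 654) (nat_lit 7693) (.d (nat_lit 493) (nat_lit 461) (nat_lit 4557) (nat_lit 526) (nat_lit 7661)))))) (.a (.p (nat_lit 557) (.a (.f (nat_lit 525) (nat_lit 654) (nat_lit 7693) (.d (nat_lit 559) (nat_lit 524) (nat_lit 3596) (nat_lit 593) (nat_lit 557))) (.a (.f (nat_lit 525) (nat_lit 654) (nat_lit 7693) (.d (nat_lit 493) (nat_lit 461) (nat_lit 4557) (nat_lit 526) (nat_lit 7661))) (.f (nat_lit 593) (nat_lit 559) (nat_lit 557) (.f (nat_lit 623) (nat_lit 621) (nat_lit 2637) (.d (nat_lit 594) (nat_lit 595) (nat_lit 1615) (nat_lit 625) (nat_lit 2638))))))) (.p (nat_lit 557) (.a (.f (nat_lit 559) (nat_lit 593) (nat_lit 557) (.d (nat_lit 589) (nat_lit 561) (nat_lit 1581) (nat_lit 588) (nat_lit 1580))) (.a (.f (nat_lit 525) (nat_lit 654) (nat_lit 7693) (.d (nat_lit 559) (nat_lit 524) (nat_lit 3596) (nat_lit 593) (nat_lit 557))) (.f (nat_lit 654) (nat_lit 525) (nat_lit 7693) (.f (nat_lit 686) (nat_lit 589) (nat_lit 7725) (.d (nat_lit 685) (nat_lit 653) (nat_lit 5677) (nat_lit 717) (nat_lit 5709))))))))))))))) (.a s2563 (.a (.p (nat_lit 526) (.a s2479 (.a (.p (nat_lit 494) (.a (.f (nat_lit 621) (nat_lit 589) (nat_lit 5613) (.f (nat_lit 622) (nat_lit 653) (nat_lit 5645) (.d (nat_lit 493) (nat_lit 461) (nat_lit 7629) (nat_lit 525) (nat_lit 7661)))) (.a (.f (nat_lit 589) (nat_lit 621) (nat_lit 5613) (.f (nat_lit 559) (nat_lit 561) (nat_lit 1581) (.d (nat_lit 557) (nat_lit 462) (nat_lit 5581) (nat_lit 588) (nat_lit 1580)))) (.f (nat_lit 493) (nat_lit 461) (nat_lit 7629) (.f (nat_lit 525) (nat_lit 622) (nat_lit 7661) (.f (nat_lit 559) (nat_lit 561) (nat_lit 3597) (.d (nat_lit 524) (nat_lit 523) (nat_lit 523) (nat_lit 557) (nat_lit 3596)))))))) (.a (.p (nat_lit 494) (.a (.f (nat_lit 589) (nat_lit 621) (nat_lit 5613) (.f (nat_lit 462) (nat_lit 557) (nat_lit 5581) (.d (nat_lit 463) (nat_lit 431) (nat_lit 6574) (nat_lit 495) (nat_lit 6606)))) (.a (.f (nat_lit 589) (nat_lit 621) (nat_lit 5613) (.f (nat_lit 559) (nat_lit 561) (nat_lit 1581) (.d (nat_lit 557) (nat_lit 462) (nat_lit 5581) (nat_lit 588) (nat_lit 1580)))) (.a (.f (nat_lit 463) (nat_lit 495) (nat_lit 6606) (.f (nat_lit 462) (nat_lit 431) (nat_lit 6574) (.d (nat_lit 461) (nat_lit 429) (nat_lit 7597) (nat_lit 493) (nat_lit 7629)))) (.f (nat_lit 589) (nat_lit 621) (nat_lit 5613) (.f (nat_lit 559) (nat_lit 561) (nat_lit 1581) (.d (nat_lit 588) (nat_lit 557) (nat_lit 1580) (nat_lit 587) (nat_lit 2603)))))))) (.a (.p (nat_lit 494) (.a (.f (nat_lit 621) (nat_lit 589) (nat_lit 5613) (.f (nat_lit 622) (nat_lit 653) (nat_lit 5645) (.d (nat_lit 493) (nat_lit 461) (nat_lit 7629) (nat_lit 525) (nat_lit 7661)))) (.a (.f (nat_lit 463) (nat_lit 495) (nat_lit 6606) (.f (nat_lit 462) (nat_lit 431) (nat_lit 6574) (.d (nat_lit 461) (nat_lit 429) (nat_lit 7597) (nat_lit 493) (nat_lit 7629)))) (.f (nat_lit 657) (nat_lit 625) (nat_lit 4624) (.f (nat_lit 621) (nat_lit 589) (nat_lit 5613) (.f (nat_lit 656) (nat_lit 689) (nat_lit 4656) (.d (nat_lit 622) (nat_lit 623) (nat_lit 621) (nat_lit 653) (nat_lit 5645)))))))) (.a (.p (nat_lit 525) (.a (.f (nat_lit 622) (nat_lit 493) (nat_lit 7661) (.f (nat_lit 654) (nat_lit 557) (nat_lit 7693) (.d (nat_lit 653) (nat_lit 621) (nat_lit 5645) (nat_lit 685) (nat_lit 5677)))) (.a (.f (nat_lit 622) (nat_lit 493) (nat_lit 7661) (.f (nat_lit 653) (nat_lit 621) (nat_lit 5645) (.f (nat_lit 625) (nat_lit 657) (nat_lit 4624) (.d (nat_lit 623) (nat_lit 589) (nat_lit 3661) (nat_lit 654) (nat_lit 1645))))) (.f (nat_lit 559) (nat_lit 561) (nat_lit 3597) (.d (nat_lit 524) (nat_lit 523) (nat_lit 523) (nat_lit 557) (nat_lit 3596)))))) (.a (.p (nat_lit 622) (.a (.f (nat_lit 657) (nat_lit 625) (nat_lit 4624) (.f (nat_lit 653) (nat_lit 621) (nat_lit 5645) (.f (nat_lit 654) (nat_lit 685) (nat_lit 5677) (.f (nat_lit 557) (nat_lit 525) (nat_lit 7693) (.f (nat_lit 686) (nat_lit 589) (nat_lit 7725) (.f (nat_lit 687) (nat_lit 719) (nat_lit 4686) (.d (nat_lit 689) (nat_lit 656) (nat_lit 4656) (nat_lit 688) (nat_lit 3725)))))))) (.a (.f (nat_lit 621) (nat_lit 653) (nat_lit 5645) (.f (nat_lit 589) (nat_lit 494) (nat_lit 5613) (.d (nat_lit 623) (nat_lit 588) (nat_lit 3660) (nat_lit 625) (nat_lit 3661)))) (.a (.f (nat_lit 621) (nat_lit 653) (nat_lit 5645) (.f (nat_lit 589) (nat_lit 494) (nat_lit 5613) (.f (nat_lit 588) (nat_lit 623) (nat_lit 3660) (.d (nat_lit 559) (nat_lit 561) (nat_lit 1581) (nat_lit 587) (nat_lit 2603))))) (.a (.f (nat_lit 625) (nat_lit 657) (nat_lit 4624) (.f (nat_lit 589) (nat_lit 623) (nat_lit 3661) (.f (nat_lit 559) (nat_lit 561) (nat_lit 1581) (.d (nat_lit 588) (nat_lit 557) (nat_lit 1580) (nat_lit 587) (nat_lit 2603))))) (.f (nat_lit 657) (nat_lit 625) (nat_lit 4624) (.f (nat_lit 656) (nat_lit 689) (nat_lit 4656) (.d (nat_lit 621) (nat_lit 623) (nat_lit 621) (nat_lit 653) (nat_lit 5645))))))))) (.a (.p (nat_lit 494) (.a (.f (nat_lit 493) (nat_lit 461) (nat_lit 7629) (.f (nat_lit 525) (nat_lit 622) (nat_lit 7661) (.f (nat_lit 463) (nat_lit 495) (nat_lit 6606) (.f (nat_lit 462) (nat_lit 431) (nat_lit 6574) (.d (nat_lit 430) (nat_lit 398) (nat_lit 5517) (nat_lit 557) (nat_lit 5549)))))) (.a (.f (nat_lit 493) (nat_lit 461) (nat_lit 7629) (.f (nat_lit 525) (nat_lit 622) (nat_lit 7661) (.f (nat_lit 559) (nat_lit 561) (nat_lit 3597) (.d (nat_lit 524) (nat_lit 523) (nat_lit 523) (nat_lit 557) (nat_lit 3596))))) (.a (.f (nat_lit 463) (nat_lit 495) (nat_lit 6606) (.f (nat_lit 462) (nat_lit 431) (nat_lit 6574) (.d (nat_lit 461) (nat_lit 429) (nat_lit 7597) (nat_lit 493) (nat_lit 7629)))) (.a (.f (nat_lit 463) (nat_lit 495) (nat_lit 6606) (.f (nat_lit 462) (nat_lit 431) (nat_lit 6574) (.f (nat_lit 557) (nat_lit 589) (nat_lit 5581) (.f (nat_lit 430) (nat_lit 525) (nat_lit 5549) (.d (nat_lit 429) (nat_lit 397) (nat_lit 7565) (nat_lit 461) (nat_lit 7597)))))) (.f (nat_lit 463) (nat_lit 495) (nat_lit 6606) (.f (nat_lit 462) (nat_lit 431) (nat_lit 6574) (.f (nat_lit 557) (nat_lit 589) (nat_lit 5581) (.f (nat_lit 525) (nat_lit 430) (nat_lit 5549) (.d (nat_lit 559) (nat_lit 524) (nat_lit 3596) (nat_lit 561) (nat_lit 3597))))))))))) (.p (nat_lit 525) (.a (.f (nat_lit 493) (nat_lit 622) (nat_lit 7661) (.d (nat_lit 461) (nat_lit 429) (nat_lit 4525) (nat_lit 494) (nat_lit 7629))) (.a (.f (nat_lit 622) (nat_lit 493) (nat_lit 7661) (.f (nat_lit 654) (nat_lit 557) (nat_lit 7693) (.d (nat_lit 653) (nat_lit 621) (nat_lit 5645) (nat_lit 685) (nat_lit 5677)))) (.f (nat_lit 559) (nat_lit 561) (nat_lit 3597) (.d (nat_lit 524) (nat_lit 523) (nat_lit 523) (nat_lit 557) (nat_lit 3596)))))))))))))) (.a (.p (nat_lit 559) (.a (.f (nat_lit 589) (nat_lit 561) (nat_lit 1581) (.d (nat_lit 588) (nat_lit 557) (nat_lit 1580) (nat_lit 587) (nat_lit 2603))) (.a (.f (nat_lit 557) (nat_lit 593) (nat_lit 557) (.f (nat_lit 589) (nat_lit 588) (nat_lit 1580) (.f (nat_lit 625) (nat_lit 657) (nat_lit 4624) (.f (nat_lit 622) (nat_lit 623) (nat_lit 3661) (.f (nat_lit 654) (nat_lit 686) (nat_lit 7725) (.f (nat_lit 653) (nat_lit 685) (nat_lit 5677) (.f (nat_lit 621) (nat_lit 526) (nat_lit 5645) (.f (nat_lit 556) (nat_lit 524) (nat_lit 7692) (.f (nat_lit 555) (nat_lit 554) (nat_lit 554) (.f (nat_lit 652) (nat_lit 684) (nat_lit 5676) (.f (nat_lit 651) (nat_lit 650) (nat_lit 2666) (.f (nat_lit 619) (nat_lit 618) (nat_lit 3690) (.f (nat_lit 587) (nat_lit 586) (nat_lit 1578) (.d (nat_lit 523) (nat_lit 522) (nat_lit 3594) (nat_lit 620) (nat_lit 4619))))))))))))))) (.a (.f (nat_lit 561) (nat_lit 589) (nat_lit 1581) (.f (nat_lit 593) (nat_lit 594) (nat_lit 558) (.f (nat_lit 657) (nat_lit 625) (nat_lit 4624) (.d (nat_lit 656) (nat_lit 688) (nat_lit 6704) (nat_lit 689) (nat_lit 4656))))) (.f (nat_lit 593) (nat_lit 557) (nat_lit 557) (.d (nat_lit 594) (nat_lit 561) (nat_lit 558) (nat_lit 595) (nat_lit 3631))))))) (.a (.p (nat_lit 561) (.a (.f (nat_lit 559) (nat_lit 589) (nat_lit 1581) (.f (nat_lit 593) (nat_lit 594) (nat_lit 558) (.f (nat_lit 657) (nat_lit 625) (nat_lit 4624) (.d (nat_lit 656) (nat_lit 688) (nat_lit 6704) (nat_lit 689) (nat_lit 4656))))) (.a (.p (nat_lit 656) (.a (.f (nat_lit 688) (nat_lit 593) (nat_lit 6704) (.f (nat_lit 719) (nat_lit 687) (nat_lit 5711) (.f (nat_lit 720) (nat_lit 751) (nat_lit 5743) (.d (nat_lit 721) (nat_lit 689) (nat_lit 4688) (nat_lit 753) (nat_lit 4720))))) (.a (.d (nat_lit 657) (nat_lit 625) (nat_lit 4624) (nat_lit 689) (nat_lit 4656)) (.p (nat_lit 622) (.a (.f (nat_lit 688) (nat_lit 593) (nat_lit 6704) (.f (nat_lit 687) (nat_lit 719) (nat_lit 5711) (.f (nat_lit 657) (nat_lit 625) (nat_lit 4624) (.f (nat_lit 685) (nat_lit 686) (nat_lit 2701) (.f (nat_lit 653) (nat_lit 654) (nat_lit 5677) (.d (nat_lit 621) (nat_lit 526) (nat_lit 5645) (nat_lit 589) (nat_lit 6701))))))) (.a (.f (nat_lit 593) (nat_lit 688) (nat_lit 6704) (.f (nat_lit 621) (nat_lit 623) (nat_lit 2637) (.f (nat_lit 653) (nat_lit 526) (nat_lit 5645) (.d (nat_lit 685) (nat_lit 589) (nat_lit 6701) (nat_lit 654) (nat_lit 5677))))) (.a (.f (nat_lit 625) (nat_lit 657) (nat_lit 4624) (.f (nat_lit 623) (nat_lit 589) (nat_lit 3661) (.f (nat_lit 653) (nat_lit 654) (nat_lit 1645) (.d (nat_lit 621) (nat_lit 526) (nat_lit 5645) (nat_lit 652) (nat_lit 1644))))) (.a (.f (nat_lit 625) (nat_lit 657) (nat_lit 4624) (.f (nat_lit 593) (nat_lit 688) (nat_lit 6704) (.d (nat_lit 623) (nat_lit 589) (nat_lit 3661) (nat_lit 594) (nat_lit 2638)))) (.f (nat_lit 593) (nat_lit 688) (nat_lit 6704) (.f (nat_lit 625) (nat_lit 657) (nat_lit 4624) (.d (nat_lit 623) (nat_lit 594) (nat_lit 2638) (nat_lit 621) (nat_lit 2637)))))))))))) (.a (.f (nat_lit 559) (nat_lit 589) (nat_lit 1581) (.p (nat_lit 562) (.a (.d (nat_lit 594) (nat_lit 593) (nat_lit 558) (nat_lit 595) (nat_lit 559)) (.a (.f (nat_lit 531) (nat_lit 530) (nat_lit 2575) (.f (nat_lit 563) (nat_lit 532) (nat_lit 2576) (.d (nat_lit 595) (nat_lit 594) (nat_lit 559) (nat_lit 596) (nat_lit 560)))) (.a (.f (nat_lit 593) (nat_lit 594) (nat_lit 558) (.f (nat_lit 563) (nat_lit 564) (nat_lit 1584) (.d (nat_lit 531) (nat_lit 530) (nat_lit 2575) (nat_lit 532) (nat_lit 2576)))) (.f (nat_lit 531) (nat_lit 530) (nat_lit 2575) (.f (nat_lit 563) (nat_lit 532) (nat_lit 2576) (.f (nat_lit 564) (nat_lit 593) (nat_lit 1584) (.d (nat_lit 596) (nat_lit 595) (nat_lit 560) (nat_lit 597) (nat_lit 561)))))))))) (.a (.p (nat_lit 526) (.a (.d (nat_lit 559) (nat_lit 525) (nat_lit 3597) (nat_lit 589) (nat_lit 1581)) (.a (.p (nat_lit 494) (.a (.f (nat_lit 657) (nat_lit 625) (nat_lit 4624) (.f (nat_lit 656) (nat_lit 689) (nat_lit 4656) (.f (nat_lit 621) (nat_lit 589) (nat_lit 5613) (.d (nat_lit 622) (nat_lit 623) (nat_lit 621) (nat_lit 653) (nat_lit 5645))))) (.a (.f (nat_lit 493) (nat_lit 461) (nat_lit 7629) (.f (nat_lit 621) (nat_lit 589) (nat_lit 5613) (.d (nat_lit 622) (nat_lit 525) (nat_lit 7661) (nat_lit 653) (nat_lit 5645)))) (.f (nat_lit 461) (nat_lit 493) (nat_lit 7629) (.f (nat_lit 462) (nat_lit 429) (nat_lit 7597) (.d (nat_lit 463) (nat_lit 431) (nat_lit 6574) (nat_lit 495) (nat_lit 6606))))))) (.a (.f (nat_lit 589) (nat_lit 559) (nat_lit 1581) (.f (nat_lit 494) (nat_lit 621) (nat_lit 5613) (.f (nat_lit 461) (nat_lit 493) (nat_lit 7629) (.f (nat_lit 462) (nat_lit 429) (nat_lit 7597) (.d (nat_lit 463) (nat_lit 431) (nat_lit 6574) (nat_lit 495) (nat_lit 6606)))))) (.f (nat_lit 525) (nat_lit 559) (nat_lit 3597) (.f (nat_lit 493) (nat_lit 622) (nat_lit 7661) (.d (nat_lit 461) (nat_lit 429) (nat_lit 4525) (nat_lit 494) (nat_lit 7629)))))))) (.f (nat_lit 657) (nat_lit 625) (nat_lit 4624) (.f (nat_lit 656) (nat_lit 689) (nat_lit 4656) (.f (nat_lit 593) (nat_lit 688) (nat_lit 6704) (.f (nat_lit 594) (nat_lit 559) (nat_lit 558) (.d (nat_lit 595) (nat_lit 596) (nat_lit 3632) (nat_lit 623) (nat_lit 1615))))))))))) (.a (.p (nat_lit 559) (.a (.f (nat_lit 589) (nat_lit 561) (nat_lit 1581) (.d (nat_lit 588) (nat_lit 557) (nat_lit 1580) (nat_lit 587) (nat_lit 2603))) (.a (.f (nat_lit 557) (nat_lit 593) (nat_lit 557) (.f (nat_lit 589) (nat_lit 588) (nat_lit 1580) (.f (nat_lit 525) (nat_lit 524) (nat_lit 3596) (.f (nat_lit 493) (nat_lit 461) (nat_lit 4557) (.f (nat_lit 494) (nat_lit 462) (nat_lit 6605) (.f (nat_lit 621) (nat_lit 526) (nat_lit 5613) (.f (nat_lit 653) (nat_lit 685) (nat_lit 6701) (.d (nat_lit 652) (nat_lit 620) (nat_lit 5644) (nat_lit 684) (nat_lit 5676))))))))) (.a (.f (nat_lit 561) (nat_lit 589) (nat_lit 1581) (.f (nat_lit 593) (nat_lit 594) (nat_lit 558) (.f (nat_lit 657) (nat_lit 625) (nat_lit 4624) (.d (nat_lit 656) (nat_lit 688) (nat_lit 6704) (nat_lit 689) (nat_lit 4656))))) (.f (nat_lit 593) (nat_lit 557) (nat_lit 557) (.d (nat_lit 594) (nat_lit 561) (nat_lit 558) (nat_lit 595) (nat_lit 3631))))))) (.p (nat_lit 593) (.a (.f (nat_lit 559) (nat_lit 557) (nat_lit 557) (.d (nat_lit 594) (nat_lit 561) (nat_lit 558) (nat_lit 595) (nat_lit 3631))) (.a (.p (nat_lit 594) (.a (.d (nat_lit 559) (nat_lit 557) (nat_lit 557) (nat_lit 595) (nat_lit 3631)) (.a (.f (nat_lit 595) (nat_lit 623) (nat_lit 1615) (.f (nat_lit 596) (nat_lit 625) (nat_lit 1616) (.d (nat_lit 628) (nat_lit 627) (nat_lit 592) (nat_lit 629) (nat_lit 593)))) (.f (nat_lit 625) (nat_lit 657) (nat_lit 4624) (.f (nat_lit 622) (nat_lit 623) (nat_lit 2638) (.f (nat_lit 557) (nat_lit 559) (nat_lit 557) (.f (nat_lit 525) (nat_lit 654) (nat_lit 7693) (.d (nat_lit 493) (nat_lit 461) (nat_lit 4557) (nat_lit 526) (nat_lit 7661))))))))) (.p (nat_lit 656) (.a (.f (nat_lit 688) (nat_lit 561) (nat_lit 6704) (.f (nat_lit 720) (nat_lit 625) (nat_lit 6736) (.d (nat_lit 719) (nat_lit 687) (nat_lit 5711) (nat_lit 751) (nat_lit 5743)))) (.a (.d (nat_lit 657) (nat_lit 625) (nat_lit 4624) (nat_lit 689) (nat_lit 4656)) (.f (nat_lit 688) (nat_lit 561) (nat_lit 6704) (.d (nat_lit 689) (nat_lit 657) (nat_lit 4656) (nat_lit 721) (nat_lit 4688)))))))))))))))))) (.a (.p (nat_lit 590) (.a (.f (nat_lit 655) (nat_lit 623) (nat_lit 5647) (.f (nat_lit 656) (nat_lit 687) (nat_lit 5679) (.f (nat_lit 689) (nat_lit 657) (nat_lit 4656) (.f (nat_lit 688) (nat_lit 721) (nat_lit 4688) (.f (nat_lit 653) (nat_lit 654) (nat_lit 653) (.f (nat_lit 561) (nat_lit 593) (nat_lit 6704) (.f (nat_lit 589) (nat_lit 559) (nat_lit 1581) (.f (nat_lit 621) (nat_lit 685) (nat_lit 6701) (.d (nat_lit 526) (nat_lit 494) (nat_lit 5613) (nat_lit 557) (nat_lit 6669)))))))))) (.a (.p (nat_lit 622) (.a s2433 (.a (.p (nat_lit 557) (.a (.f (nat_lit 559) (nat_lit 593) (nat_lit 557) (.d (nat_lit 589) (nat_lit 561) (nat_lit 1581) (nat_lit 588) (nat_lit 1580))) (.a (.f (nat_lit 525) (nat_lit 654) (nat_lit 7693) (.d (nat_lit 559) (nat_lit 524) (nat_lit 3596) (nat_lit 593) (nat_lit 557))) (.f (nat_lit 525) (nat_lit 654) (nat_lit 7693) (.d (nat_lit 493) (nat_lit 461) (nat_lit 4557) (nat_lit 526) (nat_lit 7661)))))) (.a s1598 (.a (.p (nat_lit 559) (.a (.f (nat_lit 589) (nat_lit 561) (nat_lit 1581) (.d (nat_lit 557) (nat_lit 588) (nat_lit 1580) (nat_lit 593) (nat_lit 557))) (.a (.f (nat_lit 557) (nat_lit 593) (nat_lit 557) (.f (nat_lit 589) (nat_lit 588) (nat_lit 1580) (.f (nat_lit 654) (nat_lit 686) (nat_lit 7725) (.f (nat_lit 653) (nat_lit 685) (nat_lit 5677) (.f (nat_lit 621) (nat_lit 526) (nat_lit 5645) (.f (nat_lit 655) (nat_lit 687) (nat_lit 4654) (.d (nat_lit 620) (nat_lit 619) (nat_lit 619) (nat_lit 656) (nat_lit 3692)))))))) (.a (.f (nat_lit 589) (nat_lit 561) (nat_lit 1581) (.d (nat_lit 588) (nat_lit 557) (nat_lit 1580) (nat_lit 587) (nat_lit 2603))) (.a (.f (nat_lit 561) (nat_lit 589) (nat_lit 1581) (.f (nat_lit 593) (nat_lit 594) (nat_lit 558) (.f (nat_lit 656) (nat_lit 688) (nat_lit 6704) (.f (nat_lit 655) (nat_lit 687) (nat_lit 5679) (.f (nat_lit 657) (nat_lit 689) (nat_lit 4656) (.f (nat_lit 654) (nat_lit 621) (nat_lit 3693) (.d (nat_lit 685) (nat_lit 653) (nat_lit 5677) (nat_lit 686) (nat_lit 1677)))))))) (.f (nat_lit 593) (nat_lit 557) (nat_lit 557) (.d (nat_lit 594) (nat_lit 561) (nat_lit 558) (nat_lit 595) (nat_lit 3631)))))))) (.a (.p (nat_lit 656) (.a (.f (nat_lit 687) (nat_lit 655) (nat_lit 5679) (.f (nat_lit 688) (nat_lit 719) (nat_lit 5711) (.f (nat_lit 721) (nat_lit 689) (nat_lit 4688) (.f (nat_lit 720) (nat_lit 753) (nat_lit 4720) (.f (nat_lit 685) (nat_lit 686) (nat_lit 685) (.f (nat_lit 653) (nat_lit 654) (nat_lit 5677) (.d (nat_lit 621) (nat_lit 526) (nat_lit 5645) (nat_lit 589) (nat_lit 6701)))))))) (.a (.f (nat_lit 689) (nat_lit 657) (nat_lit 4656) (.f (nat_lit 688) (nat_lit 721) (nat_lit 4688) (.f (nat_lit 687) (nat_lit 719) (nat_lit 5711) (.f (nat_lit 561) (nat_lit 593) (nat_lit 6704) (.f (nat_lit 559) (nat_lit 589) (nat_lit 1581) (.f (nat_lit 526) (nat_lit 525) (nat_lit 3597) (.f (nat_lit 653) (nat_lit 621) (nat_lit 5645) (.d (nat_lit 654) (nat_lit 685) (nat_lit 5677) (nat_lit 686) (nat_lit 3725))))))))) (.a (.f (nat_lit 687) (nat_lit 655) (nat_lit 5679) (.f (nat_lit 688) (nat_lit 719) (nat_lit 5711) (.f (nat_lit 561) (nat_lit 593) (nat_lit 6704) (.f (nat_lit 559) (nat_lit 589) (nat_lit 1581) (.f (nat_lit 526) (nat_lit 525) (nat_lit 3597) (.f (nat_lit 653) (nat_lit 621) (nat_lit 5645) (.f (nat_lit 685) (nat_lit 654) (nat_lit 5677) (.d (nat_lit 686) (nat_lit 652) (nat_lit 3724) (nat_lit 657) (nat_lit 2701))))))))) (.a (.f (nat_lit 689) (nat_lit 657) (nat_lit 4656) (.f (nat_lit 688) (nat_lit 721) (nat_lit 4688) (.f (nat_lit 561) (nat_lit 593) (nat_lit 6704) (.f (nat_lit 559) (nat_lit 589) (nat_lit 1581) (.f (nat_lit 526) (nat_lit 525) (nat_lit 3597) (.f (nat_lit 653) (nat_lit 621) (nat_lit 5645) (.d (nat_lit 654) (nat_lit 655) (nat_lit 653) (nat_lit 685) (nat_lit 5677)))))))) (.a (.f (nat_lit 655) (nat_lit 687) (nat_lit 5679) (.f (nat_lit 657) (nat_lit 689) (nat_lit 4656) (.f (nat_lit 654) (nat_lit 621) (nat_lit 3693) (.d (nat_lit 685) (nat_lit 653) (nat_lit 5677) (nat_lit 686) (nat_lit 1677))))) (.f (nat_lit 687) (nat_lit 655) (nat_lit 5679) (.f (nat_lit 688) (nat_lit 719) (nat_lit 5711) (.d (nat_lit 689) (nat_lit 657) (nat_lit 4656) (nat_lit 721) (nat_lit 4688)))))))))) (.a (.p (nat_lit 656) (.a (.f (nat_lit 687) (nat_lit 655) (nat_lit 5679) (.f (nat_lit 688) (nat_lit 719) (nat_lit 5711) (.d (nat_lit 689) (nat_lit 657) (nat_lit 4656) (nat_lit 721) (nat_lit 4688)))) (.a (.f (nat_lit 687) (nat_lit 655) (nat_lit 5679) (.f (nat_lit 688) (nat_lit 719) (nat_lit 5711) (.f (nat_lit 721) (nat_lit 689) (nat_lit 4688) (.f (nat_lit 720) (nat_lit 753) (nat_lit 4720) (.f (nat_lit 685) (nat_lit 686) (nat_lit 685) (.f (nat_lit 653) (nat_lit 654) (nat_lit 5677) (.d (nat_lit 621) (nat_lit 526) (nat_lit 5645) (nat_lit 717) (nat_lit 6733)))))))) (.a (.f (nat_lit 689) (nat_lit 657) (nat_lit 4656) (.f (nat_lit 688) (nat_lit 721) (nat_lit 4688) (.f (nat_lit 593) (nat_lit 561) (nat_lit 6704) (.f (nat_lit 557) (nat_lit 559) (nat_lit 557) (.f (nat_lit 525) (nat_lit 654) (nat_lit 7693) (.d (nat_lit 493) (nat_lit 461) (nat_lit 4557) (nat_lit 526) (nat_lit 7661))))))) (.a (.f (nat_lit 687) (nat_lit 655) (nat_lit 5679) (.f (nat_lit 688) (nat_lit 719) (nat_lit 5711) (.f (nat_lit 593) (nat_lit 561) (nat_lit 6704) (.f (nat_lit 557) (nat_lit 559) (nat_lit 557) (.f (nat_lit 525) (nat_lit 654) (nat_lit 7693) (.d (nat_lit 493) (nat_lit 461) (nat_lit 4557) (nat_lit 526) (nat_lit 7661))))))) (.f (nat_lit 655) (nat_lit 687) (nat_lit 5679) (.f (nat_lit 657) (nat_lit 689) (nat_lit 4656) (.f (nat_lit 654) (nat_lit 621) (nat_lit 3693) (.d (nat_lit 685) (nat_lit 653) (nat_lit 5677) (nat_lit 686) (nat_lit 1677)))))))))) (.a (.p (nat_lit 557) (.a (.f (nat_lit 559) (nat_lit 593) (nat_lit 557) (.d (nat_lit 589) (nat_lit 561) (nat_lit 1581) (nat_lit 588) (nat_lit 1580))) (.a (.f (nat_lit 525) (nat_lit 654) (nat_lit 7693) (.d (nat_lit 559) (nat_lit 524) (nat_lit 3596) (nat_lit 593) (nat_lit 557))) (.f (nat_lit 654) (nat_lit 525) (nat_lit 7693) (.f (nat_lit 686) (nat_lit 589) (nat_lit 7725) (.d (nat_lit 685) (nat_lit 653) (nat_lit 5677) (nat_lit 717) (nat_lit 5709))))))) (.p (nat_lit 526) (.a (.f (nat_lit 621) (nat_lit 653) (nat_lit 5645) (.f (nat_lit 494) (nat_lit 589) (nat_lit 5613) (.d (nat_lit 493) (nat_lit 461) (nat_lit 7629) (nat_lit 525) (nat_lit 7661)))) (.a (.f (nat_lit 621) (nat_lit 653) (nat_lit 5645) (.f (nat_lit 494) (nat_lit 589) (nat_lit 5613) (.f (nat_lit 463) (nat_lit 495) (nat_lit 6606) (.f (nat_lit 462) (nat_lit 431) (nat_lit 6574) (.d (nat_lit 461) (nat_lit 429) (nat_lit 7597) (nat_lit 493) (nat_lit 7629)))))) (.a (.f (nat_lit 525) (nat_lit 493) (nat_lit 7661) (.f (nat_lit 559) (nat_lit 561) (nat_lit 3597) (.d (nat_lit 524) (nat_lit 523) (nat_lit 523) (nat_lit 557) (nat_lit 3596)))) (.f (nat_lit 621) (nat_lit 653) (nat_lit 5645) (.f (nat_lit 589) (nat_lit 494) (nat_lit 5613) (.f (nat_lit 559) (nat_lit 561) (nat_lit 1581) (.d (nat_lit 557) (nat_lit 588) (nat_lit 1580) (nat_lit 593) (nat_lit 557))))))))))))))))) (.a s1818 (.a s2563 (.a (.p (nat_lit 589) (.a (.f (nat_lit 559) (nat_lit 561) (nat_lit 1581) (.d (nat_lit 588) (nat_lit 557) (nat_lit 1580) (nat_lit 587) (nat_lit 2603))) (.a (.f (nat_lit 655) (nat_lit 623) (nat_lit 5647) (.f (nat_lit 656) (nat_lit 687) (nat_lit 5679) (.f (nat_lit 689) (nat_lit 657) (nat_lit 4656) (.f (nat_lit 688) (nat_lit 721) (nat_lit 4688) (.f (nat_lit 653) (nat_lit 654) (nat_lit 653) (.f (nat_lit 621) (nat_lit 685) (nat_lit 6701) (.d (nat_lit 526) (nat_lit 494) (nat_lit 5613) (nat_lit 557) (nat_lit 6669)))))))) (.f (nat_lit 655) (nat_lit 623) (nat_lit 5647) (.f (nat_lit 656) (nat_lit 687) (nat_lit 5679) (.f (nat_lit 689) (nat_lit 657) (nat_lit 4656) (.f (nat_lit 688) (nat_lit 721) (nat_lit 4688) (.f (nat_lit 653) (nat_lit 654) (nat_lit 653) (.f (nat_lit 621) (nat_lit 685) (nat_lit 6701) (.d (nat_lit 526) (nat_lit 494) (nat_lit 5613) (nat_lit 622) (nat_lit 5645))))))))))) (.a (.p (nat_lit 526) (.a s2479 (.a (.p (nat_lit 494) (.a (.f (nat_lit 621) (nat_lit 589) (nat_lit 5613) (.f (nat_lit 622) (nat_lit 653) (nat_lit 5645) (.d (nat_lit 493) (nat_lit 461) (nat_lit 7629) (nat_lit 525) (nat_lit 7661)))) (.a (.f (nat_lit 589) (nat_lit 621) (nat_lit 5613) (.f (nat_lit 559) (nat_lit 561) (nat_lit 1581) (.d (nat_lit 557) (nat_lit 462) (nat_lit 5581) (nat_lit 588) (nat_lit 1580)))) (.f (nat_lit 493) (nat_lit 461) (nat_lit 7629) (.f (nat_lit 525) (nat_lit 622) (nat_lit 7661) (.f (nat_lit 559) (nat_lit 561) (nat_lit 3597) (.d (nat_lit 524) (nat_lit 523) (nat_lit 523) (nat_lit 557) (nat_lit 3596)))))))) (.a s2494 (.a (.p (nat_lit 494) (.a (.f (nat_lit 621) (nat_lit 589) (nat_lit 5613) (.f (nat_lit 622) (nat_lit 653) (nat_lit 5645) (.d (nat_lit 493) (nat_lit 461) (nat_lit 7629) (nat_lit 525) (nat_lit 7661)))) (.a (.f (nat_lit 463) (nat_lit 495) (nat_lit 6606) (.f (nat_lit 462) (nat_lit 431) (nat_lit 6574) (.d (nat_lit 461) (nat_lit 429) (nat_lit 7597) (nat_lit 493) (nat_lit 7629)))) (.f (nat_lit 623) (nat_lit 655) (nat_lit 5647) (.f (nat_lit 621) (nat_lit 589) (nat_lit 5613) (.d (nat_lit 622) (nat_lit 593) (nat_lit 2637) (nat_lit 653) (nat_lit 5645))))))) (.a s2548 (.a (.p (nat_lit 589) (.a (.f (nat_lit 621) (nat_lit 494) (nat_lit 5613) (.d (nat_lit 653) (nat_lit 622) (nat_lit 5645) (nat_lit 685) (nat_lit 6701))) (.f (nat_lit 559) (nat_lit 561) (nat_lit 1581) (.d (nat_lit 557) (nat_lit 588) (nat_lit 1580) (nat_lit 593) (nat_lit 557))))) (.a s2559 (.p (nat_lit 525) (.a (.f (nat_lit 493) (nat_lit 622) (nat_lit 7661) (.d (nat_lit 461) (nat_lit 429) (nat_lit 4525) (nat_lit 494) (nat_lit 7629))) (.a (.f (nat_lit 622) (nat_lit 493) (nat_lit 7661) (.f (nat_lit 557) (nat_lit 654) (nat_lit 7693) (.d (nat_lit 559) (nat_lit 524) (nat_lit 3596) (nat_lit 593) (nat_lit 557)))) (.f (nat_lit 559) (nat_lit 561) (nat_lit 3597) (.d (nat_lit 524) (nat_lit 523) (nat_lit 523) (nat_lit 557) (nat_lit 3596)))))))))))))) (.a (.f (nat_lit 655) (nat_lit 623) (nat_lit 5647) (.f (nat_lit 656) (nat_lit 687) (nat_lit 5679) (.f (nat_lit 689) (nat_lit 657) (nat_lit 4656) (.f (nat_lit 688) (nat_lit 721) (nat_lit 4688) (.f (nat_lit 653) (nat_lit 654) (nat_lit 653) (.f (nat_lit 561) (nat_lit 593) (nat_lit 6704) (.f (nat_lit 589) (nat_lit 559) (nat_lit 1581) (.f (nat_lit 621) (nat_lit 685) (nat_lit 6701) (.d (nat_lit 526) (nat_lit 494) (nat_lit 5613) (nat_lit 622) (nat_lit 5645)))))))))) (.a (.f (nat_lit 655) (nat_lit 623) (nat_lit 5647) (.f (nat_lit 656) (nat_lit 687) (nat_lit 5679) (.f (nat_lit 689) (nat_lit 657) (nat_lit 4656) (.f (nat_lit 688) (nat_lit 721) (nat_lit 4688) (.f (nat_lit 653) (nat_lit 654) (nat_lit 653) (.f (nat_lit 561) (nat_lit 593) (nat_lit 6704) (.f (nat_lit 589) (nat_lit 559) (nat_lit 1581) (.f (nat_lit 621) (nat_lit 685) (nat_lit 6701) (.d (nat_lit 526) (nat_lit 557) (nat_lit 6669) (nat_lit 622) (nat_lit 5645)))))))))) (.a (.f (nat_lit 655) (nat_lit 623) (nat_lit 5647) (.f (nat_lit 656) (nat_lit 687) (nat_lit 5679) (.f (nat_lit 689) (nat_lit 657) (nat_lit 4656) (.f (nat_lit 688) (nat_lit 721) (nat_lit 4688) (.f (nat_lit 593) (nat_lit 561) (nat_lit 6704) (.f (nat_lit 557) (nat_lit 559) (nat_lit 557) (.f (nat_lit 654) (nat_lit 653) (nat_lit 653) (.f (nat_lit 622) (nat_lit 525) (nat_lit 7693) (.f (nat_lit 686) (nat_lit 589) (nat_lit 7725) (.f (nat_lit 717) (nat_lit 685) (nat_lit 5709) (.f (nat_lit 718) (nat_lit 749) (nat_lit 5741) (.d (nat_lit 719) (nat_lit 720) (nat_lit 2733) (nat_lit 751) (nat_lit 4718))))))))))))) (.a (.p (nat_lit 593) (.a (.f (nat_lit 655) (nat_lit 623) (nat_lit 5647) (.f (nat_lit 656) (nat_lit 687) (nat_lit 5679) (.f (nat_lit 689) (nat_lit 657) (nat_lit 4656) (.d (nat_lit 688) (nat_lit 561) (nat_lit 6704) (nat_lit 721) (nat_lit 4688))))) (.a (.f (nat_lit 559) (nat_lit 557) (nat_lit 557) (.d (nat_lit 594) (nat_lit 561) (nat_lit 558) (nat_lit 595) (nat_lit 3631))) (.f (nat_lit 623) (nat_lit 655) (nat_lit 5647) (.f (nat_lit 622) (nat_lit 621) (nat_lit 2637) (.f (nat_lit 557) (nat_lit 559) (nat_lit 557) (.f (nat_lit 525) (nat_lit 654) (nat_lit 7693) (.d (nat_lit 493) (nat_lit 461) (nat_lit 4557) (nat_lit 526) (nat_lit 7661))))))))) (.p (nat_lit 559) (.a (.f (nat_lit 589) (nat_lit 561) (nat_lit 1581) (.d (nat_lit 588) (nat_lit 557) (nat_lit 1580) (nat_lit 587) (nat_lit 2603))) (.a (.f (nat_lit 557) (nat_lit 593) (nat_lit 557) (.f (nat_lit 589) (nat_lit 588) (nat_lit 1580) (.f (nat_lit 525) (nat_lit 524) (nat_lit 3596) (.d (nat_lit 493) (nat_lit 461) (nat_lit 4557) (nat_lit 622) (nat_lit 4589))))) (.a (.f (nat_lit 561) (nat_lit 589) (nat_lit 1581) (.f (nat_lit 593) (nat_lit 594) (nat_lit 558) (.f (nat_lit 655) (nat_lit 623) (nat_lit 5647) (.d (nat_lit 656) (nat_lit 687) (nat_lit 5679) (nat_lit 688) (nat_lit 6704))))) (.f (nat_lit 593) (nat_lit 557) (nat_lit 557) (.d (nat_lit 594) (nat_lit 561) (nat_lit 558) (nat_lit 595) (nat_lit 3631)))))))))))))))))) (.p (nat_lit 593) (.a (.f (nat_lit 559) (nat_lit 557) (nat_lit 557) (.d (nat_lit 594) (nat_lit 561) (nat_lit 558) (nat_lit 595) (nat_lit 3631))) (.a (.f (nat_lit 625) (nat_lit 657) (nat_lit 4624) (.f (nat_lit 623) (nat_lit 655) (nat_lit 5647) (.d (nat_lit 594) (nat_lit 595) (nat_lit 1615) (nat_lit 622) (nat_lit 2638)))) (.a (.f (nat_lit 625) (nat_lit 657) (nat_lit 4624) (.f (nat_lit 623) (nat_lit 655) (nat_lit 5647) (.d (nat_lit 622) (nat_lit 594) (nat_lit 2638) (nat_lit 621) (nat_lit 2637)))) (.f (nat_lit 625) (nat_lit 657) (nat_lit 4624) (.f (nat_lit 623) (nat_lit 655) (nat_lit 5647) (.f (nat_lit 622) (nat_lit 621) (nat_lit 2637) (.f (nat_lit 590) (nat_lit 589) (nat_lit 3661) (.f (nat_lit 654) (nat_lit 653) (nat_lit 1645) (.d (nat_lit 557) (nat_lit 525) (nat_lit 7693) (nat_lit 559) (nat_lit 557))))))))))))))))) (.a (.p (nat_lit 624) (.a (.f (nat_lit 655) (nat_lit 623) (nat_lit 5647) (.f (nat_lit 656) (nat_lit 687) (nat_lit 5679) (.f (nat_lit 689) (nat_lit 657) (nat_lit 4656) (.f (nat_lit 688) (nat_lit 721) (nat_lit 4688) (.f (nat_lit 559) (nat_lit 591) (nat_lit 7727) (.d (nat_lit 593) (nat_lit 557) (nat_lit 557) (nat_lit 561) (nat_lit 6704))))))) (.a (.f (nat_lit 657) (nat_lit 625) (nat_lit 4624) (.f (nat_lit 656) (nat_lit 689) (nat_lit 4656) (.f (nat_lit 687) (nat_lit 655) (nat_lit 5679) (.f (nat_lit 688) (nat_lit 719) (nat_lit 5711) (.f (nat_lit 559) (nat_lit 591) (nat_lit 7727) (.d (nat_lit 593) (nat_lit 557) (nat_lit 557) (nat_lit 561) (nat_lit 6704))))))) (.a (.f (nat_lit 655) (nat_lit 623) (nat_lit 5647) (.f (nat_lit 656) (nat_lit 687) (nat_lit 5679) (.d (nat_lit 657) (nat_lit 625) (nat_lit 4624) (nat_lit 689) (nat_lit 4656)))) (.a s2412 (.a (.p (nat_lit 656) (.a (.d (nat_lit 657) (nat_lit 625) (nat_lit 4624) (nat_lit 689) (nat_lit 4656)) (.a (.p (nat_lit 559) (.a (.f (nat_lit 557) (nat_lit 593) (nat_lit 557) (.d (nat_lit 591) (nat_lit 556) (nat_lit 556) (nat_lit 688) (nat_lit 7727))) (.a (.f (nat_lit 688) (nat_lit 591) (nat_lit 7727) (.f (nat_lit 721) (nat_lit 689) (nat_lit 4688) (.f (nat_lit 720) (nat_lit 753) (nat_lit 4720) (.d (nat_lit 719) (nat_lit 687) (nat_lit 5711) (nat_lit 751) (nat_lit 5743))))) (.f (nat_lit 557) (nat_lit 593) (nat_lit 557) (.f (nat_lit 588) (nat_lit 589) (nat_lit 1580) (.f (nat_lit 556) (nat_lit 587) (nat_lit 1579) (.d (nat_lit 524) (nat_lit 523) (nat_lit 3595) (nat_lit 525) (nat_lit 3596)))))))) (.p (nat_lit 559) (.a (.f (nat_lit 593) (nat_lit 557) (nat_lit 557) (.d (nat_lit 594) (nat_lit 561) (nat_lit 558) (nat_lit 591) (nat_lit 3630))) (.a (.f (nat_lit 557) (nat_lit 593) (nat_lit 557) (.d (nat_lit 591) (nat_lit 556) (nat_lit 556) (nat_lit 688) (nat_lit 7727))) (.a (.f (nat_lit 591) (nat_lit 688) (nat_lit 7727) (.f (nat_lit 557) (nat_lit 556) (nat_lit 556) (.f (nat_lit 525) (nat_lit 524) (nat_lit 3596) (.f (nat_lit 589) (nat_lit 588) (nat_lit 1580) (.f (nat_lit 526) (nat_lit 561) (nat_lit 3597) (.d (nat_lit 494) (nat_lit 462) (nat_lit 4558) (nat_lit 621) (nat_lit 6637))))))) (.a (.f (nat_lit 688) (nat_lit 591) (nat_lit 7727) (.f (nat_lit 593) (nat_lit 561) (nat_lit 6704) (.f (nat_lit 720) (nat_lit 625) (nat_lit 6736) (.d (nat_lit 719) (nat_lit 687) (nat_lit 5711) (nat_lit 751) (nat_lit 5743))))) (.f (nat_lit 593) (nat_lit 557) (nat_lit 557) (.d (nat_lit 594) (nat_lit 561) (nat_lit 558) (nat_lit 595) (nat_lit 3631))))))))))) (.p (nat_lit 594) (.a (.f (nat_lit 623) (nat_lit 655) (nat_lit 5647) (.f (nat_lit 593) (nat_lit 595) (nat_lit 1615) (.d (nat_lit 559) (nat_lit 557) (nat_lit 557) (nat_lit 561) (nat_lit 558)))) (.a (.p (nat_lit 593) (.a (.d (nat_lit 559) (nat_lit 557) (nat_lit 557) (nat_lit 595) (nat_lit 3631)) (.a (.f (nat_lit 625) (nat_lit 657) (nat_lit 4624) (.f (nat_lit 595) (nat_lit 596) (nat_lit 1616) (.f (nat_lit 627) (nat_lit 628) (nat_lit 592) (.f (nat_lit 626) (nat_lit 591) (nat_lit 591) (.f (nat_lit 659) (nat_lit 660) (nat_lit 624) (.d (nat_lit 562) (nat_lit 530) (nat_lit 4626) (nat_lit 691) (nat_lit 7730))))))) (.d (nat_lit 559) (nat_lit 557) (nat_lit 557) (nat_lit 591) (nat_lit 3630))))) (.a (.f (nat_lit 623) (nat_lit 655) (nat_lit 5647) (.f (nat_lit 593) (nat_lit 595) (nat_lit 1615) (.d (nat_lit 622) (nat_lit 591) (nat_lit 1614) (nat_lit 621) (nat_lit 2637)))) (.a (.f (nat_lit 623) (nat_lit 655) (nat_lit 5647) (.f (nat_lit 625) (nat_lit 657) (nat_lit 4624) (.f (nat_lit 626) (nat_lit 595) (nat_lit 2639) (.f (nat_lit 659) (nat_lit 658) (nat_lit 623) (.d (nat_lit 627) (nat_lit 591) (nat_lit 3663) (nat_lit 660) (nat_lit 624)))))) (.f (nat_lit 623) (nat_lit 655) (nat_lit 5647) (.f (nat_lit 625) (nat_lit 657) (nat_lit 4624) (.f (nat_lit 593) (nat_lit 622) (nat_lit 2638) (.d (nat_lit 559) (nat_lit 561) (nat_lit 558) (nat_lit 591) (nat_lit 3630)))))))))))))))) (.p (nat_lit 624) (.a (.f (nat_lit 655) (nat_lit 623) (nat_lit 5647) (.f (nat_lit 656) (nat_lit 687) (nat_lit 5679) (.f (nat_lit 689) (nat_lit 657) (nat_lit 4656) (.f (nat_lit 688) (nat_lit 721) (nat_lit 4688) (.f (nat_lit 559) (nat_lit 591) (nat_lit 7727) (.d (nat_lit 593) (nat_lit 557) (nat_lit 557) (nat_lit 561) (nat_lit 6704))))))) (.a (.f (nat_lit 657) (nat_lit 625) (nat_lit 4624) (.f (nat_lit 656) (nat_lit 689) (nat_lit 4656) (.f (nat_lit 687) (nat_lit 655) (nat_lit 5679) (.f (nat_lit 688) (nat_lit 719) (nat_lit 5711) (.f (nat_lit 559) (nat_lit 591) (nat_lit 7727) (.d (nat_lit 593) (nat_lit 557) (nat_lit 557) (nat_lit 561) (nat_lit 6704))))))) (.a (.f (nat_lit 655) (nat_lit 623) (nat_lit 5647) (.f (nat_lit 656) (nat_lit 687) (nat_lit 5679) (.d (nat_lit 657) (nat_lit 625) (nat_lit 4624) (nat_lit 689) (nat_lit 4656)))) (.a s2412 (.a (.p (nat_lit 656) (.a (.d (nat_lit 657) (nat_lit 625) (nat_lit 4624) (nat_lit 689) (nat_lit 4656)) (.a (.p (nat_lit 559) (.a (.f (nat_lit 593) (nat_lit 557) (nat_lit 557) (.d (nat_lit 594) (nat_lit 561) (nat_lit 558) (nat_lit 591) (nat_lit 3630))) (.a (.f (nat_lit 557) (nat_lit 593) (nat_lit 557) (.d (nat_lit 591) (nat_lit 556) (nat_lit 556) (nat_lit 688) (nat_lit 7727))) (.a (.f (nat_lit 688) (nat_lit 591) (nat_lit 7727) (.f (nat_lit 721) (nat_lit 689) (nat_lit 4688) (.f (nat_lit 720) (nat_lit 753) (nat_lit 4720) (.d (nat_lit 719) (nat_lit 687) (nat_lit 5711) (nat_lit 751) (nat_lit 5743))))) (.f (nat_lit 593) (nat_lit 557) (nat_lit 557) (.d (nat_lit 594) (nat_lit 561) (nat_lit 558) (nat_lit 595) (nat_lit 3631))))))) (.p (nat_lit 559) (.a (.f (nat_lit 593) (nat_lit 557) (nat_lit 557) (.d (nat_lit 594) (nat_lit 561) (nat_lit 558) (nat_lit 591) (nat_lit 3630))) (.a (.f (nat_lit 557) (nat_lit 593) (nat_lit 557) (.d (nat_lit 591) (nat_lit 556) (nat_lit 556) (nat_lit 688) (nat_lit 7727))) (.a (.f (nat_lit 591) (nat_lit 688) (nat_lit 7727) (.f (nat_lit 557) (nat_lit 556) (nat_lit 556) (.f (nat_lit 525) (nat_lit 524) (nat_lit 3596) (.f (nat_lit 561) (nat_lit 526) (nat_lit 3597) (.d (nat_lit 562) (nat_lit 563) (nat_lit 1583) (nat_lit 590) (nat_lit 1582)))))) (.a (.f (nat_lit 688) (nat_lit 591) (nat_lit 7727) (.f (nat_lit 593) (nat_lit 561) (nat_lit 6704) (.f (nat_lit 720) (nat_lit 625) (nat_lit 6736) (.d (nat_lit 719) (nat_lit 687) (nat_lit 5711) (nat_lit 751) (nat_lit 5743))))) (.f (nat_lit 593) (nat_lit 557) (nat_lit 557) (.d (nat_lit 594) (nat_lit 561) (nat_lit 558) (nat_lit 595) (nat_lit 3631))))))))))) s2401))))))))))))))))))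
noncomputable def s3000 : Cert := .r (nat_lit 16209045195187086480131410906589526856454500372730486082034735289518808314087364816261045757339259344390222847192865430159410136710316561565107307104084108844708148876309847605248) (.f (nat_lit 593) (nat_lit 625) (nat_lit 4592) (.f (nat_lit 558) (nat_lit 559) (nat_lit 557) (.f (nat_lit 461) (nat_lit 590) (nat_lit 4557) (.f (nat_lit 556) (nat_lit 588) (nat_lit 5580) (.f (nat_lit 524) (nat_lit 429) (nat_lit 5548) (.f (nat_lit 460) (nat_lit 428) (nat_lit 7596) (.f (nat_lit 492) (nat_lit 589) (nat_lit 4556) (.f (nat_lit 523) (nat_lit 522) (nat_lit 522) (.f (nat_lit 555) (nat_lit 587) (nat_lit 5579) (.f (nat_lit 459) (nat_lit 427) (nat_lit 7595) (.f (nat_lit 458) (nat_lit 457) (nat_lit 457) (.d (nat_lit 426) (nat_lit 425) (nat_lit 3497) (nat_lit 491) (nat_lit 7594)))))))))))))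
noncomputable def s3066 : Cert := .r (nat_lit 17404329764828869485047512832442702886900060774009693823770393558079093520662522088179530246820240776324173847711136672503716594299317921303546410009584278397820062110677584244312385781760) (.p (nat_lit 624) (.a (.d (nat_lit 625) (nat_lit 593) (nat_lit 4592) (nat_lit 657) (nat_lit 4624)) (.a (.f (nat_lit 623) (nat_lit 655) (nat_lit 5647) (.d (nat_lit 593) (nat_lit 621) (nat_lit 2637) (nat_lit 625) (nat_lit 4592))) (.a (.f (nat_lit 623) (nat_lit 655) (nat_lit 5647) (.f (nat_lit 621) (nat_lit 593) (nat_lit 2637) (.f (nat_lit 652) (nat_lit 653) (nat_lit 1644) (.f (nat_lit 620) (nat_lit 651) (nat_lit 1643) (.d (nat_lit 588) (nat_lit 556) (nat_lit 6668) (nat_lit 587) (nat_lit 3659)))))) (.f (nat_lit 657) (nat_lit 625) (nat_lit 4624) (.f (nat_lit 656) (nat_lit 689) (nat_lit 4656) (.d (nat_lit 623) (nat_lit 621) (nat_lit 621) (nat_lit 655) (nat_lit 5647))))))))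
noncomputable def s3403 : Cert := .r (nat_lit 145881406722246371130431627217775498339328118900307135990984894569788179015207317104050534051749973880434332899805175293998908377857623234005161084985233261075589123931260271460352) (.f (nat_lit 563) (nat_lit 466) (nat_lit 7634) (.f (nat_lit 596) (nat_lit 628) (nat_lit 4595) (.f (nat_lit 626) (nat_lit 594) (nat_lit 5618) (.f (nat_lit 627) (nat_lit 658) (nat_lit 5650) (.f (nat_lit 624) (nat_lit 625) (nat_lit 2640) (.f (nat_lit 655) (nat_lit 623) (nat_lit 5647) (.f (nat_lit 656) (nat_lit 687) (nat_lit 5679) (.f (nat_lit 689) (nat_lit 657) (nat_lit 4656) (.f (nat_lit 688) (nat_lit 721) (nat_lit 4688) (.f (nat_lit 691) (nat_lit 690) (nat_lit 3727) (.f (nat_lit 659) (nat_lit 564) (nat_lit 6707) (.d (nat_lit 692) (nat_lit 660) (nat_lit 4659) (nat_lit 724) (nat_lit 4691)))))))))))))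
noncomputable def s3674 : Cert := .r (nat_lit 16209045195187086473101858102078741861705073178922100492915055556261520739188493917030447047461787596044079855994999466340440063062872816320416567242424559428573021608396317523968) (.p (nat_lit 558) (.a (.f (nat_lit 559) (nat_lit 524) (nat_lit 3596) (.d (nat_lit 591) (nat_lit 556) (nat_lit 556) (nat_lit 623) (nat_lit 5615))) (.a (.f (nat_lit 559) (nat_lit 524) (nat_lit 3596) (.f (nat_lit 556) (nat_lit 591) (nat_lit 556) (.d (nat_lit 588) (nat_lit 587) (nat_lit 1579) (nat_lit 589) (nat_lit 1580)))) (.a (.f (nat_lit 623) (nat_lit 591) (nat_lit 5615) (.f (nat_lit 624) (nat_lit 655) (nat_lit 5647) (.f (nat_lit 657) (nat_lit 625) (nat_lit 4624) (.f (nat_lit 656) (nat_lit 689) (nat_lit 4656) (.f (nat_lit 622) (nat_lit 621) (nat_lit 621) (.f (nat_lit 590) (nat_lit 654) (nat_lit 7693) (.d (nat_lit 493) (nat_lit 461) (nat_lit 4557) (nat_lit 589) (nat_lit 4589)))))))) (.f (nat_lit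 524) (nat_lit 559) (nat_lit 3596) (.f (nat_lit 495) (nat_lit 463) (nat_lit 7631) (.f (nat_lit 493) (nat_lit 494) (nat_lit 1516) (.f (nat_lit 461) (nat_lit 590) (nat_lit 4557) (.d (nat_lit 556) (nat_lit 429) (nat_lit 5548) (nat_lit 588) (nat_lit 5580))))))))))
noncomputable def s4074 : Cert := .r (nat_lit 18235175844054758816125494754271691642472869190759227885491060111774534807261202972889679004955490620598863980316923679808406445423913722232470705345019268260145864285838460846080) (.p (nat_lit 494) (.a (.f (nat_lit 493) (nat_lit 462) (nat_lit 6605) (.f (nat_lit 621) (nat_lit 526) (nat_lit 6637) (.d (nat_lit 620) (nat_lit 588) (nat_lit 5612) (nat_lit 652) (nat_lit 5644)))) (.a (.f (nat_lit 621) (nat_lit 526) (nat_lit 6637) (.f (nat_lit 524) (nat_lit 492) (nat_lit 7660) (.f (nat_lit 653) (nat_lit 556) (nat_lit 7692) (.d (nat_lit 654) (nat_lit 622) (nat_lit 4621) (nat_lit 686) (nat_lit 4653))))) (.f (nat_lit 493) (nat_lit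 462) (nat_lit 6605) (.f (nat_lit 588) (nat_lit 620) (nat_lit 5612) (.f (nat_lit 461) (nat_lit 556) (nat_lit 5580) (.d (nat_lit 460) (nat_lit 428) (nat_lit 7596) (nat_lit 492) (nat_lit 7628))))))))
noncomputable def s4087 : Cert := .r (nat_lit 18235175844054758816125494754271691642472869190759227885491060111774534807261202972889679004955490620598863980316923679808406445423913722232470705345019268260145864285838460846080) (.p (nat_lit 590) (.a (.d (nat_lit 591) (nat_lit 556) (nat_lit 3628) (nat_lit 561) (nat_lit 2605)) (.a (.f (nat_lit 493) (nat_lit 622) (nat_lit 4589) (.f (nat_lit 556) (nat_lit 591) (nat_lit 3628) (.d (nat_lit 588) (nat_lit 461) (nat_lit 5580) (nat_lit 620) (nat_lit 5612)))) (.a (.f (nat_lit 493) (nat_lit 622) (nat_lit 4589) (.f (nat_lit 588) (nat_lit 620) (nat_lit 5612) (.f (nat_lit 556) (nat_lit 461) (nat_lit 5580) (.f (nat_lit 492) (nat_lit 460) (nat_lit 7628) (.f (nat_lit 524) (nat_lit 621) (nat_lit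 4588) (.f (nat_lit 491) (nat_lit 459) (nat_lit 7627) (.d (nat_lit 490) (nat_lit 489) (nat_lit 489) (nat_lit 526) (nat_lit 490)))))))) (.f (nat_lit 591) (nat_lit 561) (nat_lit 2605) (.f (nat_lit 621) (nat_lit 620) (nat_lit 1612) (.d (nat_lit 622) (nat_lit 493) (nat_lit 4589) (nat_lit 654) (nat_lit 4621))))))))
noncomputable def s4118 : Cert := .r (nat_lit 18235175844054758816125494754271691642472869190759227885491060111774534807261202972889679004955490620598863980316923679808406445423913722232470705345019268260145864285838460846080) (.p (nat_lit 494) (.a (.f (nat_lit 493) (nat_lit 462) (nat_lit 6605) (.f (nat_lit 621) (nat_lit 526) (nat_lit 6637) (.d (nat_lit 620) (nat_lit 588) (nat_lit 5612) (nat_lit 652) (nat_lit 5644)))) (.a (.f (nat_lit 621) (nat_lit 526) (nat_lit 6637) (.f (nat_lit 524) (nat_lit 492) (nat_lit 7660) (.f (nat_lit 653) (nat_lit 556) (nat_lit 7692) (.d (nat_lit 652) (nat_lit 620) (nat_lit 5644) (nat_lit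 684) (nat_lit 5676))))) (.a (.f (nat_lit 493) (nat_lit 462) (nat_lit 6605) (.f (nat_lit 588) (nat_lit 620) (nat_lit 5612) (.f (nat_lit 558) (nat_lit 559) (nat_lit 1580) (.d (nat_lit 461) (nat_lit 556) (nat_lit 5580) (nat_lit 590) (nat_lit 4557))))) (.f (nat_lit 526) (nat_lit 621) (nat_lit 6637) (.d (nat_lit 462) (nat_lit 493) (nat_lit 6605) (nat_lit 558) (nat_lit 5581)))))))
noncomputable def s4175 : Cert := .r (nat_lit 18235175844054758816125494754271691642472869190759227885491060111774534807261202972889679004955490620598863980316923679808406445423913722232470705345019268260145864285838460846080) (.p (nat_lit 622) (.a (.f (nat_lit 621) (nat_lit 654) (nat_lit 4621) (.f (nat_lit 493) (nat_lit 590) (nat_lit 4589) (.d (nat_lit 620) (nat_lit 588) (nat_lit 5612) (nat_lit 652) (nat_lit 5644)))) (.a (.f (nat_lit 621) (nat_lit 654) (nat_lit 4621) (.f (nat_lit 620) (nat_lit 652) (nat_lit 5644) (.f (nat_lit 588) (nat_lit 493)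 (nat_lit 5612) (.f (nat_lit 524) (nat_lit 492) (nat_lit 7660) (.f (nat_lit 556) (nat_lit 653) (nat_lit 4620) (.f (nat_lit 587) (nat_lit 586) (nat_lit 586) (.f (nat_lit 619) (nat_lit 651) (nat_lit 5643) (.f (nat_lit 523) (nat_lit 491) (nat_lit 7659) (.f (nat_lit 522) (nat_lit 521) (nat_lit 521) (.d (nat_lit 490) (nat_lit 489) (nat_lit 3561) (nat_lit 555) (nat_lit 7658))))))))))) (.a (.f (nat_lit 621) (nat_lit 654) (nat_lit 4621) (.f (nat_lit 652) (nat_lit 620) (nat_lit 5644) (.f (nat_lit 653) (nat_lit 684) (nat_lit 5676) (.d (nat_lit 524) (nat_lit 492) (nat_lit 7660) (nat_lit 556) (nat_lit 7692))))) (.a (.f (nat_lit 590) (nat_lit 493) (nat_lit 4589) (.d (nat_lit 654) (nat_lit 558) (nat_lit 7693) (nat_lit 686) (nat_lit 7725))) (.f (nat_lit 493) (nat_lit 590) (nat_lit 4589) (.f (nat_lit 588) (nat_lit 620) (nat_lit 5612) (.f (nat_lit 461) (nat_lit 556) (nat_lit 5580) (.d (nat_lit 460) (nat_lit 428) (nat_lit 7596) (nat_lit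 492) (nat_lit 7628))))))))))
noncomputable def s4239 : Cert := .r (nat_lit 18235175844054758816125494754271691642472869190759227885491060111774534807261202972889679004955490620598863980316923679808406445423913722232470705345019268260145864285838460846080) (.p (nat_lit 624) (.a (.f (nat_lit 657) (nat_lit 625) (nat_lit 4624) (.f (nat_lit 656) (nat_lit 689) (nat_lit 4656) (.f (nat_lit 687) (nat_lit 655) (nat_lit 5679) (.f (nat_lit 688) (nat_lit 719) (nat_lit 5711) (.f (nat_lit 559) (nat_lit 591) (nat_lit 7727) (.d (nat_lit 558) (nat_lit 524) (nat_lit 3596) (nat_lit 588) (nat_lit 1580))))))) (.a (.f (nat_lit 657) (nat_lit 625) (nat_lit 4624) (.f (nat_lit 656) (nat_lit 689) (nat_lit 4656) (.d (nat_lit 655) (nat_lit 623) (nat_lit 5647) (nat_lit 687) (nat_lit 5679)))) (.a (.d (nat_lit 623) (nat_lit 591) (nat_lit 5615) (nat_lit 655) (nat_lit 5647)) (.f (nat_lit 591) (nat_lit 623) (nat_lit 5615) (.f (nat_lit 657) (nat_lit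 625) (nat_lit 4624) (.f (nat_lit 656) (nat_lit 689) (nat_lit 4656) (.f (nat_lit 559) (nat_lit 688) (nat_lit 7727) (.d (nat_lit 558) (nat_lit 524) (nat_lit 3596) (nat_lit 556) (nat_lit 556))))))))))
noncomputable def s4285 : Cert := .r (nat_lit 18235175844054758816125494754271691642472869190759227885491060111774534807261202972889679004955490620598863980316923679808406445423913722232470705345019268260145864285838460846080) (.p (nat_lit 493) (.a (.f (nat_lit 588) (nat_lit 620) (nat_lit 5612) (.f (nat_lit 461) (nat_lit 556) (nat_lit 5580) (.d (nat_lit 460) (nat_lit 428) (nat_lit 7596) (nat_lit 492) (nat_lit 7628)))) (.a (.f (nat_lit 588) (nat_lit 620) (nat_lit 5612) (.f (nat_lit 558) (nat_lit 559) (nat_lit 1580) (.f (nat_lit 492) (nat_lit 460) (nat_lit 7628) (.f (nat_lit 621) (nat_lit 524) (nat_lit 7660) (.f (nat_lit 653) (nat_lit 526) (nat_lit 6669) (.d (nat_lit 654) (nat_lit 622) (nat_lit 4621) (nat_lit 686) (nat_lit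 4653))))))) (.a (.f (nat_lit 588) (nat_lit 620) (nat_lit 5612) (.f (nat_lit 558) (nat_lit 559) (nat_lit 1580) (.f (nat_lit 461) (nat_lit 556) (nat_lit 5580) (.f (nat_lit 429) (nat_lit 526) (nat_lit 4525) (.d (nat_lit 430) (nat_lit 398) (nat_lit 6541) (nat_lit 462) (nat_lit 6573)))))) (.a (.f (nat_lit 492) (nat_lit 460) (nat_lit 7628) (.f (nat_lit 621) (nat_lit 524) (nat_lit 7660) (.f (nat_lit 652) (nat_lit 620) (nat_lit 5644) (.f (nat_lit 653) (nat_lit 684) (nat_lit 5676) (.d (nat_lit 654) (nat_lit 622) (nat_lit 4621) (nat_lit 686) (nat_lit 4653)))))) (.f (nat_lit 492) (nat_lit 460) (nat_lit 7628) (.f (nat_lit 621) (nat_lit 524) (nat_lit 7660) (.f (nat_lit 654) (nat_lit 622) (nat_lit 4621) (.f (nat_lit 653) (nat_lit 686) (nat_lit 4653) (.f (nat_lit 684) (nat_lit 652) (nat_lit 5676) (.f (nat_lit 685) (nat_lit 716) (nat_lit 5708) (.f (nat_lit 558) (nat_lit 526) (nat_lit 6669) (.d (nat_lit 588) (nat_lit 556) (nat_lit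 7724) (nat_lit 559) (nat_lit 1580))))))))))))))
noncomputable def s4306 : Cert := .r (nat_lit 18235175844054758816125494754271691642472869190759227885491060111774534807261202972889679004955490620598863980316923679808406445423913722232470705345019268260145864285838460846080) (.p (nat_lit 493) (.a (.f (nat_lit 588) (nat_lit 620) (nat_lit 5612) (.f (nat_lit 461) (nat_lit 556) (nat_lit 5580) (.d (nat_lit 460) (nat_lit 428) (nat_lit 7596) (nat_lit 492) (nat_lit 7628)))) (.a (.f (nat_lit 588) (nat_lit 620) (nat_lit 5612) (.f (nat_lit 558) (nat_lit 559) (nat_lit 1580) (.f (nat_lit 492) (nat_lit 460) (nat_lit 7628) (.f (nat_lit 621) (nat_lit 524) (nat_lit 7660) (.f (nat_lit 653) (nat_lit 526) (nat_lit 6669) (.d (nat_lit 685) (nat_lit 556) (nat_lit 7724) (nat_lit 590) (nat_lit 6701))))))) (.a (.f (nat_lit 588) (nat_lit 620) (nat_lit 5612) (.f (nat_lit 558) (nat_lit 559) (nat_lit 1580) (.f (nat_lit 461) (nat_lit 556) (nat_lit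 5580) (.f (nat_lit 429) (nat_lit 526) (nat_lit 4525) (.d (nat_lit 430) (nat_lit 398) (nat_lit 6541) (nat_lit 462) (nat_lit 6573)))))) (.f (nat_lit 492) (nat_lit 460) (nat_lit 7628) (.f (nat_lit 524) (nat_lit 621) (nat_lit 7660) (.f (nat_lit 558) (nat_lit 559) (nat_lit 3596) (.f (nat_lit 461) (nat_lit 590) (nat_lit 4557) (.d (nat_lit 429) (nat_lit 397) (nat_lit 5516) (nat_lit 526) (nat_lit 4525))))))))))
noncomputable def s4477 : Cert := .r (nat_lit 16209045195187086473101858102104315225829261787281578537421521174638213255173205360698285261275038641328491375955025013936736189290614118540163130297184069245337751241625446645760) (.p (nat_lit 558) (.a (.f (nat_lit 461) (nat_lit 590) (nat_lit 4557) (.f (nat_lit 524) (nat_lit 559) (nat_lit 3596) (.d (nat_lit 556) (nat_lit 429) (nat_lit 5548) (nat_lit 588) (nat_lit 5580)))) (.a (.f (nat_lit 461) (nat_lit 590) (nat_lit 4557) (.f (nat_lit 556) (nat_lit 588) (nat_lit 5580)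 (.f (nat_lit 524) (nat_lit 429) (nat_lit 5548) (.f (nat_lit 460) (nat_lit 428) (nat_lit 7596) (.f (nat_lit 492) (nat_lit 589) (nat_lit 4556) (.f (nat_lit 459) (nat_lit 427) (nat_lit 7595) (.d (nat_lit 458) (nat_lit 457) (nat_lit 457) (nat_lit 494) (nat_lit 458)))))))) (.a (.f (nat_lit 559) (nat_lit 524) (nat_lit 3596) (.f (nat_lit 588) (nat_lit 589) (nat_lit 1580) (.d (nat_lit 556) (nat_lit 461) (nat_lit 5580) (nat_lit 587) (nat_lit 1579)))) (.a (.f (nat_lit 559) (nat_lit 524) (nat_lit 3596) (.f (nat_lit 589) (nat_lit 588) (nat_lit 1580) (.d (nat_lit 590) (nat_lit 561) (nat_lit 1581) (nat_lit 622) (nat_lit 4589)))) (.a (.f (nat_lit 461) (nat_lit 590) (nat_lit 4557) (.f (nat_lit 588) (nat_lit 556) (nat_lit 5580) (.d (nat_lit 589) (nat_lit 559) (nat_lit 1580) (nat_lit 620) (nat_lit 5612)))) (.f (nat_lit 590) (nat_lit 461) (nat_lit 4557) (.d (nat_lit 622) (nat_lit 589) (nat_lit 4589) (nat_lit 654) (nat_lit 7693)))))))))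
noncomputable def s4820 : Cert := .r (nat_lit 16209045209811190872690270482667069759626691128824487394104751807171640402966090718112287531296816231612050120067497163475602991431240843895622671369916043688618459204928990609408) (.f (nat_lit 625) (nat_lit 593) (nat_lit 4592) (.f (nat_lit 657) (nat_lit 624) (nat_lit 4624) (.f (nat_lit 594) (nat_lit 626) (nat_lit 5649) (.f (nat_lit 499) (nat_lit 467) (nat_lit 6610) (.f (nat_lit 531) (nat_lit 532) (nat_lit 496) (.f (nat_lit 595) (nat_lit 627) (nat_lit 4594) (.f (nat_lit 563) (nat_lit 466) (nat_lit 4562) (.f (nat_lit 500) (nat_lit 468) (nat_lit 6611) (.f (nat_lit 501) (nat_lit 502) (nat_lit 1522) (.f (nat_lit 596) (nat_lit 628) (nat_lit 4595) (.f (nat_lit 597) (nat_lit 598) (nat_lit 3634) (.f (nat_lit 565) (nat_lit 566) (nat_lit 2610) (.f (nat_lit 533) (nat_lit 534) (nat_lit 498) (.d (nat_lit 469) (nat_lit 470) (nat_lit 2514) (nat_lit 564) (nat_lit 5588)))))))))))))))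
noncomputable def s5229 : Cert := .r (nat_lit 81045225973576705845931866949627069092164377097227944492984597027833477444416665918448477798159662945026638604269180977679937456620529127218513606168635333462204500003028469809152) (.p (nat_lit 498) (.a (.f (nat_lit 497) (nat_lit 465) (nat_lit 6608) (.f (nat_lit 495) (nat_lit 463) (nat_lit 7631) (.f (nat_lit 530) (nat_lit 531) (nat_lit 495) (.d (nat_lit 467) (nat_lit 466) (nat_lit 2511) (nat_lit 499) (nat_lit 6610))))) (.a (.p (nat_lit 595) (.a (.f (nat_lit 593) (nat_lit 559) (nat_lit 3631) (.d (nat_lit 627) (nat_lit 530) (nat_lit 4594) (nat_lit 628) (nat_lit 592))) (.a (.f (nat_lit 530) (nat_lit 627) (nat_lit 4594) (.f (nat_lit 563) (nat_lit 466) (nat_lit 4562) (.d (nat_lit 593) (nat_lit 564) (nat_lit 2608) (nat_lit 591) (nat_lit 2607)))) (.a (.f (nat_lit 530) (nat_lit 627) (nat_lit 4594) (.f (nat_lit 466) (nat_lit 563) (nat_lit 4562) (.d (nat_lit 467) (nat_lit 435)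 (nat_lit 6578) (nat_lit 499) (nat_lit 6610)))) (.f (nat_lit 593) (nat_lit 559) (nat_lit 3631) (.d (nat_lit 563) (nat_lit 564) (nat_lit 2608) (nat_lit 591) (nat_lit 2607))))))) (.a (.f (nat_lit 497) (nat_lit 465) (nat_lit 6608) (.f (nat_lit 495) (nat_lit 463) (nat_lit 7631) (.f (nat_lit 467) (nat_lit 466) (nat_lit 2511) (.f (nat_lit 499) (nat_lit 468) (nat_lit 2512) (.d (nat_lit 531) (nat_lit 532) (nat_lit 496) (nat_lit 563) (nat_lit 5586)))))) (.a (.f (nat_lit 497) (nat_lit 465) (nat_lit 6608) (.f (nat_lit 495) (nat_lit 463) (nat_lit 7631) (.f (nat_lit 530) (nat_lit 531) (nat_lit 495) (.f (nat_lit 595) (nat_lit 627) (nat_lit 4594) (.d (nat_lit 466) (nat_lit 467) (nat_lit 2511) (nat_lit 563) (nat_lit 4562)))))) (.f (nat_lit 497) (nat_lit 465) (nat_lit 6608) (.f (nat_lit 495) (nat_lit 463) (nat_lit 7631) (.f (nat_lit 530) (nat_lit 531) (nat_lit 495) (.f (nat_lit 595) (nat_lit 627) (nat_lit 4594) (.f (nat_lit 593) (nat_lit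 559) (nat_lit 3631) (.d (nat_lit 563) (nat_lit 564) (nat_lit 2608) (nat_lit 591) (nat_lit 2607))))))))))))
noncomputable def s5292 : Cert := .r (nat_lit 278469276058962414611343527482912538635004785599034490047618112821797778620159978085646695906081009522930311722711844128603208365459200029756067537846090155744562742785951140022735146582016) (.p (nat_lit 658) (.a (.f (nat_lit 659) (nat_lit 691) (nat_lit 4658) (.f (nat_lit 627) (nat_lit 530) (nat_lit 4626) (.f (nat_lit 657) (nat_lit 689) (nat_lit 5681) (.d (nat_lit 628) (nat_lit 629) (nat_lit 1649) (nat_lit 656) (nat_lit 2672))))) (.a (.f (nat_lit 659) (nat_lit 691) (nat_lit 4658) (.f (nat_lit 530) (nat_lit 627) (nat_lit 4626) (.d (nat_lit 531) (nat_lit 499) (nat_lit 6642) (nat_lit 563) (nat_lit 6674)))) (.a (.f (nat_lit 691) (nat_lit 659) (nat_lit 4658) (.f (nat_lit 690) (nat_lit 723) (nat_lit 4690) (.d (nat_lit 689) (nat_lit 657) (nat_lit 5681) (nat_lit 721) (nat_lit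 5713)))) (.f (nat_lit 531) (nat_lit 563) (nat_lit 6674) (.f (nat_lit 497) (nat_lit 465) (nat_lit 6608) (.f (nat_lit 495) (nat_lit 463) (nat_lit 7631) (.d (nat_lit 530) (nat_lit 498) (nat_lit 495) (nat_lit 499) (nat_lit 6642)))))))))
noncomputable def s5326 : Cert := .r (nat_lit 1196016433544422019454433704016040696555723032439171280040786333459805702254549303428365986095627704129653419123790644032765023939083451184073145678753327654011221047660060037860476112275028846837760) (.f (nat_lit 689) (nat_lit 657) (nat_lit 5681) (.f (nat_lit 690) (nat_lit 721) (nat_lit 5713) (.f (nat_lit 593) (nat_lit 561) (nat_lit 7729) (.f (nat_lit 723) (nat_lit 691) (nat_lit 4690) (.f (nat_lit 722) (nat_lit 755) (nat_lit 4722) (.f (nat_lit 591) (nat_lit 627) (nat_lit 591) (.f (nat_lit 558) (nat_lit 559) (nat_lit 3630) (.f (nat_lit 590) (nat_lit 557) (nat_lit 3629) (.f (nat_lit 622) (nat_lit 621) (nat_lit 1613) (.f (nat_lit 687) (nat_lit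 688) (nat_lit 687) (.f (nat_lit 654) (nat_lit 655) (nat_lit 4654) (.f (nat_lit 686) (nat_lit 719) (nat_lit 4686) (.d (nat_lit 685) (nat_lit 653) (nat_lit 5677) (nat_lit 717) (nat_lit 5709))))))))))))))
noncomputable def s5583 : Cert := .r (nat_lit 16209045209811190872690270482257895933639673395072838682001301913144560147210707619426876110284799507061465800707088401934864971787380008379677662493763886620382785073262924660736) (.p (nat_lit 594) (.a (.f (nat_lit 595) (nat_lit 627) (nat_lit 4594) (.f (nat_lit 561) (nat_lit 559) (nat_lit 559) (.d (nat_lit 563) (nat_lit 466) (nat_lit 4562) (nat_lit 596) (nat_lit 560)))) (.a (.f (nat_lit 595) (nat_lit 627) (nat_lit 4594) (.f (nat_lit 466) (nat_lit 563) (nat_lit 4562) (.d (nat_lit 467) (nat_lit 435) (nat_lit 6578) (nat_lit 499) (nat_lit 6610)))) (.a (.f (nat_lit 499) (nat_lit 467) (nat_lit 6610) (.f (nat_lit 531) (nat_lit 626) (nat_lit 6642) (.f (nat_lit 561) (nat_lit 559)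 (nat_lit 2575) (.d (nat_lit 532) (nat_lit 533) (nat_lit 1553) (nat_lit 563) (nat_lit 2576))))) (.f (nat_lit 499) (nat_lit 467) (nat_lit 6610) (.f (nat_lit 626) (nat_lit 531) (nat_lit 6642) (.d (nat_lit 627) (nat_lit 595) (nat_lit 4594) (nat_lit 659) (nat_lit 4626))))))))
noncomputable def s5751 : Cert := .r (nat_lit 20261306508490026161537989484461054069817274377628655312284881434339399863847111698616524977304466386511490520747404940278273687996508289742964613056929893378878578143334359891968) (.p (nat_lit 622) (.a (.f (nat_lit 557) (nat_lit 654) (nat_lit 7693) (.d (nat_lit 493) (nat_lit 526) (nat_lit 7661) (nat_lit 589) (nat_lit 4589))) (.a (.f (nat_lit 526) (nat_lit 493) (nat_lit 7661) (.f (nat_lit 655) (nat_lit 623) (nat_lit 4622) (.f (nat_lit 654) (nat_lit 687) (nat_lit 4654) (.d (nat_lit 653) (nat_lit 621) (nat_lit 5645) (nat_lit 685) (nat_lit 5677))))) (.a (.f (nat_lit 654) (nat_lit 557) (nat_lit 7693) (.f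 (nat_lit 653) (nat_lit 685) (nat_lit 5677) (.f (nat_lit 621) (nat_lit 526) (nat_lit 5645) (.f (nat_lit 655) (nat_lit 687) (nat_lit 4654) (.d (nat_lit 656) (nat_lit 620) (nat_lit 3692) (nat_lit 657) (nat_lit 3693)))))) (.a (.f (nat_lit 557) (nat_lit 654) (nat_lit 7693) (.d (nat_lit 493) (nat_lit 461) (nat_lit 4557) (nat_lit 589) (nat_lit 4589))) (.f (nat_lit 493) (nat_lit 526) (nat_lit 7661) (.d (nat_lit 557) (nat_lit 461) (nat_lit 4557) (nat_lit 589) (nat_lit 4589))))))))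
noncomputable def s5754 : Cert := .r (nat_lit 16209045210754681475490716180075154508281682353954400527132872323313371727701693586898061062317060337401922272103556513342340923274426477918856336851740475715732892788450073247744) (.p (nat_lit 590) (.a (.p (nat_lit 622) (.a (.f (nat_lit 557) (nat_lit 654) (nat_lit 7693) (.d (nat_lit 493) (nat_lit 526) (nat_lit 7661) (nat_lit 589) (nat_lit 4589))) (.a (.f (nat_lit 526) (nat_lit 493) (nat_lit 7661) (.f (nat_lit 621) (nat_lit 653) (nat_lit 5645) (.f (nat_lit 589) (nat_lit 494) (nat_lit 5613) (.d (nat_lit 591) (nat_lit 561) (nat_lit 2605) (nat_lit 620) (nat_lit 1612))))) (.a (.f (nat_lit 654) (nat_lit 557) (nat_lit 7693) (.f (nat_lit 653) (nat_lit 685) (nat_lit 5677) (.f (nat_lit 621) (nat_lit 526) (nat_lit 5645) (.f (nat_lit 655) (nat_lit 687) (nat_lit 4654) (.d (nat_lit 656) (nat_lit 620) (nat_lit 3692) (nat_lit 657) (nat_lit 3693)))))) (.f (nat_lit 557) (nat_lit 654)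 (nat_lit 7693) (.d (nat_lit 493) (nat_lit 461) (nat_lit 4557) (nat_lit 589) (nat_lit 4589))))))) (.a (.p (nat_lit 622) (.a (.f (nat_lit 557) (nat_lit 654) (nat_lit 7693) (.d (nat_lit 493) (nat_lit 526) (nat_lit 7661) (nat_lit 589) (nat_lit 4589))) (.a (.f (nat_lit 526) (nat_lit 493) (nat_lit 7661) (.f (nat_lit 621) (nat_lit 653) (nat_lit 5645) (.f (nat_lit 589) (nat_lit 494) (nat_lit 5613) (.f (nat_lit 620) (nat_lit 591) (nat_lit 1612) (.f (nat_lit 619) (nat_lit 618) (nat_lit 2634) (.f (nat_lit 654) (nat_lit 655) (nat_lit 619) (.f (nat_lit 587) (nat_lit 586) (nat_lit 3658) (.f (nat_lit 651) (nat_lit 650) (nat_lit 1642) (.f (nat_lit 686) (nat_lit 718) (nat_lit 7757) (.f (nat_lit 685) (nat_lit 717) (nat_lit 5709) (.f (nat_lit 687) (nat_lit 719) (nat_lit 4686) (.f (nat_lit 684) (nat_lit 652) (nat_lit 3723) (.d (nat_lit 716) (nat_lit 683) (nat_lit 4683) (nat_lit 715) (nat_lit 1707)))))))))))))) (.a (.f (nat_lit 654)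 (nat_lit 557) (nat_lit 7693) (.f (nat_lit 653) (nat_lit 685) (nat_lit 5677) (.f (nat_lit 621) (nat_lit 526) (nat_lit 5645) (.f (nat_lit 655) (nat_lit 687) (nat_lit 4654) (.d (nat_lit 656) (nat_lit 620) (nat_lit 3692) (nat_lit 657) (nat_lit 3693)))))) (.a (.f (nat_lit 557) (nat_lit 654) (nat_lit 7693) (.d (nat_lit 493) (nat_lit 461) (nat_lit 4557) (nat_lit 589) (nat_lit 4589))) (.f (nat_lit 493) (nat_lit 526) (nat_lit 7661) (.d (nat_lit 557) (nat_lit 461) (nat_lit 4557) (nat_lit 589) (nat_lit 4589)))))))) (.a (.f (nat_lit 591) (nat_lit 623) (nat_lit 5615) (.f (nat_lit 557) (nat_lit 593) (nat_lit 3629) (.d (nat_lit 556) (nat_lit 555) (nat_lit 555) (nat_lit 589) (nat_lit 3628)))) (.a (.f (nat_lit 591) (nat_lit 623) (nat_lit 5615) (.d (nat_lit 561) (nat_lit 589) (nat_lit 2605) (nat_lit 593) (nat_lit 2606))) (.a s5751 (.f (nat_lit 591) (nat_lit 623) (nat_lit 5615) (.d (nat_lit 593) (nat_lit 557) (nat_lit 3629) (nat_lit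 561) (nat_lit 2606)))))))))
noncomputable def s6006 : Cert := .r (nat_lit 3773962425700235452738272624505952193199339552226928146794549392648115485167898379561026699849346401546134558067857772757880134458676407096525164659442171664912122642432) (.p (nat_lit 592) (.a (.p (nat_lit 624) (.a (.f (nat_lit 625) (nat_lit 657) (nat_lit 4624) (.f (nat_lit 623) (nat_lit 655) (nat_lit 5647) (.d (nat_lit 496) (nat_lit 591) (nat_lit 5615) (nat_lit 593) (nat_lit 4592)))) (.a (.f (nat_lit 625) (nat_lit 657) (nat_lit 4624) (.f (nat_lit 496) (nat_lit 593) (nat_lit 4592) (.f (nat_lit 465) (nat_lit 497) (nat_lit 6608) (.f (nat_lit 464) (nat_lit 433) (nat_lit 6576) (.d (nat_lit 463) (nat_lit 431) (nat_lit 7599) (nat_lit 495) (nat_lit 7631)))))) (.a (.f (nat_lit 623) (nat_lit 655) (nat_lit 5647) (.f (nat_lit 496) (nat_lit 591) (nat_lit 5615) (.f (nat_lit 593) (nat_lit 625) (nat_lit 4592) (.f (nat_lit 464) (nat_lit 561) (nat_lit 4560) (.d (nat_lit 465) (nat_lit 433) (nat_lit 6576) (nat_lit 497) (nat_lit 6608)))))) (.a (.f (nat_lit 623) (nat_lit 655) (nat_lit 5647) (.f (nat_lit 496) (nat_lit 591) (nat_lit 5615) (.f (nat_lit 465) (nat_lit 497) (nat_lit 6608) (.f (nat_lit 464) (nat_lit 433) (nat_lit 6576) (.d (nat_lit 463) (nat_lit 431) (nat_lit 7599) (nat_lit 495) (nat_lit 7631)))))) (.f (nat_lit 655) (nat_lit 623) (nat_lit 5647) (.f (nat_lit 656) (nat_lit 687) (nat_lit 5679) (.d (nat_lit 657) (nat_lit 625) (nat_lit 4624) (nat_lit 689) (nat_lit 4656))))))))) (.a (.p (nat_lit 496) (.a (.f (nat_lit 593) (nat_lit 625) (nat_lit 4592) (.f (nat_lit 591) (nat_lit 623) (nat_lit 5615) (.d (nat_lit 464) (nat_lit 559) (nat_lit 5583) (nat_lit 561) (nat_lit 4560)))) (.a (.f (nat_lit 593) (nat_lit 625) (nat_lit 4592) (.f (nat_lit 464) (nat_lit 561) (nat_lit 4560) (.d (nat_lit 465) (nat_lit 433) (nat_lit 6576) (nat_lit 497) (nat_lit 6608)))) (.a (.f (nat_lit 591) (nat_lit 623) (nat_lit 5615) (.f (nat_lit 593) (nat_lit 625) (nat_lit 4592) (.f (nat_lit 559) (nat_lit 464) (nat_lit 5583) (.d (nat_lit 594) (nat_lit 558) (nat_lit 3630) (nat_lit 595) (nat_lit 3631))))) (.a (.f (nat_lit 591) (nat_lit 623) (nat_lit 5615) (.f (nat_lit 464) (nat_lit 559) (nat_lit 5583) (.d (nat_lit 465) (nat_lit 433) (nat_lit 6576) (nat_lit 497) (nat_lit 6608)))) (.f (nat_lit 623) (nat_lit 591) (nat_lit 5615) (.f (nat_lit 624) (nat_lit 655) (nat_lit 5647) (.d (nat_lit 625) (nat_lit 593) (nat_lit 4592) (nat_lit 657) (nat_lit 4624))))))))) (.a (.p (nat_lit 496) (.a (.f (nat_lit 593) (nat_lit 625) (nat_lit 4592) (.f (nat_lit 591) (nat_lit 623) (nat_lit 5615) (.d (nat_lit 464) (nat_lit 559) (nat_lit 5583) (nat_lit 561) (nat_lit 4560)))) (.a (.f (nat_lit 593) (nat_lit 625) (nat_lit 4592) (.f (nat_lit 464) (nat_lit 561) (nat_lit 4560) (.d (nat_lit 463) (nat_lit 431) (nat_lit 7599) (nat_lit 495) (nat_lit 7631)))) (.a (.f (nat_lit 591) (nat_lit 623) (nat_lit 5615) (.f (nat_lit 593) (nat_lit 625) (nat_lit 4592) (.f (nat_lit 559) (nat_lit 464) (nat_lit 5583) (.d (nat_lit 594) (nat_lit 558) (nat_lit 3630) (nat_lit 595) (nat_lit 3631))))) (.a (.f (nat_lit 591) (nat_lit 623) (nat_lit 5615) (.f (nat_lit 464) (nat_lit 559) (nat_lit 5583) (.d (nat_lit 463) (nat_lit 431) (nat_lit 7599) (nat_lit 495) (nat_lit 7631)))) (.f (nat_lit 623) (nat_lit 591) (nat_lit 5615) (.f (nat_lit 624) (nat_lit 655) (nat_lit 5647) (.d (nat_lit 625) (nat_lit 593) (nat_lit 4592) (nat_lit 657) (nat_lit 4624))))))))) (.a (.p (nat_lit 623) (.a (.f (nat_lit 591) (nat_lit 496) (nat_lit 5615) (.d (nat_lit 655) (nat_lit 559) (nat_lit 6671) (nat_lit 624) (nat_lit 5647))) (.a (.f (nat_lit 496) (nat_lit 591) (nat_lit 5615) (.f (nat_lit 624) (nat_lit 655) (nat_lit 5647) (.d (nat_lit 625) (nat_lit 593) (nat_lit 4592) (nat_lit 657) (nat_lit 4624)))) (.a (.p (nat_lit 625) (.a (.d (nat_lit 496) (nat_lit 591) (nat_lit 5615) (nat_lit 593) (nat_lit 4592)) (.a (.f (nat_lit 624) (nat_lit 657) (nat_lit 4624) (.f (nat_lit 591) (nat_lit 496) (nat_lit 5615) (.d (nat_lit 626) (nat_lit 590) (nat_lit 3662) (nat_lit 627) (nat_lit 3663)))) (.a (.f (nat_lit 593) (nat_lit 496) (nat_lit 4592) (.d (nat_lit 657) (nat_lit 561) (nat_lit 7696) (nat_lit 624) (nat_lit 4624))) (.f (nat_lit 657) (nat_lit 624) (nat_lit 4624) (.d (nat_lit 593) (nat_lit 561) (nat_lit 7696) (nat_lit 689) (nat_lit 7728))))))) (.a (.f (nat_lit 591) (nat_lit 496) (nat_lit 5615) (.d (nat_lit 655) (nat_lit 559) (nat_lit 6671) (nat_lit 687) (nat_lit 6703))) (.a (.f (nat_lit 624) (nat_lit 655) (nat_lit 5647) (.f (nat_lit 625) (nat_lit 657) (nat_lit 4624) (.f (nat_lit 593) (nat_lit 496) (nat_lit 4592) (.d (nat_lit 594) (nat_lit 595) (nat_lit 1615) (nat_lit 622) (nat_lit 2638))))) (.f (nat_lit 655) (nat_lit 624) (nat_lit 5647) (.d (nat_lit 591) (nat_lit 559) (nat_lit 6671) (nat_lit 687) (nat_lit 6703))))))))) (.a s2904 (.a (.p (nat_lit 624) (.a (.f (nat_lit 625) (nat_lit 657) (nat_lit 4624) (.f (nat_lit 623) (nat_lit 655) (nat_lit 5647) (.d (nat_lit 496) (nat_lit 591) (nat_lit 5615) (nat_lit 593) (nat_lit 4592)))) (.a (.f (nat_lit 625) (nat_lit 657) (nat_lit 4624) (.f (nat_lit 496) (nat_lit 593) (nat_lit 4592) (.f (nat_lit 465) (nat_lit 497) (nat_lit 6608) (.f (nat_lit 464) (nat_lit 433) (nat_lit 6576) (.d (nat_lit 463) (nat_lit 431) (nat_lit 7599) (nat_lit 495) (nat_lit 7631)))))) (.a (.f (nat_lit 623) (nat_lit 655) (nat_lit 5647) (.f (nat_lit 496) (nat_lit 591) (nat_lit 5615) (.f (nat_lit 465) (nat_lit 497) (nat_lit 6608) (.f (nat_lit 464) (nat_lit 433) (nat_lit 6576) (.d (nat_lit 463) (nat_lit 431) (nat_lit 7599) (nat_lit 495) (nat_lit 7631)))))) (.f (nat_lit 655) (nat_lit 623) (nat_lit 5647) (.f (nat_lit 656) (nat_lit 687) (nat_lit 5679) (.d (nat_lit 657) (nat_lit 625) (nat_lit 4624) (nat_lit 689) (nat_lit 4656)))))))) (.a (.p (nat_lit 496) (.a (.f (nat_lit 593) (nat_lit 625) (nat_lit 4592) (.f (nat_lit 464) (nat_lit 561) (nat_lit 4560) (.d (nat_lit 465) (nat_lit 433) (nat_lit 6576) (nat_lit 497) (nat_lit 6608)))) (.a (.f (nat_lit 593) (nat_lit 625) (nat_lit 4592) (.f (nat_lit 464) (nat_lit 561) (nat_lit 4560) (.d (nat_lit 463) (nat_lit 431) (nat_lit 7599) (nat_lit 495) (nat_lit 7631)))) (.a (.f (nat_lit 495) (nat_lit 463) (nat_lit 7631) (.f (nat_lit 497) (nat_lit 465) (nat_lit 6608) (.p (nat_lit 531) (.a (.f (nat_lit 498) (nat_lit 530) (nat_lit 495) (.f (nat_lit 499) (nat_lit 532) (nat_lit 496) (.d (nat_lit 467) (nat_lit 466) (nat_lit 2511) (nat_lit 468) (nat_lit 2512)))) (.a (.f (nat_lit 625) (nat_lit 593) (nat_lit 4592) (.f (nat_lit 624) (nat_lit 657) (nat_lit 4624) (.f (nat_lit 623) (nat_lit 655) (nat_lit 5647) (.f (nat_lit 498) (nat_lit 530) (nat_lit 495) (.f (nat_lit 499) (nat_lit 532) (nat_lit 496) (.f (nat_lit 468) (nat_lit 467) (nat_lit 2512) (.f (nat_lit 500) (nat_lit 469) (nat_lit 2513) (.f (nat_lit 595) (nat_lit 563) (nat_lit 6611) (.f (nat_lit 626) (nat_lit 594) (nat_lit 2639) (.f (nat_lit 627) (nat_lit 596) (nat_lit 2640) (.d (nat_lit 659) (nat_lit 658) (nat_lit 623) (nat_lit 660) (nat_lit 624)))))))))))) (.a (.p (nat_lit 624) (.a (.d (nat_lit 625) (nat_lit 593) (nat_lit 4592) (nat_lit 657) (nat_lit 4624)) (.a (.f (nat_lit 593) (nat_lit 625) (nat_lit 4592) (.f (nat_lit 655) (nat_lit 623) (nat_lit 5647) (.f (nat_lit 656) (nat_lit 687) (nat_lit 5679) (.f (nat_lit 561) (nat_lit 688) (nat_lit 6704) (.f (nat_lit 530) (nat_lit 498) (nat_lit 495) (.f (nat_lit 559) (nat_lit 562) (nat_lit 2575) (.d (nat_lit 558) (nat_lit 557) (nat_lit 557) (nat_lit 594) (nat_lit 558)))))))) (.a (.f (nat_lit 655) (nat_lit 623) (nat_lit 5647) (.f (nat_lit 656) (nat_lit 687) (nat_lit 5679) (.f (nat_lit 689) (nat_lit 657) (nat_lit 4656) (.f (nat_lit 688) (nat_lit 721) (nat_lit 4688) (.f (nat_lit 530) (nat_lit 498) (nat_lit 495) (.f (nat_lit 561) (nat_lit 593) (nat_lit 6704) (.f (nat_lit 562) (nat_lit 559) (nat_lit 2575) (.d (nat_lit 532) (nat_lit 533) (nat_lit 1553) (nat_lit 563) (nat_lit 2576))))))))) (.f (nat_lit 657) (nat_lit 625) (nat_lit 4624) (.f (nat_lit 656) (nat_lit 689) (nat_lit 4656) (.d (nat_lit 655) (nat_lit 623) (nat_lit 5647) (nat_lit 687) (nat_lit 5679)))))))) (.a (.p (nat_lit 525) (.a (.f (nat_lit 494) (nat_lit 526) (nat_lit 1517) (.f (nat_lit 493) (nat_lit 524) (nat_lit 1516) (.d (nat_lit 461) (nat_lit 460) (nat_lit 3532) (nat_lit 462) (nat_lit 3533)))) (.a (.p (nat_lit 561) (.a (.p (nat_lit 624) (.a (.f (nat_lit 655) (nat_lit 623) (nat_lit 5647) (.f (nat_lit 656) (nat_lit 687) (nat_lit 5679) (.f (nat_lit 689) (nat_lit 657) (nat_lit 4656) (.d (nat_lit 688) (nat_lit 593) (nat_lit 6704) (nat_lit 721) (nat_lit 4688))))) (.a (.d (nat_lit 625) (nat_lit 593) (nat_lit 4592) (nat_lit 657) (nat_lit 4624)) (.a (.f (nat_lit 593) (nat_lit 625) (nat_lit 4592) (.f (nat_lit 623) (nat_lit 655) (nat_lit 5647) (.f (nat_lit 594) (nat_lit 595) (nat_lit 1615) (.f (nat_lit 559) (nat_lit 558) (nat_lit 558) (.f (nat_lit 562) (nat_lit 530) (nat_lit 2575) (.d (nat_lit 563) (nat_lit 532) (nat_lit 2576) (nat_lit 564) (nat_lit 1584))))))) (.f (nat_lit 655) (nat_lit 623) (nat_lit 5647) (.f (nat_lit 656) (nat_lit 687) (nat_lit 5679) (.d (nat_lit 657) (nat_lit 625) (nat_lit 4624) (nat_lit 689) (nat_lit 4656)))))))) (.a (.p (nat_lit 562) (.a (.f (nat_lit 593) (nat_lit 625) (nat_lit 4592) (.d (nat_lit 563) (nat_lit 532) (nat_lit 2576) (nat_lit 564) (nat_lit 1584))) (.a (.f (nat_lit 563) (nat_lit 532) (nat_lit 2576) (.f (nat_lit 595) (nat_lit 596) (nat_lit 560) (.d (nat_lit 559) (nat_lit 530) (nat_lit 2575) (nat_lit 594) (nat_lit 559)))) (.f (nat_lit 559) (nat_lit 530) (nat_lit 2575) (.f (nat_lit 593) (nat_lit 625) (nat_lit 4592) (.d (nat_lit 558) (nat_lit 526) (nat_lit 3597) (nat_lit 557) (nat_lit 557))))))) (.a (.p (nat_lit 624) (.a (.f (nat_lit 655) (nat_lit 623) (nat_lit 5647) (.f (nat_lit 656) (nat_lit 687) (nat_lit 5679) (.f (nat_lit 689) (nat_lit 657) (nat_lit 4656) (.d (nat_lit 688) (nat_lit 593) (nat_lit 6704) (nat_lit 721) (nat_lit 4688))))) (.a (.d (nat_lit 625) (nat_lit 593) (nat_lit 4592) (nat_lit 657) (nat_lit 4624)) (.a (.f (nat_lit 593) (nat_lit 625) (nat_lit 4592) (.f (nat_lit 656) (nat_lit 688) (nat_lit 6704) (.d (nat_lit 655) (nat_lit 623) (nat_lit 5647) (nat_lit 687) (nat_lit 5679)))) (.f (nat_lit 655) (nat_lit 623) (nat_lit 5647) (.f (nat_lit 656) (nat_lit 687) (nat_lit 5679) (.d (nat_lit 657) (nat_lit 625) (nat_lit 4624) (nat_lit 689) (nat_lit 4656)))))))) (.a (.p (nat_lit 562) (.a (.f (nat_lit 563) (nat_lit 532) (nat_lit 2576) (.f (nat_lit 595) (nat_lit 596) (nat_lit 560) (.d (nat_lit 559) (nat_lit 530) (nat_lit 2575) (nat_lit 594) (nat_lit 559)))) (.a (.f (nat_lit 563) (nat_lit 532) (nat_lit 2576) (.f (nat_lit 564) (nat_lit 593) (nat_lit 1584) (.d (nat_lit 596) (nat_lit 595) (nat_lit 560) (nat_lit 597) (nat_lit 561)))) (.f (nat_lit 559) (nat_lit 530) (nat_lit 2575) (.f (nat_lit 558) (nat_lit 526) (nat_lit 3597) (.f (nat_lit 557) (nat_lit 524) (nat_lit 3596) (.d (nat_lit 589) (nat_lit 588) (nat_lit 1580) (nat_lit 590) (nat_lit 1581)))))))) (.p (nat_lit 559) (.a (.f (nat_lit 558) (nat_lit 526) (nat_lit 3597) (.f (nat_lit 557) (nat_lit 524) (nat_lit 3596) (.d (nat_lit 589) (nat_lit 588) (nat_lit 1580) (nat_lit 590) (nat_lit 1581)))) (.f (nat_lit 562) (nat_lit 530) (nat_lit 2575) (.f (nat_lit 563) (nat_lit 532) (nat_lit 2576) (.d (nat_lit 595) (nat_lit 594) (nat_lit 559) (nat_lit 596) (nat_lit 560))))))))))) (.a (.p (nat_lit 557) (.a (.p (nat_lit 493) (.a (.f (nat_lit 494) (nat_lit 524) (nat_lit 1516) (.d (nat_lit 461) (nat_lit 460) (nat_lit 3532) (nat_lit 462) (nat_lit 3533))) (.a s3000 (.a (.f (nat_lit 524) (nat_lit 494) (nat_lit 1516) (.f (nat_lit 558) (nat_lit 559) (nat_lit 3596) (.f (nat_lit 625) (nat_lit 593) (nat_lit 4592) (.f (nat_lit 624) (nat_lit 657) (nat_lit 4624) (.f (nat_lit 655) (nat_lit 623) (nat_lit 5647) (.f (nat_lit 656) (nat_lit 687) (nat_lit 5679) (.f (nat_lit 654) (nat_lit 653) (nat_lit 2669) (.f (nat_lit 622) (nat_lit 590) (nat_lit 7693) (.f (nat_lit 589) (nat_lit 621) (nat_lit 4621) (.f (nat_lit 492) (nat_lit 460) (nat_lit 7628) (.f (nat_lit 588) (nat_lit 620) (nat_lit 5612) (.f (nat_lit 522) (nat_lit 523) (nat_lit 522) (.f (nat_lit 587) (nat_lit 586) (nat_lit 2602) (.f (nat_lit 556) (nat_lit 619) (nat_lit 5611) (.f (nat_lit 491) (nat_lit 459) (nat_lit 7627) (.d (nat_lit 490) (nat_lit 489) (nat_lit 489) (nat_lit 521) (nat_lit 1513))))))))))))))))) (.a (.f (nat_lit 494) (nat_lit 524) (nat_lit 1516) (.d (nat_lit 462) (nat_lit 461) (nat_lit 3533) (nat_lit 589) (nat_lit 6605))) (.f (nat_lit 593) (nat_lit 625) (nat_lit 4592) (.f (nat_lit 558) (nat_lit 559) (nat_lit 557) (.f (nat_lit 461) (nat_lit 590) (nat_lit 4557) (.d (nat_lit 494) (nat_lit 460) (nat_lit 3532) (nat_lit 462) (nat_lit 3533)))))))))) (.a (.p (nat_lit 493) (.a (.f (nat_lit 494) (nat_lit 524) (nat_lit 1516) (.d (nat_lit 461) (nat_lit 460) (nat_lit 3532) (nat_lit 462) (nat_lit 3533))) (.a s3000 (.a (.f (nat_lit 494) (nat_lit 524) (nat_lit 1516) (.f (nat_lit 589) (nat_lit 462) (nat_lit 6605) (.f (nat_lit 620) (nat_lit 588) (nat_lit 5612) (.f (nat_lit 621) (nat_lit 652) (nat_lit 5644) (.d (nat_lit 622) (nat_lit 590) (nat_lit 4589) (nat_lit 654) (nat_lit 4621)))))) (.f (nat_lit 593) (nat_lit 625) (nat_lit 4592) (.f (nat_lit 558) (nat_lit 559) (nat_lit 557) (.f (nat_lit 461) (nat_lit 590) (nat_lit 4557) (.d (nat_lit 494) (nat_lit 460) (nat_lit 3532) (nat_lit 462) (nat_lit 3533))))))))) (.a (.p (nat_lit 622) (.a (.f (nat_lit 625) (nat_lit 593) (nat_lit 4592) (.f (nat_lit 624) (nat_lit 657) (nat_lit 4624) (.f (nat_lit 623) (nat_lit 655) (nat_lit 5647) (.f (nat_lit 589) (nat_lit 590) (nat_lit 3661) (.d (nat_lit 621) (nat_lit 588) (nat_lit 3660) (nat_lit 654) (nat_lit 4621)))))) (.a (.p (nat_lit 493) (.a (.f (nat_lit 589) (nat_lit 590) (nat_lit 4589) (.d (nat_lit 494) (nat_lit 462) (nat_lit 6605) (nat_lit 524) (nat_lit 1516))) (.a (.f (nat_lit 589) (nat_lit 590) (nat_lit 4589) (.f (nat_lit 621) (nat_lit 654) (nat_lit 4621) (.d (nat_lit 620) (nat_lit 588) (nat_lit 5612) (nat_lit 652) (nat_lit 5644)))) (.f (nat_lit 494) (nat_lit 524) (nat_lit 1516) (.d (nat_lit 461) (nat_lit 460) (nat_lit 3532) (nat_lit 462) (nat_lit 3533)))))) (.a (.f (nat_lit 625) (nat_lit 593) (nat_lit 4592) (.f (nat_lit 624) (nat_lit 657) (nat_lit 4624) (.f (nat_lit 623) (nat_lit 655) (nat_lit 5647) (.f (nat_lit 653) (nat_lit 654) (nat_lit 1645) (.f (nat_lit 621) (nat_lit 652) (nat_lit 1644) (.f (nat_lit 589) (nat_lit 588) (nat_lit 3660) (.d (nat_lit 524) (nat_lit 492) (nat_lit 7660) (nat_lit 556) (nat_lit 7692)))))))) (.a (.f (nat_lit 625) (nat_lit 593) (nat_lit 4592) (.f (nat_lit 624) (nat_lit 657) (nat_lit 4624) (.f (nat_lit 623) (nat_lit 655) (nat_lit 5647) (.f (nat_lit 590) (nat_lit 589) (nat_lit 3661) (.d (nat_lit 654) (nat_lit 558) (nat_lit 7693) (nat_lit 653) (nat_lit 1645)))))) s3066))))) (.a (.p (nat_lit 558) (.a (.p (nat_lit 493) (.a (.f (nat_lit 461) (nat_lit 590) (nat_lit 4557) (.d (nat_lit 494) (nat_lit 462) (nat_lit 3533) (nat_lit 524) (nat_lit 1516))) (.a (.f (nat_lit 461) (nat_lit 590) (nat_lit 4557) (.f (nat_lit 556) (nat_lit 588) (nat_lit 5580) (.f (nat_lit 524) (nat_lit 429) (nat_lit 5548) (.f (nat_lit 460) (nat_lit 428) (nat_lit 7596) (.f (nat_lit 492) (nat_lit 589) (nat_lit 4556) (.f (nat_lit 523) (nat_lit 522) (nat_lit 522) (.f (nat_lit 555) (nat_lit 587) (nat_lit 5579) (.f (nat_lit 459) (nat_lit 427) (nat_lit 7595) (.f (nat_lit 458) (nat_lit 457) (nat_lit 457) (.d (nat_lit 426) (nat_lit 425) (nat_lit 3497) (nat_lit 491) (nat_lit 7594))))))))))) (.a (.f (nat_lit 494) (nat_lit 524) (nat_lit 1516) (.d (nat_lit 461) (nat_lit 460) (nat_lit 3532) (nat_lit 462) (nat_lit 3533))) (.a (.f (nat_lit 494) (nat_lit 524) (nat_lit 1516) (.f (nat_lit 589) (nat_lit 462) (nat_lit 6605) (.f (nat_lit 622) (nat_lit 590) (nat_lit 4589) (.f (nat_lit 621) (nat_lit 654) (nat_lit 4621) (.d (nat_lit 620) (nat_lit 588) (nat_lit 5612) (nat_lit 652) (nat_lit 5644)))))) (.f (nat_lit 461) (nat_lit 590) (nat_lit 4557) (.d (nat_lit 494) (nat_lit 460) (nat_lit 3532) (nat_lit 462) (nat_lit 3533)))))))) (.a (.d (nat_lit 559) (nat_lit 524) (nat_lit 3596) (nat_lit 593) (nat_lit 557)) (.f (nat_lit 559) (nat_lit 593) (nat_lit 557) (.f (nat_lit 589) (nat_lit 588) (nat_lit 1580) (.f (nat_lit 590) (nat_lit 561) (nat_lit 1581) (.d (nat_lit 493) (nat_lit 461) (nat_lit 4557) (nat_lit 622) (nat_lit 4589)))))))) (.a (.p (nat_lit 493) (.a (.f (nat_lit 494) (nat_lit 524) (nat_lit 1516) (.d (nat_lit 461) (nat_lit 460) (nat_lit 3532) (nat_lit 462) (nat_lit 3533))) (.a (.p (nat_lit 558) (.a (.f (nat_lit 461) (nat_lit 590) (nat_lit 4557) (.f (nat_lit 556) (nat_lit 588) (nat_lit 5580) (.f (nat_lit 524) (nat_lit 429) (nat_lit 5548) (.f (nat_lit 460) (nat_lit 428) (nat_lit 7596) (.f (nat_lit 492) (nat_lit 589) (nat_lit 4556) (.f (nat_lit 523) (nat_lit 522) (nat_lit 522) (.f (nat_lit 555) (nat_lit 587) (nat_lit 5579) (.f (nat_lit 459) (nat_lit 427) (nat_lit 7595) (.f (nat_lit 458) (nat_lit 457) (nat_lit 457) (.d (nat_lit 426) (nat_lit 425) (nat_lit 3497) (nat_lit 491) (nat_lit 7594))))))))))) (.a (.f (nat_lit 559) (nat_lit 524) (nat_lit 3596) (.f (nat_lit 588) (nat_lit 589) (nat_lit 1580) (.d (nat_lit 556) (nat_lit 461) (nat_lit 5580) (nat_lit 587) (nat_lit 1579)))) (.a (.f (nat_lit 461) (nat_lit 590) (nat_lit 4557) (.f (nat_lit 524) (nat_lit 559) (nat_lit 3596) (.d (nat_lit 556) (nat_lit 429) (nat_lit 5548) (nat_lit 588) (nat_lit 5580)))) (.a (.f (nat_lit 559) (nat_lit 524) (nat_lit 3596) (.f (nat_lit 589) (nat_lit 588) (nat_lit 1580) (.d (nat_lit 590) (nat_lit 561) (nat_lit 1581) (nat_lit 622) (nat_lit 4589)))) (.a (.f (nat_lit 461) (nat_lit 590) (nat_lit 4557) (.f (nat_lit 588) (nat_lit 556) (nat_lit 5580) (.d (nat_lit 589) (nat_lit 559) (nat_lit 1580) (nat_lit 620) (nat_lit 5612)))) (.f (nat_lit 461) (nat_lit 590) (nat_lit 4557) (.f (nat_lit 524) (nat_lit 559) (nat_lit 3596) (.f (nat_lit 429) (nat_lit 556) (nat_lit 5548) (.d (nat_lit 430) (nat_lit 398) (nat_lit 6541) (nat_lit 462) (nat_lit 6573))))))))))) (.a (.f (nat_lit 524) (nat_lit 494) (nat_lit 1516) (.f (nat_lit 558) (nat_lit 559) (nat_lit 3596) (.f (nat_lit 461) (nat_lit 590) (nat_lit 4557) (.d (nat_lit 556) (nat_lit 429) (nat_lit 5548) (nat_lit 588) (nat_lit 5580))))) (.a (.f (nat_lit 494) (nat_lit 524) (nat_lit 1516) (.f (nat_lit 589) (nat_lit 462) (nat_lit 6605) (.f (nat_lit 620) (nat_lit 588) (nat_lit 5612) (.f (nat_lit 621) (nat_lit 652) (nat_lit 5644) (.d (nat_lit 622) (nat_lit 590) (nat_lit 4589) (nat_lit 654) (nat_lit 4621)))))) (.p (nat_lit 494) (.a (.d (nat_lit 461) (nat_lit 460) (nat_lit 3532) (nat_lit 462) (nat_lit 3533)) (.a (.f (nat_lit 461) (nat_lit 460) (nat_lit 3532) (.f (nat_lit 588) (nat_lit 556) (nat_lit 5580) (.f (nat_lit 589) (nat_lit 620) (nat_lit 5612) (.d (nat_lit 590) (nat_lit 558) (nat_lit 4557) (nat_lit 622) (nat_lit 4589))))) (.f (nat_lit 589) (nat_lit 462) (nat_lit 6605) (.f (nat_lit 588) (nat_lit 620) (nat_lit 5612) (.f (nat_lit 622) (nat_lit 590) (nat_lit 4589) (.f (nat_lit 621) (nat_lit 654) (nat_lit 4621) (.f (nat_lit 624) (nat_lit 623) (nat_lit 3660) (.f (nat_lit 657) (nat_lit 625) (nat_lit 4624) (.f (nat_lit 656) (nat_lit 689) (nat_lit 4656) (.f (nat_lit 687) (nat_lit 655) (nat_lit 5679) (.f (nat_lit 688) (nat_lit 719) (nat_lit 5711) (.f (nat_lit 685) (nat_lit 686) (nat_lit 2701) (.f (nat_lit 653) (nat_lit 556) (nat_lit 7724) (.d (nat_lit 684) (nat_lit 652) (nat_lit 5676) (nat_lit 716) (nat_lit 5708))))))))))))))))))))) (.a (.p (nat_lit 622) (.a (.f (nat_lit 625) (nat_lit 593) (nat_lit 4592) (.f (nat_lit 624) (nat_lit 657) (nat_lit 4624) (.f (nat_lit 623) (nat_lit 655) (nat_lit 5647) (.f (nat_lit 589) (nat_lit 590) (nat_lit 3661) (.d (nat_lit 621) (nat_lit 588) (nat_lit 3660) (nat_lit 654) (nat_lit 4621)))))) (.a (.p (nat_lit 493) (.a (.f (nat_lit 589) (nat_lit 590) (nat_lit 4589) (.d (nat_lit 494) (nat_lit 462) (nat_lit 6605) (nat_lit 524) (nat_lit 1516))) (.a (.f (nat_lit 589) (nat_lit 590) (nat_lit 4589) (.f (nat_lit 621) (nat_lit 654) (nat_lit 4621) (.d (nat_lit 620) (nat_lit 588) (nat_lit 5612) (nat_lit 652) (nat_lit 5644)))) (.f (nat_lit 494) (nat_lit 524) (nat_lit 1516) (.d (nat_lit 461) (nat_lit 460) (nat_lit 3532) (nat_lit 462) (nat_lit 3533)))))) (.a (.f (nat_lit 625) (nat_lit 593) (nat_lit 4592) (.f (nat_lit 624) (nat_lit 657) (nat_lit 4624) (.f (nat_lit 623) (nat_lit 655) (nat_lit 5647) (.f (nat_lit 653) (nat_lit 654) (nat_lit 1645) (.f (nat_lit 621) (nat_lit 652) (nat_lit 1644) (.f (nat_lit 589) (nat_lit 588) (nat_lit 3660) (.d (nat_lit 524) (nat_lit 492) (nat_lit 7660) (nat_lit 556) (nat_lit 7692)))))))) (.a (.p (nat_lit 493) (.a (.f (nat_lit 589) (nat_lit 590) (nat_lit 4589) (.d (nat_lit 494) (nat_lit 462) (nat_lit 6605) (nat_lit 524) (nat_lit 1516))) (.a (.f (nat_lit 589) (nat_lit 590) (nat_lit 4589) (.f (nat_lit 588) (nat_lit 620) (nat_lit 5612) (.f (nat_lit 461) (nat_lit 556) (nat_lit 5580) (.d (nat_lit 460) (nat_lit 428) (nat_lit 7596) (nat_lit 492) (nat_lit 7628))))) (.f (nat_lit 494) (nat_lit 524) (nat_lit 1516) (.d (nat_lit 461) (nat_lit 460) (nat_lit 3532) (nat_lit 462) (nat_lit 3533)))))) (.a s3066 (.f (nat_lit 625) (nat_lit 593) (nat_lit 4592) (.f (nat_lit 624) (nat_lit 657) (nat_lit 4624) (.f (nat_lit 623) (nat_lit 655) (nat_lit 5647) (.f (nat_lit 589) (nat_lit 590) (nat_lit 3661) (.d (nat_lit 654) (nat_lit 621) (nat_lit 4621) (nat_lit 653) (nat_lit 1645)))))))))))) (.a (.p (nat_lit 558) (.a (.d (nat_lit 593) (nat_lit 559) (nat_lit 557) (nat_lit 625) (nat_lit 4592)) (.a (.p (nat_lit 622) (.a (.f (nat_lit 590) (nat_lit 654) (nat_lit 7693) (.d (nat_lit 493) (nat_lit 461) (nat_lit 4557) (nat_lit 589) (nat_lit 4589))) (.a (.f (nat_lit 625) (nat_lit 593) (nat_lit 4592) (.f (nat_lit 624) (nat_lit 657) (nat_lit 4624) (.f (nat_lit 623) (nat_lit 655) (nat_lit 5647) (.f (nat_lit 653) (nat_lit 654) (nat_lit 1645) (.f (nat_lit 621) (nat_lit 652) (nat_lit 1644) (.f (nat_lit 589) (nat_lit 588) (nat_lit 3660) (.d (nat_lit 524) (nat_lit 492) (nat_lit 7660) (nat_lit 556) (nat_lit 7692)))))))) (.a (.f (nat_lit 625) (nat_lit 593) (nat_lit 4592) (.f (nat_lit 624) (nat_lit 657) (nat_lit 4624) (.f (nat_lit 623) (nat_lit 655) (nat_lit 5647) (.d (nat_lit 654) (nat_lit 590) (nat_lit 7693) (nat_lit 653) (nat_lit 1645))))) (.f (nat_lit 625) (nat_lit 593) (nat_lit 4592) (.f (nat_lit 624) (nat_lit 657) (nat_lit 4624) (.f (nat_lit 623) (nat_lit 655) (nat_lit 5647) (.f (nat_lit 589) (nat_lit 590) (nat_lit 3661) (.f (nat_lit 621) (nat_lit 588) (nat_lit 3660) (.d (nat_lit 652) (nat_lit 620) (nat_lit 5644) (nat_lit 653) (nat_lit 1644))))))))))) (.a (.d (nat_lit 559) (nat_lit 524) (nat_lit 3596) (nat_lit 593) (nat_lit 557)) (.f (nat_lit 559) (nat_lit 524) (nat_lit 3596) (.f (nat_lit 589) (nat_lit 588) (nat_lit 1580) (.f (nat_lit 590) (nat_lit 561) (nat_lit 1581) (.d (nat_lit 493) (nat_lit 461) (nat_lit 4557) (nat_lit 622) (nat_lit 4589))))))))) (.a (.p (nat_lit 493) (.a (.f (nat_lit 494) (nat_lit 524) (nat_lit 1516) (.d (nat_lit 461) (nat_lit 460) (nat_lit 3532) (nat_lit 462) (nat_lit 3533))) (.a (.p (nat_lit 589) (.a (.f (nat_lit 588) (nat_lit 620) (nat_lit 5612) (.f (nat_lit 461) (nat_lit 556) (nat_lit 5580) (.d (nat_lit 460) (nat_lit 428) (nat_lit 7596) (nat_lit 492) (nat_lit 7628)))) (.a (.f (nat_lit 588) (nat_lit 620) (nat_lit 5612) (.f (nat_lit 492) (nat_lit 460) (nat_lit 7628) (.f (nat_lit 621) (nat_lit 524) (nat_lit 7660) (.f (nat_lit 622) (nat_lit 654) (nat_lit 4621) (.f (nat_lit 624) (nat_lit 623) (nat_lit 3660) (.d (nat_lit 625) (nat_lit 593) (nat_lit 4592) (nat_lit 657) (nat_lit 4624))))))) (.a (.f (nat_lit 588) (nat_lit 620) (nat_lit 5612) (.f (nat_lit 556) (nat_lit 461) (nat_lit 5580) (.f (nat_lit 625) (nat_lit 593) (nat_lit 4592) (.f (nat_lit 624) (nat_lit 657) (nat_lit 4624) (.f (nat_lit 623) (nat_lit 655) (nat_lit 5647) (.f (nat_lit 621) (nat_lit 622) (nat_lit 3660) (.d (nat_lit 653) (nat_lit 524) (nat_lit 7692) (nat_lit 685) (nat_lit 7724)))))))) (.a (.f (nat_lit 492) (nat_lit 460) (nat_lit 7628) (.f (nat_lit 621) (nat_lit 524) (nat_lit 7660) (.f (nat_lit 652) (nat_lit 620) (nat_lit 5644) (.f (nat_lit 653) (nat_lit 684) (nat_lit 5676) (.d (nat_lit 654) (nat_lit 622) (nat_lit 4621) (nat_lit 686) (nat_lit 4653)))))) (.f (nat_lit 492) (nat_lit 460) (nat_lit 7628) (.f (nat_lit 621) (nat_lit 524) (nat_lit 7660) (.f (nat_lit 625) (nat_lit 593) (nat_lit 4592) (.f (nat_lit 624) (nat_lit 657) (nat_lit 4624) (.f (nat_lit 623) (nat_lit 655) (nat_lit 5647) (.d (nat_lit 622) (nat_lit 588) (nat_lit 3660) (nat_lit 654) (nat_lit 4621)))))))))))) (.a (.f (nat_lit 494) (nat_lit 524) (nat_lit 1516) (.f (nat_lit 589) (nat_lit 462) (nat_lit 6605) (.f (nat_lit 625) (nat_lit 593) (nat_lit 4592) (.f (nat_lit 624) (nat_lit 657) (nat_lit 4624) (.f (nat_lit 655) (nat_lit 623) (nat_lit 5647) (.f (nat_lit 656) (nat_lit 687) (nat_lit 5679) (.f (nat_lit 654) (nat_lit 653) (nat_lit 2669) (.f (nat_lit 620) (nat_lit 588) (nat_lit 5612) (.d (nat_lit 621) (nat_lit 622) (nat_lit 4621) (nat_lit 652) (nat_lit 5644)))))))))) (.p (nat_lit 494) (.a (.d (nat_lit 461) (nat_lit 460) (nat_lit 3532) (nat_lit 462) (nat_lit 3533)) (.a (.f (nat_lit 460) (nat_lit 461) (nat_lit 3532) (.d (nat_lit 492) (nat_lit 459) (nat_lit 3531) (nat_lit 589) (nat_lit 7628))) (.f (nat_lit 589) (nat_lit 462) (nat_lit 6605) (.f (nat_lit 625) (nat_lit 593) (nat_lit 4592) (.f (nat_lit 624) (nat_lit 657) (nat_lit 4624) (.f (nat_lit 655) (nat_lit 623) (nat_lit 5647) (.f (nat_lit 656) (nat_lit 687) (nat_lit 5679) (.f (nat_lit 654) (nat_lit 653) (nat_lit 2669) (.f (nat_lit 620) (nat_lit 588) (nat_lit 5612) (.d (nat_lit 621) (nat_lit 622) (nat_lit 4621) (nat_lit 652) (nat_lit 5644)))))))))))))))) (.a (.p (nat_lit 624) (.a (.d (nat_lit 625) (nat_lit 593) (nat_lit 4592) (nat_lit 657) (nat_lit 4624)) (.a (.f (nat_lit 593) (nat_lit 625) (nat_lit 4592) (.f (nat_lit 559) (nat_lit 558) (nat_lit 557) (.f (nat_lit 655) (nat_lit 623) (nat_lit 5647) (.f (nat_lit 656) (nat_lit 687) (nat_lit 5679) (.f (nat_lit 561) (nat_lit 688) (nat_lit 6704) (.f (nat_lit 562) (nat_lit 530) (nat_lit 2575) (.d (nat_lit 563) (nat_lit 532) (nat_lit 2576) (nat_lit 564) (nat_lit 1584)))))))) (.a (.p (nat_lit 559) (.a (.d (nat_lit 558) (nat_lit 524) (nat_lit 3596) (nat_lit 593) (nat_lit 557)) (.a (.f (nat_lit 558) (nat_lit 524) (nat_lit 3596) (.f (nat_lit 589) (nat_lit 588) (nat_lit 1580) (.f (nat_lit 655) (nat_lit 623) (nat_lit 5647) (.f (nat_lit 656) (nat_lit 687) (nat_lit 5679) (.f (nat_lit 689) (nat_lit 657) (nat_lit 4656) (.f (nat_lit 688) (nat_lit 721) (nat_lit 4688) (.f (nat_lit 654) (nat_lit 653) (nat_lit 653) (.d (nat_lit 622) (nat_lit 590) (nat_lit 7693) (nat_lit 621) (nat_lit 4621))))))))) (.f (nat_lit 655) (nat_lit 623) (nat_lit 5647) (.f (nat_lit 656) (nat_lit 687) (nat_lit 5679) (.f (nat_lit 689) (nat_lit 657) (nat_lit 4656) (.f (nat_lit 688) (nat_lit 721) (nat_lit 4688) (.f (nat_lit 561) (nat_lit 593) (nat_lit 6704) (.f (nat_lit 562) (nat_lit 530) (nat_lit 2575) (.f (nat_lit 563) (nat_lit 532) (nat_lit 2576) (.d (nat_lit 595) (nat_lit 594) (nat_lit 559) (nat_lit 596) (nat_lit 560)))))))))))) (.f (nat_lit 657) (nat_lit 625) (nat_lit 4624) (.f (nat_lit 656) (nat_lit 689) (nat_lit 4656) (.d (nat_lit 655) (nat_lit 623) (nat_lit 5647) (nat_lit 687) (nat_lit 5679)))))))) (.a (.p (nat_lit 558) (.a (.d (nat_lit 593) (nat_lit 559) (nat_lit 557) (nat_lit 625) (nat_lit 4592)) (.a (.p (nat_lit 493) (.a (.f (nat_lit 461) (nat_lit 590) (nat_lit 4557) (.d (nat_lit 494) (nat_lit 462) (nat_lit 3533) (nat_lit 524) (nat_lit 1516))) (.a (.f (nat_lit 461) (nat_lit 590) (nat_lit 4557) (.f (nat_lit 556) (nat_lit 588) (nat_lit 5580) (.f (nat_lit 524) (nat_lit 429) (nat_lit 5548) (.f (nat_lit 460) (nat_lit 428) (nat_lit 7596) (.f (nat_lit 492) (nat_lit 589) (nat_lit 4556) (.f (nat_lit 523) (nat_lit 522) (nat_lit 522) (.f (nat_lit 555) (nat_lit 587) (nat_lit 5579) (.f (nat_lit 459) (nat_lit 427) (nat_lit 7595) (.f (nat_lit 458) (nat_lit 457) (nat_lit 457) (.d (nat_lit 426) (nat_lit 425) (nat_lit 3497) (nat_lit 491) (nat_lit 7594))))))))))) (.a (.f (nat_lit 494) (nat_lit 524) (nat_lit 1516) (.d (nat_lit 461) (nat_lit 460) (nat_lit 3532) (nat_lit 462) (nat_lit 3533))) (.a (.f (nat_lit 494) (nat_lit 524) (nat_lit 1516) (.f (nat_lit 589) (nat_lit 462) (nat_lit 6605) (.f (nat_lit 625) (nat_lit 593) (nat_lit 4592) (.f (nat_lit 624) (nat_lit 657) (nat_lit 4624) (.f (nat_lit 655) (nat_lit 623) (nat_lit 5647) (.f (nat_lit 656) (nat_lit 687) (nat_lit 5679) (.f (nat_lit 620) (nat_lit 588) (nat_lit 5612) (.f (nat_lit 653) (nat_lit 654) (nat_lit 2669) (.f (nat_lit 621) (nat_lit 652) (nat_lit 5644) (.f (nat_lit 685) (nat_lit 590) (nat_lit 6701) (.f (nat_lit 716) (nat_lit 684) (nat_lit 5708) (.f (nat_lit 717) (nat_lit 748) (nat_lit 5740) (.d (nat_lit 718) (nat_lit 686) (nat_lit 4685) (nat_lit 750) (nat_lit 4717)))))))))))))) (.f (nat_lit 461) (nat_lit 590) (nat_lit 4557) (.d (nat_lit 494) (nat_lit 460) (nat_lit 3532) (nat_lit 462) (nat_lit 3533)))))))) (.a (.d (nat_lit 559) (nat_lit 524) (nat_lit 3596) (nat_lit 593) (nat_lit 557)) (.f (nat_lit 524) (nat_lit 559) (nat_lit 3596) (.f (nat_lit 493) (nat_lit 494) (nat_lit 1516) (.f (nat_lit 461) (nat_lit 590) (nat_lit 4557) (.d (nat_lit 556) (nat_lit 429) (nat_lit 5548) (nat_lit 588) (nat_lit 5580))))))))) (.a (.p (nat_lit 624) (.a (.d (nat_lit 625) (nat_lit 593) (nat_lit 4592) (nat_lit 657) (nat_lit 4624)) (.a (.f (nat_lit 593) (nat_lit 625) (nat_lit 4592) (.f (nat_lit 559) (nat_lit 558) (nat_lit 557) (.f (nat_lit 655) (nat_lit 623) (nat_lit 5647) (.f (nat_lit 656) (nat_lit 687) (nat_lit 5679) (.f (nat_lit 561) (nat_lit 688) (nat_lit 6704) (.f (nat_lit 562) (nat_lit 530) (nat_lit 2575) (.d (nat_lit 563) (nat_lit 532) (nat_lit 2576) (nat_lit 564) (nat_lit 1584)))))))) (.a (.p (nat_lit 493) (.a (.f (nat_lit 655) (nat_lit 623) (nat_lit 5647) (.f (nat_lit 656) (nat_lit 687) (nat_lit 5679) (.f (nat_lit 689) (nat_lit 657) (nat_lit 4656) (.f (nat_lit 688) (nat_lit 721) (nat_lit 4688) (.f (nat_lit 654) (nat_lit 653) (nat_lit 653) (.f (nat_lit 593) (nat_lit 561) (nat_lit 6704) (.f (nat_lit 558) (nat_lit 559) (nat_lit 557) (.d (nat_lit 590) (nat_lit 461) (nat_lit 4557) (nat_lit 622) (nat_lit 7693))))))))) (.a (.f (nat_lit 494) (nat_lit 524) (nat_lit 1516) (.d (nat_lit 461) (nat_lit 460) (nat_lit 3532) (nat_lit 462) (nat_lit 3533))) (.f (nat_lit 524) (nat_lit 494) (nat_lit 1516) (.f (nat_lit 559) (nat_lit 558) (nat_lit 3596) (.f (nat_lit 655) (nat_lit 623) (nat_lit 5647) (.f (nat_lit 656) (nat_lit 687) (nat_lit 5679) (.f (nat_lit 689) (nat_lit 657) (nat_lit 4656) (.f (nat_lit 688) (nat_lit 721) (nat_lit 4688) (.f (nat_lit 561) (nat_lit 593) (nat_lit 6704) (.f (nat_lit 562) (nat_lit 530) (nat_lit 2575) (.f (nat_lit 563) (nat_lit 532) (nat_lit 2576) (.d (nat_lit 595) (nat_lit 594) (nat_lit 559) (nat_lit 596) (nat_lit 560)))))))))))))) (.f (nat_lit 657) (nat_lit 625) (nat_lit 4624) (.f (nat_lit 656) (nat_lit 689) (nat_lit 4656) (.d (nat_lit 655) (nat_lit 623) (nat_lit 5647) (nat_lit 687) (nat_lit 5679)))))))) (.a (.p (nat_lit 493) (.a (.f (nat_lit 494) (nat_lit 524) (nat_lit 1516) (.d (nat_lit 461) (nat_lit 460) (nat_lit 3532) (nat_lit 462) (nat_lit 3533))) (.a s3000 (.a (.f (nat_lit 494) (nat_lit 524) (nat_lit 1516) (.f (nat_lit 589) (nat_lit 462) (nat_lit 6605) (.f (nat_lit 588) (nat_lit 620) (nat_lit 5612) (.f (nat_lit 625) (nat_lit 593) (nat_lit 4592) (.f (nat_lit 624) (nat_lit 657) (nat_lit 4624) (.f (nat_lit 623) (nat_lit 655) (nat_lit 5647) (.d (nat_lit 622) (nat_lit 590) (nat_lit 4589) (nat_lit 621) (nat_lit 3660)))))))) (.f (nat_lit 593) (nat_lit 625) (nat_lit 4592) (.f (nat_lit 558) (nat_lit 559) (nat_lit 557) (.f (nat_lit 461) (nat_lit 590) (nat_lit 4557) (.d (nat_lit 494) (nat_lit 460) (nat_lit 3532) (nat_lit 462) (nat_lit 3533))))))))) (.p (nat_lit 622) (.a (.f (nat_lit 625) (nat_lit 593) (nat_lit 4592) (.f (nat_lit 624) (nat_lit 657) (nat_lit 4624) (.f (nat_lit 623) (nat_lit 655) (nat_lit 5647) (.f (nat_lit 589) (nat_lit 590) (nat_lit 3661) (.d (nat_lit 621) (nat_lit 588) (nat_lit 3660) (nat_lit 654) (nat_lit 4621)))))) (.a (.f (nat_lit 593) (nat_lit 625) (nat_lit 4592) (.f (nat_lit 558) (nat_lit 559) (nat_lit 557) (.f (nat_lit 590) (nat_lit 654) (nat_lit 7693) (.d (nat_lit 493) (nat_lit 461) (nat_lit 4557) (nat_lit 589) (nat_lit 4589))))) (.a (.p (nat_lit 589) (.a (.f (nat_lit 621) (nat_lit 654) (nat_lit 4621) (.f (nat_lit 493) (nat_lit 590) (nat_lit 4589) (.d (nat_lit 620) (nat_lit 588) (nat_lit 5612) (nat_lit 652) (nat_lit 5644)))) (.a (.f (nat_lit 621) (nat_lit 654) (nat_lit 4621) (.f (nat_lit 620) (nat_lit 652) (nat_lit 5644) (.f (nat_lit 588) (nat_lit 493) (nat_lit 5612) (.d (nat_lit 623) (nat_lit 587) (nat_lit 3659) (nat_lit 624) (nat_lit 3660))))) (.a (.f (nat_lit 654) (nat_lit 621) (nat_lit 4621) (.d (nat_lit 590) (nat_lit 558) (nat_lit 7693) (nat_lit 686) (nat_lit 7725))) (.a (.f (nat_lit 590) (nat_lit 493) (nat_lit 4589) (.d (nat_lit 654) (nat_lit 558) (nat_lit 7693) (nat_lit 686) (nat_lit 7725))) (.f (nat_lit 493) (nat_lit 590) (nat_lit 4589) (.f (nat_lit 588) (nat_lit 620) (nat_lit 5612) (.f (nat_lit 461) (nat_lit 556) (nat_lit 5580) (.d (nat_lit 460) (nat_lit 428) (nat_lit 7596) (nat_lit 492) (nat_lit 7628)))))))))) s3066))))))))))))))))) (.p (nat_lit 624) (.a (.d (nat_lit 625) (nat_lit 593) (nat_lit 4592) (nat_lit 657) (nat_lit 4624)) (.a (.f (nat_lit 593) (nat_lit 625) (nat_lit 4592) (.f (nat_lit 655) (nat_lit 623) (nat_lit 5647) (.f (nat_lit 656) (nat_lit 687) (nat_lit 5679) (.f (nat_lit 561) (nat_lit 688) (nat_lit 6704) (.f (nat_lit 526) (nat_lit 494) (nat_lit 1517) (.f (nat_lit 559) (nat_lit 558) (nat_lit 3597) (.f (nat_lit 562) (nat_lit 530) (nat_lit 2575) (.d (nat_lit 563) (nat_lit 532) (nat_lit 2576) (nat_lit 564) (nat_lit 1584))))))))) (.a (.f (nat_lit 655) (nat_lit 623) (nat_lit 5647) (.f (nat_lit 656) (nat_lit 687) (nat_lit 5679) (.f (nat_lit 689) (nat_lit 657) (nat_lit 4656) (.f (nat_lit 688) (nat_lit 721) (nat_lit 4688) (.f (nat_lit 561) (nat_lit 593) (nat_lit 6704) (.f (nat_lit 526) (nat_lit 494) (nat_lit 1517) (.f (nat_lit 559) (nat_lit 558) (nat_lit 3597) (.f (nat_lit 562) (nat_lit 530) (nat_lit 2575) (.f (nat_lit 563) (nat_lit 532) (nat_lit 2576) (.d (nat_lit 595) (nat_lit 594) (nat_lit 559) (nat_lit 596) (nat_lit 560))))))))))) (.f (nat_lit 657) (nat_lit 625) (nat_lit 4624) (.f (nat_lit 656) (nat_lit 689) (nat_lit 4656) (.d (nat_lit 655) (nat_lit 623) (nat_lit 5647) (nat_lit 687) (nat_lit 5679)))))))))))) (.a (.p (nat_lit 595) (.a (.f (nat_lit 593) (nat_lit 625) (nat_lit 4592) (.f (nat_lit 594) (nat_lit 559) (nat_lit 3631) (.f (nat_lit 563) (nat_lit 564) (nat_lit 2608) (.f (nat_lit 499) (nat_lit 626) (nat_lit 5618) (.d (nat_lit 596) (nat_lit 561) (nat_lit 3632) (nat_lit 628) (nat_lit 4595)))))) (.a (.f (nat_lit 593) (nat_lit 625) (nat_lit 4592) (.f (nat_lit 594) (nat_lit 559) (nat_lit 3631) (.f (nat_lit 563) (nat_lit 564) (nat_lit 2608) (.f (nat_lit 499) (nat_lit 626) (nat_lit 5618) (.d (nat_lit 628) (nat_lit 596) (nat_lit 4595) (nat_lit 627) (nat_lit 592)))))) (.a (.f (nat_lit 625) (nat_lit 593) (nat_lit 4592) (.f (nat_lit 624) (nat_lit 657) (nat_lit 4624) (.f (nat_lit 623) (nat_lit 655) (nat_lit 5647) (.f (nat_lit 626) (nat_lit 594) (nat_lit 2639) (.f (nat_lit 627) (nat_lit 596) (nat_lit 2640) (.d (nat_lit 659) (nat_lit 658) (nat_lit 623) (nat_lit 660) (nat_lit 624))))))) (.a (.p (nat_lit 594) (.a (.f (nat_lit 593) (nat_lit 559) (nat_lit 3631) (.f (nat_lit 563) (nat_lit 564) (nat_lit 2608) (.f (nat_lit 627) (nat_lit 628) (nat_lit 592) (.d (nat_lit 626) (nat_lit 499) (nat_lit 5618) (nat_lit 658) (nat_lit 5650))))) (.a (.p (nat_lit 563) (.a (.f (nat_lit 593) (nat_lit 564) (nat_lit 2608) (.f (nat_lit 627) (nat_lit 628) (nat_lit 592) (.d (nat_lit 626) (nat_lit 499) (nat_lit 5618) (nat_lit 658) (nat_lit 5650)))) (.a (.f (nat_lit 499) (nat_lit 626) (nat_lit 5618) (.f (nat_lit 467) (nat_lit 562) (nat_lit 5586) (.d (nat_lit 596) (nat_lit 564) (nat_lit 4563) (nat_lit 628) (nat_lit 4595)))) (.a (.f (nat_lit 593) (nat_lit 564) (nat_lit 2608) (.f (nat_lit 596) (nat_lit 561) (nat_lit 3632) (.d (nat_lit 628) (nat_lit 627) (nat_lit 592) (nat_lit 629) (nat_lit 593)))) (.a (.f (nat_lit 564) (nat_lit 593) (nat_lit 2608) (.f (nat_lit 499) (nat_lit 626) (nat_lit 5618) (.d (nat_lit 467) (nat_lit 562) (nat_lit 5586) (nat_lit 596) (nat_lit 4563)))) (.f (nat_lit 499) (nat_lit 626) (nat_lit 5618) (.f (nat_lit 562) (nat_lit 467) (nat_lit 5586) (.d (nat_lit 561) (nat_lit 532) (nat_lit 2576) (nat_lit 596) (nat_lit 560))))))))) (.a (.p (nat_lit 499) (.a (.f (nat_lit 563) (nat_lit 626) (nat_lit 5618) (.f (nat_lit 596) (nat_lit 628) (nat_lit 4595) (.d (nat_lit 467) (nat_lit 562) (nat_lit 5586) (nat_lit 564) (nat_lit 4563)))) (.a (.f (nat_lit 563) (nat_lit 626) (nat_lit 5618) (.d (nat_lit 498) (nat_lit 466) (nat_lit 7634) (nat_lit 532) (nat_lit 496))) (.f (nat_lit 498) (nat_lit 532) (nat_lit 496) (.d (nat_lit 467) (nat_lit 466) (nat_lit 2511) (nat_lit 468) (nat_lit 2512)))))) (.a (.f (nat_lit 593) (nat_lit 559) (nat_lit 3631) (.f (nat_lit 596) (nat_lit 561) (nat_lit 3632) (.d (nat_lit 564) (nat_lit 563) (nat_lit 2608) (nat_lit 565) (nat_lit 2609)))) (.f (nat_lit 593) (nat_lit 559) (nat_lit 3631) (.f (nat_lit 596) (nat_lit 561) (nat_lit 3632) (.d (nat_lit 628) (nat_lit 627) (nat_lit 592) (nat_lit 629) (nat_lit 593))))))))) (.a (.p (nat_lit 499) (.a (.f (nat_lit 498) (nat_lit 532) (nat_lit 496) (.d (nat_lit 467) (nat_lit 466) (nat_lit 2511) (nat_lit 468) (nat_lit 2512))) (.a (.p (nat_lit 563) (.a (.f (nat_lit 596) (nat_lit 628) (nat_lit 4595) (.f (nat_lit 562) (nat_lit 561) (nat_lit 560) (.d (nat_lit 467) (nat_lit 564) (nat_lit 4563) (nat_lit 594) (nat_lit 5586)))) (.a (.f (nat_lit 596) (nat_lit 628) (nat_lit 4595) (.f (nat_lit 467) (nat_lit 564) (nat_lit 4563) (.d (nat_lit 594) (nat_lit 562) (nat_lit 5586) (nat_lit 626) (nat_lit 5618)))) (.a (.f (nat_lit 596) (nat_lit 628) (nat_lit 4595) (.f (nat_lit 467) (nat_lit 564) (nat_lit 4563) (.d (nat_lit 468) (nat_lit 436) (nat_lit 6579) (nat_lit 500) (nat_lit 6611)))) (.f (nat_lit 626) (nat_lit 594) (nat_lit 5618) (.f (nat_lit 627) (nat_lit 658) (nat_lit 5650) (.d (nat_lit 500) (nat_lit 468) (nat_lit 6611) (nat_lit 532) (nat_lit 6643)))))))) (.a (.f (nat_lit 498) (nat_lit 532) (nat_lit 496) s3403) (.p (nat_lit 498) (.a (.d (nat_lit 467) (nat_lit 466) (nat_lit 2511) (nat_lit 468) (nat_lit 2512)) (.a (.f (nat_lit 468) (nat_lit 467) (nat_lit 2512) (.d (nat_lit 500) (nat_lit 469) (nat_lit 2513) (nat_lit 563) (nat_lit 6611))) s3403))))))) (.a (.p (nat_lit 563) (.a (.p (nat_lit 627) (.a (.f (nat_lit 532) (nat_lit 500) (nat_lit 6643) (.f (nat_lit 499) (nat_lit 498) (nat_lit 496) (.d (nat_lit 628) (nat_lit 596) (nat_lit 4595) (nat_lit 660) (nat_lit 4627)))) (.a (.f (nat_lit 532) (nat_lit 500) (nat_lit 6643) (.f (nat_lit 659) (nat_lit 564) (nat_lit 6675) (.d (nat_lit 658) (nat_lit 626) (nat_lit 5650) (nat_lit 690) (nat_lit 5682)))) (.f (nat_lit 628) (nat_lit 660) (nat_lit 4627) (.f (nat_lit 596) (nat_lit 499) (nat_lit 4595) (.f (nat_lit 626) (nat_lit 658) (nat_lit 5650) (.d (nat_lit 597) (nat_lit 598) (nat_lit 1618) (nat_lit 625) (nat_lit 2641)))))))) (.a (.p (nat_lit 627) (.a (.f (nat_lit 532) (nat_lit 500) (nat_lit 6643) (.f (nat_lit 499) (nat_lit 498) (nat_lit 496) (.d (nat_lit 628) (nat_lit 596) (nat_lit 4595) (nat_lit 660) (nat_lit 4627)))) (.a (.f (nat_lit 532) (nat_lit 500) (nat_lit 6643) (.f (nat_lit 659) (nat_lit 564) (nat_lit 6675) (.d (nat_lit 658) (nat_lit 626) (nat_lit 5650) (nat_lit 690) (nat_lit 5682)))) (.a (.f (nat_lit 628) (nat_lit 660) (nat_lit 4627) (.f (nat_lit 499) (nat_lit 596) (nat_lit 4595) (.f (nat_lit 468) (nat_lit 500) (nat_lit 6611) (.d (nat_lit 498) (nat_lit 466) (nat_lit 7634) (nat_lit 467) (nat_lit 2512))))) (.f (nat_lit 628) (nat_lit 660) (nat_lit 4627) (.f (nat_lit 499) (nat_lit 596) (nat_lit 4595) (.d (nat_lit 498) (nat_lit 466) (nat_lit 7634) (nat_lit 532) (nat_lit 496)))))))) (.a (.p (nat_lit 624) (.a (.f (nat_lit 657) (nat_lit 625) (nat_lit 4624) (.f (nat_lit 656) (nat_lit 689) (nat_lit 4656) (.d (nat_lit 655) (nat_lit 623) (nat_lit 5647) (nat_lit 687) (nat_lit 5679)))) (.a (.d (nat_lit 625) (nat_lit 593) (nat_lit 4592) (nat_lit 657) (nat_lit 4624)) (.a (.f (nat_lit 593) (nat_lit 625) (nat_lit 4592) (.f (nat_lit 655) (nat_lit 623) (nat_lit 5647) (.f (nat_lit 656) (nat_lit 687) (nat_lit 5679) (.f (nat_lit 561) (nat_lit 688) (nat_lit 6704) (.d (nat_lit 562) (nat_lit 532) (nat_lit 2576) (nat_lit 596) (nat_lit 560)))))) (.f (nat_lit 655) (nat_lit 623) (nat_lit 5647) (.f (nat_lit 656) (nat_lit 687) (nat_lit 5679) (.f (nat_lit 689) (nat_lit 657) (nat_lit 4656) (.f (nat_lit 688) (nat_lit 721) (nat_lit 4688) (.f (nat_lit 561) (nat_lit 593) (nat_lit 6704) (.d (nat_lit 562) (nat_lit 532) (nat_lit 2576) (nat_lit 596) (nat_lit 560))))))))))) (.a (.f (nat_lit 625) (nat_lit 593) (nat_lit 4592) (.f (nat_lit 624) (nat_lit 657) (nat_lit 4624) (.f (nat_lit 655) (nat_lit 623) (nat_lit 5647) (.f (nat_lit 656) (nat_lit 687) (nat_lit 5679) (.f (nat_lit 627) (nat_lit 626) (nat_lit 1647) (.f (nat_lit 532) (nat_lit 500) (nat_lit 6643) (.f (nat_lit 659) (nat_lit 564) (nat_lit 6675) (.d (nat_lit 660) (nat_lit 628) (nat_lit 4627) (nat_lit 692) (nat_lit 4659))))))))) (.f (nat_lit 625) (nat_lit 593) (nat_lit 4592) (.f (nat_lit 624) (nat_lit 657) (nat_lit 4624) (.f (nat_lit 655) (nat_lit 623) (nat_lit 5647) (.f (nat_lit 656) (nat_lit 687) (nat_lit 5679) (.f (nat_lit 627) (nat_lit 626) (nat_lit 1647) (.f (nat_lit 628) (nat_lit 660) (nat_lit 4627) (.f (nat_lit 499) (nat_lit 596) (nat_lit 4595) (.f (nat_lit 468) (nat_lit 500) (nat_lit 6611) (.d (nat_lit 498) (nat_lit 466) (nat_lit 7634) (nat_lit 467) (nat_lit 2512))))))))))))))) (.a (.f (nat_lit 593) (nat_lit 625) (nat_lit 4592) (.f (nat_lit 594) (nat_lit 559) (nat_lit 3631) (.f (nat_lit 596) (nat_lit 561) (nat_lit 3632) (.d (nat_lit 628) (nat_lit 627) (nat_lit 592) (nat_lit 629) (nat_lit 593))))) (.f (nat_lit 593) (nat_lit 625) (nat_lit 4592) (.f (nat_lit 594) (nat_lit 559) (nat_lit 3631) (.f (nat_lit 563) (nat_lit 564) (nat_lit 2608) (.f (nat_lit 499) (nat_lit 626) (nat_lit 5618) (.d (nat_lit 498) (nat_lit 466) (nat_lit 7634) (nat_lit 532) (nat_lit 496)))))))))))))) (.p (nat_lit 594) (.a (.f (nat_lit 593) (nat_lit 625) (nat_lit 4592) (.f (nat_lit 595) (nat_lit 559) (nat_lit 3631) (.f (nat_lit 563) (nat_lit 564) (nat_lit 2608) (.f (nat_lit 627) (nat_lit 628) (nat_lit 592) (.d (nat_lit 626) (nat_lit 499) (nat_lit 5618) (nat_lit 658) (nat_lit 5650)))))) (.a (.f (nat_lit 593) (nat_lit 625) (nat_lit 4592) (.f (nat_lit 498) (nat_lit 530) (nat_lit 495) (.f (nat_lit 467) (nat_lit 466) (nat_lit 2511) (.f (nat_lit 499) (nat_lit 468) (nat_lit 2512) (.f (nat_lit 563) (nat_lit 562) (nat_lit 5586) (.d (nat_lit 564) (nat_lit 595) (nat_lit 2608) (nat_lit 596) (nat_lit 4563))))))) (.a (.f (nat_lit 498) (nat_lit 530) (nat_lit 495) (.f (nat_lit 467) (nat_lit 466) (nat_lit 2511) (.f (nat_lit 499) (nat_lit 468) (nat_lit 2512) (.f (nat_lit 563) (nat_lit 562) (nat_lit 5586) (.f (nat_lit 595) (nat_lit 626) (nat_lit 5618) (.d (nat_lit 596) (nat_lit 564) (nat_lit 4563) (nat_lit 628) (nat_lit 4595))))))) (.a (.f (nat_lit 625) (nat_lit 593) (nat_lit 4592) (.f (nat_lit 624) (nat_lit 657) (nat_lit 4624) (.f (nat_lit 655) (nat_lit 623) (nat_lit 5647) (.f (nat_lit 656) (nat_lit 687) (nat_lit 5679) (.f (nat_lit 626) (nat_lit 627) (nat_lit 1647) (.f (nat_lit 530) (nat_lit 498) (nat_lit 495) (.f (nat_lit 562) (nat_lit 499) (nat_lit 6642) (.f (nat_lit 658) (nat_lit 563) (nat_lit 6674) (.f (nat_lit 691) (nat_lit 659) (nat_lit 4658) (.f (nat_lit 690) (nat_lit 723) (nat_lit 4690) (.d (nat_lit 689) (nat_lit 688) (nat_lit 3727) (nat_lit 721) (nat_lit 5713)))))))))))) (.f (nat_lit 593) (nat_lit 625) (nat_lit 4592) (.f (nat_lit 595) (nat_lit 559) (nat_lit 3631) (.f (nat_lit 596) (nat_lit 561) (nat_lit 3632) (.d (nat_lit 628) (nat_lit 627) (nat_lit 592) (nat_lit 629) (nat_lit 593)))))))))))))))))) (.f (nat_lit 465) (nat_lit 497) (nat_lit 6608) (.f (nat_lit 464) (nat_lit 433) (nat_lit 6576) (.d (nat_lit 463) (nat_lit 431) (nat_lit 7599) (nat_lit 495) (nat_lit 7631)))))))) (.a (.p (nat_lit 496) (.a (.f (nat_lit 591) (nat_lit 623) (nat_lit 5615) (.f (nat_lit 464) (nat_lit 559) (nat_lit 5583) (.d (nat_lit 465) (nat_lit 433) (nat_lit 6576) (nat_lit 497) (nat_lit 6608)))) (.a (.f (nat_lit 591) (nat_lit 623) (nat_lit 5615) (.f (nat_lit 464) (nat_lit 559) (nat_lit 5583) (.d (nat_lit 463) (nat_lit 431) (nat_lit 7599) (nat_lit 495) (nat_lit 7631)))) (.a (.p (nat_lit 525) (.a (.f (nat_lit 495) (nat_lit 463) (nat_lit 7631) (.f (nat_lit 497) (nat_lit 465) (nat_lit 6608) (.f (nat_lit 494) (nat_lit 526) (nat_lit 1517) (.f (nat_lit 493) (nat_lit 524) (nat_lit 1516) (.d (nat_lit 461) (nat_lit 460) (nat_lit 3532) (nat_lit 462) (nat_lit 3533)))))) (.a (.p (nat_lit 557) (.a (.p (nat_lit 558) (.a (.f (nat_lit 559) (nat_lit 524) (nat_lit 3596) (.d (nat_lit 591) (nat_lit 556) (nat_lit 556) (nat_lit 623) (nat_lit 5615))) (.a (.f (nat_lit 559) (nat_lit 524) (nat_lit 3596) (.f (nat_lit 556) (nat_lit 591) (nat_lit 556) (.d (nat_lit 588) (nat_lit 587) (nat_lit 1579) (nat_lit 589) (nat_lit 1580)))) (.a (.f (nat_lit 623) (nat_lit 591) (nat_lit 5615) (.f (nat_lit 624) (nat_lit 655) (nat_lit 5647) (.f (nat_lit 657) (nat_lit 625) (nat_lit 4624) (.f (nat_lit 656) (nat_lit 689) (nat_lit 4656) (.f (nat_lit 622) (nat_lit 621) (nat_lit 621) (.f (nat_lit 590) (nat_lit 654) (nat_lit 7693) (.d (nat_lit 493) (nat_lit 461) (nat_lit 4557) (nat_lit 526) (nat_lit 7661)))))))) (.f (nat_lit 524) (nat_lit 559) (nat_lit 3596) (.f (nat_lit 523) (nat_lit 522) (nat_lit 522) (.f (nat_lit 495) (nat_lit 463) (nat_lit 7631) (.d (nat_lit 494) (nat_lit 493) (nat_lit 1516) (nat_lit 526) (nat_lit 2539))))))))) (.a (.p (nat_lit 558) (.a (.f (nat_lit 559) (nat_lit 524) (nat_lit 3596) (.f (nat_lit 556) (nat_lit 591) (nat_lit 556) (.d (nat_lit 588) (nat_lit 587) (nat_lit 1579) (nat_lit 589) (nat_lit 1580)))) (.a (.p (nat_lit 493) (.a (.f (nat_lit 461) (nat_lit 590) (nat_lit 4557) (.f (nat_lit 429) (nat_lit 526) (nat_lit 4525) (.d (nat_lit 556) (nat_lit 524) (nat_lit 5548) (nat_lit 588) (nat_lit 5580)))) (.a (.f (nat_lit 495) (nat_lit 463) (nat_lit 7631) (.f (nat_lit 494) (nat_lit 524) (nat_lit 1516) (.f (nat_lit 461) (nat_lit 460) (nat_lit 3532) (.d (nat_lit 462) (nat_lit 430) (nat_lit 6573) (nat_lit 589) (nat_lit 6605))))) (.a (.f (nat_lit 495) (nat_lit 463) (nat_lit 7631) (.f (nat_lit 494) (nat_lit 524) (nat_lit 1516) (.f (nat_lit 589) (nat_lit 462) (nat_lit 6605) (.f (nat_lit 590) (nat_lit 622) (nat_lit 4589) (.d (nat_lit 591) (nat_lit 556) (nat_lit 3628) (nat_lit 561) (nat_lit 2605)))))) (.f (nat_lit 461) (nat_lit 590) (nat_lit 4557) (.f (nat_lit 429) (nat_lit 526) (nat_lit 4525) (.d (nat_lit 430) (nat_lit 398) (nat_lit 6541) (nat_lit 462) (nat_lit 6573)))))))) (.a (.f (nat_lit 524) (nat_lit 559) (nat_lit 3596) (.f (nat_lit 523) (nat_lit 522) (nat_lit 522) (.f (nat_lit 495) (nat_lit 463) (nat_lit 7631) (.d (nat_lit 494) (nat_lit 493) (nat_lit 1516) (nat_lit 526) (nat_lit 2539))))) (.p (nat_lit 559) (.a (.f (nat_lit 589) (nat_lit 588) (nat_lit 1580) (.d (nat_lit 561) (nat_lit 526) (nat_lit 3597) (nat_lit 590) (nat_lit 1581))) (.a (.f (nat_lit 556) (nat_lit 591) (nat_lit 556) (.d (nat_lit 588) (nat_lit 587) (nat_lit 1579) (nat_lit 589) (nat_lit 1580))) (.a (.f (nat_lit 556) (nat_lit 591) (nat_lit 556) (.f (nat_lit 526) (nat_lit 561) (nat_lit 3597) (.f (nat_lit 555) (nat_lit 554) (nat_lit 2570) (.d (nat_lit 587) (nat_lit 586) (nat_lit 1578) (nat_lit 588) (nat_lit 1579))))) (.f (nat_lit 561) (nat_lit 526) (nat_lit 3597) (.f (nat_lit 590) (nat_lit 589) (nat_lit 1581) (.d (nat_lit 591) (nat_lit 556) (nat_lit 556) (nat_lit 562) (nat_lit 1582)))))))))))) (.a (.p (nat_lit 558) (.a (.f (nat_lit 559) (nat_lit 524) (nat_lit 3596) (.d (nat_lit 591) (nat_lit 556) (nat_lit 556) (nat_lit 623) (nat_lit 5615))) (.a (.f (nat_lit 559) (nat_lit 524) (nat_lit 3596) (.f (nat_lit 556) (nat_lit 591) (nat_lit 556) (.d (nat_lit 588) (nat_lit 587) (nat_lit 1579) (nat_lit 589) (nat_lit 1580)))) (.a (.f (nat_lit 623) (nat_lit 591) (nat_lit 5615) (.f (nat_lit 624) (nat_lit 655) (nat_lit 5647) (.f (nat_lit 657) (nat_lit 625) (nat_lit 4624) (.f (nat_lit 656) (nat_lit 689) (nat_lit 4656) (.f (nat_lit 622) (nat_lit 621) (nat_lit 621) (.f (nat_lit 590) (nat_lit 654) (nat_lit 7693) (.d (nat_lit 493) (nat_lit 461) (nat_lit 4557) (nat_lit 526) (nat_lit 7661)))))))) (.f (nat_lit 559) (nat_lit 524) (nat_lit 3596) (.f (nat_lit 589) (nat_lit 588) (nat_lit 1580) (.d (nat_lit 561) (nat_lit 526) (nat_lit 3597) (nat_lit 590) (nat_lit 1581)))))))) (.a (.p (nat_lit 494) (.a (.f (nat_lit 495) (nat_lit 463) (nat_lit 7631) (.f (nat_lit 493) (nat_lit 524) (nat_lit 1516) (.f (nat_lit 461) (nat_lit 460) (nat_lit 3532) (.d (nat_lit 462) (nat_lit 430) (nat_lit 6573) (nat_lit 589) (nat_lit 6605))))) (.a (.f (nat_lit 623) (nat_lit 591) (nat_lit 5615) (.f (nat_lit 624) (nat_lit 655) (nat_lit 5647) (.f (nat_lit 657) (nat_lit 625) (nat_lit 4624) (.f (nat_lit 656) (nat_lit 689) (nat_lit 4656) (.f (nat_lit 621) (nat_lit 622) (nat_lit 621) (.f (nat_lit 589) (nat_lit 526) (nat_lit 6637) (.f (nat_lit 493) (nat_lit 462) (nat_lit 6605) (.d (nat_lit 620) (nat_lit 588) (nat_lit 5612) (nat_lit 652) (nat_lit 5644))))))))) (.a (.f (nat_lit 623) (nat_lit 591) (nat_lit 5615) (.f (nat_lit 624) (nat_lit 655) (nat_lit 5647) (.f (nat_lit 657) (nat_lit 625) (nat_lit 4624) (.f (nat_lit 656) (nat_lit 689) (nat_lit 4656) (.f (nat_lit 621) (nat_lit 622) (nat_lit 621) (.f (nat_lit 589) (nat_lit 526) (nat_lit 6637) (.f (nat_lit 524) (nat_lit 492) (nat_lit 7660) (.f (nat_lit 653) (nat_lit 556) (nat_lit 7692) (.d (nat_lit 652) (nat_lit 620) (nat_lit 5644) (nat_lit 684) (nat_lit 5676)))))))))) (.f (nat_lit 495) (nat_lit 463) (nat_lit 7631) (.f (nat_lit 493) (nat_lit 524) (nat_lit 1516) (.f (nat_lit 461) (nat_lit 460) (nat_lit 3532) (.f (nat_lit 462) (nat_lit 430) (nat_lit 6573) (.f (nat_lit 558) (nat_lit 590) (nat_lit 4557) (.f (nat_lit 429) (nat_lit 526) (nat_lit 4525) (.f (nat_lit 397) (nat_lit 365) (nat_lit 4461) (.d (nat_lit 396) (nat_lit 364) (nat_lit 7532) (nat_lit 428) (nat_lit 7564))))))))))))) (.a (.p (nat_lit 494) (.a (.f (nat_lit 495) (nat_lit 463) (nat_lit 7631) (.f (nat_lit 493) (nat_lit 524) (nat_lit 1516) (.f (nat_lit 461) (nat_lit 460) (nat_lit 3532) (.d (nat_lit 462) (nat_lit 430) (nat_lit 6573) (nat_lit 589) (nat_lit 6605))))) (.a (.f (nat_lit 623) (nat_lit 591) (nat_lit 5615) (.f (nat_lit 624) (nat_lit 655) (nat_lit 5647) (.f (nat_lit 657) (nat_lit 625) (nat_lit 4624) (.f (nat_lit 656) (nat_lit 689) (nat_lit 4656) (.f (nat_lit 621) (nat_lit 622) (nat_lit 621) (.f (nat_lit 589) (nat_lit 526) (nat_lit 6637) (.f (nat_lit 493) (nat_lit 462) (nat_lit 6605) (.d (nat_lit 620) (nat_lit 588) (nat_lit 5612) (nat_lit 652) (nat_lit 5644))))))))) (.a (.f (nat_lit 623) (nat_lit 591) (nat_lit 5615) (.f (nat_lit 624) (nat_lit 655) (nat_lit 5647) (.f (nat_lit 657) (nat_lit 625) (nat_lit 4624) (.f (nat_lit 656) (nat_lit 689) (nat_lit 4656) (.f (nat_lit 621) (nat_lit 622) (nat_lit 621) (.f (nat_lit 589) (nat_lit 526) (nat_lit 6637) (.f (nat_lit 524) (nat_lit 492) (nat_lit 7660) (.f (nat_lit 653) (nat_lit 556) (nat_lit 7692) (.d (nat_lit 652) (nat_lit 620) (nat_lit 5644) (nat_lit 684) (nat_lit 5676)))))))))) (.f (nat_lit 495) (nat_lit 463) (nat_lit 7631) (.f (nat_lit 493) (nat_lit 524) (nat_lit 1516) (.f (nat_lit 461) (nat_lit 460) (nat_lit 3532) (.f (nat_lit 430) (nat_lit 462) (nat_lit 6573) (.f (nat_lit 429) (nat_lit 398) (nat_lit 6541) (.f (nat_lit 397) (nat_lit 526) (nat_lit 4493) (.d (nat_lit 396) (nat_lit 364) (nat_lit 7532) (nat_lit 428) (nat_lit 7564)))))))))))) (.a (.p (nat_lit 493) (.a (.f (nat_lit 495) (nat_lit 463) (nat_lit 7631) (.f (nat_lit 494) (nat_lit 524) (nat_lit 1516) (.f (nat_lit 461) (nat_lit 460) (nat_lit 3532) (.d (nat_lit 462) (nat_lit 430) (nat_lit 6573) (nat_lit 589) (nat_lit 6605))))) (.a (.p (nat_lit 558) (.a (.f (nat_lit 461) (nat_lit 590) (nat_lit 4557) (.f (nat_lit 429) (nat_lit 526) (nat_lit 4525) (.d (nat_lit 556) (nat_lit 524) (nat_lit 5548) (nat_lit 588) (nat_lit 5580)))) (.a (.f (nat_lit 524) (nat_lit 559) (nat_lit 3596) (.f (nat_lit 494) (nat_lit 495) (nat_lit 1516) (.f (nat_lit 589) (nat_lit 462) (nat_lit 6605) (.d (nat_lit 621) (nat_lit 492) (nat_lit 7660) (nat_lit 526) (nat_lit 6637))))) (.a (.f (nat_lit 461) (nat_lit 590) (nat_lit 4557) (.f (nat_lit 524) (nat_lit 559) (nat_lit 3596) (.d (nat_lit 556) (nat_lit 429) (nat_lit 5548) (nat_lit 588) (nat_lit 5580)))) (.f (nat_lit 461) (nat_lit 590) (nat_lit 4557) (.f (nat_lit 429) (nat_lit 526) (nat_lit 4525) (.d (nat_lit 430) (nat_lit 398) (nat_lit 6541) (nat_lit 462) (nat_lit 6573)))))))) (.a (.p (nat_lit 558) (.a (.f (nat_lit 461) (nat_lit 590) (nat_lit 4557) (.f (nat_lit 429) (nat_lit 526) (nat_lit 4525) (.d (nat_lit 556) (nat_lit 524) (nat_lit 5548) (nat_lit 588) (nat_lit 5580)))) (.a (.f (nat_lit 559) (nat_lit 524) (nat_lit 3596) (.f (nat_lit 589) (nat_lit 588) (nat_lit 1580) (.f (nat_lit 526) (nat_lit 561) (nat_lit 3597) (.d (nat_lit 494) (nat_lit 462) (nat_lit 6605) (nat_lit 621) (nat_lit 6637))))) (.a (.f (nat_lit 461) (nat_lit 590) (nat_lit 4557) (.f (nat_lit 524) (nat_lit 559) (nat_lit 3596) (.d (nat_lit 556) (nat_lit 429) (nat_lit 5548) (nat_lit 588) (nat_lit 5580)))) (.f (nat_lit 461) (nat_lit 590) (nat_lit 4557) (.f (nat_lit 429) (nat_lit 526) (nat_lit 4525) (.d (nat_lit 430) (nat_lit 398) (nat_lit 6541) (nat_lit 462) (nat_lit 6573)))))))) (.a (.p (nat_lit 558) (.a (.f (nat_lit 461) (nat_lit 590) (nat_lit 4557) (.f (nat_lit 429) (nat_lit 526) (nat_lit 4525) (.d (nat_lit 556) (nat_lit 524) (nat_lit 5548) (nat_lit 588) (nat_lit 5580)))) (.a (.f (nat_lit 559) (nat_lit 524) (nat_lit 3596) (.f (nat_lit 588) (nat_lit 589) (nat_lit 1580) (.d (nat_lit 556) (nat_lit 461) (nat_lit 5580) (nat_lit 587) (nat_lit 1579)))) (.a (.f (nat_lit 559) (nat_lit 524) (nat_lit 3596) (.f (nat_lit 589) (nat_lit 588) (nat_lit 1580) (.d (nat_lit 561) (nat_lit 526) (nat_lit 3597) (nat_lit 590) (nat_lit 1581)))) (.f (nat_lit 461) (nat_lit 590) (nat_lit 4557) (.f (nat_lit 429) (nat_lit 526) (nat_lit 4525) (.d (nat_lit 430) (nat_lit 398) (nat_lit 6541) (nat_lit 462) (nat_lit 6573)))))))) (.a (.f (nat_lit 495) (nat_lit 463) (nat_lit 7631) (.f (nat_lit 524) (nat_lit 494) (nat_lit 1516) (.f (nat_lit 558) (nat_lit 559) (nat_lit 3596) (.f (nat_lit 461) (nat_lit 590) (nat_lit 4557) (.d (nat_lit 429) (nat_lit 526) (nat_lit 4525) (nat_lit 556) (nat_lit 5548)))))) (.a (.f (nat_lit 495) (nat_lit 463) (nat_lit 7631) (.f (nat_lit 494) (nat_lit 524) (nat_lit 1516) (.f (nat_lit 589) (nat_lit 462) (nat_lit 6605) (.f (nat_lit 621) (nat_lit 526) (nat_lit 6637) (.d (nat_lit 620) (nat_lit 588) (nat_lit 5612) (nat_lit 652) (nat_lit 5644)))))) (.p (nat_lit 494) (.a (.f (nat_lit 589) (nat_lit 462) (nat_lit 6605) (.f (nat_lit 621) (nat_lit 526) (nat_lit 6637) (.d (nat_lit 620) (nat_lit 588) (nat_lit 5612) (nat_lit 652) (nat_lit 5644)))) (.a (.f (nat_lit 495) (nat_lit 463) (nat_lit 7631) (.f (nat_lit 461) (nat_lit 460) (nat_lit 3532) (.f (nat_lit 558) (nat_lit 590) (nat_lit 4557) (.f (nat_lit 526) (nat_lit 429) (nat_lit 4525) (.f (nat_lit 589) (nat_lit 621) (nat_lit 6637) (.d (nat_lit 588) (nat_lit 556) (nat_lit 5580) (nat_lit 620) (nat_lit 5612))))))) (.a (.f (nat_lit 589) (nat_lit 462) (nat_lit 6605) (.f (nat_lit 588) (nat_lit 620) (nat_lit 5612) (.f (nat_lit 461) (nat_lit 556) (nat_lit 5580) (.d (nat_lit 590) (nat_lit 558) (nat_lit 4557) (nat_lit 622) (nat_lit 4589))))) (.f (nat_lit 495) (nat_lit 463) (nat_lit 7631) (.f (nat_lit 461) (nat_lit 460) (nat_lit 3532) (.f (nat_lit 558) (nat_lit 590) (nat_lit 4557) (.f (nat_lit 429) (nat_lit 526) (nat_lit 4525) (.d (nat_lit 430) (nat_lit 398) (nat_lit 6541) (nat_lit 462) (nat_lit 6573))))))))))))))))) (.a (.p (nat_lit 624) (.a (.f (nat_lit 657) (nat_lit 625) (nat_lit 4624) (.f (nat_lit 656) (nat_lit 689) (nat_lit 4656) (.f (nat_lit 687) (nat_lit 655) (nat_lit 5679) (.f (nat_lit 688) (nat_lit 719) (nat_lit 5711) (.f (nat_lit 559) (nat_lit 591) (nat_lit 7727) (.f (nat_lit 558) (nat_lit 524) (nat_lit 3596) (.f (nat_lit 589) (nat_lit 588) (nat_lit 1580) (.d (nat_lit 561) (nat_lit 526) (nat_lit 3597) (nat_lit 590) (nat_lit 1581))))))))) (.a (.d (nat_lit 623) (nat_lit 591) (nat_lit 5615) (nat_lit 655) (nat_lit 5647)) (.a (.f (nat_lit 591) (nat_lit 623) (nat_lit 5615) (.f (nat_lit 657) (nat_lit 625) (nat_lit 4624) (.f (nat_lit 656) (nat_lit 689) (nat_lit 4656) (.f (nat_lit 559) (nat_lit 688) (nat_lit 7727) (.d (nat_lit 558) (nat_lit 524) (nat_lit 3596) (nat_lit 556) (nat_lit 556)))))) (.f (nat_lit 657) (nat_lit 625) (nat_lit 4624) (.f (nat_lit 656) (nat_lit 689) (nat_lit 4656) (.d (nat_lit 655) (nat_lit 623) (nat_lit 5647) (nat_lit 687) (nat_lit 5679)))))))) (.a (.p (nat_lit 558) (.a (.f (nat_lit 559) (nat_lit 524) (nat_lit 3596) (.d (nat_lit 591) (nat_lit 556) (nat_lit 556) (nat_lit 623) (nat_lit 5615))) (.a (.f (nat_lit 524) (nat_lit 559) (nat_lit 3596) (.f (nat_lit 523) (nat_lit 522) (nat_lit 522) (.f (nat_lit 495) (nat_lit 463) (nat_lit 7631) (.d (nat_lit 494) (nat_lit 493) (nat_lit 1516) (nat_lit 526) (nat_lit 2539))))) (.f (nat_lit 623) (nat_lit 591) (nat_lit 5615) (.f (nat_lit 624) (nat_lit 655) (nat_lit 5647) (.f (nat_lit 657) (nat_lit 625) (nat_lit 4624) (.f (nat_lit 656) (nat_lit 689) (nat_lit 4656) (.f (nat_lit 622) (nat_lit 621) (nat_lit 621) (.f (nat_lit 590) (nat_lit 654) (nat_lit 7693) (.d (nat_lit 493) (nat_lit 461) (nat_lit 4557) (nat_lit 526) (nat_lit 7661))))))))))) (.a s3674 (.a (.p (nat_lit 590) (.a (.p (nat_lit 622) (.a (.f (nat_lit 589) (nat_lit 493) (nat_lit 4589) (.d (nat_lit 591) (nat_lit 556) (nat_lit 3628) (nat_lit 561) (nat_lit 2605))) (.a (.f (nat_lit 589) (nat_lit 493) (nat_lit 4589) (.d (nat_lit 654) (nat_lit 558) (nat_lit 7693) (nat_lit 621) (nat_lit 4621))) (.a (.f (nat_lit 654) (nat_lit 558) (nat_lit 7693) (.d (nat_lit 589) (nat_lit 621) (nat_lit 4621) (nat_lit 686) (nat_lit 7725))) (.f (nat_lit 558) (nat_lit 654) (nat_lit 7693) (.d (nat_lit 493) (nat_lit 461) (nat_lit 4557) (nat_lit 526) (nat_lit 7661))))))) (.a (.f (nat_lit 591) (nat_lit 623) (nat_lit 5615) (.f (nat_lit 589) (nat_lit 556) (nat_lit 3628) (.f (nat_lit 621) (nat_lit 620) (nat_lit 1612) (.d (nat_lit 622) (nat_lit 493) (nat_lit 4589) (nat_lit 654) (nat_lit 4621))))) (.a (.p (nat_lit 622) (.a (.f (nat_lit 589) (nat_lit 493) (nat_lit 4589) (.d (nat_lit 654) (nat_lit 558) (nat_lit 7693) (nat_lit 621) (nat_lit 4621))) (.a (.f (nat_lit 589) (nat_lit 493) (nat_lit 4589) (.d (nat_lit 654) (nat_lit 621) (nat_lit 4621) (nat_lit 686) (nat_lit 7725))) (.a (.f (nat_lit 654) (nat_lit 558) (nat_lit 7693) (.d (nat_lit 589) (nat_lit 621) (nat_lit 4621) (nat_lit 686) (nat_lit 7725))) (.a (.f (nat_lit 558) (nat_lit 654) (nat_lit 7693) (.d (nat_lit 493) (nat_lit 461) (nat_lit 4557) (nat_lit 526) (nat_lit 7661))) (.f (nat_lit 493) (nat_lit 589) (nat_lit 4589) (.d (nat_lit 558) (nat_lit 461) (nat_lit 4557) (nat_lit 526) (nat_lit 7661)))))))) (.a (.f (nat_lit 591) (nat_lit 623) (nat_lit 5615) (.d (nat_lit 589) (nat_lit 556) (nat_lit 3628) (nat_lit 561) (nat_lit 2605))) (.f (nat_lit 623) (nat_lit 591) (nat_lit 5615) (.f (nat_lit 624) (nat_lit 655) (nat_lit 5647) (.f (nat_lit 657) (nat_lit 625) (nat_lit 4624) (.f (nat_lit 656) (nat_lit 689) (nat_lit 4656) (.f (nat_lit 622) (nat_lit 621) (nat_lit 621) (.f (nat_lit 558) (nat_lit 654) (nat_lit 7693) (.d (nat_lit 493) (nat_lit 461) (nat_lit 4557) (nat_lit 526) (nat_lit 7661))))))))))))) (.p (nat_lit 558) (.a (.f (nat_lit 623) (nat_lit 591) (nat_lit 5615) (.f (nat_lit 624) (nat_lit 655) (nat_lit 5647) (.f (nat_lit 657) (nat_lit 625) (nat_lit 4624) (.f (nat_lit 656) (nat_lit 689) (nat_lit 4656) (.f (nat_lit 622) (nat_lit 621) (nat_lit 621) (.f (nat_lit 590) (nat_lit 654) (nat_lit 7693) (.d (nat_lit 493) (nat_lit 461) (nat_lit 4557) (nat_lit 526) (nat_lit 7661)))))))) (.a (.f (nat_lit 524) (nat_lit 559) (nat_lit 3596) (.f (nat_lit 523) (nat_lit 522) (nat_lit 522) (.f (nat_lit 495) (nat_lit 463) (nat_lit 7631) (.d (nat_lit 494) (nat_lit 493) (nat_lit 1516) (nat_lit 526) (nat_lit 2539))))) (.a (.f (nat_lit 559) (nat_lit 524) (nat_lit 3596) (.f (nat_lit 589) (nat_lit 588) (nat_lit 1580) (.d (nat_lit 561) (nat_lit 526) (nat_lit 3597) (nat_lit 590) (nat_lit 1581)))) (.f (nat_lit 623) (nat_lit 591) (nat_lit 5615) (.f (nat_lit 624) (nat_lit 655) (nat_lit 5647) (.f (nat_lit 657) (nat_lit 625) (nat_lit 4624) (.f (nat_lit 656) (nat_lit 689) (nat_lit 4656) (.f (nat_lit 622) (nat_lit 621) (nat_lit 621) (.f (nat_lit 590) (nat_lit 654) (nat_lit 7693) (.d (nat_lit 493) (nat_lit 461) (nat_lit 4557) (nat_lit 589) (nat_lit 4589))))))))))))))))))))))) (.a (.p (nat_lit 494) (.a (.f (nat_lit 497) (nat_lit 465) (nat_lit 6608) (.f (nat_lit 495) (nat_lit 526) (nat_lit 1517) (.f (nat_lit 493) (nat_lit 524) (nat_lit 1516) (.d (nat_lit 461) (nat_lit 460) (nat_lit 3532) (nat_lit 462) (nat_lit 3533))))) (.a (.p (nat_lit 558) (.a (.p (nat_lit 624) (.a (.f (nat_lit 657) (nat_lit 625) (nat_lit 4624) (.f (nat_lit 656) (nat_lit 689) (nat_lit 4656) (.f (nat_lit 687) (nat_lit 655) (nat_lit 5679) (.f (nat_lit 688) (nat_lit 719) (nat_lit 5711) (.f (nat_lit 559) (nat_lit 591) (nat_lit 7727) (.f (nat_lit 557) (nat_lit 524) (nat_lit 3596) (.f (nat_lit 589) (nat_lit 588) (nat_lit 1580) (.f (nat_lit 493) (nat_lit 462) (nat_lit 6605) (.d (nat_lit 590) (nat_lit 561) (nat_lit 1581) (nat_lit 622) (nat_lit 4589)))))))))) (.a (.f (nat_lit 657) (nat_lit 625) (nat_lit 4624) (.f (nat_lit 656) (nat_lit 689) (nat_lit 4656) (.f (nat_lit 687) (nat_lit 655) (nat_lit 5679) (.f (nat_lit 688) (nat_lit 719) (nat_lit 5711) (.f (nat_lit 559) (nat_lit 591) (nat_lit 7727) (.f (nat_lit 557) (nat_lit 524) (nat_lit 3596) (.f (nat_lit 589) (nat_lit 588) (nat_lit 1580) (.f (nat_lit 493) (nat_lit 462) (nat_lit 6605) (.d (nat_lit 590) (nat_lit 461) (nat_lit 4557) (nat_lit 622) (nat_lit 4589)))))))))) (.a (.d (nat_lit 623) (nat_lit 591) (nat_lit 5615) (nat_lit 655) (nat_lit 5647)) (.a (.f (nat_lit 591) (nat_lit 623) (nat_lit 5615) (.f (nat_lit 657) (nat_lit 625) (nat_lit 4624) (.f (nat_lit 656) (nat_lit 689) (nat_lit 4656) (.f (nat_lit 559) (nat_lit 688) (nat_lit 7727) (.d (nat_lit 557) (nat_lit 524) (nat_lit 3596) (nat_lit 556) (nat_lit 556)))))) (.f (nat_lit 657) (nat_lit 625) (nat_lit 4624) (.f (nat_lit 656) (nat_lit 689) (nat_lit 4656) (.d (nat_lit 655) (nat_lit 623) (nat_lit 5647) (nat_lit 687) (nat_lit 5679))))))))) (.a (.p (nat_lit 559) (.a (.f (nat_lit 557) (nat_lit 524) (nat_lit 3596) (.f (nat_lit 589) (nat_lit 588) (nat_lit 1580) (.d (nat_lit 561) (nat_lit 526) (nat_lit 3597) (nat_lit 590) (nat_lit 1581)))) (.a (.f (nat_lit 557) (nat_lit 524) (nat_lit 3596) (.f (nat_lit 589) (nat_lit 588) (nat_lit 1580) (.d (nat_lit 462) (nat_lit 493) (nat_lit 6605) (nat_lit 526) (nat_lit 5581)))) (.a (.f (nat_lit 526) (nat_lit 561) (nat_lit 3597) (.f (nat_lit 524) (nat_lit 523) (nat_lit 523) (.f (nat_lit 493) (nat_lit 495) (nat_lit 1516) (.d (nat_lit 461) (nat_lit 429) (nat_lit 4525) (nat_lit 590) (nat_lit 7629))))) (.a (.f (nat_lit 557) (nat_lit 524) (nat_lit 3596) (.f (nat_lit 589) (nat_lit 588) (nat_lit 1580) (.f (nat_lit 590) (nat_lit 561) (nat_lit 1581) (.d (nat_lit 493) (nat_lit 461) (nat_lit 4557) (nat_lit 462) (nat_lit 6605))))) (.f (nat_lit 526) (nat_lit 561) (nat_lit 3597) (.f (nat_lit 462) (nat_lit 591) (nat_lit 4558) (.d (nat_lit 557) (nat_lit 430) (nat_lit 5549) (nat_lit 589) (nat_lit 5581))))))))) (.a (.p (nat_lit 493) (.a (.f (nat_lit 623) (nat_lit 591) (nat_lit 5615) (.f (nat_lit 624) (nat_lit 655) (nat_lit 5647) (.f (nat_lit 657) (nat_lit 625) (nat_lit 4624) (.f (nat_lit 656) (nat_lit 689) (nat_lit 4656) (.f (nat_lit 622) (nat_lit 621) (nat_lit 621) (.f (nat_lit 590) (nat_lit 526) (nat_lit 7661) (.d (nat_lit 557) (nat_lit 461) (nat_lit 4557) (nat_lit 654) (nat_lit 7693)))))))) (.a (.f (nat_lit 495) (nat_lit 524) (nat_lit 1516) (.f (nat_lit 461) (nat_lit 460) (nat_lit 3532) (.d (nat_lit 590) (nat_lit 526) (nat_lit 7629) (nat_lit 557) (nat_lit 4557)))) (.a (.f (nat_lit 495) (nat_lit 524) (nat_lit 1516) (.f (nat_lit 461) (nat_lit 460) (nat_lit 3532) (.d (nat_lit 526) (nat_lit 429) (nat_lit 4525) (nat_lit 590) (nat_lit 7629)))) (.a (.f (nat_lit 495) (nat_lit 524) (nat_lit 1516) (.f (nat_lit 461) (nat_lit 460) (nat_lit 3532) (.f (nat_lit 429) (nat_lit 526) (nat_lit 4525) (.f (nat_lit 430) (nat_lit 398) (nat_lit 6541) (.f (nat_lit 462) (nat_lit 557) (nat_lit 6573) (.f (nat_lit 397) (nat_lit 365) (nat_lit 4461) (.d (nat_lit 396) (nat_lit 364) (nat_lit 7532) (nat_lit 428) (nat_lit 7564)))))))) (.a (.f (nat_lit 495) (nat_lit 524) (nat_lit 1516) (.f (nat_lit 461) (nat_lit 460) (nat_lit 3532) (.f (nat_lit 557) (nat_lit 590) (nat_lit 4557) (.d (nat_lit 462) (nat_lit 430) (nat_lit 6573) (nat_lit 589) (nat_lit 6605))))) (.f (nat_lit 623) (nat_lit 591) (nat_lit 5615) (.f (nat_lit 624) (nat_lit 655) (nat_lit 5647) (.f (nat_lit 657) (nat_lit 625) (nat_lit 4624) (.f (nat_lit 656) (nat_lit 689) (nat_lit 4656) (.f (nat_lit 622) (nat_lit 621) (nat_lit 621) (.f (nat_lit 590) (nat_lit 526) (nat_lit 7661) (.d (nat_lit 557) (nat_lit 589) (nat_lit 4589) (nat_lit 654) (nat_lit 7693)))))))))))))) (.a (.p (nat_lit 624) (.a (.f (nat_lit 657) (nat_lit 625) (nat_lit 4624) (.f (nat_lit 656) (nat_lit 689) (nat_lit 4656) (.f (nat_lit 687) (nat_lit 655) (nat_lit 5679) (.f (nat_lit 688) (nat_lit 719) (nat_lit 5711) (.f (nat_lit 559) (nat_lit 591) (nat_lit 7727) (.f (nat_lit 526) (nat_lit 561) (nat_lit 3597) (.f (nat_lit 524) (nat_lit 523) (nat_lit 523) (.f (nat_lit 493) (nat_lit 495) (nat_lit 1516) (.d (nat_lit 461) (nat_lit 429) (nat_lit 4525) (nat_lit 590) (nat_lit 7629)))))))))) (.a (.d (nat_lit 623) (nat_lit 591) (nat_lit 5615) (nat_lit 655) (nat_lit 5647)) (.a (.f (nat_lit 591) (nat_lit 623) (nat_lit 5615) (.f (nat_lit 657) (nat_lit 625) (nat_lit 4624) (.f (nat_lit 656) (nat_lit 689) (nat_lit 4656) (.f (nat_lit 559) (nat_lit 688) (nat_lit 7727) (.d (nat_lit 526) (nat_lit 462) (nat_lit 4558) (nat_lit 561) (nat_lit 3597)))))) (.f (nat_lit 657) (nat_lit 625) (nat_lit 4624) (.f (nat_lit 656) (nat_lit 689) (nat_lit 4656) (.d (nat_lit 655) (nat_lit 623) (nat_lit 5647) (nat_lit 687) (nat_lit 5679)))))))) (.a (.p (nat_lit 559) (.a (.f (nat_lit 557) (nat_lit 524) (nat_lit 3596) (.f (nat_lit 589) (nat_lit 588) (nat_lit 1580) (.d (nat_lit 561) (nat_lit 526) (nat_lit 3597) (nat_lit 590) (nat_lit 1581)))) (.a (.f (nat_lit 557) (nat_lit 524) (nat_lit 3596) (.f (nat_lit 589) (nat_lit 588) (nat_lit 1580) (.d (nat_lit 462) (nat_lit 493) (nat_lit 6605) (nat_lit 526) (nat_lit 5581)))) (.a (.f (nat_lit 526) (nat_lit 561) (nat_lit 3597) (.f (nat_lit 524) (nat_lit 523) (nat_lit 523) (.f (nat_lit 493) (nat_lit 495) (nat_lit 1516) (.d (nat_lit 461) (nat_lit 429) (nat_lit 4525) (nat_lit 590) (nat_lit 7629))))) (.a (.f (nat_lit 557) (nat_lit 524) (nat_lit 3596) (.f (nat_lit 589) (nat_lit 588) (nat_lit 1580) (.f (nat_lit 590) (nat_lit 561) (nat_lit 1581) (.d (nat_lit 493) (nat_lit 461) (nat_lit 4557) (nat_lit 462) (nat_lit 6605))))) (.f (nat_lit 561) (nat_lit 526) (nat_lit 3597) (.f (nat_lit 589) (nat_lit 590) (nat_lit 1581) (.f (nat_lit 557) (nat_lit 588) (nat_lit 1580) (.f (nat_lit 493) (nat_lit 462) (nat_lit 6605) (.f (nat_lit 460) (nat_lit 492) (nat_lit 7628) (.d (nat_lit 461) (nat_lit 428) (nat_lit 7596) (nat_lit 495) (nat_lit 3532)))))))))))) (.a (.p (nat_lit 624) (.a (.f (nat_lit 657) (nat_lit 625) (nat_lit 4624) (.f (nat_lit 656) (nat_lit 689) (nat_lit 4656) (.f (nat_lit 687) (nat_lit 655) (nat_lit 5679) (.f (nat_lit 688) (nat_lit 719) (nat_lit 5711) (.f (nat_lit 559) (nat_lit 591) (nat_lit 7727) (.f (nat_lit 526) (nat_lit 561) (nat_lit 3597) (.d (nat_lit 524) (nat_lit 523) (nat_lit 523) (nat_lit 557) (nat_lit 3596)))))))) (.a (.f (nat_lit 657) (nat_lit 625) (nat_lit 4624) (.f (nat_lit 656) (nat_lit 689) (nat_lit 4656) (.f (nat_lit 687) (nat_lit 655) (nat_lit 5679) (.f (nat_lit 688) (nat_lit 719) (nat_lit 5711) (.f (nat_lit 559) (nat_lit 591) (nat_lit 7727) (.f (nat_lit 557) (nat_lit 524) (nat_lit 3596) (.f (nat_lit 589) (nat_lit 588) (nat_lit 1580) (.d (nat_lit 462) (nat_lit 493) (nat_lit 6605) (nat_lit 526) (nat_lit 5581))))))))) (.a (.d (nat_lit 623) (nat_lit 591) (nat_lit 5615) (nat_lit 655) (nat_lit 5647)) (.a (.f (nat_lit 591) (nat_lit 623) (nat_lit 5615) (.f (nat_lit 657) (nat_lit 625) (nat_lit 4624) (.f (nat_lit 656) (nat_lit 689) (nat_lit 4656) (.f (nat_lit 559) (nat_lit 688) (nat_lit 7727) (.d (nat_lit 557) (nat_lit 524) (nat_lit 3596) (nat_lit 556) (nat_lit 556)))))) (.f (nat_lit 657) (nat_lit 625) (nat_lit 4624) (.f (nat_lit 656) (nat_lit 689) (nat_lit 4656) (.d (nat_lit 655) (nat_lit 623) (nat_lit 5647) (nat_lit 687) (nat_lit 5679))))))))) (.a (.p (nat_lit 624) (.a (.f (nat_lit 657) (nat_lit 625) (nat_lit 4624) (.f (nat_lit 656) (nat_lit 689) (nat_lit 4656) (.f (nat_lit 687) (nat_lit 655) (nat_lit 5679) (.f (nat_lit 688) (nat_lit 719) (nat_lit 5711) (.f (nat_lit 559) (nat_lit 591) (nat_lit 7727) (.f (nat_lit 526) (nat_lit 561) (nat_lit 3597) (.d (nat_lit 524) (nat_lit 523) (nat_lit 523) (nat_lit 557) (nat_lit 3596)))))))) (.a (.f (nat_lit 657) (nat_lit 625) (nat_lit 4624) (.f (nat_lit 656) (nat_lit 689) (nat_lit 4656) (.f (nat_lit 687) (nat_lit 655) (nat_lit 5679) (.f (nat_lit 688) (nat_lit 719) (nat_lit 5711) (.f (nat_lit 559) (nat_lit 591) (nat_lit 7727) (.f (nat_lit 557) (nat_lit 524) (nat_lit 3596) (.f (nat_lit 589) (nat_lit 588) (nat_lit 1580) (.d (nat_lit 526) (nat_lit 462) (nat_lit 5581) (nat_lit 621) (nat_lit 6637))))))))) (.a (.d (nat_lit 623) (nat_lit 591) (nat_lit 5615) (nat_lit 655) (nat_lit 5647)) (.a (.f (nat_lit 591) (nat_lit 623) (nat_lit 5615) (.f (nat_lit 657) (nat_lit 625) (nat_lit 4624) (.f (nat_lit 656) (nat_lit 689) (nat_lit 4656) (.f (nat_lit 559) (nat_lit 688) (nat_lit 7727) (.d (nat_lit 557) (nat_lit 524) (nat_lit 3596) (nat_lit 556) (nat_lit 556)))))) (.f (nat_lit 657) (nat_lit 625) (nat_lit 4624) (.f (nat_lit 656) (nat_lit 689) (nat_lit 4656) (.d (nat_lit 655) (nat_lit 623) (nat_lit 5647) (nat_lit 687) (nat_lit 5679))))))))) (.a (.p (nat_lit 624) (.a (.f (nat_lit 657) (nat_lit 625) (nat_lit 4624) (.f (nat_lit 656) (nat_lit 689) (nat_lit 4656) (.f (nat_lit 687) (nat_lit 655) (nat_lit 5679) (.f (nat_lit 688) (nat_lit 719) (nat_lit 5711) (.f (nat_lit 559) (nat_lit 591) (nat_lit 7727) (.f (nat_lit 526) (nat_lit 561) (nat_lit 3597) (.d (nat_lit 524) (nat_lit 523) (nat_lit 523) (nat_lit 557) (nat_lit 3596)))))))) (.a (.d (nat_lit 623) (nat_lit 591) (nat_lit 5615) (nat_lit 655) (nat_lit 5647)) (.a (.f (nat_lit 591) (nat_lit 623) (nat_lit 5615) (.f (nat_lit 657) (nat_lit 625) (nat_lit 4624) (.f (nat_lit 656) (nat_lit 689) (nat_lit 4656) (.f (nat_lit 559) (nat_lit 688) (nat_lit 7727) (.d (nat_lit 557) (nat_lit 524) (nat_lit 3596) (nat_lit 556) (nat_lit 556)))))) (.f (nat_lit 657) (nat_lit 625) (nat_lit 4624) (.f (nat_lit 656) (nat_lit 689) (nat_lit 4656) (.d (nat_lit 655) (nat_lit 623) (nat_lit 5647) (nat_lit 687) (nat_lit 5679)))))))) (.p (nat_lit 624) (.a (.f (nat_lit 657) (nat_lit 625) (nat_lit 4624) (.f (nat_lit 656) (nat_lit 689) (nat_lit 4656) (.f (nat_lit 687) (nat_lit 655) (nat_lit 5679) (.f (nat_lit 688) (nat_lit 719) (nat_lit 5711) (.f (nat_lit 559) (nat_lit 591) (nat_lit 7727) (.f (nat_lit 561) (nat_lit 526) (nat_lit 3597) (.f (nat_lit 589) (nat_lit 590) (nat_lit 1581) (.f (nat_lit 557) (nat_lit 588) (nat_lit 1580) (.f (nat_lit 493) (nat_lit 462) (nat_lit 6605) (.f (nat_lit 460) (nat_lit 492) (nat_lit 7628) (.d (nat_lit 461) (nat_lit 428) (nat_lit 7596) (nat_lit 495) (nat_lit 3532)))))))))))) (.a (.d (nat_lit 623) (nat_lit 591) (nat_lit 5615) (nat_lit 655) (nat_lit 5647)) (.a (.f (nat_lit 591) (nat_lit 623) (nat_lit 5615) (.f (nat_lit 657) (nat_lit 625) (nat_lit 4624) (.f (nat_lit 656) (nat_lit 689) (nat_lit 4656) (.f (nat_lit 559) (nat_lit 688) (nat_lit 7727) (.d (nat_lit 526) (nat_lit 462) (nat_lit 4558) (nat_lit 561) (nat_lit 3597)))))) (.f (nat_lit 657) (nat_lit 625) (nat_lit 4624) (.f (nat_lit 656) (nat_lit 689) (nat_lit 4656) (.d (nat_lit 655) (nat_lit 623) (nat_lit 5647) (nat_lit 687) (nat_lit 5679))))))))))))))))) (.a (.p (nat_lit 557) (.a (.f (nat_lit 623) (nat_lit 591) (nat_lit 5615) (.f (nat_lit 624) (nat_lit 655) (nat_lit 5647) (.f (nat_lit 657) (nat_lit 625) (nat_lit 4624) (.f (nat_lit 656) (nat_lit 689) (nat_lit 4656) (.f (nat_lit 621) (nat_lit 622) (nat_lit 621) (.f (nat_lit 589) (nat_lit 526) (nat_lit 6637) (.f (nat_lit 493) (nat_lit 462) (nat_lit 6605) (.d (nat_lit 620) (nat_lit 588) (nat_lit 5612) (nat_lit 652) (nat_lit 5644))))))))) (.a (.p (nat_lit 589) (.a (.f (nat_lit 493) (nat_lit 462) (nat_lit 6605) (.f (nat_lit 621) (nat_lit 526) (nat_lit 6637) (.d (nat_lit 620) (nat_lit 588) (nat_lit 5612) (nat_lit 652) (nat_lit 5644)))) (.a (.f (nat_lit 621) (nat_lit 526) (nat_lit 6637) (.f (nat_lit 524) (nat_lit 492) (nat_lit 7660) (.f (nat_lit 653) (nat_lit 556) (nat_lit 7692) (.d (nat_lit 654) (nat_lit 622) (nat_lit 4621) (nat_lit 686) (nat_lit 4653))))) (.f (nat_lit 493) (nat_lit 462) (nat_lit 6605) (.f (nat_lit 588) (nat_lit 620) (nat_lit 5612) (.f (nat_lit 558) (nat_lit 559) (nat_lit 1580) (.d (nat_lit 461) (nat_lit 556) (nat_lit 5580) (nat_lit 590) (nat_lit 4557)))))))) (.a (.f (nat_lit 623) (nat_lit 591) (nat_lit 5615) (.f (nat_lit 624) (nat_lit 655) (nat_lit 5647) (.f (nat_lit 657) (nat_lit 625) (nat_lit 4624) (.f (nat_lit 656) (nat_lit 689) (nat_lit 4656) (.f (nat_lit 621) (nat_lit 622) (nat_lit 621) (.f (nat_lit 589) (nat_lit 526) (nat_lit 6637) (.f (nat_lit 524) (nat_lit 492) (nat_lit 7660) (.f (nat_lit 653) (nat_lit 556) (nat_lit 7692) (.d (nat_lit 652) (nat_lit 620) (nat_lit 5644) (nat_lit 684) (nat_lit 5676)))))))))) (.a (.p (nat_lit 624) (.a (.f (nat_lit 657) (nat_lit 625) (nat_lit 4624) (.f (nat_lit 656) (nat_lit 689) (nat_lit 4656) (.f (nat_lit 687) (nat_lit 655) (nat_lit 5679) (.f (nat_lit 688) (nat_lit 719) (nat_lit 5711) (.f (nat_lit 559) (nat_lit 591) (nat_lit 7727) (.f (nat_lit 558) (nat_lit 524) (nat_lit 3596) (.f (nat_lit 589) (nat_lit 588) (nat_lit 1580) (.d (nat_lit 561) (nat_lit 526) (nat_lit 3597) (nat_lit 590) (nat_lit 1581))))))))) (.a (.f (nat_lit 657) (nat_lit 625) (nat_lit 4624) (.f (nat_lit 656) (nat_lit 689) (nat_lit 4656) (.f (nat_lit 687) (nat_lit 655) (nat_lit 5679) (.f (nat_lit 688) (nat_lit 719) (nat_lit 5711) (.f (nat_lit 559) (nat_lit 591) (nat_lit 7727) (.f (nat_lit 558) (nat_lit 524) (nat_lit 3596) (.f (nat_lit 589) (nat_lit 588) (nat_lit 1580) (.d (nat_lit 462) (nat_lit 493) (nat_lit 6605) (nat_lit 526) (nat_lit 5581))))))))) (.a (.f (nat_lit 657) (nat_lit 625) (nat_lit 4624) (.f (nat_lit 656) (nat_lit 689) (nat_lit 4656) (.d (nat_lit 655) (nat_lit 623) (nat_lit 5647) (nat_lit 687) (nat_lit 5679)))) (.a (.d (nat_lit 623) (nat_lit 591) (nat_lit 5615) (nat_lit 655) (nat_lit 5647)) (.f (nat_lit 591) (nat_lit 623) (nat_lit 5615) (.f (nat_lit 625) (nat_lit 657) (nat_lit 4624) (.f (nat_lit 589) (nat_lit 590) (nat_lit 589) (.f (nat_lit 493) (nat_lit 462) (nat_lit 6605) (.f (nat_lit 621) (nat_lit 526) (nat_lit 6637) (.d (nat_lit 620) (nat_lit 588) (nat_lit 5612) (nat_lit 652) (nat_lit 5644)))))))))))) (.a (.p (nat_lit 624) (.a (.f (nat_lit 657) (nat_lit 625) (nat_lit 4624) (.f (nat_lit 656) (nat_lit 689) (nat_lit 4656) (.f (nat_lit 687) (nat_lit 655) (nat_lit 5679) (.f (nat_lit 688) (nat_lit 719) (nat_lit 5711) (.f (nat_lit 559) (nat_lit 591) (nat_lit 7727) (.f (nat_lit 558) (nat_lit 524) (nat_lit 3596) (.f (nat_lit 589) (nat_lit 588) (nat_lit 1580) (.d (nat_lit 561) (nat_lit 526) (nat_lit 3597) (nat_lit 590) (nat_lit 1581))))))))) (.a (.f (nat_lit 657) (nat_lit 625) (nat_lit 4624) (.f (nat_lit 656) (nat_lit 689) (nat_lit 4656) (.f (nat_lit 687) (nat_lit 655) (nat_lit 5679) (.f (nat_lit 688) (nat_lit 719) (nat_lit 5711) (.f (nat_lit 559) (nat_lit 591) (nat_lit 7727) (.f (nat_lit 558) (nat_lit 524) (nat_lit 3596) (.f (nat_lit 589) (nat_lit 588) (nat_lit 1580) (.d (nat_lit 462) (nat_lit 493) (nat_lit 6605) (nat_lit 526) (nat_lit 5581))))))))) (.a (.f (nat_lit 657) (nat_lit 625) (nat_lit 4624) (.f (nat_lit 656) (nat_lit 689) (nat_lit 4656) (.d (nat_lit 655) (nat_lit 623) (nat_lit 5647) (nat_lit 687) (nat_lit 5679)))) (.a (.d (nat_lit 623) (nat_lit 591) (nat_lit 5615) (nat_lit 655) (nat_lit 5647)) (.f (nat_lit 591) (nat_lit 623) (nat_lit 5615) (.f (nat_lit 625) (nat_lit 657) (nat_lit 4624) (.f (nat_lit 589) (nat_lit 590) (nat_lit 589) (.f (nat_lit 493) (nat_lit 462) (nat_lit 6605) (.f (nat_lit 588) (nat_lit 620) (nat_lit 5612) (.f (nat_lit 461) (nat_lit 556) (nat_lit 5580) (.d (nat_lit 460) (nat_lit 428) (nat_lit 7596) (nat_lit 492) (nat_lit 7628))))))))))))) (.a (.p (nat_lit 558) (.a (.f (nat_lit 591) (nat_lit 623) (nat_lit 5615) (.f (nat_lit 559) (nat_lit 556) (nat_lit 556) (.d (nat_lit 526) (nat_lit 462) (nat_lit 4558) (nat_lit 561) (nat_lit 3597)))) (.a (.f (nat_lit 559) (nat_lit 524) (nat_lit 3596) (.f (nat_lit 526) (nat_lit 561) (nat_lit 3597) (.d (nat_lit 591) (nat_lit 462) (nat_lit 4558) (nat_lit 556) (nat_lit 556)))) (.a (.f (nat_lit 559) (nat_lit 524) (nat_lit 3596) (.d (nat_lit 591) (nat_lit 556) (nat_lit 556) (nat_lit 623) (nat_lit 5615))) (.a (.f (nat_lit 623) (nat_lit 591) (nat_lit 5615) (.f (nat_lit 624) (nat_lit 655) (nat_lit 5647) (.f (nat_lit 657) (nat_lit 625) (nat_lit 4624) (.f (nat_lit 656) (nat_lit 689) (nat_lit 4656) (.f (nat_lit 622) (nat_lit 621) (nat_lit 621) (.f (nat_lit 590) (nat_lit 654) (nat_lit 7693) (.d (nat_lit 493) (nat_lit 461) (nat_lit 4557) (nat_lit 526) (nat_lit 7661)))))))) (.f (nat_lit 559) (nat_lit 524) (nat_lit 3596) (.f (nat_lit 526) (nat_lit 561) (nat_lit 3597) (.f (nat_lit 462) (nat_lit 430) (nat_lit 5549) (.f (nat_lit 461) (nat_lit 429) (nat_lit 7597) (.f (nat_lit 493) (nat_lit 590) (nat_lit 4557) (.f (nat_lit 556) (nat_lit 588) (nat_lit 5580) (.f (nat_lit 555) (nat_lit 554) (nat_lit 2570) (.f (nat_lit 460) (nat_lit 428) (nat_lit 7596) (.f (nat_lit 459) (nat_lit 458) (nat_lit 458) (.f (nat_lit 491) (nat_lit 490) (nat_lit 1482) (.f (nat_lit 523) (nat_lit 522) (nat_lit 3594) (.d (nat_lit 587) (nat_lit 492) (nat_lit 6603) (nat_lit 586) (nat_lit 1578)))))))))))))))))) (.p (nat_lit 558) (.a (.f (nat_lit 559) (nat_lit 524) (nat_lit 3596) (.f (nat_lit 589) (nat_lit 588) (nat_lit 1580) (.f (nat_lit 590) (nat_lit 561) (nat_lit 1581) (.d (nat_lit 493) (nat_lit 461) (nat_lit 4557) (nat_lit 462) (nat_lit 6605))))) (.a (.f (nat_lit 623) (nat_lit 591) (nat_lit 5615) (.f (nat_lit 624) (nat_lit 655) (nat_lit 5647) (.f (nat_lit 657) (nat_lit 625) (nat_lit 4624) (.f (nat_lit 656) (nat_lit 689) (nat_lit 4656) (.f (nat_lit 622) (nat_lit 621) (nat_lit 621) (.f (nat_lit 590) (nat_lit 654) (nat_lit 7693) (.d (nat_lit 493) (nat_lit 461) (nat_lit 4557) (nat_lit 589) (nat_lit 4589)))))))) (.f (nat_lit 559) (nat_lit 524) (nat_lit 3596) (.d (nat_lit 591) (nat_lit 556) (nat_lit 556) (nat_lit 623) (nat_lit 5615))))))))))))) (.a (.p (nat_lit 624) (.a (.f (nat_lit 497) (nat_lit 465) (nat_lit 6608) (.f (nat_lit 526) (nat_lit 495) (nat_lit 1517) (.f (nat_lit 657) (nat_lit 625) (nat_lit 4624) (.f (nat_lit 656) (nat_lit 689) (nat_lit 4656) (.f (nat_lit 687) (nat_lit 655) (nat_lit 5679) (.f (nat_lit 688) (nat_lit 719) (nat_lit 5711) (.f (nat_lit 559) (nat_lit 591) (nat_lit 7727) (.f (nat_lit 558) (nat_lit 561) (nat_lit 3597) (.d (nat_lit 524) (nat_lit 523) (nat_lit 523) (nat_lit 557) (nat_lit 3596)))))))))) (.a (.d (nat_lit 623) (nat_lit 591) (nat_lit 5615) (nat_lit 655) (nat_lit 5647)) (.a (.f (nat_lit 497) (nat_lit 465) (nat_lit 6608) (.f (nat_lit 591) (nat_lit 623) (nat_lit 5615) (.f (nat_lit 625) (nat_lit 657) (nat_lit 4624) (.f (nat_lit 589) (nat_lit 590) (nat_lit 589) (.f (nat_lit 526) (nat_lit 495) (nat_lit 1517) (.f (nat_lit 557) (nat_lit 621) (nat_lit 6637) (.d (nat_lit 462) (nat_lit 430) (nat_lit 5549) (nat_lit 558) (nat_lit 5581)))))))) (.f (nat_lit 657) (nat_lit 625) (nat_lit 4624) (.f (nat_lit 656) (nat_lit 689) (nat_lit 4656) (.d (nat_lit 655) (nat_lit 623) (nat_lit 5647) (nat_lit 687) (nat_lit 5679)))))))) (.a (.f (nat_lit 497) (nat_lit 465) (nat_lit 6608) (.f (nat_lit 495) (nat_lit 526) (nat_lit 1517) (.f (nat_lit 493) (nat_lit 524) (nat_lit 1516) (.f (nat_lit 460) (nat_lit 461) (nat_lit 3532) (.f (nat_lit 492) (nat_lit 459) (nat_lit 3531) (.f (nat_lit 623) (nat_lit 591) (nat_lit 5615) (.f (nat_lit 624) (nat_lit 655) (nat_lit 5647) (.f (nat_lit 625) (nat_lit 657) (nat_lit 4624) (.f (nat_lit 589) (nat_lit 557) (nat_lit 7628) (.f (nat_lit 622) (nat_lit 590) (nat_lit 3661) (.f (nat_lit 621) (nat_lit 588) (nat_lit 3660) (.d (nat_lit 653) (nat_lit 652) (nat_lit 1644) (nat_lit 654) (nat_lit 1645))))))))))))) (.a (.p (nat_lit 493) (.a (.f (nat_lit 495) (nat_lit 524) (nat_lit 1516) (.f (nat_lit 461) (nat_lit 460) (nat_lit 3532) (.d (nat_lit 497) (nat_lit 462) (nat_lit 3533) (nat_lit 465) (nat_lit 6608)))) (.a (.f (nat_lit 623) (nat_lit 591) (nat_lit 5615) (.f (nat_lit 624) (nat_lit 655) (nat_lit 5647) (.f (nat_lit 625) (nat_lit 657) (nat_lit 4624) (.f (nat_lit 495) (nat_lit 524) (nat_lit 1516) (.f (nat_lit 460) (nat_lit 461) (nat_lit 3532) (.f (nat_lit 492) (nat_lit 459) (nat_lit 3531) (.f (nat_lit 589) (nat_lit 557) (nat_lit 7628) (.f (nat_lit 622) (nat_lit 590) (nat_lit 3661) (.f (nat_lit 621) (nat_lit 588) (nat_lit 3660) (.d (nat_lit 653) (nat_lit 652) (nat_lit 1644) (nat_lit 654) (nat_lit 1645))))))))))) (.a (.p (nat_lit 589) (.a (.f (nat_lit 557) (nat_lit 462) (nat_lit 6605) (.f (nat_lit 590) (nat_lit 622) (nat_lit 4589) (.d (nat_lit 591) (nat_lit 561) (nat_lit 2605) (nat_lit 623) (nat_lit 5615)))) (.a (.f (nat_lit 557) (nat_lit 462) (nat_lit 6605) (.f (nat_lit 590) (nat_lit 622) (nat_lit 4589) (.d (nat_lit 591) (nat_lit 556) (nat_lit 3628) (nat_lit 561) (nat_lit 2605)))) (.a (.f (nat_lit 557) (nat_lit 462) (nat_lit 6605) (.f (nat_lit 590) (nat_lit 622) (nat_lit 4589) (.d (nat_lit 591) (nat_lit 556) (nat_lit 3628) (nat_lit 623) (nat_lit 5615)))) (.a (.f (nat_lit 591) (nat_lit 623) (nat_lit 5615) (.f (nat_lit 590) (nat_lit 561) (nat_lit 2605) (.f (nat_lit 588) (nat_lit 559) (nat_lit 2604) (.d (nat_lit 620) (nat_lit 619) (nat_lit 1611) (nat_lit 621) (nat_lit 1612))))) (.a (.f (nat_lit 557) (nat_lit 462) (nat_lit 6605) (.f (nat_lit 588) (nat_lit 620) (nat_lit 5612) (.f (nat_lit 558) (nat_lit 559) (nat_lit 1580) (.d (nat_lit 461) (nat_lit 556) (nat_lit 5580) (nat_lit 590) (nat_lit 4557))))) (.f (nat_lit 557) (nat_lit 462) (nat_lit 6605) (.f (nat_lit 588) (nat_lit 620) (nat_lit 5612) (.f (nat_lit 556) (nat_lit 461) (nat_lit 5580) (.f (nat_lit 558) (nat_lit 559) (nat_lit 1580) (.f (nat_lit 492) (nat_lit 460) (nat_lit 7628) (.f (nat_lit 524) (nat_lit 621) (nat_lit 4588) (.d (nat_lit 587) (nat_lit 586) (nat_lit 2602) (nat_lit 619) (nat_lit 5611)))))))))))))) (.a (.p (nat_lit 624) (.a (.f (nat_lit 524) (nat_lit 495) (nat_lit 1516) (.f (nat_lit 657) (nat_lit 625) (nat_lit 4624) (.f (nat_lit 656) (nat_lit 689) (nat_lit 4656) (.f (nat_lit 687) (nat_lit 655) (nat_lit 5679) (.f (nat_lit 688) (nat_lit 719) (nat_lit 5711) (.f (nat_lit 559) (nat_lit 591) (nat_lit 7727) (.f (nat_lit 557) (nat_lit 558) (nat_lit 3596) (.f (nat_lit 589) (nat_lit 462) (nat_lit 6605) (.d (nat_lit 492) (nat_lit 460) (nat_lit 7628) (nat_lit 621) (nat_lit 7660)))))))))) (.a (.d (nat_lit 623) (nat_lit 591) (nat_lit 5615) (nat_lit 655) (nat_lit 5647)) (.a (.f (nat_lit 524) (nat_lit 495) (nat_lit 1516) (.f (nat_lit 591) (nat_lit 623) (nat_lit 5615) (.f (nat_lit 625) (nat_lit 657) (nat_lit 4624) (.f (nat_lit 589) (nat_lit 590) (nat_lit 589) (.f (nat_lit 557) (nat_lit 462) (nat_lit 6605) (.d (nat_lit 492) (nat_lit 460) (nat_lit 7628) (nat_lit 621) (nat_lit 7660))))))) (.f (nat_lit 655) (nat_lit 623) (nat_lit 5647) (.f (nat_lit 656) (nat_lit 687) (nat_lit 5679) (.d (nat_lit 657) (nat_lit 625) (nat_lit 4624) (nat_lit 689) (nat_lit 4656)))))))) (.a (.f (nat_lit 623) (nat_lit 591) (nat_lit 5615) (.f (nat_lit 624) (nat_lit 655) (nat_lit 5647) (.f (nat_lit 625) (nat_lit 657) (nat_lit 4624) (.f (nat_lit 495) (nat_lit 524) (nat_lit 1516) (.f (nat_lit 497) (nat_lit 465) (nat_lit 6608) (.f (nat_lit 462) (nat_lit 461) (nat_lit 3533) (.f (nat_lit 589) (nat_lit 557) (nat_lit 6605) (.f (nat_lit 622) (nat_lit 590) (nat_lit 3661) (.f (nat_lit 621) (nat_lit 588) (nat_lit 3660) (.d (nat_lit 653) (nat_lit 652) (nat_lit 1644) (nat_lit 654) (nat_lit 1645))))))))))) (.p (nat_lit 589) (.a (.f (nat_lit 557) (nat_lit 462) (nat_lit 6605) (.f (nat_lit 590) (nat_lit 622) (nat_lit 4589) (.d (nat_lit 591) (nat_lit 561) (nat_lit 2605) (nat_lit 623) (nat_lit 5615)))) (.a (.f (nat_lit 557) (nat_lit 462) (nat_lit 6605) (.f (nat_lit 590) (nat_lit 622) (nat_lit 4589) (.d (nat_lit 591) (nat_lit 556) (nat_lit 3628) (nat_lit 561) (nat_lit 2605)))) (.a (.f (nat_lit 557) (nat_lit 462) (nat_lit 6605) (.f (nat_lit 590) (nat_lit 622) (nat_lit 4589) (.d (nat_lit 591) (nat_lit 556) (nat_lit 3628) (nat_lit 623) (nat_lit 5615)))) (.a (.f (nat_lit 591) (nat_lit 623) (nat_lit 5615) (.f (nat_lit 590) (nat_lit 561) (nat_lit 2605) (.f (nat_lit 588) (nat_lit 559) (nat_lit 2604) (.d (nat_lit 620) (nat_lit 619) (nat_lit 1611) (nat_lit 621) (nat_lit 1612))))) (.a (.f (nat_lit 557) (nat_lit 462) (nat_lit 6605) (.f (nat_lit 588) (nat_lit 620) (nat_lit 5612) (.f (nat_lit 558) (nat_lit 559) (nat_lit 1580) (.d (nat_lit 461) (nat_lit 556) (nat_lit 5580) (nat_lit 590) (nat_lit 4557))))) (.f (nat_lit 557) (nat_lit 462) (nat_lit 6605) (.f (nat_lit 588) (nat_lit 620) (nat_lit 5612) (.f (nat_lit 461) (nat_lit 556) (nat_lit 5580) (.d (nat_lit 460) (nat_lit 492) (nat_lit 7628) (nat_lit 495) (nat_lit 3532))))))))))))))))) (.p (nat_lit 590) (.a (.f (nat_lit 591) (nat_lit 623) (nat_lit 5615) (.f (nat_lit 589) (nat_lit 561) (nat_lit 2605) (.f (nat_lit 557) (nat_lit 556) (nat_lit 3628) (.d (nat_lit 493) (nat_lit 462) (nat_lit 6605) (nat_lit 622) (nat_lit 4589))))) (.a (.f (nat_lit 497) (nat_lit 465) (nat_lit 6608) (.f (nat_lit 495) (nat_lit 526) (nat_lit 1517) (.f (nat_lit 461) (nat_lit 462) (nat_lit 3533) (.f (nat_lit 493) (nat_lit 460) (nat_lit 3532) (.f (nat_lit 557) (nat_lit 558) (nat_lit 4557) (.f (nat_lit 589) (nat_lit 622) (nat_lit 4589) (.d (nat_lit 556) (nat_lit 588) (nat_lit 5580) (nat_lit 591) (nat_lit 3628)))))))) (.a (.f (nat_lit 591) (nat_lit 623) (nat_lit 5615) (.f (nat_lit 589) (nat_lit 561) (nat_lit 2605) (.f (nat_lit 588) (nat_lit 559) (nat_lit 2604) (.d (nat_lit 620) (nat_lit 619) (nat_lit 1611) (nat_lit 621) (nat_lit 1612))))) (.a (.f (nat_lit 497) (nat_lit 465) (nat_lit 6608) (.f (nat_lit 495) (nat_lit 526) (nat_lit 1517) (.f (nat_lit 461) (nat_lit 462) (nat_lit 3533) (.f (nat_lit 493) (nat_lit 460) (nat_lit 3532) (.f (nat_lit 557) (nat_lit 558) (nat_lit 4557) (.f (nat_lit 589) (nat_lit 622) (nat_lit 4589) (.d (nat_lit 588) (nat_lit 556) (nat_lit 5580) (nat_lit 620) (nat_lit 5612)))))))) (.f (nat_lit 497) (nat_lit 465) (nat_lit 6608) (.f (nat_lit 623) (nat_lit 591) (nat_lit 5615) (.f (nat_lit 624) (nat_lit 655) (nat_lit 5647) (.f (nat_lit 657) (nat_lit 625) (nat_lit 4624) (.f (nat_lit 656) (nat_lit 689) (nat_lit 4656) (.f (nat_lit 526) (nat_lit 495) (nat_lit 1517) (.f (nat_lit 622) (nat_lit 621) (nat_lit 621) (.f (nat_lit 558) (nat_lit 493) (nat_lit 7661) (.f (nat_lit 654) (nat_lit 557) (nat_lit 7693) (.f (nat_lit 685) (nat_lit 653) (nat_lit 5677) (.f (nat_lit 686) (nat_lit 717) (nat_lit 5709) (.d (nat_lit 687) (nat_lit 688) (nat_lit 2701) (nat_lit 719) (nat_lit 4686))))))))))))))))))))))))) (.a (.p (nat_lit 589) (.a (.f (nat_lit 591) (nat_lit 623) (nat_lit 5615) (.f (nat_lit 590) (nat_lit 561) (nat_lit 2605) (.f (nat_lit 557) (nat_lit 556) (nat_lit 3628) (.f (nat_lit 621) (nat_lit 620) (nat_lit 1612) (.d (nat_lit 622) (nat_lit 493) (nat_lit 4589) (nat_lit 654) (nat_lit 4621)))))) (.a (.p (nat_lit 557) (.a (.p (nat_lit 494) (.a (.f (nat_lit 493) (nat_lit 462) (nat_lit 6605) (.f (nat_lit 621) (nat_lit 526) (nat_lit 6637) (.d (nat_lit 620) (nat_lit 588) (nat_lit 5612) (nat_lit 652) (nat_lit 5644)))) (.a (.f (nat_lit 621) (nat_lit 526) (nat_lit 6637) (.f (nat_lit 524) (nat_lit 492) (nat_lit 7660) (.f (nat_lit 653) (nat_lit 556) (nat_lit 7692) (.d (nat_lit 654) (nat_lit 622) (nat_lit 4621) (nat_lit 686) (nat_lit 4653))))) (.f (nat_lit 493) (nat_lit 462) (nat_lit 6605) (.f (nat_lit 590) (nat_lit 622) (nat_lit 4589) (.d (nat_lit 591) (nat_lit 556) (nat_lit 3628) (nat_lit 561) (nat_lit 2605))))))) (.a s4074 (.a s4087 (.a (.p (nat_lit 621) (.a (.f (nat_lit 524) (nat_lit 492) (nat_lit 7660) (.f (nat_lit 558) (nat_lit 559) (nat_lit 3596) (.d (nat_lit 526) (nat_lit 494) (nat_lit 6637) (nat_lit 653) (nat_lit 6669)))) (.a (.f (nat_lit 620) (nat_lit 652) (nat_lit 5644) (.f (nat_lit 590) (nat_lit 591) (nat_lit 1612) (.f (nat_lit 622) (nat_lit 654) (nat_lit 4621) (.f (nat_lit 526) (nat_lit 494) (nat_lit 6637) (.f (nat_lit 653) (nat_lit 558) (nat_lit 5645) (.d (nat_lit 524) (nat_lit 492) (nat_lit 7660) (nat_lit 556) (nat_lit 7692))))))) (.a (.f (nat_lit 654) (nat_lit 622) (nat_lit 4621) (.f (nat_lit 653) (nat_lit 686) (nat_lit 4653) (.d (nat_lit 524) (nat_lit 492) (nat_lit 7660) (nat_lit 556) (nat_lit 7692)))) (.a (.f (nat_lit 526) (nat_lit 494) (nat_lit 6637) (.f (nat_lit 558) (nat_lit 653) (nat_lit 6669) (.d (nat_lit 559) (nat_lit 561) (nat_lit 3597) (nat_lit 588) (nat_lit 1580)))) (.f (nat_lit 620) (nat_lit 652) (nat_lit 5644) (.f (nat_lit 590) (nat_lit 591) (nat_lit 1612) (.f (nat_lit 622) (nat_lit 654) (nat_lit 4621) (.f (nat_lit 619) (nat_lit 618) (nat_lit 2634) (.f (nat_lit 524) (nat_lit 492) (nat_lit 7660) (.f (nat_lit 587) (nat_lit 586) (nat_lit 3658) (.f (nat_lit 651) (nat_lit 650) (nat_lit 1642) (.d (nat_lit 556) (nat_lit 555) (nat_lit 6667) (nat_lit 588) (nat_lit 5643)))))))))))))) (.a s4118 (.a (.p (nat_lit 590) (.a (.d (nat_lit 591) (nat_lit 556) (nat_lit 3628) (nat_lit 561) (nat_lit 2605)) (.a (.f (nat_lit 493) (nat_lit 622) (nat_lit 4589) (.f (nat_lit 556) (nat_lit 591) (nat_lit 3628) (.d (nat_lit 588) (nat_lit 461) (nat_lit 5580) (nat_lit 620) (nat_lit 5612)))) (.f (nat_lit 493) (nat_lit 622) (nat_lit 4589) (.f (nat_lit 558) (nat_lit 461) (nat_lit 4557) (.d (nat_lit 559) (nat_lit 524) (nat_lit 3596) (nat_lit 588) (nat_lit 1580))))))) (.a (.p (nat_lit 494) (.a (.f (nat_lit 493) (nat_lit 462) (nat_lit 6605) (.f (nat_lit 621) (nat_lit 526) (nat_lit 6637) (.d (nat_lit 620) (nat_lit 588) (nat_lit 5612) (nat_lit 652) (nat_lit 5644)))) (.a (.f (nat_lit 621) (nat_lit 526) (nat_lit 6637) (.f (nat_lit 620) (nat_lit 652) (nat_lit 5644) (.f (nat_lit 590) (nat_lit 591) (nat_lit 1612) (.f (nat_lit 654) (nat_lit 622) (nat_lit 4621) (.f (nat_lit 653) (nat_lit 686) (nat_lit 4653) (.f (nat_lit 685) (nat_lit 558) (nat_lit 6701) (.d (nat_lit 588) (nat_lit 556) (nat_lit 7724) (nat_lit 717) (nat_lit 7756)))))))) (.a (.f (nat_lit 493) (nat_lit 462) (nat_lit 6605) (.f (nat_lit 588) (nat_lit 620) (nat_lit 5612) (.f (nat_lit 558) (nat_lit 559) (nat_lit 1580) (.d (nat_lit 461) (nat_lit 556) (nat_lit 5580) (nat_lit 590) (nat_lit 4557))))) (.f (nat_lit 493) (nat_lit 462) (nat_lit 6605) (.f (nat_lit 590) (nat_lit 622) (nat_lit 4589) (.d (nat_lit 591) (nat_lit 556) (nat_lit 3628) (nat_lit 561) (nat_lit 2605)))))))) (.a (.p (nat_lit 494) (.a (.f (nat_lit 621) (nat_lit 526) (nat_lit 6637) (.f (nat_lit 524) (nat_lit 492) (nat_lit 7660) (.f (nat_lit 653) (nat_lit 556) (nat_lit 7692) (.d (nat_lit 654) (nat_lit 622) (nat_lit 4621) (nat_lit 686) (nat_lit 4653))))) (.a (.f (nat_lit 621) (nat_lit 526) (nat_lit 6637) (.f (nat_lit 524) (nat_lit 492) (nat_lit 7660) (.f (nat_lit 653) (nat_lit 556) (nat_lit 7692) (.d (nat_lit 652) (nat_lit 620) (nat_lit 5644) (nat_lit 684) (nat_lit 5676))))) (.a (.f (nat_lit 493) (nat_lit 462) (nat_lit 6605) (.f (nat_lit 590) (nat_lit 622) (nat_lit 4589) (.d (nat_lit 591) (nat_lit 556) (nat_lit 3628) (nat_lit 561) (nat_lit 2605)))) (.f (nat_lit 526) (nat_lit 621) (nat_lit 6637) (.d (nat_lit 462) (nat_lit 493) (nat_lit 6605) (nat_lit 558) (nat_lit 5581))))))) (.a (.p (nat_lit 494) (.a (.f (nat_lit 621) (nat_lit 526) (nat_lit 6637) (.f (nat_lit 524) (nat_lit 492) (nat_lit 7660) (.f (nat_lit 653) (nat_lit 556) (nat_lit 7692) (.d (nat_lit 654) (nat_lit 622) (nat_lit 4621) (nat_lit 686) (nat_lit 4653))))) (.a (.f (nat_lit 526) (nat_lit 621) (nat_lit 6637) (.d (nat_lit 462) (nat_lit 493) (nat_lit 6605) (nat_lit 558) (nat_lit 5581))) (.f (nat_lit 493) (nat_lit 462) (nat_lit 6605) (.f (nat_lit 590) (nat_lit 622) (nat_lit 4589) (.d (nat_lit 591) (nat_lit 556) (nat_lit 3628) (nat_lit 561) (nat_lit 2605))))))) (.p (nat_lit 494) (.a (.f (nat_lit 493) (nat_lit 462) (nat_lit 6605) (.f (nat_lit 621) (nat_lit 526) (nat_lit 6637) (.d (nat_lit 620) (nat_lit 588) (nat_lit 5612) (nat_lit 652) (nat_lit 5644)))) (.a (.f (nat_lit 621) (nat_lit 526) (nat_lit 6637) (.f (nat_lit 620) (nat_lit 652) (nat_lit 5644) (.f (nat_lit 590) (nat_lit 591) (nat_lit 1612) (.f (nat_lit 654) (nat_lit 622) (nat_lit 4621) (.f (nat_lit 653) (nat_lit 686) (nat_lit 4653) (.f (nat_lit 558) (nat_lit 685) (nat_lit 6701) (.d (nat_lit 524) (nat_lit 492) (nat_lit 7660) (nat_lit 559) (nat_lit 3596)))))))) (.f (nat_lit 493) (nat_lit 462) (nat_lit 6605) (.f (nat_lit 590) (nat_lit 622) (nat_lit 4589) (.f (nat_lit 558) (nat_lit 461) (nat_lit 4557) (.d (nat_lit 559) (nat_lit 524) (nat_lit 3596) (nat_lit 588) (nat_lit 1580)))))))))))))))))) (.a (.f (nat_lit 623) (nat_lit 591) (nat_lit 5615) (.f (nat_lit 624) (nat_lit 655) (nat_lit 5647) (.f (nat_lit 625) (nat_lit 657) (nat_lit 4624) (.f (nat_lit 622) (nat_lit 590) (nat_lit 3661) (.f (nat_lit 621) (nat_lit 588) (nat_lit 3660) (.d (nat_lit 653) (nat_lit 652) (nat_lit 1644) (nat_lit 654) (nat_lit 1645))))))) (.a (.p (nat_lit 557) (.a s4074 (.a s4175 (.a (.p (nat_lit 621) (.a (.f (nat_lit 524) (nat_lit 492) (nat_lit 7660) (.f (nat_lit 558) (nat_lit 559) (nat_lit 3596) (.d (nat_lit 526) (nat_lit 494) (nat_lit 6637) (nat_lit 653) (nat_lit 6669)))) (.a (.f (nat_lit 654) (nat_lit 622) (nat_lit 4621) (.f (nat_lit 653) (nat_lit 686) (nat_lit 4653) (.d (nat_lit 524) (nat_lit 492) (nat_lit 7660) (nat_lit 556) (nat_lit 7692)))) (.a (.f (nat_lit 526) (nat_lit 494) (nat_lit 6637) (.f (nat_lit 558) (nat_lit 653) (nat_lit 6669) (.d (nat_lit 559) (nat_lit 561) (nat_lit 3597) (nat_lit 588) (nat_lit 1580)))) (.f (nat_lit 524) (nat_lit 492) (nat_lit 7660) (.f (nat_lit 558) (nat_lit 559) (nat_lit 3596) (.f (nat_lit 526) (nat_lit 494) (nat_lit 6637) (.f (nat_lit 523) (nat_lit 522) (nat_lit 522) (.f (nat_lit 620) (nat_lit 652) (nat_lit 5644) (.f (nat_lit 555) (nat_lit 554) (nat_lit 1546) (.f (nat_lit 491) (nat_lit 490) (nat_lit 3562) (.d (nat_lit 588) (nat_lit 556) (nat_lit 7659) (nat_lit 587) (nat_lit 4587))))))))))))) (.a s4118 (.a (.p (nat_lit 493) (.a (.f (nat_lit 588) (nat_lit 620) (nat_lit 5612) (.f (nat_lit 461) (nat_lit 556) (nat_lit 5580) (.d (nat_lit 460) (nat_lit 428) (nat_lit 7596) (nat_lit 492) (nat_lit 7628)))) (.a (.f (nat_lit 588) (nat_lit 620) (nat_lit 5612) (.f (nat_lit 558) (nat_lit 559) (nat_lit 1580) (.f (nat_lit 590) (nat_lit 622) (nat_lit 4589) (.f (nat_lit 587) (nat_lit 586) (nat_lit 2602) (.f (nat_lit 555) (nat_lit 554) (nat_lit 3626) (.f (nat_lit 619) (nat_lit 618) (nat_lit 1610) (.f (nat_lit 492) (nat_lit 460) (nat_lit 7628) (.d (nat_lit 524) (nat_lit 523) (nat_lit 6635) (nat_lit 556) (nat_lit 5611))))))))) (.a (.f (nat_lit 588) (nat_lit 620) (nat_lit 5612) (.f (nat_lit 461) (nat_lit 556) (nat_lit 5580) (.d (nat_lit 462) (nat_lit 430) (nat_lit 6573) (nat_lit 494) (nat_lit 6605)))) (.f (nat_lit 590) (nat_lit 622) (nat_lit 4589) (.f (nat_lit 461) (nat_lit 558) (nat_lit 4557) (.d (nat_lit 462) (nat_lit 430) (nat_lit 6573) (nat_lit 494) (nat_lit 6605)))))))) (.a (.p (nat_lit 494) (.a (.f (nat_lit 493) (nat_lit 462) (nat_lit 6605) (.f (nat_lit 621) (nat_lit 526) (nat_lit 6637) (.d (nat_lit 620) (nat_lit 588) (nat_lit 5612) (nat_lit 652) (nat_lit 5644)))) (.a (.f (nat_lit 621) (nat_lit 526) (nat_lit 6637) (.f (nat_lit 652) (nat_lit 620) (nat_lit 5644) (.f (nat_lit 653) (nat_lit 684) (nat_lit 5676) (.d (nat_lit 654) (nat_lit 622) (nat_lit 4621) (nat_lit 686) (nat_lit 4653))))) (.a (.f (nat_lit 493) (nat_lit 462) (nat_lit 6605) (.f (nat_lit 588) (nat_lit 620) (nat_lit 5612) (.f (nat_lit 558) (nat_lit 559) (nat_lit 1580) (.d (nat_lit 461) (nat_lit 556) (nat_lit 5580) (nat_lit 590) (nat_lit 4557))))) (.f (nat_lit 526) (nat_lit 621) (nat_lit 6637) (.d (nat_lit 462) (nat_lit 493) (nat_lit 6605) (nat_lit 558) (nat_lit 5581))))))) (.a (.p (nat_lit 494) (.a (.f (nat_lit 621) (nat_lit 526) (nat_lit 6637) (.f (nat_lit 524) (nat_lit 492) (nat_lit 7660) (.f (nat_lit 653) (nat_lit 556) (nat_lit 7692) (.d (nat_lit 654) (nat_lit 622) (nat_lit 4621) (nat_lit 686) (nat_lit 4653))))) (.a (.f (nat_lit 621) (nat_lit 526) (nat_lit 6637) (.f (nat_lit 524) (nat_lit 492) (nat_lit 7660) (.f (nat_lit 653) (nat_lit 556) (nat_lit 7692) (.d (nat_lit 652) (nat_lit 620) (nat_lit 5644) (nat_lit 684) (nat_lit 5676))))) (.a (.f (nat_lit 493) (nat_lit 462) (nat_lit 6605) (.f (nat_lit 590) (nat_lit 622) (nat_lit 4589) (.f (nat_lit 461) (nat_lit 558) (nat_lit 4557) (.d (nat_lit 460) (nat_lit 428) (nat_lit 7596) (nat_lit 492) (nat_lit 7628))))) (.f (nat_lit 526) (nat_lit 621) (nat_lit 6637) (.d (nat_lit 462) (nat_lit 493) (nat_lit 6605) (nat_lit 558) (nat_lit 5581))))))) (.a (.p (nat_lit 494) (.a (.f (nat_lit 621) (nat_lit 526) (nat_lit 6637) (.f (nat_lit 524) (nat_lit 492) (nat_lit 7660) (.f (nat_lit 653) (nat_lit 556) (nat_lit 7692) (.d (nat_lit 654) (nat_lit 622) (nat_lit 4621) (nat_lit 686) (nat_lit 4653))))) (.a (.f (nat_lit 526) (nat_lit 621) (nat_lit 6637) (.d (nat_lit 462) (nat_lit 493) (nat_lit 6605) (nat_lit 558) (nat_lit 5581))) (.f (nat_lit 493) (nat_lit 462) (nat_lit 6605) (.f (nat_lit 590) (nat_lit 622) (nat_lit 4589) (.f (nat_lit 558) (nat_lit 461) (nat_lit 4557) (.d (nat_lit 559) (nat_lit 524) (nat_lit 3596) (nat_lit 588) (nat_lit 1580)))))))) (.p (nat_lit 494) (.a (.f (nat_lit 493) (nat_lit 462) (nat_lit 6605) (.f (nat_lit 621) (nat_lit 526) (nat_lit 6637) (.d (nat_lit 620) (nat_lit 588) (nat_lit 5612) (nat_lit 652) (nat_lit 5644)))) (.a (.f (nat_lit 621) (nat_lit 526) (nat_lit 6637) (.f (nat_lit 652) (nat_lit 620) (nat_lit 5644) (.f (nat_lit 653) (nat_lit 684) (nat_lit 5676) (.d (nat_lit 654) (nat_lit 622) (nat_lit 4621) (nat_lit 686) (nat_lit 4653))))) (.f (nat_lit 493) (nat_lit 462) (nat_lit 6605) (.f (nat_lit 590) (nat_lit 622) (nat_lit 4589) (.f (nat_lit 558) (nat_lit 461) (nat_lit 4557) (.d (nat_lit 559) (nat_lit 524) (nat_lit 3596) (nat_lit 588) (nat_lit 1580))))))))))))))))) (.a (.p (nat_lit 557) (.a s4074 (.a (.f (nat_lit 623) (nat_lit 591) (nat_lit 5615) (.f (nat_lit 624) (nat_lit 655) (nat_lit 5647) (.f (nat_lit 657) (nat_lit 625) (nat_lit 4624) (.f (nat_lit 656) (nat_lit 689) (nat_lit 4656) (.f (nat_lit 621) (nat_lit 622) (nat_lit 621) (.f (nat_lit 524) (nat_lit 492) (nat_lit 7660) (.f (nat_lit 558) (nat_lit 559) (nat_lit 3596) (.d (nat_lit 653) (nat_lit 526) (nat_lit 6669) (nat_lit 556) (nat_lit 7692))))))))) (.a s4239 (.f (nat_lit 623) (nat_lit 591) (nat_lit 5615) (.f (nat_lit 624) (nat_lit 655) (nat_lit 5647) (.f (nat_lit 657) (nat_lit 625) (nat_lit 4624) (.f (nat_lit 656) (nat_lit 689) (nat_lit 4656) (.f (nat_lit 621) (nat_lit 622) (nat_lit 621) (.f (nat_lit 526) (nat_lit 494) (nat_lit 6637) (.f (nat_lit 653) (nat_lit 558) (nat_lit 6669) (.d (nat_lit 652) (nat_lit 620) (nat_lit 5644) (nat_lit 684) (nat_lit 5676))))))))))))) (.a (.f (nat_lit 591) (nat_lit 623) (nat_lit 5615) (.f (nat_lit 590) (nat_lit 561) (nat_lit 2605) (.f (nat_lit 557) (nat_lit 556) (nat_lit 3628) (.f (nat_lit 621) (nat_lit 620) (nat_lit 1612) (.f (nat_lit 559) (nat_lit 588) (nat_lit 2604) (.d (nat_lit 524) (nat_lit 492) (nat_lit 7660) (nat_lit 558) (nat_lit 3596))))))) (.f (nat_lit 591) (nat_lit 623) (nat_lit 5615) (.f (nat_lit 590) (nat_lit 561) (nat_lit 2605) (.f (nat_lit 557) (nat_lit 556) (nat_lit 3628) (.f (nat_lit 493) (nat_lit 622) (nat_lit 4589) (.d (nat_lit 588) (nat_lit 559) (nat_lit 2604) (nat_lit 620) (nat_lit 5612))))))))))))) (.a (.p (nat_lit 589) (.a (.f (nat_lit 591) (nat_lit 623) (nat_lit 5615) (.f (nat_lit 590) (nat_lit 561) (nat_lit 2605) (.f (nat_lit 557) (nat_lit 556) (nat_lit 3628) (.f (nat_lit 621) (nat_lit 620) (nat_lit 1612) (.d (nat_lit 622) (nat_lit 493) (nat_lit 4589) (nat_lit 654) (nat_lit 4621)))))) (.a (.p (nat_lit 557) (.a s4087 (.a s4175 (.a s4285 (.a (.p (nat_lit 621) (.a (.f (nat_lit 654) (nat_lit 622) (nat_lit 4621) (.f (nat_lit 653) (nat_lit 686) (nat_lit 4653) (.d (nat_lit 524) (nat_lit 492) (nat_lit 7660) (nat_lit 556) (nat_lit 7692)))) (.a (.f (nat_lit 524) (nat_lit 492) (nat_lit 7660) (.f (nat_lit 558) (nat_lit 559) (nat_lit 3596) (.d (nat_lit 653) (nat_lit 526) (nat_lit 6669) (nat_lit 556) (nat_lit 7692)))) (.a (.f (nat_lit 620) (nat_lit 652) (nat_lit 5644) (.f (nat_lit 590) (nat_lit 591) (nat_lit 1612) (.f (nat_lit 654) (nat_lit 622) (nat_lit 4621) (.f (nat_lit 653) (nat_lit 686) (nat_lit 4653) (.d (nat_lit 558) (nat_lit 526) (nat_lit 6669) (nat_lit 685) (nat_lit 6701)))))) (.f (nat_lit 620) (nat_lit 652) (nat_lit 5644) (.f (nat_lit 590) (nat_lit 591) (nat_lit 1612) (.f (nat_lit 622) (nat_lit 654) (nat_lit 4621) (.f (nat_lit 619) (nat_lit 618) (nat_lit 2634) (.f (nat_lit 524) (nat_lit 492) (nat_lit 7660) (.f (nat_lit 587) (nat_lit 586) (nat_lit 3658) (.f (nat_lit 651) (nat_lit 650) (nat_lit 1642) (.d (nat_lit 556) (nat_lit 555) (nat_lit 6667) (nat_lit 588) (nat_lit 5643))))))))))))) (.a s4306 (.a (.p (nat_lit 590) (.a (.d (nat_lit 591) (nat_lit 556) (nat_lit 3628) (nat_lit 561) (nat_lit 2605)) (.a (.f (nat_lit 493) (nat_lit 622) (nat_lit 4589) (.f (nat_lit 556) (nat_lit 591) (nat_lit 3628) (.d (nat_lit 588) (nat_lit 461) (nat_lit 5580) (nat_lit 620) (nat_lit 5612)))) (.f (nat_lit 493) (nat_lit 622) (nat_lit 4589) (.f (nat_lit 558) (nat_lit 461) (nat_lit 4557) (.d (nat_lit 559) (nat_lit 524) (nat_lit 3596) (nat_lit 588) (nat_lit 1580))))))) (.a (.p (nat_lit 590) (.a (.d (nat_lit 591) (nat_lit 556) (nat_lit 3628) (nat_lit 561) (nat_lit 2605)) (.a (.f (nat_lit 493) (nat_lit 622) (nat_lit 4589) (.f (nat_lit 556) (nat_lit 591) (nat_lit 3628) (.d (nat_lit 588) (nat_lit 461) (nat_lit 5580) (nat_lit 620) (nat_lit 5612)))) (.a (.f (nat_lit 493) (nat_lit 622) (nat_lit 4589) (.f (nat_lit 461) (nat_lit 558) (nat_lit 4557) (.d (nat_lit 588) (nat_lit 556) (nat_lit 5580) (nat_lit 620) (nat_lit 5612)))) (.f (nat_lit 591) (nat_lit 561) (nat_lit 2605) (.f (nat_lit 621) (nat_lit 620) (nat_lit 1612) (.d (nat_lit 622) (nat_lit 493) (nat_lit 4589) (nat_lit 654) (nat_lit 4621)))))))) (.a (.p (nat_lit 590) (.a (.d (nat_lit 591) (nat_lit 556) (nat_lit 3628) (nat_lit 561) (nat_lit 2605)) (.a (.f (nat_lit 493) (nat_lit 622) (nat_lit 4589) (.f (nat_lit 558) (nat_lit 461) (nat_lit 4557) (.f (nat_lit 556) (nat_lit 591) (nat_lit 3628) (.f (nat_lit 524) (nat_lit 559) (nat_lit 3596) (.d (nat_lit 621) (nat_lit 492) (nat_lit 7660) (nat_lit 653) (nat_lit 7692)))))) (.f (nat_lit 622) (nat_lit 493) (nat_lit 4589) (.d (nat_lit 654) (nat_lit 558) (nat_lit 7693) (nat_lit 621) (nat_lit 4621)))))) (.p (nat_lit 590) (.a (.f (nat_lit 591) (nat_lit 561) (nat_lit 2605) (.f (nat_lit 621) (nat_lit 620) (nat_lit 1612) (.d (nat_lit 622) (nat_lit 493) (nat_lit 4589) (nat_lit 654) (nat_lit 4621)))) (.a (.f (nat_lit 493) (nat_lit 622) (nat_lit 4589) (.f (nat_lit 558) (nat_lit 461) (nat_lit 4557) (.d (nat_lit 559) (nat_lit 524) (nat_lit 3596) (nat_lit 588) (nat_lit 1580)))) (.f (nat_lit 591) (nat_lit 561) (nat_lit 2605) (.f (nat_lit 621) (nat_lit 620) (nat_lit 1612) (.f (nat_lit 559) (nat_lit 588) (nat_lit 2604) (.d (nat_lit 524) (nat_lit 492) (nat_lit 7660) (nat_lit 558) (nat_lit 3596))))))))))))))))) (.a (.f (nat_lit 623) (nat_lit 591) (nat_lit 5615) (.f (nat_lit 624) (nat_lit 655) (nat_lit 5647) (.f (nat_lit 625) (nat_lit 657) (nat_lit 4624) (.f (nat_lit 622) (nat_lit 590) (nat_lit 3661) (.f (nat_lit 621) (nat_lit 588) (nat_lit 3660) (.d (nat_lit 653) (nat_lit 652) (nat_lit 1644) (nat_lit 654) (nat_lit 1645))))))) (.a (.p (nat_lit 557) (.a s4175 (.a (.p (nat_lit 622) (.a (.f (nat_lit 621) (nat_lit 654) (nat_lit 4621) (.f (nat_lit 493) (nat_lit 590) (nat_lit 4589) (.d (nat_lit 620) (nat_lit 588) (nat_lit 5612) (nat_lit 652) (nat_lit 5644)))) (.a (.f (nat_lit 621) (nat_lit 654) (nat_lit 4621) (.f (nat_lit 620) (nat_lit 652) (nat_lit 5644) (.f (nat_lit 588) (nat_lit 493) (nat_lit 5612) (.f (nat_lit 524) (nat_lit 492) (nat_lit 7660) (.f (nat_lit 556) (nat_lit 653) (nat_lit 4620) (.f (nat_lit 587) (nat_lit 586) (nat_lit 586) (.f (nat_lit 619) (nat_lit 651) (nat_lit 5643) (.f (nat_lit 523) (nat_lit 491) (nat_lit 7659) (.f (nat_lit 522) (nat_lit 521) (nat_lit 521) (.d (nat_lit 490) (nat_lit 489) (nat_lit 3561) (nat_lit 555) (nat_lit 7658))))))))))) (.a (.f (nat_lit 621) (nat_lit 654) (nat_lit 4621) (.f (nat_lit 652) (nat_lit 620) (nat_lit 5644) (.f (nat_lit 653) (nat_lit 684) (nat_lit 5676) (.d (nat_lit 524) (nat_lit 492) (nat_lit 7660) (nat_lit 556) (nat_lit 7692))))) (.a (.f (nat_lit 493) (nat_lit 590) (nat_lit 4589) (.f (nat_lit 588) (nat_lit 620) (nat_lit 5612) (.f (nat_lit 461) (nat_lit 556) (nat_lit 5580) (.d (nat_lit 460) (nat_lit 428) (nat_lit 7596) (nat_lit 492) (nat_lit 7628))))) (.f (nat_lit 621) (nat_lit 654) (nat_lit 4621) (.f (nat_lit 493) (nat_lit 590) (nat_lit 4589) (.d (nat_lit 492) (nat_lit 460) (nat_lit 7628) (nat_lit 524) (nat_lit 7660))))))))) (.a s4285 (.a (.p (nat_lit 621) (.a (.f (nat_lit 654) (nat_lit 622) (nat_lit 4621) (.f (nat_lit 653) (nat_lit 686) (nat_lit 4653) (.d (nat_lit 524) (nat_lit 492) (nat_lit 7660) (nat_lit 556) (nat_lit 7692)))) (.a (.f (nat_lit 524) (nat_lit 492) (nat_lit 7660) (.f (nat_lit 558) (nat_lit 559) (nat_lit 3596) (.d (nat_lit 653) (nat_lit 526) (nat_lit 6669) (nat_lit 556) (nat_lit 7692)))) (.a (.f (nat_lit 654) (nat_lit 622) (nat_lit 4621) (.f (nat_lit 653) (nat_lit 686) (nat_lit 4653) (.d (nat_lit 652) (nat_lit 620) (nat_lit 5644) (nat_lit 684) (nat_lit 5676)))) (.p (nat_lit 588) (.a (.f (nat_lit 558) (nat_lit 559) (nat_lit 1580) (.f (nat_lit 622) (nat_lit 654) (nat_lit 4621) (.f (nat_lit 587) (nat_lit 586) (nat_lit 2602) (.d (nat_lit 623) (nat_lit 590) (nat_lit 587) (nat_lit 624) (nat_lit 3660))))) (.a (.f (nat_lit 558) (nat_lit 559) (nat_lit 1580) (.f (nat_lit 620) (nat_lit 652) (nat_lit 5644) (.f (nat_lit 587) (nat_lit 586) (nat_lit 2602) (.f (nat_lit 524) (nat_lit 492) (nat_lit 7660) (.f (nat_lit 523) (nat_lit 522) (nat_lit 522) (.d (nat_lit 491) (nat_lit 555) (nat_lit 4587) (nat_lit 556) (nat_lit 7659))))))) (.a (.f (nat_lit 622) (nat_lit 654) (nat_lit 4621) (.f (nat_lit 620) (nat_lit 652) (nat_lit 5644) (.d (nat_lit 623) (nat_lit 587) (nat_lit 3659) (nat_lit 624) (nat_lit 3660)))) (.f (nat_lit 524) (nat_lit 492) (nat_lit 7660) (.f (nat_lit 558) (nat_lit 559) (nat_lit 3596) (.f (nat_lit 620) (nat_lit 652) (nat_lit 5644) (.f (nat_lit 523) (nat_lit 522) (nat_lit 522) (.f (nat_lit 556) (nat_lit 491) (nat_lit 7659) (.f (nat_lit 619) (nat_lit 651) (nat_lit 5643) (.d (nat_lit 618) (nat_lit 590) (nat_lit 2634) (nat_lit 617) (nat_lit 2633)))))))))))))))) (.a s4306 (.a (.p (nat_lit 493) (.a (.f (nat_lit 588) (nat_lit 620) (nat_lit 5612) (.f (nat_lit 461) (nat_lit 556) (nat_lit 5580) (.d (nat_lit 460) (nat_lit 428) (nat_lit 7596) (nat_lit 492) (nat_lit 7628)))) (.a (.f (nat_lit 588) (nat_lit 620) (nat_lit 5612) (.f (nat_lit 558) (nat_lit 559) (nat_lit 1580) (.f (nat_lit 590) (nat_lit 622) (nat_lit 4589) (.f (nat_lit 587) (nat_lit 586) (nat_lit 2602) (.f (nat_lit 555) (nat_lit 554) (nat_lit 3626) (.f (nat_lit 619) (nat_lit 618) (nat_lit 1610) (.f (nat_lit 492) (nat_lit 460) (nat_lit 7628) (.d (nat_lit 524) (nat_lit 523) (nat_lit 6635) (nat_lit 556) (nat_lit 5611))))))))) (.a (.f (nat_lit 588) (nat_lit 620) (nat_lit 5612) (.f (nat_lit 558) (nat_lit 559) (nat_lit 1580) (.f (nat_lit 461) (nat_lit 556) (nat_lit 5580) (.f (nat_lit 429) (nat_lit 526) (nat_lit 4525) (.d (nat_lit 430) (nat_lit 398) (nat_lit 6541) (nat_lit 462) (nat_lit 6573)))))) (.f (nat_lit 590) (nat_lit 622) (nat_lit 4589) (.f (nat_lit 461) (nat_lit 558) (nat_lit 4557) (.d (nat_lit 460) (nat_lit 428) (nat_lit 7596) (nat_lit 492) (nat_lit 7628)))))))) (.a (.p (nat_lit 622) (.a (.f (nat_lit 621) (nat_lit 654) (nat_lit 4621) (.f (nat_lit 493) (nat_lit 590) (nat_lit 4589) (.d (nat_lit 620) (nat_lit 588) (nat_lit 5612) (nat_lit 652) (nat_lit 5644)))) (.a (.f (nat_lit 621) (nat_lit 654) (nat_lit 4621) (.f (nat_lit 620) (nat_lit 652) (nat_lit 5644) (.f (nat_lit 588) (nat_lit 493) (nat_lit 5612) (.d (nat_lit 623) (nat_lit 587) (nat_lit 3659) (nat_lit 624) (nat_lit 3660))))) (.a (.f (nat_lit 621) (nat_lit 654) (nat_lit 4621) (.f (nat_lit 652) (nat_lit 620) (nat_lit 5644) (.f (nat_lit 653) (nat_lit 684) (nat_lit 5676) (.f (nat_lit 558) (nat_lit 526) (nat_lit 6669) (.f (nat_lit 685) (nat_lit 590) (nat_lit 6701) (.d (nat_lit 588) (nat_lit 556) (nat_lit 7724) (nat_lit 559) (nat_lit 1580))))))) (.a (.f (nat_lit 590) (nat_lit 493) (nat_lit 4589) (.d (nat_lit 654) (nat_lit 558) (nat_lit 7693) (nat_lit 686) (nat_lit 7725))) (.f (nat_lit 493) (nat_lit 590) (nat_lit 4589) (.f (nat_lit 588) (nat_lit 620) (nat_lit 5612) (.f (nat_lit 461) (nat_lit 556) (nat_lit 5580) (.d (nat_lit 460) (nat_lit 428) (nat_lit 7596) (nat_lit 492) (nat_lit 7628)))))))))) (.a (.p (nat_lit 622) (.a (.f (nat_lit 621) (nat_lit 654) (nat_lit 4621) (.f (nat_lit 652) (nat_lit 620) (nat_lit 5644) (.f (nat_lit 653) (nat_lit 684) (nat_lit 5676) (.d (nat_lit 524) (nat_lit 492) (nat_lit 7660) (nat_lit 556) (nat_lit 7692))))) (.a (.f (nat_lit 590) (nat_lit 493) (nat_lit 4589) (.d (nat_lit 654) (nat_lit 558) (nat_lit 7693) (nat_lit 686) (nat_lit 7725))) (.f (nat_lit 493) (nat_lit 590) (nat_lit 4589) (.f (nat_lit 460) (nat_lit 492) (nat_lit 7628) (.f (nat_lit 461) (nat_lit 428) (nat_lit 7596) (.f (nat_lit 430) (nat_lit 462) (nat_lit 6573) (.f (nat_lit 429) (nat_lit 398) (nat_lit 6541) (.f (nat_lit 558) (nat_lit 526) (nat_lit 4525) (.d (nat_lit 524) (nat_lit 556) (nat_lit 5548) (nat_lit 559) (nat_lit 3596))))))))))) (.a (.p (nat_lit 622) (.a (.f (nat_lit 590) (nat_lit 493) (nat_lit 4589) (.d (nat_lit 654) (nat_lit 558) (nat_lit 7693) (nat_lit 686) (nat_lit 7725))) (.a (.f (nat_lit 621) (nat_lit 654) (nat_lit 4621) (.f (nat_lit 493) (nat_lit 590) (nat_lit 4589) (.d (nat_lit 492) (nat_lit 460) (nat_lit 7628) (nat_lit 524) (nat_lit 7660)))) (.a (.f (nat_lit 621) (nat_lit 654) (nat_lit 4621) (.f (nat_lit 524) (nat_lit 492) (nat_lit 7660) (.f (nat_lit 558) (nat_lit 559) (nat_lit 3596) (.d (nat_lit 653) (nat_lit 526) (nat_lit 6669) (nat_lit 556) (nat_lit 7692))))) (.f (nat_lit 493) (nat_lit 590) (nat_lit 4589) (.f (nat_lit 460) (nat_lit 492) (nat_lit 7628) (.f (nat_lit 461) (nat_lit 428) (nat_lit 7596) (.f (nat_lit 430) (nat_lit 462) (nat_lit 6573) (.f (nat_lit 429) (nat_lit 398) (nat_lit 6541) (.f (nat_lit 558) (nat_lit 526) (nat_lit 4525) (.d (nat_lit 524) (nat_lit 556) (nat_lit 5548) (nat_lit 559) (nat_lit 3596)))))))))))) (.a (.p (nat_lit 622) (.a (.f (nat_lit 621) (nat_lit 654) (nat_lit 4621) (.f (nat_lit 493) (nat_lit 590) (nat_lit 4589) (.d (nat_lit 620) (nat_lit 588) (nat_lit 5612) (nat_lit 652) (nat_lit 5644)))) (.a (.f (nat_lit 621) (nat_lit 654) (nat_lit 4621) (.f (nat_lit 620) (nat_lit 652) (nat_lit 5644) (.f (nat_lit 588) (nat_lit 493) (nat_lit 5612) (.d (nat_lit 623) (nat_lit 587) (nat_lit 3659) (nat_lit 624) (nat_lit 3660))))) (.a (.f (nat_lit 621) (nat_lit 654) (nat_lit 4621) (.f (nat_lit 620) (nat_lit 652) (nat_lit 5644) (.f (nat_lit 524) (nat_lit 492) (nat_lit 7660) (.f (nat_lit 558) (nat_lit 559) (nat_lit 3596) (.f (nat_lit 653) (nat_lit 526) (nat_lit 6669) (.f (nat_lit 685) (nat_lit 590) (nat_lit 6701) (.f (nat_lit 588) (nat_lit 717) (nat_lit 7756) (.d (nat_lit 623) (nat_lit 587) (nat_lit 3659) (nat_lit 624) (nat_lit 3660))))))))) (.a (.f (nat_lit 590) (nat_lit 493) (nat_lit 4589) (.d (nat_lit 654) (nat_lit 558) (nat_lit 7693) (nat_lit 686) (nat_lit 7725))) (.f (nat_lit 493) (nat_lit 590) (nat_lit 4589) (.f (nat_lit 588) (nat_lit 620) (nat_lit 5612) (.f (nat_lit 558) (nat_lit 559) (nat_lit 1580) (.f (nat_lit 492) (nat_lit 460) (nat_lit 7628) (.f (nat_lit 621) (nat_lit 524) (nat_lit 7660) (.f (nat_lit 624) (nat_lit 623) (nat_lit 3660) (.f (nat_lit 653) (nat_lit 526) (nat_lit 6669) (.f (nat_lit 684) (nat_lit 652) (nat_lit 5676) (.f (nat_lit 685) (nat_lit 716) (nat_lit 5708) (.f (nat_lit 718) (nat_lit 686) (nat_lit 4685) (.f (nat_lit 717) (nat_lit 750) (nat_lit 4717) (.f (nat_lit 657) (nat_lit 625) (nat_lit 4624) (.f (nat_lit 656) (nat_lit 689) (nat_lit 4656) (.f (nat_lit 719) (nat_lit 720) (nat_lit 3756) (.d (nat_lit 687) (nat_lit 655) (nat_lit 5679) (nat_lit 688) (nat_lit 5711))))))))))))))))))))) (.p (nat_lit 622) (.a (.f (nat_lit 621) (nat_lit 654) (nat_lit 4621) (.f (nat_lit 493) (nat_lit 590) (nat_lit 4589) (.d (nat_lit 620) (nat_lit 588) (nat_lit 5612) (nat_lit 652) (nat_lit 5644)))) (.a (.f (nat_lit 621) (nat_lit 654) (nat_lit 4621) (.f (nat_lit 620) (nat_lit 652) (nat_lit 5644) (.f (nat_lit 588) (nat_lit 493) (nat_lit 5612) (.d (nat_lit 623) (nat_lit 587) (nat_lit 3659) (nat_lit 624) (nat_lit 3660))))) (.a (.f (nat_lit 621) (nat_lit 654) (nat_lit 4621) (.f (nat_lit 652) (nat_lit 620) (nat_lit 5644) (.f (nat_lit 653) (nat_lit 684) (nat_lit 5676) (.f (nat_lit 558) (nat_lit 526) (nat_lit 6669) (.f (nat_lit 685) (nat_lit 590) (nat_lit 6701) (.d (nat_lit 588) (nat_lit 556) (nat_lit 7724) (nat_lit 559) (nat_lit 1580))))))) (.a (.f (nat_lit 590) (nat_lit 493) (nat_lit 4589) (.d (nat_lit 654) (nat_lit 558) (nat_lit 7693) (nat_lit 686) (nat_lit 7725))) (.f (nat_lit 493) (nat_lit 590) (nat_lit 4589) (.f (nat_lit 588) (nat_lit 620) (nat_lit 5612) (.f (nat_lit 558) (nat_lit 559) (nat_lit 1580) (.f (nat_lit 461) (nat_lit 556) (nat_lit 5580) (.f (nat_lit 429) (nat_lit 526) (nat_lit 4525) (.d (nat_lit 430) (nat_lit 398) (nat_lit 6541) (nat_lit 462) (nat_lit 6573))))))))))))))))))))))) (.a (.p (nat_lit 557) (.a (.f (nat_lit 623) (nat_lit 591) (nat_lit 5615) (.f (nat_lit 624) (nat_lit 655) (nat_lit 5647) (.f (nat_lit 657) (nat_lit 625) (nat_lit 4624) (.f (nat_lit 656) (nat_lit 689) (nat_lit 4656) (.f (nat_lit 621) (nat_lit 622) (nat_lit 621) (.f (nat_lit 524) (nat_lit 492) (nat_lit 7660) (.f (nat_lit 558) (nat_lit 559) (nat_lit 3596) (.d (nat_lit 653) (nat_lit 526) (nat_lit 6669) (nat_lit 556) (nat_lit 7692))))))))) (.a s4285 (.a (.f (nat_lit 623) (nat_lit 591) (nat_lit 5615) (.f (nat_lit 624) (nat_lit 655) (nat_lit 5647) (.f (nat_lit 657) (nat_lit 625) (nat_lit 4624) (.f (nat_lit 656) (nat_lit 689) (nat_lit 4656) (.f (nat_lit 621) (nat_lit 622) (nat_lit 621) (.f (nat_lit 524) (nat_lit 492) (nat_lit 7660) (.f (nat_lit 653) (nat_lit 556) (nat_lit 7692) (.d (nat_lit 652) (nat_lit 620) (nat_lit 5644) (nat_lit 684) (nat_lit 5676))))))))) (.a s4239 (.a (.f (nat_lit 623) (nat_lit 591) (nat_lit 5615) (.f (nat_lit 624) (nat_lit 655) (nat_lit 5647) (.f (nat_lit 657) (nat_lit 625) (nat_lit 4624) (.f (nat_lit 656) (nat_lit 689) (nat_lit 4656) (.f (nat_lit 621) (nat_lit 622) (nat_lit 621) (.f (nat_lit 620) (nat_lit 652) (nat_lit 5644) (.f (nat_lit 588) (nat_lit 493) (nat_lit 5612) (.f (nat_lit 558) (nat_lit 559) (nat_lit 1580) (.f (nat_lit 653) (nat_lit 526) (nat_lit 6669) (.d (nat_lit 685) (nat_lit 556) (nat_lit 7724) (nat_lit 717) (nat_lit 7756))))))))))) (.f (nat_lit 623) (nat_lit 591) (nat_lit 5615) (.f (nat_lit 624) (nat_lit 655) (nat_lit 5647) (.f (nat_lit 657) (nat_lit 625) (nat_lit 4624) (.f (nat_lit 656) (nat_lit 689) (nat_lit 4656) (.f (nat_lit 621) (nat_lit 622) (nat_lit 621) (.f (nat_lit 524) (nat_lit 492) (nat_lit 7660) (.f (nat_lit 558) (nat_lit 559) (nat_lit 3596) (.f (nat_lit 653) (nat_lit 526) (nat_lit 6669) (.d (nat_lit 652) (nat_lit 620) (nat_lit 5644) (nat_lit 684) (nat_lit 5676)))))))))))))))) (.a (.f (nat_lit 591) (nat_lit 623) (nat_lit 5615) (.f (nat_lit 590) (nat_lit 561) (nat_lit 2605) (.f (nat_lit 557) (nat_lit 556) (nat_lit 3628) (.f (nat_lit 621) (nat_lit 620) (nat_lit 1612) (.f (nat_lit 559) (nat_lit 588) (nat_lit 2604) (.d (nat_lit 524) (nat_lit 492) (nat_lit 7660) (nat_lit 558) (nat_lit 3596))))))) (.f (nat_lit 591) (nat_lit 623) (nat_lit 5615) (.f (nat_lit 590) (nat_lit 561) (nat_lit 2605) (.f (nat_lit 557) (nat_lit 556) (nat_lit 3628) (.f (nat_lit 493) (nat_lit 622) (nat_lit 4589) (.d (nat_lit 588) (nat_lit 559) (nat_lit 2604) (nat_lit 620) (nat_lit 5612))))))))))))) (.a (.p (nat_lit 624) (.a (.d (nat_lit 623) (nat_lit 591) (nat_lit 5615) (nat_lit 655) (nat_lit 5647)) (.a (.f (nat_lit 657) (nat_lit 625) (nat_lit 4624) (.f (nat_lit 656) (nat_lit 689) (nat_lit 4656) (.f (nat_lit 687) (nat_lit 655) (nat_lit 5679) (.f (nat_lit 688) (nat_lit 719) (nat_lit 5711) (.f (nat_lit 497) (nat_lit 465) (nat_lit 6608) (.f (nat_lit 495) (nat_lit 463) (nat_lit 7631) (.f (nat_lit 559) (nat_lit 591) (nat_lit 7727) (.f (nat_lit 526) (nat_lit 494) (nat_lit 1517) (.f (nat_lit 558) (nat_lit 561) (nat_lit 3597) (.d (nat_lit 524) (nat_lit 523) (nat_lit 523) (nat_lit 557) (nat_lit 3596))))))))))) (.a (.f (nat_lit 591) (nat_lit 623) (nat_lit 5615) (.f (nat_lit 657) (nat_lit 625) (nat_lit 4624) (.f (nat_lit 656) (nat_lit 689) (nat_lit 4656) (.f (nat_lit 559) (nat_lit 688) (nat_lit 7727) (.f (nat_lit 497) (nat_lit 465) (nat_lit 6608) (.f (nat_lit 495) (nat_lit 463) (nat_lit 7631) (.f (nat_lit 526) (nat_lit 494) (nat_lit 1517) (.f (nat_lit 561) (nat_lit 558) (nat_lit 3597) (.d (nat_lit 590) (nat_lit 562) (nat_lit 1582) (nat_lit 589) (nat_lit 2605)))))))))) (.f (nat_lit 657) (nat_lit 625) (nat_lit 4624) (.f (nat_lit 656) (nat_lit 689) (nat_lit 4656) (.d (nat_lit 655) (nat_lit 623) (nat_lit 5647) (nat_lit 687) (nat_lit 5679)))))))) (.a (.p (nat_lit 557) (.a s3674 (.a (.p (nat_lit 493) (.a (.f (nat_lit 495) (nat_lit 463) (nat_lit 7631) (.f (nat_lit 494) (nat_lit 524) (nat_lit 1516) (.f (nat_lit 461) (nat_lit 460) (nat_lit 3532) (.d (nat_lit 462) (nat_lit 430) (nat_lit 6573) (nat_lit 589) (nat_lit 6605))))) (.a s4477 (.a (.p (nat_lit 589) (.a (.f (nat_lit 590) (nat_lit 622) (nat_lit 4589) (.d (nat_lit 591) (nat_lit 556) (nat_lit 3628) (nat_lit 561) (nat_lit 2605))) (.a (.f (nat_lit 590) (nat_lit 622) (nat_lit 4589) (.f (nat_lit 556) (nat_lit 591) (nat_lit 3628) (.d (nat_lit 588) (nat_lit 461) (nat_lit 5580) (nat_lit 620) (nat_lit 5612)))) (.a (.f (nat_lit 588) (nat_lit 620) (nat_lit 5612) (.f (nat_lit 461) (nat_lit 556) (nat_lit 5580) (.d (nat_lit 460) (nat_lit 428) (nat_lit 7596) (nat_lit 492) (nat_lit 7628)))) (.f (nat_lit 622) (nat_lit 590) (nat_lit 4589) (.f (nat_lit 621) (nat_lit 654) (nat_lit 4621) (.d (nat_lit 492) (nat_lit 460) (nat_lit 7628) (nat_lit 524) (nat_lit 7660)))))))) (.a (.f (nat_lit 495) (nat_lit 463) (nat_lit 7631) (.f (nat_lit 494) (nat_lit 524) (nat_lit 1516) (.f (nat_lit 461) (nat_lit 460) (nat_lit 3532) (.d (nat_lit 497) (nat_lit 462) (nat_lit 3533) (nat_lit 465) (nat_lit 6608))))) (.a (.f (nat_lit 495) (nat_lit 463) (nat_lit 7631) (.f (nat_lit 494) (nat_lit 524) (nat_lit 1516) (.f (nat_lit 589) (nat_lit 462) (nat_lit 6605) (.f (nat_lit 590) (nat_lit 622) (nat_lit 4589) (.d (nat_lit 591) (nat_lit 556) (nat_lit 3628) (nat_lit 561) (nat_lit 2605)))))) (.p (nat_lit 494) (.a (.f (nat_lit 589) (nat_lit 462) (nat_lit 6605) (.f (nat_lit 588) (nat_lit 620) (nat_lit 5612) (.f (nat_lit 461) (nat_lit 556) (nat_lit 5580) (.d (nat_lit 590) (nat_lit 558) (nat_lit 4557) (nat_lit 622) (nat_lit 4589))))) (.a (.f (nat_lit 462) (nat_lit 589) (nat_lit 6605) (.d (nat_lit 430) (nat_lit 398) (nat_lit 5517) (nat_lit 461) (nat_lit 6573))) (.a (.f (nat_lit 495) (nat_lit 463) (nat_lit 7631) (.f (nat_lit 461) (nat_lit 460) (nat_lit 3532) (.f (nat_lit 590) (nat_lit 558) (nat_lit 4557) (.f (nat_lit 589) (nat_lit 622) (nat_lit 4589) (.d (nat_lit 556) (nat_lit 588) (nat_lit 5580) (nat_lit 591) (nat_lit 3628)))))) (.a (.f (nat_lit 495) (nat_lit 463) (nat_lit 7631) (.f (nat_lit 461) (nat_lit 460) (nat_lit 3532) (.d (nat_lit 497) (nat_lit 462) (nat_lit 3533) (nat_lit 465) (nat_lit 6608)))) (.f (nat_lit 589) (nat_lit 462) (nat_lit 6605) (.f (nat_lit 590) (nat_lit 622) (nat_lit 4589) (.d (nat_lit 591) (nat_lit 556) (nat_lit 3628) (nat_lit 561) (nat_lit 2605))))))))))))))) (.a (.p (nat_lit 558) (.a (.f (nat_lit 559) (nat_lit 524) (nat_lit 3596) (.d (nat_lit 591) (nat_lit 556) (nat_lit 556) (nat_lit 623) (nat_lit 5615))) (.a (.f (nat_lit 559) (nat_lit 524) (nat_lit 3596) (.f (nat_lit 556) (nat_lit 591) (nat_lit 556) (.d (nat_lit 588) (nat_lit 587) (nat_lit 1579) (nat_lit 589) (nat_lit 1580)))) (.a (.f (nat_lit 623) (nat_lit 591) (nat_lit 5615) (.f (nat_lit 624) (nat_lit 655) (nat_lit 5647) (.f (nat_lit 657) (nat_lit 625) (nat_lit 4624) (.f (nat_lit 656) (nat_lit 689) (nat_lit 4656) (.f (nat_lit 622) (nat_lit 621) (nat_lit 621) (.f (nat_lit 590) (nat_lit 654) (nat_lit 7693) (.d (nat_lit 493) (nat_lit 461) (nat_lit 4557) (nat_lit 589) (nat_lit 4589)))))))) (.f (nat_lit 559) (nat_lit 524) (nat_lit 3596) (.f (nat_lit 589) (nat_lit 588) (nat_lit 1580) (.f (nat_lit 590) (nat_lit 561) (nat_lit 1581) (.d (nat_lit 493) (nat_lit 461) (nat_lit 4557) (nat_lit 622) (nat_lit 4589))))))))) (.a (.p (nat_lit 493) (.a (.f (nat_lit 495) (nat_lit 463) (nat_lit 7631) (.f (nat_lit 494) (nat_lit 524) (nat_lit 1516) (.f (nat_lit 461) (nat_lit 460) (nat_lit 3532) (.d (nat_lit 462) (nat_lit 430) (nat_lit 6573) (nat_lit 589) (nat_lit 6605))))) (.a (.f (nat_lit 623) (nat_lit 591) (nat_lit 5615) (.f (nat_lit 624) (nat_lit 655) (nat_lit 5647) (.f (nat_lit 657) (nat_lit 625) (nat_lit 4624) (.f (nat_lit 656) (nat_lit 689) (nat_lit 4656) (.f (nat_lit 622) (nat_lit 621) (nat_lit 621) (.f (nat_lit 589) (nat_lit 590) (nat_lit 4589) (.f (nat_lit 588) (nat_lit 620) (nat_lit 5612) (.f (nat_lit 461) (nat_lit 556) (nat_lit 5580) (.d (nat_lit 460) (nat_lit 428) (nat_lit 7596) (nat_lit 492) (nat_lit 7628)))))))))) (.a (.f (nat_lit 495) (nat_lit 463) (nat_lit 7631) (.f (nat_lit 494) (nat_lit 524) (nat_lit 1516) (.f (nat_lit 461) (nat_lit 460) (nat_lit 3532) (.d (nat_lit 497) (nat_lit 462) (nat_lit 3533) (nat_lit 465) (nat_lit 6608))))) (.f (nat_lit 495) (nat_lit 463) (nat_lit 7631) (.f (nat_lit 494) (nat_lit 524) (nat_lit 1516) (.f (nat_lit 589) (nat_lit 462) (nat_lit 6605) (.f (nat_lit 590) (nat_lit 622) (nat_lit 4589) (.d (nat_lit 591) (nat_lit 556) (nat_lit 3628) (nat_lit 561) (nat_lit 2605)))))))))) (.a (.p (nat_lit 493) (.a (.f (nat_lit 495) (nat_lit 463) (nat_lit 7631) (.f (nat_lit 494) (nat_lit 524) (nat_lit 1516) (.f (nat_lit 461) (nat_lit 460) (nat_lit 3532) (.d (nat_lit 462) (nat_lit 430) (nat_lit 6573) (nat_lit 589) (nat_lit 6605))))) (.a s4477 (.a (.p (nat_lit 589) (.a (.f (nat_lit 588) (nat_lit 620) (nat_lit 5612) (.f (nat_lit 461) (nat_lit 556) (nat_lit 5580) (.d (nat_lit 460) (nat_lit 428) (nat_lit 7596) (nat_lit 492) (nat_lit 7628)))) (.a (.f (nat_lit 622) (nat_lit 590) (nat_lit 4589) (.f (nat_lit 621) (nat_lit 654) (nat_lit 4621) (.d (nat_lit 492) (nat_lit 460) (nat_lit 7628) (nat_lit 524) (nat_lit 7660)))) (.a (.f (nat_lit 588) (nat_lit 620) (nat_lit 5612) (.f (nat_lit 556) (nat_lit 461) (nat_lit 5580) (.f (nat_lit 622) (nat_lit 590) (nat_lit 4589) (.f (nat_lit 621) (nat_lit 654) (nat_lit 4621) (.d (nat_lit 524) (nat_lit 492) (nat_lit 4588) (nat_lit 653) (nat_lit 7692)))))) (.f (nat_lit 588) (nat_lit 620) (nat_lit 5612) (.f (nat_lit 461) (nat_lit 556) (nat_lit 5580) (.f (nat_lit 428) (nat_lit 460) (nat_lit 7596) (.f (nat_lit 429) (nat_lit 396) (nat_lit 7564) (.d (nat_lit 430) (nat_lit 398) (nat_lit 6541) (nat_lit 462) (nat_lit 6573)))))))))) (.a (.f (nat_lit 495) (nat_lit 463) (nat_lit 7631) (.f (nat_lit 494) (nat_lit 524) (nat_lit 1516) (.f (nat_lit 461) (nat_lit 460) (nat_lit 3532) (.d (nat_lit 497) (nat_lit 462) (nat_lit 3533) (nat_lit 465) (nat_lit 6608))))) (.a (.f (nat_lit 495) (nat_lit 463) (nat_lit 7631) (.f (nat_lit 494) (nat_lit 524) (nat_lit 1516) (.f (nat_lit 589) (nat_lit 462) (nat_lit 6605) (.f (nat_lit 588) (nat_lit 620) (nat_lit 5612) (.f (nat_lit 622) (nat_lit 590) (nat_lit 4589) (.f (nat_lit 621) (nat_lit 654) (nat_lit 4621) (.f (nat_lit 624) (nat_lit 623) (nat_lit 3660) (.f (nat_lit 657) (nat_lit 625) (nat_lit 4624) (.f (nat_lit 656) (nat_lit 689) (nat_lit 4656) (.f (nat_lit 687) (nat_lit 655) (nat_lit 5679) (.f (nat_lit 688) (nat_lit 719) (nat_lit 5711) (.f (nat_lit 685) (nat_lit 686) (nat_lit 2701) (.f (nat_lit 653) (nat_lit 556) (nat_lit 7724) (.d (nat_lit 684) (nat_lit 652) (nat_lit 5676) (nat_lit 716) (nat_lit 5708))))))))))))))) (.p (nat_lit 494) (.a (.f (nat_lit 589) (nat_lit 462) (nat_lit 6605) (.f (nat_lit 588) (nat_lit 620) (nat_lit 5612) (.f (nat_lit 461) (nat_lit 556) (nat_lit 5580) (.d (nat_lit 590) (nat_lit 558) (nat_lit 4557) (nat_lit 622) (nat_lit 4589))))) (.a (.f (nat_lit 462) (nat_lit 589) (nat_lit 6605) (.d (nat_lit 430) (nat_lit 398) (nat_lit 5517) (nat_lit 461) (nat_lit 6573))) (.a (.f (nat_lit 495) (nat_lit 463) (nat_lit 7631) (.f (nat_lit 461) (nat_lit 460) (nat_lit 3532) (.f (nat_lit 588) (nat_lit 556) (nat_lit 5580) (.f (nat_lit 589) (nat_lit 620) (nat_lit 5612) (.d (nat_lit 590) (nat_lit 558) (nat_lit 4557) (nat_lit 622) (nat_lit 4589)))))) (.a (.f (nat_lit 495) (nat_lit 463) (nat_lit 7631) (.f (nat_lit 461) (nat_lit 460) (nat_lit 3532) (.d (nat_lit 497) (nat_lit 462) (nat_lit 3533) (nat_lit 465) (nat_lit 6608)))) (.f (nat_lit 589) (nat_lit 462) (nat_lit 6605) (.f (nat_lit 588) (nat_lit 620) (nat_lit 5612) (.f (nat_lit 622) (nat_lit 590) (nat_lit 4589) (.f (nat_lit 621) (nat_lit 654) (nat_lit 4621) (.f (nat_lit 624) (nat_lit 623) (nat_lit 3660) (.f (nat_lit 657) (nat_lit 625) (nat_lit 4624) (.f (nat_lit 656) (nat_lit 689) (nat_lit 4656) (.f (nat_lit 687) (nat_lit 655) (nat_lit 5679) (.f (nat_lit 688) (nat_lit 719) (nat_lit 5711) (.f (nat_lit 685) (nat_lit 686) (nat_lit 2701) (.f (nat_lit 653) (nat_lit 556) (nat_lit 7724) (.d (nat_lit 684) (nat_lit 652) (nat_lit 5676) (nat_lit 716) (nat_lit 5708)))))))))))))))))))))))) (.a (.p (nat_lit 493) (.a (.f (nat_lit 495) (nat_lit 463) (nat_lit 7631) (.f (nat_lit 494) (nat_lit 524) (nat_lit 1516) (.f (nat_lit 461) (nat_lit 460) (nat_lit 3532) (.d (nat_lit 462) (nat_lit 430) (nat_lit 6573) (nat_lit 589) (nat_lit 6605))))) (.a (.p (nat_lit 589) (.a (.f (nat_lit 588) (nat_lit 620) (nat_lit 5612) (.f (nat_lit 461) (nat_lit 556) (nat_lit 5580) (.d (nat_lit 460) (nat_lit 428) (nat_lit 7596) (nat_lit 492) (nat_lit 7628)))) (.a (.f (nat_lit 492) (nat_lit 460) (nat_lit 7628) (.f (nat_lit 621) (nat_lit 524) (nat_lit 7660) (.f (nat_lit 652) (nat_lit 620) (nat_lit 5644) (.f (nat_lit 653) (nat_lit 684) (nat_lit 5676) (.d (nat_lit 654) (nat_lit 622) (nat_lit 4621) (nat_lit 686) (nat_lit 4653)))))) (.a (.f (nat_lit 588) (nat_lit 620) (nat_lit 5612) (.f (nat_lit 556) (nat_lit 461) (nat_lit 5580) (.f (nat_lit 623) (nat_lit 591) (nat_lit 5615) (.f (nat_lit 624) (nat_lit 655) (nat_lit 5647) (.f (nat_lit 621) (nat_lit 622) (nat_lit 3660) (.d (nat_lit 653) (nat_lit 524) (nat_lit 7692) (nat_lit 685) (nat_lit 7724))))))) (.f (nat_lit 492) (nat_lit 460) (nat_lit 7628) (.f (nat_lit 621) (nat_lit 524) (nat_lit 7660) (.f (nat_lit 623) (nat_lit 591) (nat_lit 5615) (.f (nat_lit 624) (nat_lit 655) (nat_lit 5647) (.d (nat_lit 622) (nat_lit 588) (nat_lit 3660) (nat_lit 654) (nat_lit 4621)))))))))) (.a (.f (nat_lit 495) (nat_lit 463) (nat_lit 7631) (.f (nat_lit 494) (nat_lit 524) (nat_lit 1516) (.f (nat_lit 461) (nat_lit 460) (nat_lit 3532) (.d (nat_lit 497) (nat_lit 462) (nat_lit 3533) (nat_lit 465) (nat_lit 6608))))) (.a (.f (nat_lit 623) (nat_lit 591) (nat_lit 5615) (.f (nat_lit 624) (nat_lit 655) (nat_lit 5647) (.f (nat_lit 657) (nat_lit 625) (nat_lit 4624) (.f (nat_lit 656) (nat_lit 689) (nat_lit 4656) (.f (nat_lit 621) (nat_lit 622) (nat_lit 621) (.f (nat_lit 495) (nat_lit 463) (nat_lit 7631) (.f (nat_lit 524) (nat_lit 494) (nat_lit 1516) (.f (nat_lit 589) (nat_lit 492) (nat_lit 7660) (.d (nat_lit 620) (nat_lit 588) (nat_lit 5612) (nat_lit 652) (nat_lit 5644)))))))))) (.p (nat_lit 494) (.a (.f (nat_lit 462) (nat_lit 589) (nat_lit 6605) (.d (nat_lit 430) (nat_lit 398) (nat_lit 5517) (nat_lit 461) (nat_lit 6573))) (.a (.f (nat_lit 495) (nat_lit 463) (nat_lit 7631) (.f (nat_lit 460) (nat_lit 461) (nat_lit 3532) (.d (nat_lit 492) (nat_lit 459) (nat_lit 3531) (nat_lit 589) (nat_lit 7628)))) (.a (.f (nat_lit 495) (nat_lit 463) (nat_lit 7631) (.f (nat_lit 461) (nat_lit 460) (nat_lit 3532) (.d (nat_lit 497) (nat_lit 462) (nat_lit 3533) (nat_lit 465) (nat_lit 6608)))) (.f (nat_lit 589) (nat_lit 462) (nat_lit 6605) (.f (nat_lit 623) (nat_lit 591) (nat_lit 5615) (.f (nat_lit 624) (nat_lit 655) (nat_lit 5647) (.f (nat_lit 657) (nat_lit 625) (nat_lit 4624) (.f (nat_lit 656) (nat_lit 689) (nat_lit 4656) (.f (nat_lit 621) (nat_lit 622) (nat_lit 621) (.d (nat_lit 620) (nat_lit 588) (nat_lit 5612) (nat_lit 652) (nat_lit 5644))))))))))))))))) (.a (.p (nat_lit 624) (.a (.d (nat_lit 623) (nat_lit 591) (nat_lit 5615) (nat_lit 655) (nat_lit 5647)) (.a (.p (nat_lit 559) (.a (.f (nat_lit 558) (nat_lit 524) (nat_lit 3596) (.f (nat_lit 556) (nat_lit 591) (nat_lit 556) (.d (nat_lit 588) (nat_lit 587) (nat_lit 1579) (nat_lit 589) (nat_lit 1580)))) (.a (.f (nat_lit 657) (nat_lit 625) (nat_lit 4624) (.f (nat_lit 656) (nat_lit 689) (nat_lit 4656) (.f (nat_lit 687) (nat_lit 655) (nat_lit 5679) (.d (nat_lit 688) (nat_lit 591) (nat_lit 7727) (nat_lit 719) (nat_lit 5711))))) (.f (nat_lit 558) (nat_lit 524) (nat_lit 3596) (.f (nat_lit 589) (nat_lit 588) (nat_lit 1580) (.f (nat_lit 590) (nat_lit 561) (nat_lit 1581) (.f (nat_lit 654) (nat_lit 622) (nat_lit 7693) (.f (nat_lit 657) (nat_lit 625) (nat_lit 4624) (.f (nat_lit 656) (nat_lit 689) (nat_lit 4656) (.f (nat_lit 655) (nat_lit 687) (nat_lit 5679) (.f (nat_lit 685) (nat_lit 686) (nat_lit 1677) (.d (nat_lit 653) (nat_lit 621) (nat_lit 6701) (nat_lit 684) (nat_lit 1676))))))))))))) (.a (.f (nat_lit 591) (nat_lit 623) (nat_lit 5615) (.f (nat_lit 657) (nat_lit 625) (nat_lit 4624) (.f (nat_lit 656) (nat_lit 689) (nat_lit 4656) (.f (nat_lit 559) (nat_lit 688) (nat_lit 7727) (.d (nat_lit 558) (nat_lit 524) (nat_lit 3596) (nat_lit 556) (nat_lit 556)))))) (.f (nat_lit 657) (nat_lit 625) (nat_lit 4624) (.f (nat_lit 656) (nat_lit 689) (nat_lit 4656) (.d (nat_lit 655) (nat_lit 623) (nat_lit 5647) (nat_lit 687) (nat_lit 5679)))))))) (.a (.p (nat_lit 558) (.a (.f (nat_lit 559) (nat_lit 524) (nat_lit 3596) (.d (nat_lit 591) (nat_lit 556) (nat_lit 556) (nat_lit 623) (nat_lit 5615))) (.a (.f (nat_lit 559) (nat_lit 524) (nat_lit 3596) (.f (nat_lit 556) (nat_lit 591) (nat_lit 556) (.d (nat_lit 588) (nat_lit 587) (nat_lit 1579) (nat_lit 589) (nat_lit 1580)))) (.a (.p (nat_lit 493) (.a (.f (nat_lit 495) (nat_lit 463) (nat_lit 7631) (.f (nat_lit 494) (nat_lit 524) (nat_lit 1516) (.f (nat_lit 461) (nat_lit 460) (nat_lit 3532) (.d (nat_lit 462) (nat_lit 430) (nat_lit 6573) (nat_lit 589) (nat_lit 6605))))) (.a (.f (nat_lit 461) (nat_lit 590) (nat_lit 4557) (.f (nat_lit 556) (nat_lit 588) (nat_lit 5580) (.f (nat_lit 524) (nat_lit 429) (nat_lit 5548) (.f (nat_lit 460) (nat_lit 428) (nat_lit 7596) (.f (nat_lit 492) (nat_lit 589) (nat_lit 4556) (.f (nat_lit 459) (nat_lit 427) (nat_lit 7595) (.d (nat_lit 458) (nat_lit 457) (nat_lit 457) (nat_lit 494) (nat_lit 458)))))))) (.a (.f (nat_lit 461) (nat_lit 590) (nat_lit 4557) (.f (nat_lit 556) (nat_lit 588) (nat_lit 5580) (.f (nat_lit 524) (nat_lit 429) (nat_lit 5548) (.f (nat_lit 460) (nat_lit 428) (nat_lit 7596) (.f (nat_lit 492) (nat_lit 589) (nat_lit 4556) (.f (nat_lit 462) (nat_lit 430) (nat_lit 6573) (.d (nat_lit 463) (nat_lit 491) (nat_lit 1483) (nat_lit 495) (nat_lit 7631)))))))) (.a (.f (nat_lit 461) (nat_lit 590) (nat_lit 4557) (.f (nat_lit 495) (nat_lit 463) (nat_lit 7631) (.d (nat_lit 460) (nat_lit 428) (nat_lit 7596) (nat_lit 494) (nat_lit 3532)))) (.f (nat_lit 591) (nat_lit 623) (nat_lit 5615) (.f (nat_lit 495) (nat_lit 463) (nat_lit 7631) (.f (nat_lit 494) (nat_lit 524) (nat_lit 1516) (.f (nat_lit 589) (nat_lit 462) (nat_lit 6605) (.d (nat_lit 590) (nat_lit 556) (nat_lit 3628) (nat_lit 561) (nat_lit 2605))))))))))) (.a (.f (nat_lit 524) (nat_lit 559) (nat_lit 3596) (.f (nat_lit 495) (nat_lit 463) (nat_lit 7631) (.f (nat_lit 493) (nat_lit 494) (nat_lit 1516) (.f (nat_lit 461) (nat_lit 590) (nat_lit 4557) (.d (nat_lit 556) (nat_lit 429) (nat_lit 5548) (nat_lit 588) (nat_lit 5580)))))) (.a (.f (nat_lit 591) (nat_lit 623) (nat_lit 5615) (.f (nat_lit 556) (nat_lit 559) (nat_lit 556) (.d (nat_lit 590) (nat_lit 555) (nat_lit 555) (nat_lit 589) (nat_lit 3628)))) (.f (nat_lit 524) (nat_lit 559) (nat_lit 3596) (.f (nat_lit 495) (nat_lit 463) (nat_lit 7631) (.f (nat_lit 493) (nat_lit 494) (nat_lit 1516) (.f (nat_lit 461) (nat_lit 590) (nat_lit 4557) (.f (nat_lit 460) (nat_lit 428) (nat_lit 7596) (.f (nat_lit 492) (nat_lit 589) (nat_lit 7628) (.f (nat_lit 429) (nat_lit 397) (nat_lit 5516) (.d (nat_lit 430) (nat_lit 398) (nat_lit 6541) (nat_lit 462) (nat_lit 6573))))))))))))))) (.a (.p (nat_lit 493) (.a (.f (nat_lit 495) (nat_lit 463) (nat_lit 7631) (.f (nat_lit 494) (nat_lit 524) (nat_lit 1516) (.f (nat_lit 461) (nat_lit 460) (nat_lit 3532) (.d (nat_lit 497) (nat_lit 462) (nat_lit 3533) (nat_lit 465) (nat_lit 6608))))) (.a (.f (nat_lit 495) (nat_lit 463) (nat_lit 7631) (.f (nat_lit 524) (nat_lit 494) (nat_lit 1516) (.f (nat_lit 558) (nat_lit 559) (nat_lit 3596) (.f (nat_lit 461) (nat_lit 590) (nat_lit 4557) (.d (nat_lit 556) (nat_lit 429) (nat_lit 5548) (nat_lit 588) (nat_lit 5580)))))) (.a (.p (nat_lit 558) (.a (.f (nat_lit 461) (nat_lit 590) (nat_lit 4557) (.f (nat_lit 524) (nat_lit 559) (nat_lit 3596) (.d (nat_lit 556) (nat_lit 429) (nat_lit 5548) (nat_lit 588) (nat_lit 5580)))) (.a (.f (nat_lit 461) (nat_lit 590) (nat_lit 4557) (.f (nat_lit 556) (nat_lit 588) (nat_lit 5580) (.f (nat_lit 524) (nat_lit 429) (nat_lit 5548) (.f (nat_lit 523) (nat_lit 522) (nat_lit 522) (.f (nat_lit 460) (nat_lit 428) (nat_lit 7596) (.f (nat_lit 494) (nat_lit 495) (nat_lit 1516) (.f (nat_lit 459) (nat_lit 458) (nat_lit 458) (.d (nat_lit 427) (nat_lit 491) (nat_lit 4523) (nat_lit 492) (nat_lit 7595))))))))) (.a (.f (nat_lit 559) (nat_lit 524) (nat_lit 3596) (.f (nat_lit 556) (nat_lit 591) (nat_lit 556) (.d (nat_lit 588) (nat_lit 461) (nat_lit 5580) (nat_lit 587) (nat_lit 1579)))) (.a (.f (nat_lit 559) (nat_lit 524) (nat_lit 3596) (.d (nat_lit 591) (nat_lit 556) (nat_lit 556) (nat_lit 623) (nat_lit 5615))) (.a (.f (nat_lit 461) (nat_lit 590) (nat_lit 4557) (.f (nat_lit 556) (nat_lit 588) (nat_lit 5580) (.d (nat_lit 591) (nat_lit 559) (nat_lit 556) (nat_lit 623) (nat_lit 5615)))) (.f (nat_lit 461) (nat_lit 590) (nat_lit 4557) (.f (nat_lit 524) (nat_lit 559) (nat_lit 3596) (.f (nat_lit 494) (nat_lit 495) (nat_lit 1516) (.f (nat_lit 460) (nat_lit 428) (nat_lit 7596) (.f (nat_lit 462) (nat_lit 430) (nat_lit 6573) (.f (nat_lit 459) (nat_lit 458) (nat_lit 458) (.f (nat_lit 491) (nat_lit 490) (nat_lit 1482) (.f (nat_lit 427) (nat_lit 426) (nat_lit 3498) (.f (nat_lit 395) (nat_lit 492) (nat_lit 4491) (.f (nat_lit 364) (nat_lit 396) (nat_lit 6507) (.f (nat_lit 363) (nat_lit 332) (nat_lit 6475) (.d (nat_lit 362) (nat_lit 330) (nat_lit 7498) (nat_lit 394) (nat_lit 7530))))))))))))))))))) (.a (.p (nat_lit 558) (.a (.f (nat_lit 461) (nat_lit 590) (nat_lit 4557) (.f (nat_lit 524) (nat_lit 559) (nat_lit 3596) (.d (nat_lit 556) (nat_lit 429) (nat_lit 5548) (nat_lit 588) (nat_lit 5580)))) (.a (.f (nat_lit 461) (nat_lit 590) (nat_lit 4557) (.f (nat_lit 556) (nat_lit 588) (nat_lit 5580) (.f (nat_lit 429) (nat_lit 524) (nat_lit 5548) (.d (nat_lit 430) (nat_lit 398) (nat_lit 6541) (nat_lit 462) (nat_lit 6573))))) (.a (.f (nat_lit 559) (nat_lit 524) (nat_lit 3596) (.f (nat_lit 556) (nat_lit 591) (nat_lit 556) (.d (nat_lit 588) (nat_lit 461) (nat_lit 5580) (nat_lit 587) (nat_lit 1579)))) (.a (.f (nat_lit 559) (nat_lit 524) (nat_lit 3596) (.d (nat_lit 591) (nat_lit 556) (nat_lit 556) (nat_lit 623) (nat_lit 5615))) (.a (.f (nat_lit 461) (nat_lit 590) (nat_lit 4557) (.f (nat_lit 556) (nat_lit 588) (nat_lit 5580) (.d (nat_lit 591) (nat_lit 559) (nat_lit 556) (nat_lit 623) (nat_lit 5615)))) (.f (nat_lit 461) (nat_lit 590) (nat_lit 4557) (.f (nat_lit 428) (nat_lit 460) (nat_lit 7596) (.f (nat_lit 429) (nat_lit 396) (nat_lit 7564) (.d (nat_lit 430) (nat_lit 398) (nat_lit 6541) (nat_lit 462) (nat_lit 6573))))))))))) (.a (.p (nat_lit 624) (.a (.f (nat_lit 657) (nat_lit 625) (nat_lit 4624) (.f (nat_lit 656) (nat_lit 689) (nat_lit 4656) (.f (nat_lit 687) (nat_lit 655) (nat_lit 5679) (.f (nat_lit 688) (nat_lit 719) (nat_lit 5711) (.f (nat_lit 559) (nat_lit 591) (nat_lit 7727) (.f (nat_lit 524) (nat_lit 558) (nat_lit 3596) (.d (nat_lit 495) (nat_lit 463) (nat_lit 7631) (nat_lit 494) (nat_lit 1516)))))))) (.a (.f (nat_lit 657) (nat_lit 625) (nat_lit 4624) (.f (nat_lit 656) (nat_lit 689) (nat_lit 4656) (.d (nat_lit 655) (nat_lit 623) (nat_lit 5647) (nat_lit 687) (nat_lit 5679)))) (.a (.d (nat_lit 623) (nat_lit 591) (nat_lit 5615) (nat_lit 655) (nat_lit 5647)) (.f (nat_lit 657) (nat_lit 625) (nat_lit 4624) (.f (nat_lit 656) (nat_lit 689) (nat_lit 4656) (.f (nat_lit 591) (nat_lit 623) (nat_lit 5615) (.f (nat_lit 559) (nat_lit 688) (nat_lit 7727) (.d (nat_lit 558) (nat_lit 524) (nat_lit 3596) (nat_lit 556) (nat_lit 556)))))))))) (.p (nat_lit 558) (.a (.f (nat_lit 461) (nat_lit 590) (nat_lit 4557) (.f (nat_lit 495) (nat_lit 463) (nat_lit 7631) (.d (nat_lit 460) (nat_lit 428) (nat_lit 7596) (nat_lit 494) (nat_lit 3532)))) (.a (.f (nat_lit 461) (nat_lit 590) (nat_lit 4557) (.f (nat_lit 556) (nat_lit 588) (nat_lit 5580) (.d (nat_lit 591) (nat_lit 559) (nat_lit 556) (nat_lit 623) (nat_lit 5615)))) (.a (.f (nat_lit 591) (nat_lit 623) (nat_lit 5615) (.f (nat_lit 556) (nat_lit 559) (nat_lit 556) (.f (nat_lit 461) (nat_lit 588) (nat_lit 5580) (.f (nat_lit 460) (nat_lit 428) (nat_lit 7596) (.d (nat_lit 495) (nat_lit 463) (nat_lit 7631) (nat_lit 494) (nat_lit 3532)))))) (.f (nat_lit 591) (nat_lit 623) (nat_lit 5615) (.f (nat_lit 556) (nat_lit 559) (nat_lit 556) (.f (nat_lit 555) (nat_lit 590) (nat_lit 555) (.f (nat_lit 586) (nat_lit 587) (nat_lit 1578) (.f (nat_lit 554) (nat_lit 585) (nat_lit 1577) (.d (nat_lit 522) (nat_lit 521) (nat_lit 3593) (nat_lit 523) (nat_lit 3594))))))))))))))))) (.a (.p (nat_lit 622) (.a (.f (nat_lit 623) (nat_lit 591) (nat_lit 5615) (.f (nat_lit 624) (nat_lit 655) (nat_lit 5647) (.f (nat_lit 625) (nat_lit 657) (nat_lit 4624) (.f (nat_lit 589) (nat_lit 590) (nat_lit 3661) (.d (nat_lit 621) (nat_lit 588) (nat_lit 3660) (nat_lit 654) (nat_lit 4621)))))) (.a (.p (nat_lit 589) (.a (.f (nat_lit 621) (nat_lit 654) (nat_lit 4621) (.f (nat_lit 590) (nat_lit 493) (nat_lit 4589) (.d (nat_lit 591) (nat_lit 556) (nat_lit 3628) (nat_lit 620) (nat_lit 1612)))) (.a (.f (nat_lit 621) (nat_lit 654) (nat_lit 4621) (.f (nat_lit 493) (nat_lit 590) (nat_lit 4589) (.d (nat_lit 620) (nat_lit 588) (nat_lit 5612) (nat_lit 652) (nat_lit 5644)))) (.a (.f (nat_lit 621) (nat_lit 654) (nat_lit 4621) (.f (nat_lit 620) (nat_lit 652) (nat_lit 5644) (.f (nat_lit 493) (nat_lit 588) (nat_lit 5612) (.f (nat_lit 460) (nat_lit 492) (nat_lit 7628) (.f (nat_lit 461) (nat_lit 428) (nat_lit 7596) (.d (nat_lit 462) (nat_lit 430) (nat_lit 6573) (nat_lit 494) (nat_lit 6605))))))) (.a (.f (nat_lit 654) (nat_lit 621) (nat_lit 4621) (.d (nat_lit 590) (nat_lit 558) (nat_lit 7693) (nat_lit 686) (nat_lit 7725))) (.f (nat_lit 493) (nat_lit 590) (nat_lit 4589) (.f (nat_lit 588) (nat_lit 620) (nat_lit 5612) (.f (nat_lit 461) (nat_lit 556) (nat_lit 5580) (.d (nat_lit 462) (nat_lit 430) (nat_lit 6573) (nat_lit 494) (nat_lit 6605)))))))))) (.a (.p (nat_lit 589) (.a (.f (nat_lit 621) (nat_lit 654) (nat_lit 4621) (.f (nat_lit 493) (nat_lit 590) (nat_lit 4589) (.d (nat_lit 620) (nat_lit 588) (nat_lit 5612) (nat_lit 652) (nat_lit 5644)))) (.a (.f (nat_lit 621) (nat_lit 654) (nat_lit 4621) (.f (nat_lit 620) (nat_lit 652) (nat_lit 5644) (.f (nat_lit 588) (nat_lit 493) (nat_lit 5612) (.d (nat_lit 623) (nat_lit 587) (nat_lit 3659) (nat_lit 624) (nat_lit 3660))))) (.a (.f (nat_lit 654) (nat_lit 621) (nat_lit 4621) (.d (nat_lit 590) (nat_lit 558) (nat_lit 7693) (nat_lit 686) (nat_lit 7725))) (.f (nat_lit 493) (nat_lit 590) (nat_lit 4589) (.f (nat_lit 588) (nat_lit 620) (nat_lit 5612) (.f (nat_lit 461) (nat_lit 556) (nat_lit 5580) (.d (nat_lit 462) (nat_lit 430) (nat_lit 6573) (nat_lit 494) (nat_lit 6605))))))))) (.a (.f (nat_lit 623) (nat_lit 591) (nat_lit 5615) (.f (nat_lit 624) (nat_lit 655) (nat_lit 5647) (.f (nat_lit 657) (nat_lit 625) (nat_lit 4624) (.d (nat_lit 656) (nat_lit 621) (nat_lit 621) (nat_lit 689) (nat_lit 4656))))) (.f (nat_lit 623) (nat_lit 591) (nat_lit 5615) (.f (nat_lit 624) (nat_lit 655) (nat_lit 5647) (.f (nat_lit 625) (nat_lit 657) (nat_lit 4624) (.f (nat_lit 590) (nat_lit 589) (nat_lit 3661) (.d (nat_lit 654) (nat_lit 558) (nat_lit 7693) (nat_lit 653) (nat_lit 1645))))))))))) (.a (.p (nat_lit 558) (.a (.f (nat_lit 559) (nat_lit 524) (nat_lit 3596) (.d (nat_lit 591) (nat_lit 556) (nat_lit 556) (nat_lit 623) (nat_lit 5615))) (.a (.f (nat_lit 524) (nat_lit 559) (nat_lit 3596) (.f (nat_lit 495) (nat_lit 463) (nat_lit 7631) (.f (nat_lit 493) (nat_lit 494) (nat_lit 1516) (.f (nat_lit 461) (nat_lit 590) (nat_lit 4557) (.f (nat_lit 460) (nat_lit 428) (nat_lit 7596) (.f (nat_lit 492) (nat_lit 589) (nat_lit 7628) (.f (nat_lit 429) (nat_lit 397) (nat_lit 5516) (.d (nat_lit 430) (nat_lit 398) (nat_lit 6541) (nat_lit 462) (nat_lit 6573))))))))) (.f (nat_lit 623) (nat_lit 591) (nat_lit 5615) (.f (nat_lit 624) (nat_lit 655) (nat_lit 5647) (.f (nat_lit 657) (nat_lit 625) (nat_lit 4624) (.f (nat_lit 656) (nat_lit 689) (nat_lit 4656) (.f (nat_lit 622) (nat_lit 621) (nat_lit 621) (.f (nat_lit 590) (nat_lit 654) (nat_lit 7693) (.d (nat_lit 493) (nat_lit 461) (nat_lit 4557) (nat_lit 589) (nat_lit 4589))))))))))) (.p (nat_lit 558) (.a (.f (nat_lit 623) (nat_lit 591) (nat_lit 5615) (.f (nat_lit 624) (nat_lit 655) (nat_lit 5647) (.f (nat_lit 657) (nat_lit 625) (nat_lit 4624) (.f (nat_lit 656) (nat_lit 689) (nat_lit 4656) (.f (nat_lit 622) (nat_lit 621) (nat_lit 621) (.f (nat_lit 590) (nat_lit 654) (nat_lit 7693) (.d (nat_lit 493) (nat_lit 461) (nat_lit 4557) (nat_lit 589) (nat_lit 4589)))))))) (.a (.f (nat_lit 559) (nat_lit 524) (nat_lit 3596) (.f (nat_lit 589) (nat_lit 588) (nat_lit 1580) (.f (nat_lit 590) (nat_lit 561) (nat_lit 1581) (.d (nat_lit 493) (nat_lit 461) (nat_lit 4557) (nat_lit 622) (nat_lit 4589))))) (.a (.f (nat_lit 524) (nat_lit 559) (nat_lit 3596) (.f (nat_lit 495) (nat_lit 463) (nat_lit 7631) (.f (nat_lit 493) (nat_lit 494) (nat_lit 1516) (.f (nat_lit 623) (nat_lit 591) (nat_lit 5615) (.f (nat_lit 624) (nat_lit 655) (nat_lit 5647) (.f (nat_lit 657) (nat_lit 625) (nat_lit 4624) (.f (nat_lit 656) (nat_lit 689) (nat_lit 4656) (.f (nat_lit 621) (nat_lit 622) (nat_lit 621) (.f (nat_lit 589) (nat_lit 492) (nat_lit 7660) (.d (nat_lit 620) (nat_lit 588) (nat_lit 5612) (nat_lit 652) (nat_lit 5644))))))))))) (.a (.f (nat_lit 559) (nat_lit 524) (nat_lit 3596) (.f (nat_lit 589) (nat_lit 588) (nat_lit 1580) (.f (nat_lit 591) (nat_lit 623) (nat_lit 5615) (.f (nat_lit 590) (nat_lit 561) (nat_lit 2605) (.f (nat_lit 621) (nat_lit 620) (nat_lit 1612) (.f (nat_lit 654) (nat_lit 622) (nat_lit 7693) (.d (nat_lit 653) (nat_lit 685) (nat_lit 6701) (nat_lit 686) (nat_lit 4653)))))))) (.a (.f (nat_lit 524) (nat_lit 559) (nat_lit 3596) (.f (nat_lit 495) (nat_lit 463) (nat_lit 7631) (.f (nat_lit 493) (nat_lit 494) (nat_lit 1516) (.f (nat_lit 461) (nat_lit 590) (nat_lit 4557) (.f (nat_lit 460) (nat_lit 428) (nat_lit 7596) (.f (nat_lit 492) (nat_lit 589) (nat_lit 7628) (.f (nat_lit 429) (nat_lit 397) (nat_lit 5516) (.d (nat_lit 430) (nat_lit 398) (nat_lit 6541) (nat_lit 462) (nat_lit 6573))))))))) (.f (nat_lit 524) (nat_lit 559) (nat_lit 3596) (.f (nat_lit 495) (nat_lit 463) (nat_lit 7631) (.f (nat_lit 493) (nat_lit 494) (nat_lit 1516) (.f (nat_lit 461) (nat_lit 590) (nat_lit 4557) (.f (nat_lit 428) (nat_lit 460) (nat_lit 7596) (.f (nat_lit 429) (nat_lit 396) (nat_lit 7564) (.d (nat_lit 430) (nat_lit 398) (nat_lit 6541) (nat_lit 462) (nat_lit 6573)))))))))))))))))))))))))) (.p (nat_lit 590) (.a (.f (nat_lit 591) (nat_lit 623) (nat_lit 5615) (.f (nat_lit 589) (nat_lit 561) (nat_lit 2605) (.f (nat_lit 557) (nat_lit 556) (nat_lit 3628) (.f (nat_lit 621) (nat_lit 620) (nat_lit 1612) (.d (nat_lit 622) (nat_lit 493) (nat_lit 4589) (nat_lit 654) (nat_lit 4621)))))) (.a (.f (nat_lit 495) (nat_lit 463) (nat_lit 7631) (.f (nat_lit 497) (nat_lit 465) (nat_lit 6608) (.f (nat_lit 494) (nat_lit 526) (nat_lit 1517) (.f (nat_lit 461) (nat_lit 462) (nat_lit 3533) (.f (nat_lit 493) (nat_lit 460) (nat_lit 3532) (.f (nat_lit 557) (nat_lit 558) (nat_lit 4557) (.f (nat_lit 589) (nat_lit 622) (nat_lit 4589) (.d (nat_lit 556) (nat_lit 588) (nat_lit 5580) (nat_lit 591) (nat_lit 3628))))))))) (.a (.f (nat_lit 591) (nat_lit 623) (nat_lit 5615) (.f (nat_lit 589) (nat_lit 561) (nat_lit 2605) (.f (nat_lit 588) (nat_lit 559) (nat_lit 2604) (.d (nat_lit 620) (nat_lit 619) (nat_lit 1611) (nat_lit 621) (nat_lit 1612))))) (.a (.f (nat_lit 497) (nat_lit 465) (nat_lit 6608) (.f (nat_lit 495) (nat_lit 463) (nat_lit 7631) (.f (nat_lit 494) (nat_lit 526) (nat_lit 1517) (.f (nat_lit 461) (nat_lit 462) (nat_lit 3533) (.f (nat_lit 493) (nat_lit 460) (nat_lit 3532) (.f (nat_lit 557) (nat_lit 558) (nat_lit 4557) (.f (nat_lit 589) (nat_lit 622) (nat_lit 4589) (.d (nat_lit 588) (nat_lit 556) (nat_lit 5580) (nat_lit 620) (nat_lit 5612))))))))) (.f (nat_lit 623) (nat_lit 591) (nat_lit 5615) (.f (nat_lit 624) (nat_lit 655) (nat_lit 5647) (.f (nat_lit 657) (nat_lit 625) (nat_lit 4624) (.f (nat_lit 656) (nat_lit 689) (nat_lit 4656) (.f (nat_lit 622) (nat_lit 621) (nat_lit 621) (.f (nat_lit 495) (nat_lit 463) (nat_lit 7631) (.f (nat_lit 497) (nat_lit 465) (nat_lit 6608) (.f (nat_lit 526) (nat_lit 494) (nat_lit 1517) (.f (nat_lit 558) (nat_lit 493) (nat_lit 7661) (.f (nat_lit 654) (nat_lit 557) (nat_lit 7693) (.f (nat_lit 685) (nat_lit 653) (nat_lit 5677) (.f (nat_lit 686) (nat_lit 717) (nat_lit 5709) (.d (nat_lit 687) (nat_lit 688) (nat_lit 2701) (nat_lit 719) (nat_lit 4686))))))))))))))))))))))))))) (.f (nat_lit 465) (nat_lit 497) (nat_lit 6608) (.f (nat_lit 464) (nat_lit 433) (nat_lit 6576) (.d (nat_lit 463) (nat_lit 431) (nat_lit 7599) (nat_lit 495) (nat_lit 7631)))))))) (.a (.p (nat_lit 496) (.a (.f (nat_lit 593) (nat_lit 625) (nat_lit 4592) (.f (nat_lit 464) (nat_lit 561) (nat_lit 4560) (.d (nat_lit 465) (nat_lit 433) (nat_lit 6576) (nat_lit 497) (nat_lit 6608)))) (.a (.f (nat_lit 593) (nat_lit 625) (nat_lit 4592) (.f (nat_lit 464) (nat_lit 561) (nat_lit 4560) (.d (nat_lit 463) (nat_lit 431) (nat_lit 7599) (nat_lit 495) (nat_lit 7631)))) (.a (.f (nat_lit 497) (nat_lit 465) (nat_lit 6608) (.p (nat_lit 498) (.a (.f (nat_lit 495) (nat_lit 463) (nat_lit 7631) (.f (nat_lit 531) (nat_lit 530) (nat_lit 495) (.f (nat_lit 499) (nat_lit 532) (nat_lit 496) (.d (nat_lit 467) (nat_lit 466) (nat_lit 2511) (nat_lit 468) (nat_lit 2512))))) (.a (.p (nat_lit 562) (.a (.p (nat_lit 530) (.a (.f (nat_lit 531) (nat_lit 495) (nat_lit 495) (.d (nat_lit 532) (nat_lit 499) (nat_lit 496) (nat_lit 533) (nat_lit 3569))) (.f (nat_lit 593) (nat_lit 625) (nat_lit 4592) (.f (nat_lit 561) (nat_lit 466) (nat_lit 5585) (.d (nat_lit 563) (nat_lit 564) (nat_lit 1584) (nat_lit 591) (nat_lit 1583)))))) (.a (.p (nat_lit 530) (.a (.f (nat_lit 531) (nat_lit 495) (nat_lit 495) (.d (nat_lit 532) (nat_lit 499) (nat_lit 496) (nat_lit 533) (nat_lit 3569))) (.a s4820 (.a (.f (nat_lit 625) (nat_lit 593) (nat_lit 4592) (.f (nat_lit 657) (nat_lit 624) (nat_lit 4624) (.f (nat_lit 594) (nat_lit 626) (nat_lit 5649) (.f (nat_lit 467) (nat_lit 499) (nat_lit 6610) (.d (nat_lit 466) (nat_lit 435) (nat_lit 6578) (nat_lit 495) (nat_lit 2511)))))) (.f (nat_lit 625) (nat_lit 593) (nat_lit 4592) (.f (nat_lit 495) (nat_lit 531) (nat_lit 495) (.f (nat_lit 466) (nat_lit 467) (nat_lit 2511) (.f (nat_lit 624) (nat_lit 657) (nat_lit 4624) (.f (nat_lit 595) (nat_lit 563) (nat_lit 4562) (.f (nat_lit 627) (nat_lit 594) (nat_lit 4594) (.d (nat_lit 626) (nat_lit 591) (nat_lit 3663) (nat_lit 596) (nat_lit 2640)))))))))))) (.a (.p (nat_lit 561) (.a (.f (nat_lit 593) (nat_lit 625) (nat_lit 4592) (.d (nat_lit 591) (nat_lit 563) (nat_lit 1583) (nat_lit 590) (nat_lit 2606))) (.a (.f (nat_lit 563) (nat_lit 591) (nat_lit 1583) (.f (nat_lit 595) (nat_lit 596) (nat_lit 560) (.f (nat_lit 531) (nat_lit 532) (nat_lit 2576) (.d (nat_lit 559) (nat_lit 530) (nat_lit 2575) (nat_lit 594) (nat_lit 559))))) (.a (.f (nat_lit 593) (nat_lit 625) (nat_lit 4592) (.f (nat_lit 563) (nat_lit 564) (nat_lit 1584) (.f (nat_lit 595) (nat_lit 596) (nat_lit 560) (.f (nat_lit 530) (nat_lit 466) (nat_lit 5585) (.d (nat_lit 594) (nat_lit 559) (nat_lit 559) (nat_lit 627) (nat_lit 4594)))))) (.f (nat_lit 593) (nat_lit 625) (nat_lit 4592) (.f (nat_lit 530) (nat_lit 466) (nat_lit 5585) (.f (nat_lit 559) (nat_lit 531) (nat_lit 2575) (.d (nat_lit 558) (nat_lit 557) (nat_lit 557) (nat_lit 594) (nat_lit 558))))))))) (.a (.p (nat_lit 531) (.a (.f (nat_lit 530) (nat_lit 495) (nat_lit 495) (.d (nat_lit 532) (nat_lit 499) (nat_lit 496) (nat_lit 533) (nat_lit 3569))) (.a (.f (nat_lit 499) (nat_lit 532) (nat_lit 496) (.f (nat_lit 467) (nat_lit 468) (nat_lit 2512) (.d (nat_lit 594) (nat_lit 530) (nat_lit 6610) (nat_lit 563) (nat_lit 5586)))) (.a (.f (nat_lit 499) (nat_lit 532) (nat_lit 496) (.f (nat_lit 467) (nat_lit 468) (nat_lit 2512) (.f (nat_lit 563) (nat_lit 594) (nat_lit 5586) (.d (nat_lit 466) (nat_lit 434) (nat_lit 7602) (nat_lit 495) (nat_lit 2511))))) (.a (.f (nat_lit 530) (nat_lit 495) (nat_lit 495) (.f (nat_lit 561) (nat_lit 559) (nat_lit 2575) (.d (nat_lit 563) (nat_lit 532) (nat_lit 2576) (nat_lit 591) (nat_lit 1583)))) (.f (nat_lit 530) (nat_lit 495) (nat_lit 495) (.f (nat_lit 561) (nat_lit 559) (nat_lit 2575) (.f (nat_lit 563) (nat_lit 591) (nat_lit 1583) (.d (nat_lit 593) (nat_lit 466) (nat_lit 5585) (nat_lit 564) (nat_lit 1584)))))))))) (.a (.p (nat_lit 531) (.a (.f (nat_lit 530) (nat_lit 495) (nat_lit 495) (.d (nat_lit 532) (nat_lit 499) (nat_lit 496) (nat_lit 533) (nat_lit 3569))) (.a (.f (nat_lit 499) (nat_lit 532) (nat_lit 496) (.f (nat_lit 467) (nat_lit 468) (nat_lit 2512) (.d (nat_lit 594) (nat_lit 530) (nat_lit 6610) (nat_lit 563) (nat_lit 5586)))) (.a (.f (nat_lit 499) (nat_lit 532) (nat_lit 496) (.f (nat_lit 467) (nat_lit 468) (nat_lit 2512) (.f (nat_lit 563) (nat_lit 594) (nat_lit 5586) (.d (nat_lit 466) (nat_lit 434) (nat_lit 7602) (nat_lit 495) (nat_lit 2511))))) (.a (.f (nat_lit 530) (nat_lit 495) (nat_lit 495) (.f (nat_lit 561) (nat_lit 559) (nat_lit 2575) (.d (nat_lit 563) (nat_lit 532) (nat_lit 2576) (nat_lit 591) (nat_lit 1583)))) (.f (nat_lit 530) (nat_lit 495) (nat_lit 495) (.f (nat_lit 561) (nat_lit 559) (nat_lit 2575) (.f (nat_lit 563) (nat_lit 591) (nat_lit 1583) (.d (nat_lit 466) (nat_lit 434) (nat_lit 4530) (nat_lit 595) (nat_lit 4562)))))))))) (.a (.p (nat_lit 561) (.a (.f (nat_lit 593) (nat_lit 625) (nat_lit 4592) (.d (nat_lit 591) (nat_lit 563) (nat_lit 1583) (nat_lit 590) (nat_lit 2606))) (.a (.f (nat_lit 591) (nat_lit 563) (nat_lit 1583) (.d (nat_lit 590) (nat_lit 559) (nat_lit 1582) (nat_lit 589) (nat_lit 2605))) (.a (.f (nat_lit 593) (nat_lit 625) (nat_lit 4592) (.f (nat_lit 563) (nat_lit 564) (nat_lit 1584) (.f (nat_lit 595) (nat_lit 596) (nat_lit 560) (.f (nat_lit 530) (nat_lit 466) (nat_lit 5585) (.d (nat_lit 594) (nat_lit 559) (nat_lit 559) (nat_lit 627) (nat_lit 4594)))))) (.f (nat_lit 593) (nat_lit 625) (nat_lit 4592) (.f (nat_lit 466) (nat_lit 530) (nat_lit 5585) (.f (nat_lit 467) (nat_lit 495) (nat_lit 2511) (.d (nat_lit 468) (nat_lit 469) (nat_lit 1489) (nat_lit 499) (nat_lit 2512))))))))) (.a (.p (nat_lit 530) (.a (.f (nat_lit 531) (nat_lit 495) (nat_lit 495) (.d (nat_lit 532) (nat_lit 499) (nat_lit 496) (nat_lit 533) (nat_lit 3569))) (.a s4820 (.a (.f (nat_lit 625) (nat_lit 593) (nat_lit 4592) (.f (nat_lit 657) (nat_lit 624) (nat_lit 4624) (.f (nat_lit 594) (nat_lit 626) (nat_lit 5649) (.f (nat_lit 467) (nat_lit 499) (nat_lit 6610) (.d (nat_lit 466) (nat_lit 435) (nat_lit 6578) (nat_lit 495) (nat_lit 2511)))))) (.f (nat_lit 593) (nat_lit 625) (nat_lit 4592) (.f (nat_lit 466) (nat_lit 561) (nat_lit 5585) (.d (nat_lit 495) (nat_lit 467) (nat_lit 2511) (nat_lit 531) (nat_lit 495)))))))) (.a (.p (nat_lit 530) (.a (.f (nat_lit 531) (nat_lit 495) (nat_lit 495) (.d (nat_lit 532) (nat_lit 499) (nat_lit 496) (nat_lit 533) (nat_lit 3569))) (.a (.f (nat_lit 593) (nat_lit 625) (nat_lit 4592) (.f (nat_lit 561) (nat_lit 466) (nat_lit 5585) (.f (nat_lit 559) (nat_lit 531) (nat_lit 2575) (.d (nat_lit 558) (nat_lit 557) (nat_lit 557) (nat_lit 594) (nat_lit 558))))) (.f (nat_lit 625) (nat_lit 593) (nat_lit 4592) (.f (nat_lit 657) (nat_lit 624) (nat_lit 4624) (.f (nat_lit 594) (nat_lit 626) (nat_lit 5649) (.f (nat_lit 467) (nat_lit 499) (nat_lit 6610) (.d (nat_lit 466) (nat_lit 435) (nat_lit 6578) (nat_lit 495) (nat_lit 2511))))))))) (.a (.p (nat_lit 563) (.a (.f (nat_lit 561) (nat_lit 591) (nat_lit 1583) (.d (nat_lit 593) (nat_lit 564) (nat_lit 1584) (nat_lit 625) (nat_lit 4592))) (.a (.f (nat_lit 593) (nat_lit 625) (nat_lit 4592) (.f (nat_lit 594) (nat_lit 591) (nat_lit 2607) (.d (nat_lit 564) (nat_lit 565) (nat_lit 1585) (nat_lit 595) (nat_lit 2608)))) (.a (.f (nat_lit 561) (nat_lit 591) (nat_lit 1583) (.f (nat_lit 564) (nat_lit 593) (nat_lit 1584) (.d (nat_lit 596) (nat_lit 595) (nat_lit 560) (nat_lit 597) (nat_lit 561)))) (.a (.f (nat_lit 561) (nat_lit 591) (nat_lit 1583) (.f (nat_lit 532) (nat_lit 531) (nat_lit 2576) (.f (nat_lit 564) (nat_lit 533) (nat_lit 2577) (.d (nat_lit 596) (nat_lit 595) (nat_lit 560) (nat_lit 597) (nat_lit 561))))) (.a (.f (nat_lit 593) (nat_lit 625) (nat_lit 4592) (.f (nat_lit 561) (nat_lit 564) (nat_lit 1584) (.f (nat_lit 595) (nat_lit 596) (nat_lit 560) (.f (nat_lit 594) (nat_lit 559) (nat_lit 559) (.f (nat_lit 531) (nat_lit 532) (nat_lit 2576) (.d (nat_lit 499) (nat_lit 466) (nat_lit 7634) (nat_lit 467) (nat_lit 5586))))))) (.f (nat_lit 561) (nat_lit 591) (nat_lit 1583) (.f (nat_lit 595) (nat_lit 596) (nat_lit 560) (.f (nat_lit 594) (nat_lit 559) (nat_lit 559) (.f (nat_lit 531) (nat_lit 532) (nat_lit 2576) (.d (nat_lit 499) (nat_lit 466) (nat_lit 7634) (nat_lit 467) (nat_lit 5586)))))))))))) (.p (nat_lit 530) (.a (.f (nat_lit 531) (nat_lit 495) (nat_lit 495) (.d (nat_lit 532) (nat_lit 499) (nat_lit 496) (nat_lit 533) (nat_lit 3569))) (.f (nat_lit 625) (nat_lit 593) (nat_lit 4592) (.f (nat_lit 657) (nat_lit 624) (nat_lit 4624) (.f (nat_lit 594) (nat_lit 626) (nat_lit 5649) (.f (nat_lit 595) (nat_lit 627) (nat_lit 4594) (.f (nat_lit 561) (nat_lit 559) (nat_lit 559) (.d (nat_lit 563) (nat_lit 591) (nat_lit 1583) (nat_lit 596) (nat_lit 560))))))))))))))))))) (.a (.p (nat_lit 499) (.a (.f (nat_lit 468) (nat_lit 467) (nat_lit 2512) (.f (nat_lit 500) (nat_lit 469) (nat_lit 2513) (.d (nat_lit 532) (nat_lit 531) (nat_lit 496) (nat_lit 533) (nat_lit 497)))) (.a (.p (nat_lit 595) (.a (.f (nat_lit 468) (nat_lit 467) (nat_lit 2512) (.f (nat_lit 500) (nat_lit 469) (nat_lit 2513) (.f (nat_lit 532) (nat_lit 533) (nat_lit 497) (.f (nat_lit 564) (nat_lit 563) (nat_lit 5587) (.f (nat_lit 596) (nat_lit 627) (nat_lit 5619) (.d (nat_lit 597) (nat_lit 565) (nat_lit 4564) (nat_lit 629) (nat_lit 4596))))))) (.a (.f (nat_lit 593) (nat_lit 625) (nat_lit 4592) (.f (nat_lit 594) (nat_lit 559) (nat_lit 3631) (.f (nat_lit 627) (nat_lit 628) (nat_lit 592) (.f (nat_lit 596) (nat_lit 561) (nat_lit 3632) (.f (nat_lit 564) (nat_lit 565) (nat_lit 2609) (.f (nat_lit 500) (nat_lit 532) (nat_lit 5619) (.d (nat_lit 468) (nat_lit 467) (nat_lit 2512) (nat_lit 469) (nat_lit 2513)))))))) (.a (.f (nat_lit 593) (nat_lit 625) (nat_lit 4592) (.f (nat_lit 594) (nat_lit 559) (nat_lit 3631) (.f (nat_lit 563) (nat_lit 564) (nat_lit 2608) (.f (nat_lit 562) (nat_lit 591) (nat_lit 2607) (.d (nat_lit 467) (nat_lit 468) (nat_lit 2512) (nat_lit 530) (nat_lit 6610)))))) (.a (.f (nat_lit 593) (nat_lit 625) (nat_lit 4592) (.f (nat_lit 594) (nat_lit 559) (nat_lit 3631) (.f (nat_lit 563) (nat_lit 564) (nat_lit 2608) (.f (nat_lit 562) (nat_lit 591) (nat_lit 2607) (.d (nat_lit 627) (nat_lit 530) (nat_lit 4594) (nat_lit 628) (nat_lit 592)))))) (.f (nat_lit 593) (nat_lit 625) (nat_lit 4592) (.f (nat_lit 594) (nat_lit 559) (nat_lit 3631) (.f (nat_lit 627) (nat_lit 628) (nat_lit 592) (.f (nat_lit 562) (nat_lit 530) (nat_lit 4594) (.d (nat_lit 591) (nat_lit 563) (nat_lit 2607) (nat_lit 626) (nat_lit 591))))))))))) (.a (.p (nat_lit 595) (.a (.f (nat_lit 531) (nat_lit 532) (nat_lit 496) (.f (nat_lit 563) (nat_lit 466) (nat_lit 7634) (.f (nat_lit 594) (nat_lit 626) (nat_lit 5618) (.d (nat_lit 593) (nat_lit 564) (nat_lit 2608) (nat_lit 625) (nat_lit 4592))))) (.a (.f (nat_lit 531) (nat_lit 532) (nat_lit 496) (.f (nat_lit 563) (nat_lit 466) (nat_lit 7634) (.f (nat_lit 594) (nat_lit 626) (nat_lit 5618) (.d (nat_lit 593) (nat_lit 559) (nat_lit 3631) (nat_lit 564) (nat_lit 2608))))) (.a (.f (nat_lit 531) (nat_lit 532) (nat_lit 496) (.f (nat_lit 563) (nat_lit 466) (nat_lit 7634) (.f (nat_lit 627) (nat_lit 530) (nat_lit 7666) (.d (nat_lit 626) (nat_lit 594) (nat_lit 5618) (nat_lit 658) (nat_lit 5650))))) (.a (.f (nat_lit 531) (nat_lit 532) (nat_lit 496) (.f (nat_lit 563) (nat_lit 466) (nat_lit 7634) (.f (nat_lit 627) (nat_lit 530) (nat_lit 7666) (.d (nat_lit 628) (nat_lit 596) (nat_lit 4595) (nat_lit 660) (nat_lit 4627))))) (.a (.f (nat_lit 593) (nat_lit 625) (nat_lit 4592) (.f (nat_lit 594) (nat_lit 559) (nat_lit 3631) (.f (nat_lit 563) (nat_lit 564) (nat_lit 2608) (.f (nat_lit 562) (nat_lit 591) (nat_lit 2607) (.d (nat_lit 627) (nat_lit 530) (nat_lit 4594) (nat_lit 628) (nat_lit 592)))))) (.f (nat_lit 593) (nat_lit 625) (nat_lit 4592) (.f (nat_lit 594) (nat_lit 559) (nat_lit 3631) (.f (nat_lit 627) (nat_lit 628) (nat_lit 592) (.f (nat_lit 596) (nat_lit 561) (nat_lit 3632) (.f (nat_lit 532) (nat_lit 531) (nat_lit 496) (.d (nat_lit 500) (nat_lit 533) (nat_lit 497) (nat_lit 564) (nat_lit 5619))))))))))))) (.p (nat_lit 594) (.a (.f (nat_lit 593) (nat_lit 625) (nat_lit 4592) (.f (nat_lit 595) (nat_lit 559) (nat_lit 3631) (.f (nat_lit 563) (nat_lit 564) (nat_lit 2608) (.f (nat_lit 562) (nat_lit 591) (nat_lit 2607) (.d (nat_lit 467) (nat_lit 468) (nat_lit 2512) (nat_lit 530) (nat_lit 6610)))))) (.a (.f (nat_lit 593) (nat_lit 625) (nat_lit 4592) (.f (nat_lit 467) (nat_lit 468) (nat_lit 2512) (.f (nat_lit 562) (nat_lit 530) (nat_lit 6610) (.f (nat_lit 563) (nat_lit 591) (nat_lit 2607) (.d (nat_lit 564) (nat_lit 565) (nat_lit 1585) (nat_lit 595) (nat_lit 2608)))))) (.a (.f (nat_lit 467) (nat_lit 468) (nat_lit 2512) (.f (nat_lit 562) (nat_lit 530) (nat_lit 6610) (.f (nat_lit 563) (nat_lit 531) (nat_lit 5586) (.d (nat_lit 591) (nat_lit 561) (nat_lit 1583) (nat_lit 593) (nat_lit 2607))))) (.a (.f (nat_lit 467) (nat_lit 468) (nat_lit 2512) (.f (nat_lit 562) (nat_lit 530) (nat_lit 6610) (.f (nat_lit 563) (nat_lit 531) (nat_lit 5586) (.f (nat_lit 561) (nat_lit 591) (nat_lit 1583) (.d (nat_lit 595) (nat_lit 559) (nat_lit 559) (nat_lit 596) (nat_lit 560)))))) (.a (.f (nat_lit 593) (nat_lit 625) (nat_lit 4592) (.f (nat_lit 595) (nat_lit 559) (nat_lit 3631) (.f (nat_lit 563) (nat_lit 564) (nat_lit 2608) (.d (nat_lit 531) (nat_lit 466) (nat_lit 7634) (nat_lit 626) (nat_lit 5618))))) (.f (nat_lit 593) (nat_lit 625) (nat_lit 4592) (.f (nat_lit 595) (nat_lit 559) (nat_lit 3631) (.f (nat_lit 627) (nat_lit 628) (nat_lit 592) (.f (nat_lit 596) (nat_lit 561) (nat_lit 3632) (.f (nat_lit 626) (nat_lit 591) (nat_lit 591) (.f (nat_lit 597) (nat_lit 598) (nat_lit 1618) (.d (nat_lit 565) (nat_lit 564) (nat_lit 2609) (nat_lit 566) (nat_lit 2610)))))))))))))))))) (.a (.f (nat_lit 593) (nat_lit 625) (nat_lit 4592) (.p (nat_lit 594) (.a (.f (nat_lit 595) (nat_lit 559) (nat_lit 3631) (.f (nat_lit 563) (nat_lit 564) (nat_lit 2608) (.f (nat_lit 562) (nat_lit 591) (nat_lit 2607) (.d (nat_lit 627) (nat_lit 530) (nat_lit 4594) (nat_lit 628) (nat_lit 592))))) (.a (.f (nat_lit 495) (nat_lit 463) (nat_lit 7631) (.f (nat_lit 467) (nat_lit 466) (nat_lit 2511) (.f (nat_lit 499) (nat_lit 468) (nat_lit 2512) (.f (nat_lit 562) (nat_lit 530) (nat_lit 6610) (.f (nat_lit 563) (nat_lit 591) (nat_lit 2607) (.d (nat_lit 564) (nat_lit 565) (nat_lit 1585) (nat_lit 595) (nat_lit 2608))))))) (.a (.f (nat_lit 495) (nat_lit 463) (nat_lit 7631) (.f (nat_lit 467) (nat_lit 466) (nat_lit 2511) (.f (nat_lit 499) (nat_lit 468) (nat_lit 2512) (.f (nat_lit 562) (nat_lit 530) (nat_lit 6610) (.f (nat_lit 591) (nat_lit 563) (nat_lit 2607) (.f (nat_lit 590) (nat_lit 561) (nat_lit 2606) (.d (nat_lit 558) (nat_lit 557) (nat_lit 3629) (nat_lit 559) (nat_lit 3630)))))))) (.a (.f (nat_lit 595) (nat_lit 559) (nat_lit 3631) (.f (nat_lit 596) (nat_lit 561) (nat_lit 3632) (.d (nat_lit 564) (nat_lit 563) (nat_lit 2608) (nat_lit 565) (nat_lit 2609)))) (.f (nat_lit 595) (nat_lit 559) (nat_lit 3631) (.f (nat_lit 627) (nat_lit 628) (nat_lit 592) (.f (nat_lit 596) (nat_lit 561) (nat_lit 3632) (.f (nat_lit 626) (nat_lit 591) (nat_lit 591) (.f (nat_lit 597) (nat_lit 598) (nat_lit 1618) (.d (nat_lit 565) (nat_lit 564) (nat_lit 2609) (nat_lit 566) (nat_lit 2610))))))))))))) (.a (.p (nat_lit 595) (.a (.f (nat_lit 593) (nat_lit 625) (nat_lit 4592) (.f (nat_lit 594) (nat_lit 559) (nat_lit 3631) (.f (nat_lit 563) (nat_lit 564) (nat_lit 2608) (.f (nat_lit 562) (nat_lit 591) (nat_lit 2607) (.f (nat_lit 596) (nat_lit 561) (nat_lit 560) (.d (nat_lit 628) (nat_lit 627) (nat_lit 592) (nat_lit 629) (nat_lit 593))))))) (.a (.f (nat_lit 593) (nat_lit 625) (nat_lit 4592) (.f (nat_lit 594) (nat_lit 559) (nat_lit 3631) (.f (nat_lit 563) (nat_lit 564) (nat_lit 2608) (.f (nat_lit 627) (nat_lit 628) (nat_lit 592) (.d (nat_lit 591) (nat_lit 562) (nat_lit 2607) (nat_lit 626) (nat_lit 591)))))) (.a (.f (nat_lit 495) (nat_lit 463) (nat_lit 7631) (.f (nat_lit 593) (nat_lit 625) (nat_lit 4592) (.f (nat_lit 467) (nat_lit 466) (nat_lit 2511) (.f (nat_lit 499) (nat_lit 468) (nat_lit 2512) (.f (nat_lit 532) (nat_lit 531) (nat_lit 496) (.f (nat_lit 500) (nat_lit 533) (nat_lit 497) (.f (nat_lit 596) (nat_lit 564) (nat_lit 7635) (.f (nat_lit 594) (nat_lit 561) (nat_lit 3632) (.d (nat_lit 628) (nat_lit 627) (nat_lit 592) (nat_lit 629) (nat_lit 593)))))))))) (.a (.p (nat_lit 594) (.a (.f (nat_lit 593) (nat_lit 559) (nat_lit 3631) (.f (nat_lit 563) (nat_lit 564) (nat_lit 2608) (.f (nat_lit 562) (nat_lit 591) (nat_lit 2607) (.f (nat_lit 596) (nat_lit 561) (nat_lit 560) (.d (nat_lit 628) (nat_lit 627) (nat_lit 592) (nat_lit 629) (nat_lit 593)))))) (.a (.f (nat_lit 593) (nat_lit 559) (nat_lit 3631) (.f (nat_lit 563) (nat_lit 564) (nat_lit 2608) (.f (nat_lit 627) (nat_lit 628) (nat_lit 592) (.d (nat_lit 591) (nat_lit 562) (nat_lit 2607) (nat_lit 626) (nat_lit 591))))) (.a (.f (nat_lit 495) (nat_lit 463) (nat_lit 7631) (.f (nat_lit 467) (nat_lit 466) (nat_lit 2511) (.f (nat_lit 499) (nat_lit 468) (nat_lit 2512) (.f (nat_lit 531) (nat_lit 532) (nat_lit 496) (.d (nat_lit 563) (nat_lit 562) (nat_lit 5586) (nat_lit 626) (nat_lit 5618)))))) (.a (.f (nat_lit 593) (nat_lit 559) (nat_lit 3631) (.f (nat_lit 596) (nat_lit 561) (nat_lit 3632) (.d (nat_lit 564) (nat_lit 563) (nat_lit 2608) (nat_lit 565) (nat_lit 2609)))) (.f (nat_lit 593) (nat_lit 559) (nat_lit 3631) (.f (nat_lit 596) (nat_lit 561) (nat_lit 3632) (.d (nat_lit 628) (nat_lit 627) (nat_lit 592) (nat_lit 629) (nat_lit 593))))))))) (.a (.p (nat_lit 499) (.a (.f (nat_lit 531) (nat_lit 532) (nat_lit 496) (.f (nat_lit 563) (nat_lit 466) (nat_lit 7634) (.d (nat_lit 468) (nat_lit 467) (nat_lit 2512) (nat_lit 500) (nat_lit 6611)))) (.a (.f (nat_lit 468) (nat_lit 467) (nat_lit 2512) (.f (nat_lit 500) (nat_lit 469) (nat_lit 2513) (.f (nat_lit 532) (nat_lit 533) (nat_lit 497) (.f (nat_lit 564) (nat_lit 563) (nat_lit 5587) (.f (nat_lit 596) (nat_lit 627) (nat_lit 5619) (.d (nat_lit 597) (nat_lit 565) (nat_lit 4564) (nat_lit 629) (nat_lit 4596))))))) (.a (.f (nat_lit 468) (nat_lit 467) (nat_lit 2512) (.f (nat_lit 500) (nat_lit 469) (nat_lit 2513) (.d (nat_lit 532) (nat_lit 531) (nat_lit 496) (nat_lit 533) (nat_lit 497)))) (.a (.f (nat_lit 531) (nat_lit 532) (nat_lit 496) (.f (nat_lit 563) (nat_lit 466) (nat_lit 7634) (.f (nat_lit 626) (nat_lit 594) (nat_lit 5618) (.f (nat_lit 627) (nat_lit 658) (nat_lit 5650) (.d (nat_lit 628) (nat_lit 596) (nat_lit 4595) (nat_lit 660) (nat_lit 4627)))))) (.f (nat_lit 495) (nat_lit 463) (nat_lit 7631) (.d (nat_lit 467) (nat_lit 466) (nat_lit 2511) (nat_lit 468) (nat_lit 2512)))))))) (.a (.p (nat_lit 499) (.a (.f (nat_lit 531) (nat_lit 532) (nat_lit 496) (.f (nat_lit 563) (nat_lit 466) (nat_lit 7634) (.d (nat_lit 468) (nat_lit 467) (nat_lit 2512) (nat_lit 500) (nat_lit 6611)))) (.a (.f (nat_lit 468) (nat_lit 467) (nat_lit 2512) (.f (nat_lit 500) (nat_lit 469) (nat_lit 2513) (.f (nat_lit 532) (nat_lit 533) (nat_lit 497) (.f (nat_lit 564) (nat_lit 563) (nat_lit 5587) (.f (nat_lit 596) (nat_lit 627) (nat_lit 5619) (.d (nat_lit 597) (nat_lit 565) (nat_lit 4564) (nat_lit 629) (nat_lit 4596))))))) (.a (.f (nat_lit 468) (nat_lit 467) (nat_lit 2512) (.f (nat_lit 500) (nat_lit 469) (nat_lit 2513) (.d (nat_lit 532) (nat_lit 531) (nat_lit 496) (nat_lit 533) (nat_lit 497)))) (.a (.f (nat_lit 531) (nat_lit 532) (nat_lit 496) (.f (nat_lit 563) (nat_lit 466) (nat_lit 7634) (.f (nat_lit 628) (nat_lit 596) (nat_lit 4595) (.f (nat_lit 627) (nat_lit 660) (nat_lit 4627) (.f (nat_lit 625) (nat_lit 593) (nat_lit 4592) (.f (nat_lit 626) (nat_lit 658) (nat_lit 5650) (.d (nat_lit 624) (nat_lit 591) (nat_lit 3663) (nat_lit 657) (nat_lit 4624)))))))) (.f (nat_lit 495) (nat_lit 463) (nat_lit 7631) (.d (nat_lit 467) (nat_lit 466) (nat_lit 2511) (nat_lit 468) (nat_lit 2512)))))))) (.a (.f (nat_lit 593) (nat_lit 625) (nat_lit 4592) (.f (nat_lit 594) (nat_lit 559) (nat_lit 3631) (.f (nat_lit 563) (nat_lit 564) (nat_lit 2608) (.f (nat_lit 562) (nat_lit 591) (nat_lit 2607) (.f (nat_lit 596) (nat_lit 561) (nat_lit 560) (.f (nat_lit 597) (nat_lit 598) (nat_lit 3634) (.d (nat_lit 629) (nat_lit 628) (nat_lit 593) (nat_lit 630) (nat_lit 594)))))))) (.a (.f (nat_lit 495) (nat_lit 463) (nat_lit 7631) (.f (nat_lit 593) (nat_lit 625) (nat_lit 4592) (.f (nat_lit 594) (nat_lit 559) (nat_lit 3631) (.f (nat_lit 563) (nat_lit 564) (nat_lit 2608) (.f (nat_lit 562) (nat_lit 591) (nat_lit 2607) (.f (nat_lit 561) (nat_lit 596) (nat_lit 560) (.f (nat_lit 531) (nat_lit 532) (nat_lit 2576) (.d (nat_lit 466) (nat_lit 467) (nat_lit 2511) (nat_lit 499) (nat_lit 7634))))))))) (.f (nat_lit 593) (nat_lit 625) (nat_lit 4592) (.f (nat_lit 594) (nat_lit 559) (nat_lit 3631) (.f (nat_lit 596) (nat_lit 561) (nat_lit 3632) (.d (nat_lit 628) (nat_lit 627) (nat_lit 592) (nat_lit 629) (nat_lit 593)))))))))))))) (.a (.f (nat_lit 495) (nat_lit 463) (nat_lit 7631) (.f (nat_lit 593) (nat_lit 625) (nat_lit 4592) (.f (nat_lit 530) (nat_lit 531) (nat_lit 495) (.f (nat_lit 466) (nat_lit 467) (nat_lit 2511) (.f (nat_lit 562) (nat_lit 561) (nat_lit 5585) (.f (nat_lit 595) (nat_lit 563) (nat_lit 4562) (.d (nat_lit 594) (nat_lit 559) (nat_lit 3631) (nat_lit 627) (nat_lit 4594)))))))) (.a (.f (nat_lit 495) (nat_lit 463) (nat_lit 7631) (.f (nat_lit 531) (nat_lit 530) (nat_lit 495) (.f (nat_lit 499) (nat_lit 532) (nat_lit 496) (.f (nat_lit 468) (nat_lit 467) (nat_lit 2512) (.f (nat_lit 500) (nat_lit 469) (nat_lit 2513) (.f (nat_lit 593) (nat_lit 625) (nat_lit 4592) (.f (nat_lit 595) (nat_lit 563) (nat_lit 6611) (.f (nat_lit 594) (nat_lit 559) (nat_lit 3631) (.f (nat_lit 596) (nat_lit 561) (nat_lit 3632) (.d (nat_lit 628) (nat_lit 627) (nat_lit 592) (nat_lit 629) (nat_lit 593))))))))))) (.p (nat_lit 595) (.a (.f (nat_lit 593) (nat_lit 625) (nat_lit 4592) (.f (nat_lit 594) (nat_lit 559) (nat_lit 3631) (.f (nat_lit 563) (nat_lit 564) (nat_lit 2608) (.f (nat_lit 562) (nat_lit 591) (nat_lit 2607) (.d (nat_lit 627) (nat_lit 530) (nat_lit 4594) (nat_lit 628) (nat_lit 592)))))) (.a (.f (nat_lit 495) (nat_lit 463) (nat_lit 7631) (.f (nat_lit 531) (nat_lit 530) (nat_lit 495) (.f (nat_lit 499) (nat_lit 532) (nat_lit 496) (.f (nat_lit 563) (nat_lit 466) (nat_lit 7634) (.f (nat_lit 593) (nat_lit 625) (nat_lit 4592) (.d (nat_lit 594) (nat_lit 564) (nat_lit 2608) (nat_lit 626) (nat_lit 5618))))))) (.a (.f (nat_lit 495) (nat_lit 463) (nat_lit 7631) (.f (nat_lit 531) (nat_lit 530) (nat_lit 495) (.f (nat_lit 499) (nat_lit 532) (nat_lit 496) (.f (nat_lit 563) (nat_lit 466) (nat_lit 7634) (.f (nat_lit 594) (nat_lit 626) (nat_lit 5618) (.d (nat_lit 593) (nat_lit 559) (nat_lit 3631) (nat_lit 564) (nat_lit 2608))))))) (.a (.f (nat_lit 495) (nat_lit 463) (nat_lit 7631) (.f (nat_lit 531) (nat_lit 530) (nat_lit 495) (.f (nat_lit 499) (nat_lit 532) (nat_lit 496) (.f (nat_lit 563) (nat_lit 466) (nat_lit 7634) (.f (nat_lit 626) (nat_lit 594) (nat_lit 5618) (.f (nat_lit 627) (nat_lit 658) (nat_lit 5650) (.d (nat_lit 628) (nat_lit 596) (nat_lit 4595) (nat_lit 660) (nat_lit 4627)))))))) (.a (.f (nat_lit 495) (nat_lit 463) (nat_lit 7631) (.f (nat_lit 531) (nat_lit 530) (nat_lit 495) (.f (nat_lit 499) (nat_lit 532) (nat_lit 496) (.f (nat_lit 563) (nat_lit 466) (nat_lit 7634) (.f (nat_lit 625) (nat_lit 593) (nat_lit 4592) (.f (nat_lit 624) (nat_lit 657) (nat_lit 4624) (.f (nat_lit 628) (nat_lit 596) (nat_lit 4595) (.f (nat_lit 627) (nat_lit 660) (nat_lit 4627) (.d (nat_lit 626) (nat_lit 591) (nat_lit 3663) (nat_lit 658) (nat_lit 5650)))))))))) (.f (nat_lit 593) (nat_lit 625) (nat_lit 4592) (.f (nat_lit 594) (nat_lit 559) (nat_lit 3631) (.f (nat_lit 596) (nat_lit 561) (nat_lit 3632) (.d (nat_lit 628) (nat_lit 627) (nat_lit 592) (nat_lit 629) (nat_lit 593)))))))))))))))))))) (.f (nat_lit 465) (nat_lit 497) (nat_lit 6608) (.f (nat_lit 464) (nat_lit 433) (nat_lit 6576) (.d (nat_lit 463) (nat_lit 431) (nat_lit 7599) (nat_lit 495) (nat_lit 7631)))))))) (.a (.p (nat_lit 496) (.a (.f (nat_lit 593) (nat_lit 625) (nat_lit 4592) (.f (nat_lit 591) (nat_lit 623) (nat_lit 5615) (.d (nat_lit 464) (nat_lit 559) (nat_lit 5583) (nat_lit 561) (nat_lit 4560)))) (.a (.f (nat_lit 593) (nat_lit 625) (nat_lit 4592) (.f (nat_lit 464) (nat_lit 561) (nat_lit 4560) (.d (nat_lit 465) (nat_lit 433) (nat_lit 6576) (nat_lit 497) (nat_lit 6608)))) (.a (.f (nat_lit 591) (nat_lit 623) (nat_lit 5615) (.f (nat_lit 593) (nat_lit 625) (nat_lit 4592) (.f (nat_lit 559) (nat_lit 464) (nat_lit 5583) (.d (nat_lit 594) (nat_lit 558) (nat_lit 3630) (nat_lit 595) (nat_lit 3631))))) (.a (.f (nat_lit 591) (nat_lit 623) (nat_lit 5615) (.f (nat_lit 464) (nat_lit 559) (nat_lit 5583) (.d (nat_lit 465) (nat_lit 433) (nat_lit 6576) (nat_lit 497) (nat_lit 6608)))) (.f (nat_lit 593) (nat_lit 625) (nat_lit 4592) (.p (nat_lit 558) (.a (.f (nat_lit 591) (nat_lit 623) (nat_lit 5615) (.d (nat_lit 559) (nat_lit 557) (nat_lit 557) (nat_lit 594) (nat_lit 3630))) (.a (.f (nat_lit 559) (nat_lit 557) (nat_lit 557) (.d (nat_lit 594) (nat_lit 561) (nat_lit 558) (nat_lit 591) (nat_lit 3630))) (.a (.f (nat_lit 591) (nat_lit 623) (nat_lit 5615) (.f (nat_lit 590) (nat_lit 557) (nat_lit 3629) (.d (nat_lit 561) (nat_lit 562) (nat_lit 2606) (nat_lit 589) (nat_lit 2605)))) (.a (.f (nat_lit 591) (nat_lit 623) (nat_lit 5615) (.f (nat_lit 594) (nat_lit 559) (nat_lit 3630) (.f (nat_lit 562) (nat_lit 563) (nat_lit 2607) (.f (nat_lit 561) (nat_lit 590) (nat_lit 2606) (.f (nat_lit 595) (nat_lit 596) (nat_lit 3632) (.d (nat_lit 627) (nat_lit 626) (nat_lit 591) (nat_lit 628) (nat_lit 592))))))) (.f (nat_lit 559) (nat_lit 557) (nat_lit 557) (.d (nat_lit 594) (nat_lit 561) (nat_lit 558) (nat_lit 595) (nat_lit 3631)))))))))))))) (.p (nat_lit 496) (.a (.f (nat_lit 591) (nat_lit 623) (nat_lit 5615) (.f (nat_lit 464) (nat_lit 559) (nat_lit 5583) (.d (nat_lit 465) (nat_lit 433) (nat_lit 6576) (nat_lit 497) (nat_lit 6608)))) (.a (.f (nat_lit 591) (nat_lit 623) (nat_lit 5615) (.f (nat_lit 464) (nat_lit 559) (nat_lit 5583) (.d (nat_lit 463) (nat_lit 431) (nat_lit 7599) (nat_lit 495) (nat_lit 7631)))) (.a (.p (nat_lit 562) (.a (.f (nat_lit 591) (nat_lit 623) (nat_lit 5615) (.f (nat_lit 561) (nat_lit 563) (nat_lit 1583) (.d (nat_lit 590) (nat_lit 559) (nat_lit 1582) (nat_lit 589) (nat_lit 2605)))) (.a (.p (nat_lit 594) (.a (.p (nat_lit 498) (.a (.f (nat_lit 497) (nat_lit 465) (nat_lit 6608) (.f (nat_lit 495) (nat_lit 463) (nat_lit 7631) (.f (nat_lit 530) (nat_lit 531) (nat_lit 495) (.d (nat_lit 467) (nat_lit 466) (nat_lit 2511) (nat_lit 499) (nat_lit 6610))))) (.a (.p (nat_lit 530) (.a (.f (nat_lit 595) (nat_lit 627) (nat_lit 4594) (.f (nat_lit 561) (nat_lit 559) (nat_lit 559) (.d (nat_lit 563) (nat_lit 466) (nat_lit 4562) (nat_lit 596) (nat_lit 560)))) (.a (.f (nat_lit 595) (nat_lit 627) (nat_lit 4594) (.f (nat_lit 466) (nat_lit 563) (nat_lit 4562) (.d (nat_lit 467) (nat_lit 435) (nat_lit 6578) (nat_lit 499) (nat_lit 6610)))) (.a (.f (nat_lit 499) (nat_lit 467) (nat_lit 6610) (.f (nat_lit 531) (nat_lit 626) (nat_lit 6642) (.f (nat_lit 561) (nat_lit 559) (nat_lit 2575) (.d (nat_lit 563) (nat_lit 532) (nat_lit 2576) (nat_lit 591) (nat_lit 1583))))) (.f (nat_lit 499) (nat_lit 467) (nat_lit 6610) (.f (nat_lit 626) (nat_lit 531) (nat_lit 6642) (.d (nat_lit 627) (nat_lit 595) (nat_lit 4594) (nat_lit 659) (nat_lit 4626)))))))) (.a (.f (nat_lit 497) (nat_lit 465) (nat_lit 6608) (.f (nat_lit 495) (nat_lit 463) (nat_lit 7631) (.f (nat_lit 467) (nat_lit 466) (nat_lit 2511) (.d (nat_lit 499) (nat_lit 468) (nat_lit 2512) (nat_lit 530) (nat_lit 6610))))) (.a (.f (nat_lit 497) (nat_lit 465) (nat_lit 6608) (.f (nat_lit 495) (nat_lit 463) (nat_lit 7631) (.f (nat_lit 467) (nat_lit 466) (nat_lit 2511) (.f (nat_lit 499) (nat_lit 468) (nat_lit 2512) (.d (nat_lit 531) (nat_lit 532) (nat_lit 496) (nat_lit 563) (nat_lit 5586)))))) (.a (.f (nat_lit 497) (nat_lit 465) (nat_lit 6608) (.f (nat_lit 495) (nat_lit 463) (nat_lit 7631) (.f (nat_lit 530) (nat_lit 531) (nat_lit 495) (.f (nat_lit 595) (nat_lit 627) (nat_lit 4594) (.d (nat_lit 466) (nat_lit 467) (nat_lit 2511) (nat_lit 563) (nat_lit 4562)))))) (.f (nat_lit 497) (nat_lit 465) (nat_lit 6608) (.f (nat_lit 495) (nat_lit 463) (nat_lit 7631) (.f (nat_lit 530) (nat_lit 531) (nat_lit 495) (.f (nat_lit 595) (nat_lit 627) (nat_lit 4594) (.f (nat_lit 561) (nat_lit 559) (nat_lit 559) (.d (nat_lit 563) (nat_lit 591) (nat_lit 1583) (nat_lit 596) (nat_lit 560))))))))))))) (.a (.p (nat_lit 561) (.a (.f (nat_lit 595) (nat_lit 559) (nat_lit 559) (.d (nat_lit 596) (nat_lit 563) (nat_lit 560) (nat_lit 597) (nat_lit 3633))) (.a (.f (nat_lit 563) (nat_lit 591) (nat_lit 1583) (.f (nat_lit 564) (nat_lit 593) (nat_lit 1584) (.d (nat_lit 532) (nat_lit 531) (nat_lit 2576) (nat_lit 533) (nat_lit 2577)))) (.f (nat_lit 559) (nat_lit 595) (nat_lit 559) (.f (nat_lit 558) (nat_lit 593) (nat_lit 558) (.d (nat_lit 590) (nat_lit 589) (nat_lit 1581) (nat_lit 591) (nat_lit 1582))))))) (.a s5229 (.a (.p (nat_lit 498) (.a (.f (nat_lit 497) (nat_lit 465) (nat_lit 6608) (.f (nat_lit 495) (nat_lit 463) (nat_lit 7631) (.f (nat_lit 530) (nat_lit 531) (nat_lit 495) (.d (nat_lit 467) (nat_lit 466) (nat_lit 2511) (nat_lit 499) (nat_lit 6610))))) (.a (.p (nat_lit 530) (.a (.f (nat_lit 595) (nat_lit 627) (nat_lit 4594) (.f (nat_lit 466) (nat_lit 563) (nat_lit 4562) (.d (nat_lit 467) (nat_lit 435) (nat_lit 6578) (nat_lit 499) (nat_lit 6610)))) (.a (.f (nat_lit 467) (nat_lit 499) (nat_lit 6610) (.f (nat_lit 466) (nat_lit 435) (nat_lit 6578) (.f (nat_lit 561) (nat_lit 593) (nat_lit 5585) (.f (nat_lit 563) (nat_lit 591) (nat_lit 1583) (.d (nat_lit 531) (nat_lit 434) (nat_lit 4530) (nat_lit 532) (nat_lit 2576)))))) (.a (.f (nat_lit 499) (nat_lit 467) (nat_lit 6610) (.f (nat_lit 626) (nat_lit 531) (nat_lit 6642) (.d (nat_lit 627) (nat_lit 595) (nat_lit 4594) (nat_lit 659) (nat_lit 4626)))) (.a (.f (nat_lit 595) (nat_lit 627) (nat_lit 4594) (.f (nat_lit 466) (nat_lit 563) (nat_lit 4562) (.f (nat_lit 435) (nat_lit 467) (nat_lit 6578) (.f (nat_lit 434) (nat_lit 403) (nat_lit 6546) (.d (nat_lit 433) (nat_lit 401) (nat_lit 7569) (nat_lit 465) (nat_lit 7601)))))) (.f (nat_lit 595) (nat_lit 627) (nat_lit 4594) (.f (nat_lit 563) (nat_lit 466) (nat_lit 4562) (.d (nat_lit 561) (nat_lit 591) (nat_lit 1583) (nat_lit 596) (nat_lit 560))))))))) (.a (.p (nat_lit 530) (.a (.f (nat_lit 595) (nat_lit 627) (nat_lit 4594) (.f (nat_lit 466) (nat_lit 563) (nat_lit 4562) (.d (nat_lit 467) (nat_lit 435) (nat_lit 6578) (nat_lit 499) (nat_lit 6610)))) (.a (.f (nat_lit 467) (nat_lit 499) (nat_lit 6610) (.f (nat_lit 466) (nat_lit 435) (nat_lit 6578) (.f (nat_lit 561) (nat_lit 593) (nat_lit 5585) (.f (nat_lit 563) (nat_lit 591) (nat_lit 1583) (.d (nat_lit 531) (nat_lit 434) (nat_lit 4530) (nat_lit 532) (nat_lit 2576)))))) (.a (.f (nat_lit 499) (nat_lit 467) (nat_lit 6610) (.f (nat_lit 626) (nat_lit 531) (nat_lit 6642) (.d (nat_lit 627) (nat_lit 595) (nat_lit 4594) (nat_lit 659) (nat_lit 4626)))) (.f (nat_lit 595) (nat_lit 627) (nat_lit 4594) (.f (nat_lit 563) (nat_lit 466) (nat_lit 4562) (.d (nat_lit 561) (nat_lit 591) (nat_lit 1583) (nat_lit 596) (nat_lit 560)))))))) (.a (.f (nat_lit 497) (nat_lit 465) (nat_lit 6608) (.f (nat_lit 495) (nat_lit 463) (nat_lit 7631) (.f (nat_lit 467) (nat_lit 466) (nat_lit 2511) (.d (nat_lit 499) (nat_lit 468) (nat_lit 2512) (nat_lit 530) (nat_lit 6610))))) (.a (.f (nat_lit 497) (nat_lit 465) (nat_lit 6608) (.f (nat_lit 495) (nat_lit 463) (nat_lit 7631) (.f (nat_lit 467) (nat_lit 466) (nat_lit 2511) (.f (nat_lit 499) (nat_lit 468) (nat_lit 2512) (.d (nat_lit 531) (nat_lit 532) (nat_lit 496) (nat_lit 563) (nat_lit 5586)))))) (.a (.f (nat_lit 497) (nat_lit 465) (nat_lit 6608) (.f (nat_lit 495) (nat_lit 463) (nat_lit 7631) (.f (nat_lit 530) (nat_lit 531) (nat_lit 495) (.f (nat_lit 595) (nat_lit 627) (nat_lit 4594) (.d (nat_lit 466) (nat_lit 467) (nat_lit 2511) (nat_lit 563) (nat_lit 4562)))))) (.a (.f (nat_lit 497) (nat_lit 465) (nat_lit 6608) (.f (nat_lit 495) (nat_lit 463) (nat_lit 7631) (.f (nat_lit 531) (nat_lit 530) (nat_lit 495) (.f (nat_lit 499) (nat_lit 532) (nat_lit 496) (.d (nat_lit 467) (nat_lit 468) (nat_lit 2512) (nat_lit 563) (nat_lit 5586)))))) (.f (nat_lit 497) (nat_lit 465) (nat_lit 6608) (.f (nat_lit 495) (nat_lit 463) (nat_lit 7631) (.f (nat_lit 530) (nat_lit 531) (nat_lit 495) (.f (nat_lit 595) (nat_lit 627) (nat_lit 4594) (.f (nat_lit 563) (nat_lit 466) (nat_lit 4562) (.d (nat_lit 561) (nat_lit 591) (nat_lit 1583) (nat_lit 596) (nat_lit 560))))))))))))))) (.a (.p (nat_lit 626) (.a (.p (nat_lit 530) (.a (.f (nat_lit 531) (nat_lit 499) (nat_lit 6642) (.f (nat_lit 561) (nat_lit 559) (nat_lit 2575) (.d (nat_lit 563) (nat_lit 532) (nat_lit 2576) (nat_lit 658) (nat_lit 6674)))) (.a (.f (nat_lit 531) (nat_lit 499) (nat_lit 6642) (.f (nat_lit 658) (nat_lit 563) (nat_lit 6674) (.d (nat_lit 659) (nat_lit 627) (nat_lit 4626) (nat_lit 691) (nat_lit 4658)))) (.a (.f (nat_lit 627) (nat_lit 659) (nat_lit 4626) (.f (nat_lit 591) (nat_lit 593) (nat_lit 591) (.f (nat_lit 561) (nat_lit 563) (nat_lit 1583) (.d (nat_lit 590) (nat_lit 559) (nat_lit 1582) (nat_lit 589) (nat_lit 2605))))) (.f (nat_lit 531) (nat_lit 499) (nat_lit 6642) (.f (nat_lit 497) (nat_lit 465) (nat_lit 6608) (.d (nat_lit 495) (nat_lit 463) (nat_lit 7631) (nat_lit 498) (nat_lit 495)))))))) (.a (.p (nat_lit 530) (.a (.f (nat_lit 531) (nat_lit 499) (nat_lit 6642) (.f (nat_lit 561) (nat_lit 559) (nat_lit 2575) (.d (nat_lit 563) (nat_lit 532) (nat_lit 2576) (nat_lit 658) (nat_lit 6674)))) (.a (.f (nat_lit 531) (nat_lit 499) (nat_lit 6642) (.f (nat_lit 658) (nat_lit 563) (nat_lit 6674) (.d (nat_lit 659) (nat_lit 627) (nat_lit 4626) (nat_lit 691) (nat_lit 4658)))) (.a (.f (nat_lit 627) (nat_lit 659) (nat_lit 4626) (.f (nat_lit 591) (nat_lit 593) (nat_lit 591) (.f (nat_lit 561) (nat_lit 563) (nat_lit 1583) (.d (nat_lit 590) (nat_lit 559) (nat_lit 1582) (nat_lit 589) (nat_lit 2605))))) (.f (nat_lit 531) (nat_lit 499) (nat_lit 6642) (.f (nat_lit 561) (nat_lit 559) (nat_lit 2575) (.f (nat_lit 659) (nat_lit 627) (nat_lit 4626) (.f (nat_lit 658) (nat_lit 691) (nat_lit 4658) (.f (nat_lit 689) (nat_lit 657) (nat_lit 5681) (.d (nat_lit 690) (nat_lit 593) (nat_lit 7729) (nat_lit 721) (nat_lit 5713))))))))))) (.a s5292 (.a (.p (nat_lit 658) (.a (.f (nat_lit 659) (nat_lit 691) (nat_lit 4658) (.f (nat_lit 627) (nat_lit 530) (nat_lit 4626) (.f (nat_lit 657) (nat_lit 689) (nat_lit 5681) (.d (nat_lit 628) (nat_lit 629) (nat_lit 1649) (nat_lit 656) (nat_lit 2672))))) (.a (.f (nat_lit 659) (nat_lit 691) (nat_lit 4658) (.f (nat_lit 627) (nat_lit 530) (nat_lit 4626) (.f (nat_lit 593) (nat_lit 591) (nat_lit 591) (.f (nat_lit 690) (nat_lit 561) (nat_lit 7729) (.f (nat_lit 722) (nat_lit 754) (nat_lit 6770) (.d (nat_lit 721) (nat_lit 689) (nat_lit 5713) (nat_lit 753) (nat_lit 5745))))))) (.a (.f (nat_lit 659) (nat_lit 691) (nat_lit 4658) (.f (nat_lit 627) (nat_lit 530) (nat_lit 4626) (.f (nat_lit 591) (nat_lit 593) (nat_lit 591) (.f (nat_lit 561) (nat_lit 563) (nat_lit 1583) (.d (nat_lit 590) (nat_lit 559) (nat_lit 1582) (nat_lit 589) (nat_lit 2605)))))) (.a (.f (nat_lit 691) (nat_lit 659) (nat_lit 4658) (.f (nat_lit 690) (nat_lit 723) (nat_lit 4690) (.d (nat_lit 689) (nat_lit 657) (nat_lit 5681) (nat_lit 721) (nat_lit 5713)))) (.f (nat_lit 689) (nat_lit 657) (nat_lit 5681) (.f (nat_lit 690) (nat_lit 721) (nat_lit 5713) (.f (nat_lit 593) (nat_lit 561) (nat_lit 7729) (.d (nat_lit 591) (nat_lit 563) (nat_lit 2607) (nat_lit 627) (nat_lit 591)))))))))) (.a (.p (nat_lit 658) (.a (.f (nat_lit 659) (nat_lit 691) (nat_lit 4658) (.f (nat_lit 627) (nat_lit 530) (nat_lit 4626) (.f (nat_lit 657) (nat_lit 689) (nat_lit 5681) (.d (nat_lit 628) (nat_lit 629) (nat_lit 1649) (nat_lit 656) (nat_lit 2672))))) (.a (.f (nat_lit 659) (nat_lit 691) (nat_lit 4658) (.f (nat_lit 627) (nat_lit 530) (nat_lit 4626) (.f (nat_lit 593) (nat_lit 591) (nat_lit 591) (.f (nat_lit 690) (nat_lit 561) (nat_lit 7729) (.f (nat_lit 722) (nat_lit 754) (nat_lit 6770) (.d (nat_lit 721) (nat_lit 689) (nat_lit 5713) (nat_lit 753) (nat_lit 5745))))))) (.a (.f (nat_lit 659) (nat_lit 691) (nat_lit 4658) (.f (nat_lit 530) (nat_lit 627) (nat_lit 4626) (.f (nat_lit 531) (nat_lit 499) (nat_lit 6642) (.f (nat_lit 497) (nat_lit 465) (nat_lit 6608) (.d (nat_lit 495) (nat_lit 463) (nat_lit 7631) (nat_lit 498) (nat_lit 495)))))) (.a (.f (nat_lit 691) (nat_lit 659) (nat_lit 4658) (.f (nat_lit 690) (nat_lit 723) (nat_lit 4690) (.d (nat_lit 689) (nat_lit 657) (nat_lit 5681) (nat_lit 721) (nat_lit 5713)))) (.a s5326 (.f (nat_lit 689) (nat_lit 657) (nat_lit 5681) (.f (nat_lit 690) (nat_lit 721) (nat_lit 5713) (.f (nat_lit 593) (nat_lit 561) (nat_lit 7729) (.f (nat_lit 627) (nat_lit 591) (nat_lit 591) (.f (nat_lit 530) (nat_lit 659) (nat_lit 4626) (.f (nat_lit 497) (nat_lit 465) (nat_lit 6608) (.f (nat_lit 495) (nat_lit 463) (nat_lit 7631) (.d (nat_lit 531) (nat_lit 498) (nat_lit 495) (nat_lit 499) (nat_lit 6642))))))))))))))) (.a (.p (nat_lit 658) (.a (.f (nat_lit 691) (nat_lit 659) (nat_lit 4658) (.f (nat_lit 690) (nat_lit 723) (nat_lit 4690) (.d (nat_lit 689) (nat_lit 657) (nat_lit 5681) (nat_lit 721) (nat_lit 5713)))) (.f (nat_lit 563) (nat_lit 531) (nat_lit 6674) (.d (nat_lit 591) (nat_lit 561) (nat_lit 1583) (nat_lit 593) (nat_lit 2607))))) (.a (.p (nat_lit 530) (.a (.f (nat_lit 531) (nat_lit 499) (nat_lit 6642) (.f (nat_lit 561) (nat_lit 559) (nat_lit 2575) (.d (nat_lit 532) (nat_lit 533) (nat_lit 1553) (nat_lit 563) (nat_lit 2576)))) (.a (.f (nat_lit 531) (nat_lit 499) (nat_lit 6642) (.f (nat_lit 497) (nat_lit 465) (nat_lit 6608) (.d (nat_lit 495) (nat_lit 463) (nat_lit 7631) (nat_lit 498) (nat_lit 495)))) (.f (nat_lit 627) (nat_lit 659) (nat_lit 4626) (.f (nat_lit 591) (nat_lit 593) (nat_lit 591) (.f (nat_lit 561) (nat_lit 563) (nat_lit 1583) (.d (nat_lit 590) (nat_lit 559) (nat_lit 1582) (nat_lit 589) (nat_lit 2605)))))))) (.p (nat_lit 658) (.a (.f (nat_lit 531) (nat_lit 563) (nat_lit 6674) (.f (nat_lit 497) (nat_lit 465) (nat_lit 6608) (.f (nat_lit 495) (nat_lit 463) (nat_lit 7631) (.d (nat_lit 530) (nat_lit 498) (nat_lit 495) (nat_lit 499) (nat_lit 6642))))) (.a (.f (nat_lit 689) (nat_lit 657) (nat_lit 5681) (.f (nat_lit 690) (nat_lit 721) (nat_lit 5713) (.f (nat_lit 593) (nat_lit 561) (nat_lit 7729) (.d (nat_lit 591) (nat_lit 563) (nat_lit 2607) (nat_lit 627) (nat_lit 591))))) s5326))))))))))) (.a (.p (nat_lit 561) (.a (.f (nat_lit 595) (nat_lit 559) (nat_lit 559) (.d (nat_lit 596) (nat_lit 563) (nat_lit 560) (nat_lit 597) (nat_lit 3633))) (.a (.f (nat_lit 563) (nat_lit 591) (nat_lit 1583) (.f (nat_lit 595) (nat_lit 596) (nat_lit 560) (.f (nat_lit 564) (nat_lit 593) (nat_lit 1584) (.f (nat_lit 565) (nat_lit 566) (nat_lit 1586) (.d (nat_lit 533) (nat_lit 532) (nat_lit 2577) (nat_lit 534) (nat_lit 2578)))))) (.a (.f (nat_lit 591) (nat_lit 563) (nat_lit 1583) (.d (nat_lit 590) (nat_lit 559) (nat_lit 1582) (nat_lit 589) (nat_lit 2605))) (.f (nat_lit 559) (nat_lit 595) (nat_lit 559) (.f (nat_lit 558) (nat_lit 593) (nat_lit 558) (.d (nat_lit 590) (nat_lit 589) (nat_lit 1581) (nat_lit 591) (nat_lit 1582)))))))) (.a (.p (nat_lit 498) (.a (.f (nat_lit 497) (nat_lit 465) (nat_lit 6608) (.f (nat_lit 495) (nat_lit 463) (nat_lit 7631) (.f (nat_lit 530) (nat_lit 531) (nat_lit 495) (.d (nat_lit 467) (nat_lit 466) (nat_lit 2511) (nat_lit 499) (nat_lit 6610))))) (.a (.p (nat_lit 530) (.a (.f (nat_lit 595) (nat_lit 627) (nat_lit 4594) (.f (nat_lit 561) (nat_lit 559) (nat_lit 559) (.d (nat_lit 563) (nat_lit 466) (nat_lit 4562) (nat_lit 596) (nat_lit 560)))) (.a (.f (nat_lit 595) (nat_lit 627) (nat_lit 4594) (.f (nat_lit 466) (nat_lit 563) (nat_lit 4562) (.d (nat_lit 467) (nat_lit 435) (nat_lit 6578) (nat_lit 499) (nat_lit 6610)))) (.a (.f (nat_lit 499) (nat_lit 467) (nat_lit 6610) (.f (nat_lit 531) (nat_lit 626) (nat_lit 6642) (.f (nat_lit 561) (nat_lit 559) (nat_lit 2575) (.d (nat_lit 532) (nat_lit 533) (nat_lit 1553) (nat_lit 563) (nat_lit 2576))))) (.f (nat_lit 499) (nat_lit 467) (nat_lit 6610) (.f (nat_lit 626) (nat_lit 531) (nat_lit 6642) (.d (nat_lit 627) (nat_lit 595) (nat_lit 4594) (nat_lit 659) (nat_lit 4626)))))))) (.a (.f (nat_lit 497) (nat_lit 465) (nat_lit 6608) (.f (nat_lit 495) (nat_lit 463) (nat_lit 7631) (.f (nat_lit 467) (nat_lit 466) (nat_lit 2511) (.d (nat_lit 499) (nat_lit 468) (nat_lit 2512) (nat_lit 530) (nat_lit 6610))))) (.a (.f (nat_lit 497) (nat_lit 465) (nat_lit 6608) (.f (nat_lit 495) (nat_lit 463) (nat_lit 7631) (.f (nat_lit 467) (nat_lit 466) (nat_lit 2511) (.f (nat_lit 499) (nat_lit 468) (nat_lit 2512) (.d (nat_lit 531) (nat_lit 532) (nat_lit 496) (nat_lit 563) (nat_lit 5586)))))) (.a (.f (nat_lit 497) (nat_lit 465) (nat_lit 6608) (.f (nat_lit 495) (nat_lit 463) (nat_lit 7631) (.f (nat_lit 530) (nat_lit 531) (nat_lit 495) (.f (nat_lit 595) (nat_lit 627) (nat_lit 4594) (.d (nat_lit 466) (nat_lit 467) (nat_lit 2511) (nat_lit 563) (nat_lit 4562)))))) (.f (nat_lit 497) (nat_lit 465) (nat_lit 6608) (.f (nat_lit 495) (nat_lit 463) (nat_lit 7631) (.f (nat_lit 530) (nat_lit 531) (nat_lit 495) (.f (nat_lit 595) (nat_lit 627) (nat_lit 4594) (.f (nat_lit 561) (nat_lit 559) (nat_lit 559) (.d (nat_lit 596) (nat_lit 563) (nat_lit 560) (nat_lit 597) (nat_lit 3633))))))))))))) (.a (.p (nat_lit 498) (.a (.f (nat_lit 497) (nat_lit 465) (nat_lit 6608) (.f (nat_lit 495) (nat_lit 463) (nat_lit 7631) (.f (nat_lit 530) (nat_lit 531) (nat_lit 495) (.d (nat_lit 467) (nat_lit 466) (nat_lit 2511) (nat_lit 499) (nat_lit 6610))))) (.a (.p (nat_lit 530) (.a (.f (nat_lit 499) (nat_lit 467) (nat_lit 6610) (.f (nat_lit 626) (nat_lit 531) (nat_lit 6642) (.d (nat_lit 627) (nat_lit 595) (nat_lit 4594) (nat_lit 659) (nat_lit 4626)))) (.a (.f (nat_lit 499) (nat_lit 467) (nat_lit 6610) (.f (nat_lit 531) (nat_lit 626) (nat_lit 6642) (.f (nat_lit 561) (nat_lit 559) (nat_lit 2575) (.f (nat_lit 466) (nat_lit 593) (nat_lit 5585) (.f (nat_lit 434) (nat_lit 402) (nat_lit 4498) (.d (nat_lit 433) (nat_lit 401) (nat_lit 7569) (nat_lit 465) (nat_lit 7601))))))) (.f (nat_lit 595) (nat_lit 627) (nat_lit 4594) (.d (nat_lit 559) (nat_lit 561) (nat_lit 559) (nat_lit 593) (nat_lit 3631)))))) (.a (.p (nat_lit 530) (.a (.f (nat_lit 499) (nat_lit 467) (nat_lit 6610) (.f (nat_lit 626) (nat_lit 531) (nat_lit 6642) (.d (nat_lit 627) (nat_lit 595) (nat_lit 4594) (nat_lit 659) (nat_lit 4626)))) (.a (.f (nat_lit 499) (nat_lit 467) (nat_lit 6610) (.f (nat_lit 531) (nat_lit 626) (nat_lit 6642) (.d (nat_lit 495) (nat_lit 463) (nat_lit 7631) (nat_lit 497) (nat_lit 495)))) (.f (nat_lit 595) (nat_lit 627) (nat_lit 4594) (.d (nat_lit 559) (nat_lit 561) (nat_lit 559) (nat_lit 593) (nat_lit 3631)))))) (.a (.f (nat_lit 497) (nat_lit 465) (nat_lit 6608) (.f (nat_lit 495) (nat_lit 463) (nat_lit 7631) (.f (nat_lit 467) (nat_lit 466) (nat_lit 2511) (.d (nat_lit 499) (nat_lit 468) (nat_lit 2512) (nat_lit 530) (nat_lit 6610))))) (.a (.p (nat_lit 595) (.a (.d (nat_lit 559) (nat_lit 561) (nat_lit 559) (nat_lit 593) (nat_lit 3631)) (.a (.f (nat_lit 593) (nat_lit 559) (nat_lit 3631) (.f (nat_lit 497) (nat_lit 465) (nat_lit 6608) (.f (nat_lit 495) (nat_lit 463) (nat_lit 7631) (.f (nat_lit 628) (nat_lit 627) (nat_lit 592) (.f (nat_lit 596) (nat_lit 629) (nat_lit 593) (.f (nat_lit 565) (nat_lit 564) (nat_lit 2609) (.f (nat_lit 597) (nat_lit 566) (nat_lit 2610) (.f (nat_lit 467) (nat_lit 466) (nat_lit 2511) (.f (nat_lit 499) (nat_lit 468) (nat_lit 2512) (.f (nat_lit 533) (nat_lit 501) (nat_lit 5620) (.d (nat_lit 532) (nat_lit 500) (nat_lit 497) (nat_lit 531) (nat_lit 496)))))))))))) (.a (.f (nat_lit 497) (nat_lit 465) (nat_lit 6608) (.f (nat_lit 495) (nat_lit 463) (nat_lit 7631) (.f (nat_lit 467) (nat_lit 466) (nat_lit 2511) (.f (nat_lit 499) (nat_lit 468) (nat_lit 2512) (.f (nat_lit 532) (nat_lit 531) (nat_lit 496) (.f (nat_lit 500) (nat_lit 533) (nat_lit 497) (.f (nat_lit 596) (nat_lit 564) (nat_lit 7635) (.d (nat_lit 561) (nat_lit 593) (nat_lit 3632) (nat_lit 597) (nat_lit 3633))))))))) (.f (nat_lit 497) (nat_lit 465) (nat_lit 6608) (.f (nat_lit 495) (nat_lit 463) (nat_lit 7631) (.f (nat_lit 561) (nat_lit 559) (nat_lit 559) (.f (nat_lit 467) (nat_lit 466) (nat_lit 2511) (.f (nat_lit 499) (nat_lit 468) (nat_lit 2512) (.f (nat_lit 532) (nat_lit 531) (nat_lit 496) (.f (nat_lit 500) (nat_lit 533) (nat_lit 497) (.d (nat_lit 596) (nat_lit 564) (nat_lit 7635) (nat_lit 597) (nat_lit 3633))))))))))))) (.f (nat_lit 497) (nat_lit 465) (nat_lit 6608) (.f (nat_lit 495) (nat_lit 463) (nat_lit 7631) (.f (nat_lit 530) (nat_lit 531) (nat_lit 495) (.f (nat_lit 595) (nat_lit 627) (nat_lit 4594) (.d (nat_lit 559) (nat_lit 561) (nat_lit 559) (nat_lit 593) (nat_lit 3631)))))))))))) (.p (nat_lit 561) (.a (.f (nat_lit 595) (nat_lit 559) (nat_lit 559) (.d (nat_lit 596) (nat_lit 563) (nat_lit 560) (nat_lit 597) (nat_lit 3633))) (.a (.f (nat_lit 563) (nat_lit 591) (nat_lit 1583) (.f (nat_lit 595) (nat_lit 596) (nat_lit 560) (.f (nat_lit 593) (nat_lit 564) (nat_lit 1584) (.f (nat_lit 627) (nat_lit 628) (nat_lit 592) (.d (nat_lit 530) (nat_lit 498) (nat_lit 4594) (nat_lit 659) (nat_lit 7698)))))) (.a (.f (nat_lit 591) (nat_lit 563) (nat_lit 1583) (.d (nat_lit 590) (nat_lit 559) (nat_lit 1582) (nat_lit 589) (nat_lit 2605))) (.f (nat_lit 559) (nat_lit 595) (nat_lit 559) (.f (nat_lit 558) (nat_lit 593) (nat_lit 558) (.d (nat_lit 590) (nat_lit 589) (nat_lit 1581) (nat_lit 591) (nat_lit 1582))))))))))))))))) (.a (.p (nat_lit 594) (.a (.f (nat_lit 591) (nat_lit 623) (nat_lit 5615) (.f (nat_lit 593) (nat_lit 563) (nat_lit 2607) (.d (nat_lit 559) (nat_lit 558) (nat_lit 3630) (nat_lit 595) (nat_lit 3631)))) (.a s5229 (.a (.p (nat_lit 498) (.a (.f (nat_lit 497) (nat_lit 465) (nat_lit 6608) (.f (nat_lit 495) (nat_lit 463) (nat_lit 7631) (.f (nat_lit 530) (nat_lit 531) (nat_lit 495) (.d (nat_lit 467) (nat_lit 466) (nat_lit 2511) (nat_lit 499) (nat_lit 6610))))) (.a (.f (nat_lit 591) (nat_lit 623) (nat_lit 5615) (.f (nat_lit 593) (nat_lit 563) (nat_lit 2607) (.f (nat_lit 627) (nat_lit 626) (nat_lit 591) (.d (nat_lit 595) (nat_lit 530) (nat_lit 4594) (nat_lit 628) (nat_lit 592))))) (.f (nat_lit 497) (nat_lit 465) (nat_lit 6608) (.f (nat_lit 495) (nat_lit 463) (nat_lit 7631) (.f (nat_lit 467) (nat_lit 466) (nat_lit 2511) (.f (nat_lit 499) (nat_lit 468) (nat_lit 2512) (.d (nat_lit 531) (nat_lit 532) (nat_lit 496) (nat_lit 563) (nat_lit 5586))))))))) (.a (.p (nat_lit 498) (.a (.f (nat_lit 497) (nat_lit 465) (nat_lit 6608) (.f (nat_lit 495) (nat_lit 463) (nat_lit 7631) (.f (nat_lit 530) (nat_lit 531) (nat_lit 495) (.d (nat_lit 467) (nat_lit 466) (nat_lit 2511) (nat_lit 499) (nat_lit 6610))))) (.a (.p (nat_lit 530) (.a (.f (nat_lit 595) (nat_lit 627) (nat_lit 4594) (.f (nat_lit 466) (nat_lit 563) (nat_lit 4562) (.d (nat_lit 467) (nat_lit 435) (nat_lit 6578) (nat_lit 499) (nat_lit 6610)))) (.a (.f (nat_lit 499) (nat_lit 467) (nat_lit 6610) (.f (nat_lit 626) (nat_lit 531) (nat_lit 6642) (.f (nat_lit 623) (nat_lit 591) (nat_lit 5615) (.f (nat_lit 659) (nat_lit 627) (nat_lit 4626) (.f (nat_lit 658) (nat_lit 691) (nat_lit 4658) (.f (nat_lit 657) (nat_lit 689) (nat_lit 5681) (.d (nat_lit 624) (nat_lit 655) (nat_lit 5647) (nat_lit 656) (nat_lit 3695)))))))) (.a (.f (nat_lit 467) (nat_lit 499) (nat_lit 6610) (.f (nat_lit 466) (nat_lit 435) (nat_lit 6578) (.f (nat_lit 433) (nat_lit 465) (nat_lit 7601) (.f (nat_lit 434) (nat_lit 401) (nat_lit 7569) (.d (nat_lit 563) (nat_lit 531) (nat_lit 4530) (nat_lit 595) (nat_lit 4562)))))) (.a (.f (nat_lit 595) (nat_lit 627) (nat_lit 4594) (.f (nat_lit 466) (nat_lit 563) (nat_lit 4562) (.f (nat_lit 435) (nat_lit 467) (nat_lit 6578) (.f (nat_lit 434) (nat_lit 403) (nat_lit 6546) (.d (nat_lit 433) (nat_lit 401) (nat_lit 7569) (nat_lit 465) (nat_lit 7601)))))) (.f (nat_lit 627) (nat_lit 595) (nat_lit 4594) (.f (nat_lit 626) (nat_lit 659) (nat_lit 4626) (.f (nat_lit 623) (nat_lit 591) (nat_lit 5615) (.f (nat_lit 531) (nat_lit 499) (nat_lit 6642) (.f (nat_lit 658) (nat_lit 563) (nat_lit 6674) (.f (nat_lit 657) (nat_lit 689) (nat_lit 5681) (.d (nat_lit 655) (nat_lit 624) (nat_lit 5647) (nat_lit 656) (nat_lit 2671))))))))))))) (.a (.p (nat_lit 530) (.a (.f (nat_lit 595) (nat_lit 627) (nat_lit 4594) (.f (nat_lit 466) (nat_lit 563) (nat_lit 4562) (.d (nat_lit 467) (nat_lit 435) (nat_lit 6578) (nat_lit 499) (nat_lit 6610)))) (.a (.f (nat_lit 499) (nat_lit 467) (nat_lit 6610) (.f (nat_lit 531) (nat_lit 626) (nat_lit 6642) (.d (nat_lit 495) (nat_lit 463) (nat_lit 7631) (nat_lit 497) (nat_lit 495)))) (.a (.f (nat_lit 495) (nat_lit 463) (nat_lit 7631) (.f (nat_lit 497) (nat_lit 531) (nat_lit 495) (.f (nat_lit 466) (nat_lit 467) (nat_lit 2511) (.d (nat_lit 595) (nat_lit 563) (nat_lit 4562) (nat_lit 627) (nat_lit 4594))))) (.f (nat_lit 627) (nat_lit 595) (nat_lit 4594) (.f (nat_lit 626) (nat_lit 659) (nat_lit 4626) (.f (nat_lit 623) (nat_lit 591) (nat_lit 5615) (.f (nat_lit 531) (nat_lit 499) (nat_lit 6642) (.f (nat_lit 658) (nat_lit 563) (nat_lit 6674) (.f (nat_lit 657) (nat_lit 689) (nat_lit 5681) (.d (nat_lit 655) (nat_lit 624) (nat_lit 5647) (nat_lit 656) (nat_lit 2671)))))))))))) (.a (.f (nat_lit 497) (nat_lit 465) (nat_lit 6608) (.f (nat_lit 495) (nat_lit 463) (nat_lit 7631) (.f (nat_lit 467) (nat_lit 466) (nat_lit 2511) (.d (nat_lit 499) (nat_lit 468) (nat_lit 2512) (nat_lit 530) (nat_lit 6610))))) (.a (.f (nat_lit 497) (nat_lit 465) (nat_lit 6608) (.f (nat_lit 495) (nat_lit 463) (nat_lit 7631) (.f (nat_lit 467) (nat_lit 466) (nat_lit 2511) (.f (nat_lit 499) (nat_lit 468) (nat_lit 2512) (.d (nat_lit 531) (nat_lit 532) (nat_lit 496) (nat_lit 563) (nat_lit 5586)))))) (.a (.f (nat_lit 497) (nat_lit 465) (nat_lit 6608) (.f (nat_lit 495) (nat_lit 463) (nat_lit 7631) (.f (nat_lit 530) (nat_lit 531) (nat_lit 495) (.f (nat_lit 595) (nat_lit 627) (nat_lit 4594) (.d (nat_lit 466) (nat_lit 467) (nat_lit 2511) (nat_lit 563) (nat_lit 4562)))))) (.a (.f (nat_lit 497) (nat_lit 465) (nat_lit 6608) (.f (nat_lit 495) (nat_lit 463) (nat_lit 7631) (.f (nat_lit 531) (nat_lit 530) (nat_lit 495) (.f (nat_lit 499) (nat_lit 532) (nat_lit 496) (.d (nat_lit 467) (nat_lit 468) (nat_lit 2512) (nat_lit 563) (nat_lit 5586)))))) (.p (nat_lit 530) (.a (.f (nat_lit 627) (nat_lit 595) (nat_lit 4594) (.f (nat_lit 626) (nat_lit 659) (nat_lit 4626) (.f (nat_lit 623) (nat_lit 591) (nat_lit 5615) (.f (nat_lit 531) (nat_lit 499) (nat_lit 6642) (.f (nat_lit 658) (nat_lit 563) (nat_lit 6674) (.f (nat_lit 657) (nat_lit 689) (nat_lit 5681) (.d (nat_lit 655) (nat_lit 624) (nat_lit 5647) (nat_lit 656) (nat_lit 2671)))))))) (.a (.f (nat_lit 497) (nat_lit 465) (nat_lit 7633) (.d (nat_lit 495) (nat_lit 463) (nat_lit 7631) (nat_lit 531) (nat_lit 495))) (.f (nat_lit 465) (nat_lit 497) (nat_lit 6608) (.f (nat_lit 466) (nat_lit 433) (nat_lit 7601) (.d (nat_lit 595) (nat_lit 563) (nat_lit 4562) (nat_lit 627) (nat_lit 4594))))))))))))))) (.a (.p (nat_lit 626) (.a s5292 (.a (.f (nat_lit 591) (nat_lit 623) (nat_lit 5615) (.d (nat_lit 593) (nat_lit 563) (nat_lit 2607) (nat_lit 627) (nat_lit 591))) (.a (.f (nat_lit 591) (nat_lit 623) (nat_lit 5615) (.f (nat_lit 627) (nat_lit 593) (nat_lit 591) (.f (nat_lit 659) (nat_lit 530) (nat_lit 4626) (.d (nat_lit 691) (nat_lit 658) (nat_lit 4658) (nat_lit 723) (nat_lit 7762))))) (.f (nat_lit 591) (nat_lit 623) (nat_lit 5615) (.f (nat_lit 563) (nat_lit 593) (nat_lit 2607) (.f (nat_lit 658) (nat_lit 531) (nat_lit 6674) (.f (nat_lit 689) (nat_lit 657) (nat_lit 5681) (.f (nat_lit 690) (nat_lit 721) (nat_lit 5713) (.d (nat_lit 691) (nat_lit 659) (nat_lit 4658) (nat_lit 723) (nat_lit 4690))))))))))) (.a (.p (nat_lit 498) (.a (.f (nat_lit 497) (nat_lit 465) (nat_lit 6608) (.f (nat_lit 495) (nat_lit 463) (nat_lit 7631) (.f (nat_lit 530) (nat_lit 531) (nat_lit 495) (.d (nat_lit 467) (nat_lit 466) (nat_lit 2511) (nat_lit 499) (nat_lit 6610))))) (.a (.p (nat_lit 595) (.a (.f (nat_lit 593) (nat_lit 559) (nat_lit 3631) (.d (nat_lit 627) (nat_lit 530) (nat_lit 4594) (nat_lit 628) (nat_lit 592))) (.a (.f (nat_lit 530) (nat_lit 627) (nat_lit 4594) (.f (nat_lit 466) (nat_lit 563) (nat_lit 4562) (.d (nat_lit 467) (nat_lit 435) (nat_lit 6578) (nat_lit 499) (nat_lit 6610)))) (.a (.f (nat_lit 593) (nat_lit 559) (nat_lit 3631) (.f (nat_lit 563) (nat_lit 564) (nat_lit 2608) (.f (nat_lit 627) (nat_lit 628) (nat_lit 592) (.f (nat_lit 659) (nat_lit 691) (nat_lit 7730) (.f (nat_lit 658) (nat_lit 690) (nat_lit 5682) (.f (nat_lit 531) (nat_lit 626) (nat_lit 5650) (.d (nat_lit 499) (nat_lit 466) (nat_lit 7634) (nat_lit 467) (nat_lit 5586)))))))) (.f (nat_lit 593) (nat_lit 559) (nat_lit 3631) (.f (nat_lit 563) (nat_lit 564) (nat_lit 2608) (.f (nat_lit 530) (nat_lit 466) (nat_lit 4562) (.f (nat_lit 499) (nat_lit 467) (nat_lit 6610) (.f (nat_lit 531) (nat_lit 626) (nat_lit 5618) (.f (nat_lit 596) (nat_lit 628) (nat_lit 4595) (.f (nat_lit 597) (nat_lit 598) (nat_lit 3634) (.f (nat_lit 500) (nat_lit 468) (nat_lit 6611) (.f (nat_lit 501) (nat_lit 502) (nat_lit 1522) (.f (nat_lit 533) (nat_lit 534) (nat_lit 498) (.f (nat_lit 565) (nat_lit 566) (nat_lit 2610) (.d (nat_lit 629) (nat_lit 532) (nat_lit 7668) (nat_lit 630) (nat_lit 594))))))))))))))))) (.a (.f (nat_lit 497) (nat_lit 465) (nat_lit 6608) (.f (nat_lit 495) (nat_lit 463) (nat_lit 7631) (.f (nat_lit 467) (nat_lit 466) (nat_lit 2511) (.d (nat_lit 499) (nat_lit 468) (nat_lit 2512) (nat_lit 530) (nat_lit 6610))))) (.a (.f (nat_lit 497) (nat_lit 465) (nat_lit 6608) (.f (nat_lit 495) (nat_lit 463) (nat_lit 7631) (.f (nat_lit 467) (nat_lit 466) (nat_lit 2511) (.f (nat_lit 499) (nat_lit 468) (nat_lit 2512) (.d (nat_lit 531) (nat_lit 532) (nat_lit 496) (nat_lit 563) (nat_lit 5586)))))) (.a (.f (nat_lit 497) (nat_lit 465) (nat_lit 6608) (.f (nat_lit 495) (nat_lit 463) (nat_lit 7631) (.f (nat_lit 530) (nat_lit 531) (nat_lit 495) (.f (nat_lit 595) (nat_lit 627) (nat_lit 4594) (.d (nat_lit 466) (nat_lit 467) (nat_lit 2511) (nat_lit 563) (nat_lit 4562)))))) (.a (.f (nat_lit 497) (nat_lit 465) (nat_lit 6608) (.f (nat_lit 495) (nat_lit 463) (nat_lit 7631) (.f (nat_lit 531) (nat_lit 530) (nat_lit 495) (.f (nat_lit 499) (nat_lit 532) (nat_lit 496) (.d (nat_lit 467) (nat_lit 468) (nat_lit 2512) (nat_lit 563) (nat_lit 5586)))))) (.f (nat_lit 497) (nat_lit 465) (nat_lit 6608) (.f (nat_lit 495) (nat_lit 463) (nat_lit 7631) (.f (nat_lit 530) (nat_lit 531) (nat_lit 495) (.f (nat_lit 595) (nat_lit 627) (nat_lit 4594) (.f (nat_lit 593) (nat_lit 559) (nat_lit 3631) (.d (nat_lit 563) (nat_lit 466) (nat_lit 4562) (nat_lit 564) (nat_lit 2608)))))))))))))) (.p (nat_lit 494) (.a (.f (nat_lit 495) (nat_lit 463) (nat_lit 7631) (.f (nat_lit 497) (nat_lit 465) (nat_lit 6608) (.f (nat_lit 461) (nat_lit 462) (nat_lit 3533) (.f (nat_lit 493) (nat_lit 460) (nat_lit 3532) (.d (nat_lit 525) (nat_lit 524) (nat_lit 1516) (nat_lit 526) (nat_lit 1517)))))) (.a (.p (nat_lit 593) (.a (.f (nat_lit 595) (nat_lit 559) (nat_lit 3631) (.f (nat_lit 627) (nat_lit 628) (nat_lit 592) (.f (nat_lit 626) (nat_lit 591) (nat_lit 591) (.d (nat_lit 530) (nat_lit 498) (nat_lit 4594) (nat_lit 659) (nat_lit 4626))))) (.a (.f (nat_lit 623) (nat_lit 591) (nat_lit 5615) (.d (nat_lit 624) (nat_lit 595) (nat_lit 1615) (nat_lit 655) (nat_lit 5647))) (.a (.f (nat_lit 591) (nat_lit 623) (nat_lit 5615) (.f (nat_lit 558) (nat_lit 559) (nat_lit 3630) (.f (nat_lit 590) (nat_lit 557) (nat_lit 3629) (.f (nat_lit 621) (nat_lit 622) (nat_lit 1613) (.d (nat_lit 589) (nat_lit 526) (nat_lit 5613) (nat_lit 620) (nat_lit 1612)))))) (.f (nat_lit 595) (nat_lit 559) (nat_lit 3631) (.f (nat_lit 627) (nat_lit 628) (nat_lit 592) (.f (nat_lit 659) (nat_lit 691) (nat_lit 7730) (.d (nat_lit 530) (nat_lit 498) (nat_lit 4594) (nat_lit 626) (nat_lit 4626))))))))) (.p (nat_lit 590) (.a (.f (nat_lit 591) (nat_lit 623) (nat_lit 5615) (.f (nat_lit 495) (nat_lit 463) (nat_lit 7631) (.f (nat_lit 497) (nat_lit 465) (nat_lit 6608) (.f (nat_lit 461) (nat_lit 462) (nat_lit 3533) (.f (nat_lit 493) (nat_lit 460) (nat_lit 3532) (.f (nat_lit 525) (nat_lit 524) (nat_lit 1516) (.f (nat_lit 557) (nat_lit 558) (nat_lit 4557) (.d (nat_lit 556) (nat_lit 588) (nat_lit 5580) (nat_lit 589) (nat_lit 3628))))))))) (.a (.p (nat_lit 593) (.a (.f (nat_lit 591) (nat_lit 623) (nat_lit 5615) (.d (nat_lit 559) (nat_lit 558) (nat_lit 3630) (nat_lit 595) (nat_lit 3631))) (.a (.f (nat_lit 595) (nat_lit 559) (nat_lit 3631) (.f (nat_lit 627) (nat_lit 628) (nat_lit 592) (.f (nat_lit 626) (nat_lit 591) (nat_lit 591) (.d (nat_lit 530) (nat_lit 498) (nat_lit 4594) (nat_lit 659) (nat_lit 4626))))) (.a (.f (nat_lit 591) (nat_lit 623) (nat_lit 5615) (.f (nat_lit 557) (nat_lit 558) (nat_lit 3629) (.f (nat_lit 589) (nat_lit 556) (nat_lit 3628) (.d (nat_lit 621) (nat_lit 620) (nat_lit 1612) (nat_lit 622) (nat_lit 1613))))) (.f (nat_lit 595) (nat_lit 559) (nat_lit 3631) (.f (nat_lit 627) (nat_lit 628) (nat_lit 592) (.f (nat_lit 659) (nat_lit 691) (nat_lit 7730) (.d (nat_lit 530) (nat_lit 498) (nat_lit 4594) (nat_lit 626) (nat_lit 4626))))))))) (.a (.f (nat_lit 495) (nat_lit 463) (nat_lit 7631) (.f (nat_lit 497) (nat_lit 465) (nat_lit 6608) (.f (nat_lit 461) (nat_lit 462) (nat_lit 3533) (.f (nat_lit 493) (nat_lit 460) (nat_lit 3532) (.f (nat_lit 525) (nat_lit 524) (nat_lit 1516) (.f (nat_lit 557) (nat_lit 558) (nat_lit 4557) (.f (nat_lit 589) (nat_lit 622) (nat_lit 4589) (.d (nat_lit 556) (nat_lit 588) (nat_lit 5580) (nat_lit 591) (nat_lit 3628))))))))) (.a (.f (nat_lit 591) (nat_lit 623) (nat_lit 5615) (.f (nat_lit 495) (nat_lit 463) (nat_lit 7631) (.f (nat_lit 497) (nat_lit 465) (nat_lit 6608) (.f (nat_lit 461) (nat_lit 462) (nat_lit 3533) (.f (nat_lit 493) (nat_lit 460) (nat_lit 3532) (.f (nat_lit 524) (nat_lit 525) (nat_lit 1516) (.f (nat_lit 492) (nat_lit 523) (nat_lit 1515) (.f (nat_lit 588) (nat_lit 556) (nat_lit 6604) (.f (nat_lit 589) (nat_lit 559) (nat_lit 2604) (.d (nat_lit 620) (nat_lit 619) (nat_lit 1611) (nat_lit 621) (nat_lit 1612))))))))))) (.a (.f (nat_lit 495) (nat_lit 463) (nat_lit 7631) (.f (nat_lit 497) (nat_lit 465) (nat_lit 6608) (.f (nat_lit 461) (nat_lit 462) (nat_lit 3533) (.f (nat_lit 493) (nat_lit 460) (nat_lit 3532) (.f (nat_lit 525) (nat_lit 524) (nat_lit 1516) (.f (nat_lit 557) (nat_lit 558) (nat_lit 4557) (.f (nat_lit 589) (nat_lit 622) (nat_lit 4589) (.d (nat_lit 588) (nat_lit 556) (nat_lit 5580) (nat_lit 620) (nat_lit 5612))))))))) (.p (nat_lit 593) (.a (.f (nat_lit 591) (nat_lit 623) (nat_lit 5615) (.d (nat_lit 559) (nat_lit 558) (nat_lit 3630) (nat_lit 595) (nat_lit 3631))) (.a (.f (nat_lit 595) (nat_lit 559) (nat_lit 3631) (.f (nat_lit 627) (nat_lit 628) (nat_lit 592) (.f (nat_lit 626) (nat_lit 591) (nat_lit 591) (.d (nat_lit 530) (nat_lit 498) (nat_lit 4594) (nat_lit 659) (nat_lit 4626))))) (.a (.f (nat_lit 623) (nat_lit 591) (nat_lit 5615) (.d (nat_lit 624) (nat_lit 595) (nat_lit 1615) (nat_lit 655) (nat_lit 5647))) (.a (.f (nat_lit 591) (nat_lit 623) (nat_lit 5615) (.d (nat_lit 558) (nat_lit 557) (nat_lit 3629) (nat_lit 559) (nat_lit 3630))) (.f (nat_lit 595) (nat_lit 559) (nat_lit 3631) (.f (nat_lit 627) (nat_lit 628) (nat_lit 592) (.f (nat_lit 659) (nat_lit 691) (nat_lit 7730) (.d (nat_lit 530) (nat_lit 498) (nat_lit 4594) (nat_lit 626) (nat_lit 4626)))))))))))))))))))))))))) (.a (.f (nat_lit 591) (nat_lit 623) (nat_lit 5615) (.f (nat_lit 561) (nat_lit 563) (nat_lit 1583) (.d (nat_lit 590) (nat_lit 589) (nat_lit 2605) (nat_lit 593) (nat_lit 2606)))) (.a (.p (nat_lit 498) (.a (.f (nat_lit 497) (nat_lit 465) (nat_lit 6608) (.f (nat_lit 495) (nat_lit 463) (nat_lit 7631) (.f (nat_lit 467) (nat_lit 466) (nat_lit 2511) (.f (nat_lit 499) (nat_lit 468) (nat_lit 2512) (.d (nat_lit 531) (nat_lit 530) (nat_lit 495) (nat_lit 532) (nat_lit 496)))))) (.a (.p (nat_lit 530) (.a s5583 (.a (.p (nat_lit 466) (.a (.f (nat_lit 595) (nat_lit 563) (nat_lit 4562) (.f (nat_lit 594) (nat_lit 627) (nat_lit 4594) (.d (nat_lit 467) (nat_lit 435) (nat_lit 6578) (nat_lit 499) (nat_lit 6610)))) (.a (.f (nat_lit 467) (nat_lit 435) (nat_lit 6578) (.f (nat_lit 499) (nat_lit 594) (nat_lit 6610) (.f (nat_lit 433) (nat_lit 465) (nat_lit 7601) (.f (nat_lit 434) (nat_lit 401) (nat_lit 7569) (.d (nat_lit 402) (nat_lit 370) (nat_lit 4466) (nat_lit 531) (nat_lit 4498)))))) (.a (.f (nat_lit 435) (nat_lit 467) (nat_lit 6578) (.f (nat_lit 434) (nat_lit 403) (nat_lit 6546) (.d (nat_lit 563) (nat_lit 531) (nat_lit 4530) (nat_lit 595) (nat_lit 4562)))) (.f (nat_lit 563) (nat_lit 595) (nat_lit 4562) (.f (nat_lit 434) (nat_lit 531) (nat_lit 4530) (.d (nat_lit 433) (nat_lit 401) (nat_lit 7569) (nat_lit 465) (nat_lit 7601)))))))) (.a (.p (nat_lit 561) (.a (.f (nat_lit 531) (nat_lit 559) (nat_lit 2575) (.d (nat_lit 532) (nat_lit 533) (nat_lit 1553) (nat_lit 563) (nat_lit 2576))) (.a (.f (nat_lit 466) (nat_lit 593) (nat_lit 5585) (.f (nat_lit 467) (nat_lit 435) (nat_lit 6578) (.f (nat_lit 499) (nat_lit 594) (nat_lit 6610) (.f (nat_lit 433) (nat_lit 465) (nat_lit 7601) (.f (nat_lit 434) (nat_lit 401) (nat_lit 7569) (.d (nat_lit 402) (nat_lit 370) (nat_lit 4466) (nat_lit 531) (nat_lit 4498))))))) (.f (nat_lit 466) (nat_lit 593) (nat_lit 5585) (.f (nat_lit 435) (nat_lit 467) (nat_lit 6578) (.f (nat_lit 434) (nat_lit 403) (nat_lit 6546) (.d (nat_lit 433) (nat_lit 401) (nat_lit 7569) (nat_lit 465) (nat_lit 7601)))))))) (.a (.p (nat_lit 561) (.a (.f (nat_lit 531) (nat_lit 559) (nat_lit 2575) (.d (nat_lit 532) (nat_lit 533) (nat_lit 1553) (nat_lit 563) (nat_lit 2576))) (.f (nat_lit 466) (nat_lit 593) (nat_lit 5585) (.f (nat_lit 435) (nat_lit 467) (nat_lit 6578) (.f (nat_lit 434) (nat_lit 403) (nat_lit 6546) (.d (nat_lit 433) (nat_lit 401) (nat_lit 7569) (nat_lit 465) (nat_lit 7601))))))) (.a (.p (nat_lit 595) (.a (.f (nat_lit 594) (nat_lit 627) (nat_lit 4594) (.f (nat_lit 563) (nat_lit 466) (nat_lit 4562) (.d (nat_lit 593) (nat_lit 559) (nat_lit 3631) (nat_lit 564) (nat_lit 2608)))) (.a (.f (nat_lit 466) (nat_lit 563) (nat_lit 4562) (.f (nat_lit 594) (nat_lit 627) (nat_lit 4594) (.d (nat_lit 467) (nat_lit 435) (nat_lit 6578) (nat_lit 499) (nat_lit 6610)))) (.a (.f (nat_lit 466) (nat_lit 563) (nat_lit 4562) (.f (nat_lit 435) (nat_lit 467) (nat_lit 6578) (.f (nat_lit 434) (nat_lit 403) (nat_lit 6546) (.d (nat_lit 433) (nat_lit 401) (nat_lit 7569) (nat_lit 465) (nat_lit 7601))))) (.f (nat_lit 594) (nat_lit 627) (nat_lit 4594) (.d (nat_lit 559) (nat_lit 561) (nat_lit 559) (nat_lit 593) (nat_lit 3631))))))) (.a (.p (nat_lit 594) (.a (.f (nat_lit 499) (nat_lit 467) (nat_lit 6610) (.f (nat_lit 626) (nat_lit 531) (nat_lit 6642) (.d (nat_lit 627) (nat_lit 595) (nat_lit 4594) (nat_lit 659) (nat_lit 4626)))) (.a (.f (nat_lit 499) (nat_lit 467) (nat_lit 6610) (.f (nat_lit 531) (nat_lit 626) (nat_lit 6642) (.f (nat_lit 561) (nat_lit 559) (nat_lit 2575) (.f (nat_lit 466) (nat_lit 593) (nat_lit 5585) (.f (nat_lit 434) (nat_lit 402) (nat_lit 4498) (.d (nat_lit 433) (nat_lit 401) (nat_lit 7569) (nat_lit 465) (nat_lit 7601))))))) (.f (nat_lit 595) (nat_lit 627) (nat_lit 4594) (.d (nat_lit 559) (nat_lit 561) (nat_lit 559) (nat_lit 593) (nat_lit 3631)))))) (.a (.p (nat_lit 594) (.a (.f (nat_lit 499) (nat_lit 467) (nat_lit 6610) (.f (nat_lit 626) (nat_lit 531) (nat_lit 6642) (.d (nat_lit 627) (nat_lit 595) (nat_lit 4594) (nat_lit 659) (nat_lit 4626)))) (.a (.f (nat_lit 499) (nat_lit 467) (nat_lit 6610) (.f (nat_lit 531) (nat_lit 626) (nat_lit 6642) (.f (nat_lit 561) (nat_lit 559) (nat_lit 2575) (.d (nat_lit 532) (nat_lit 533) (nat_lit 1553) (nat_lit 563) (nat_lit 2576))))) (.f (nat_lit 595) (nat_lit 627) (nat_lit 4594) (.d (nat_lit 559) (nat_lit 561) (nat_lit 559) (nat_lit 593) (nat_lit 3631)))))) (.p (nat_lit 595) (.a (.f (nat_lit 594) (nat_lit 627) (nat_lit 4594) (.f (nat_lit 563) (nat_lit 466) (nat_lit 4562) (.d (nat_lit 593) (nat_lit 559) (nat_lit 3631) (nat_lit 564) (nat_lit 2608)))) (.a (.f (nat_lit 563) (nat_lit 466) (nat_lit 4562) (.d (nat_lit 627) (nat_lit 531) (nat_lit 7666) (nat_lit 659) (nat_lit 7698))) (.a (.f (nat_lit 594) (nat_lit 627) (nat_lit 4594) (.d (nat_lit 559) (nat_lit 561) (nat_lit 559) (nat_lit 593) (nat_lit 3631))) (.f (nat_lit 466) (nat_lit 563) (nat_lit 4562) (.f (nat_lit 561) (nat_lit 593) (nat_lit 5585) (.d (nat_lit 559) (nat_lit 531) (nat_lit 2575) (nat_lit 594) (nat_lit 559)))))))))))))))) (.a (.p (nat_lit 530) (.a s5583 (.a (.f (nat_lit 495) (nat_lit 463) (nat_lit 7631) (.f (nat_lit 497) (nat_lit 531) (nat_lit 495) (.f (nat_lit 467) (nat_lit 466) (nat_lit 2511) (.d (nat_lit 499) (nat_lit 468) (nat_lit 2512) (nat_lit 594) (nat_lit 6610))))) (.a (.f (nat_lit 495) (nat_lit 463) (nat_lit 7631) (.f (nat_lit 531) (nat_lit 497) (nat_lit 495) (.f (nat_lit 561) (nat_lit 559) (nat_lit 2575) (.d (nat_lit 532) (nat_lit 533) (nat_lit 1553) (nat_lit 563) (nat_lit 2576))))) (.p (nat_lit 594) (.a (.f (nat_lit 595) (nat_lit 627) (nat_lit 4594) (.f (nat_lit 561) (nat_lit 559) (nat_lit 559) (.d (nat_lit 563) (nat_lit 466) (nat_lit 4562) (nat_lit 596) (nat_lit 560)))) (.a (.f (nat_lit 595) (nat_lit 627) (nat_lit 4594) (.f (nat_lit 466) (nat_lit 563) (nat_lit 4562) (.d (nat_lit 467) (nat_lit 435) (nat_lit 6578) (nat_lit 499) (nat_lit 6610)))) (.a (.f (nat_lit 467) (nat_lit 499) (nat_lit 6610) (.f (nat_lit 466) (nat_lit 435) (nat_lit 6578) (.d (nat_lit 495) (nat_lit 463) (nat_lit 7631) (nat_lit 497) (nat_lit 2511)))) (.f (nat_lit 595) (nat_lit 627) (nat_lit 4594) (.d (nat_lit 559) (nat_lit 561) (nat_lit 559) (nat_lit 593) (nat_lit 3631))))))))))) (.a (.p (nat_lit 466) (.a (.f (nat_lit 497) (nat_lit 465) (nat_lit 6608) (.d (nat_lit 495) (nat_lit 463) (nat_lit 7631) (nat_lit 467) (nat_lit 2511))) (.a (.p (nat_lit 530) (.a (.f (nat_lit 595) (nat_lit 563) (nat_lit 4562) (.f (nat_lit 594) (nat_lit 627) (nat_lit 4594) (.d (nat_lit 467) (nat_lit 435) (nat_lit 6578) (nat_lit 499) (nat_lit 6610)))) (.a (.f (nat_lit 435) (nat_lit 467) (nat_lit 6578) (.f (nat_lit 434) (nat_lit 403) (nat_lit 6546) (.d (nat_lit 433) (nat_lit 401) (nat_lit 7569) (nat_lit 465) (nat_lit 7601)))) (.f (nat_lit 595) (nat_lit 563) (nat_lit 4562) (.f (nat_lit 594) (nat_lit 627) (nat_lit 4594) (.d (nat_lit 593) (nat_lit 559) (nat_lit 3631) (nat_lit 561) (nat_lit 5585))))))) (.a (.f (nat_lit 495) (nat_lit 463) (nat_lit 7631) (.f (nat_lit 467) (nat_lit 497) (nat_lit 2511) (.f (nat_lit 530) (nat_lit 435) (nat_lit 6578) (.f (nat_lit 595) (nat_lit 563) (nat_lit 4562) (.d (nat_lit 594) (nat_lit 499) (nat_lit 6610) (nat_lit 627) (nat_lit 4594)))))) (.f (nat_lit 465) (nat_lit 497) (nat_lit 6608) (.f (nat_lit 530) (nat_lit 433) (nat_lit 7601) (.f (nat_lit 595) (nat_lit 563) (nat_lit 4562) (.f (nat_lit 594) (nat_lit 627) (nat_lit 4594) (.d (nat_lit 593) (nat_lit 559) (nat_lit 3631) (nat_lit 561) (nat_lit 5585)))))))))) (.a (.f (nat_lit 497) (nat_lit 465) (nat_lit 6608) (.f (nat_lit 495) (nat_lit 463) (nat_lit 7631) (.f (nat_lit 467) (nat_lit 466) (nat_lit 2511) (.f (nat_lit 499) (nat_lit 468) (nat_lit 2512) (.f (nat_lit 531) (nat_lit 532) (nat_lit 496) (.f (nat_lit 563) (nat_lit 594) (nat_lit 5586) (.f (nat_lit 596) (nat_lit 564) (nat_lit 4563) (.d (nat_lit 595) (nat_lit 561) (nat_lit 560) (nat_lit 628) (nat_lit 4595))))))))) (.a (.f (nat_lit 497) (nat_lit 465) (nat_lit 6608) (.f (nat_lit 495) (nat_lit 463) (nat_lit 7631) (.f (nat_lit 530) (nat_lit 531) (nat_lit 495) (.f (nat_lit 466) (nat_lit 467) (nat_lit 2511) (.f (nat_lit 595) (nat_lit 563) (nat_lit 4562) (.f (nat_lit 594) (nat_lit 627) (nat_lit 4594) (.d (nat_lit 593) (nat_lit 559) (nat_lit 3631) (nat_lit 561) (nat_lit 5585)))))))) (.a (.f (nat_lit 497) (nat_lit 465) (nat_lit 6608) (.f (nat_lit 495) (nat_lit 463) (nat_lit 7631) (.f (nat_lit 531) (nat_lit 530) (nat_lit 495) (.f (nat_lit 499) (nat_lit 532) (nat_lit 496) (.f (nat_lit 467) (nat_lit 468) (nat_lit 2512) (.f (nat_lit 563) (nat_lit 594) (nat_lit 5586) (.f (nat_lit 596) (nat_lit 564) (nat_lit 4563) (.d (nat_lit 595) (nat_lit 561) (nat_lit 560) (nat_lit 628) (nat_lit 4595))))))))) (.p (nat_lit 530) (.a (.p (nat_lit 595) (.a (.f (nat_lit 594) (nat_lit 627) (nat_lit 4594) (.f (nat_lit 563) (nat_lit 466) (nat_lit 4562) (.d (nat_lit 593) (nat_lit 559) (nat_lit 3631) (nat_lit 564) (nat_lit 2608)))) (.a (.f (nat_lit 563) (nat_lit 466) (nat_lit 4562) (.d (nat_lit 627) (nat_lit 531) (nat_lit 7666) (nat_lit 659) (nat_lit 7698))) (.a (.f (nat_lit 594) (nat_lit 627) (nat_lit 4594) (.d (nat_lit 559) (nat_lit 561) (nat_lit 559) (nat_lit 593) (nat_lit 3631))) (.f (nat_lit 466) (nat_lit 563) (nat_lit 4562) (.f (nat_lit 561) (nat_lit 593) (nat_lit 5585) (.d (nat_lit 559) (nat_lit 531) (nat_lit 2575) (nat_lit 594) (nat_lit 559)))))))) (.a (.f (nat_lit 497) (nat_lit 465) (nat_lit 6608) (.d (nat_lit 495) (nat_lit 463) (nat_lit 7631) (nat_lit 531) (nat_lit 495))) (.f (nat_lit 465) (nat_lit 497) (nat_lit 6608) (.f (nat_lit 466) (nat_lit 433) (nat_lit 7601) (.f (nat_lit 595) (nat_lit 563) (nat_lit 4562) (.f (nat_lit 594) (nat_lit 627) (nat_lit 4594) (.d (nat_lit 593) (nat_lit 559) (nat_lit 3631) (nat_lit 561) (nat_lit 5585))))))))))))))))) (.p (nat_lit 525) (.a (.f (nat_lit 495) (nat_lit 463) (nat_lit 7631) (.f (nat_lit 497) (nat_lit 465) (nat_lit 6608) (.f (nat_lit 494) (nat_lit 526) (nat_lit 1517) (.f (nat_lit 493) (nat_lit 524) (nat_lit 1516) (.d (nat_lit 461) (nat_lit 460) (nat_lit 3532) (nat_lit 462) (nat_lit 3533)))))) (.a (.p (nat_lit 558) (.a (.p (nat_lit 559) (.a (.f (nat_lit 561) (nat_lit 526) (nat_lit 3597) (.f (nat_lit 557) (nat_lit 524) (nat_lit 3596) (.d (nat_lit 589) (nat_lit 588) (nat_lit 1580) (nat_lit 590) (nat_lit 1581)))) (.a (.d (nat_lit 557) (nat_lit 524) (nat_lit 3596) (nat_lit 593) (nat_lit 557)) (.f (nat_lit 561) (nat_lit 526) (nat_lit 3597) (.d (nat_lit 594) (nat_lit 593) (nat_lit 558) (nat_lit 595) (nat_lit 559)))))) (.a (.p (nat_lit 557) (.a (.f (nat_lit 559) (nat_lit 524) (nat_lit 3596) (.f (nat_lit 556) (nat_lit 591) (nat_lit 556) (.d (nat_lit 588) (nat_lit 587) (nat_lit 1579) (nat_lit 589) (nat_lit 1580)))) (.a (.f (nat_lit 591) (nat_lit 623) (nat_lit 5615) (.f (nat_lit 590) (nat_lit 593) (nat_lit 3629) (.d (nat_lit 556) (nat_lit 555) (nat_lit 555) (nat_lit 589) (nat_lit 3628)))) (.f (nat_lit 524) (nat_lit 559) (nat_lit 3596) (.f (nat_lit 523) (nat_lit 522) (nat_lit 522) (.f (nat_lit 495) (nat_lit 463) (nat_lit 7631) (.d (nat_lit 494) (nat_lit 493) (nat_lit 1516) (nat_lit 526) (nat_lit 2539)))))))) (.a s5754 (.a (.p (nat_lit 559) (.a (.f (nat_lit 561) (nat_lit 526) (nat_lit 3597) (.d (nat_lit 590) (nat_lit 589) (nat_lit 1581) (nat_lit 591) (nat_lit 1582))) (.a (.f (nat_lit 557) (nat_lit 524) (nat_lit 3596) (.f (nat_lit 556) (nat_lit 591) (nat_lit 556) (.d (nat_lit 588) (nat_lit 587) (nat_lit 1579) (nat_lit 589) (nat_lit 1580)))) (.a (.f (nat_lit 561) (nat_lit 526) (nat_lit 3597) (.f (nat_lit 557) (nat_lit 524) (nat_lit 3596) (.d (nat_lit 589) (nat_lit 588) (nat_lit 1580) (nat_lit 590) (nat_lit 1581)))) (.f (nat_lit 591) (nat_lit 623) (nat_lit 5615) (.d (nat_lit 561) (nat_lit 526) (nat_lit 3597) (nat_lit 590) (nat_lit 1582))))))) (.a (.p (nat_lit 561) (.a (.f (nat_lit 559) (nat_lit 526) (nat_lit 3597) (.d (nat_lit 590) (nat_lit 589) (nat_lit 1581) (nat_lit 591) (nat_lit 1582))) (.a (.f (nat_lit 591) (nat_lit 623) (nat_lit 5615) (.d (nat_lit 590) (nat_lit 589) (nat_lit 2605) (nat_lit 593) (nat_lit 2606))) (.f (nat_lit 559) (nat_lit 526) (nat_lit 3597) (.d (nat_lit 594) (nat_lit 593) (nat_lit 558) (nat_lit 595) (nat_lit 559)))))) (.a (.p (nat_lit 559) (.a (.f (nat_lit 557) (nat_lit 524) (nat_lit 3596) (.f (nat_lit 556) (nat_lit 591) (nat_lit 556) (.d (nat_lit 588) (nat_lit 587) (nat_lit 1579) (nat_lit 589) (nat_lit 1580)))) (.f (nat_lit 561) (nat_lit 526) (nat_lit 3597) (.d (nat_lit 594) (nat_lit 593) (nat_lit 558) (nat_lit 595) (nat_lit 559))))) (.a (.p (nat_lit 557) (.a (.f (nat_lit 524) (nat_lit 559) (nat_lit 3596) (.f (nat_lit 523) (nat_lit 522) (nat_lit 522) (.f (nat_lit 495) (nat_lit 463) (nat_lit 7631) (.d (nat_lit 494) (nat_lit 493) (nat_lit 1516) (nat_lit 526) (nat_lit 2539))))) (.a (.d (nat_lit 559) (nat_lit 524) (nat_lit 3596) (nat_lit 593) (nat_lit 557)) (.f (nat_lit 591) (nat_lit 623) (nat_lit 5615) (.f (nat_lit 590) (nat_lit 593) (nat_lit 3629) (.f (nat_lit 493) (nat_lit 461) (nat_lit 4557) (.d (nat_lit 622) (nat_lit 526) (nat_lit 7661) (nat_lit 654) (nat_lit 7693)))))))) (.p (nat_lit 557) (.a (.f (nat_lit 559) (nat_lit 524) (nat_lit 3596) (.f (nat_lit 556) (nat_lit 591) (nat_lit 556) (.d (nat_lit 588) (nat_lit 587) (nat_lit 1579) (nat_lit 589) (nat_lit 1580)))) (.a (.f (nat_lit 591) (nat_lit 623) (nat_lit 5615) (.f (nat_lit 590) (nat_lit 593) (nat_lit 3629) (.d (nat_lit 556) (nat_lit 555) (nat_lit 555) (nat_lit 589) (nat_lit 3628)))) (.a (.f (nat_lit 559) (nat_lit 524) (nat_lit 3596) (.f (nat_lit 589) (nat_lit 588) (nat_lit 1580) (.f (nat_lit 590) (nat_lit 561) (nat_lit 1581) (.d (nat_lit 493) (nat_lit 461) (nat_lit 4557) (nat_lit 622) (nat_lit 4589))))) (.f (nat_lit 524) (nat_lit 559) (nat_lit 3596) (.f (nat_lit 495) (nat_lit 463) (nat_lit 7631) (.f (nat_lit 493) (nat_lit 494) (nat_lit 1516) (.f (nat_lit 461) (nat_lit 590) (nat_lit 4557) (.d (nat_lit 556) (nat_lit 429) (nat_lit 5548) (nat_lit 588) (nat_lit 5580)))))))))))))))))) (.a (.p (nat_lit 558) (.a (.p (nat_lit 559) (.a (.f (nat_lit 561) (nat_lit 526) (nat_lit 3597) (.f (nat_lit 557) (nat_lit 524) (nat_lit 3596) (.d (nat_lit 589) (nat_lit 588) (nat_lit 1580) (nat_lit 590) (nat_lit 1581)))) (.a (.d (nat_lit 557) (nat_lit 524) (nat_lit 3596) (nat_lit 593) (nat_lit 557)) (.f (nat_lit 561) (nat_lit 526) (nat_lit 3597) (.d (nat_lit 594) (nat_lit 593) (nat_lit 558) (nat_lit 595) (nat_lit 559)))))) (.a (.p (nat_lit 557) (.a (.f (nat_lit 559) (nat_lit 524) (nat_lit 3596) (.f (nat_lit 556) (nat_lit 591) (nat_lit 556) (.d (nat_lit 588) (nat_lit 587) (nat_lit 1579) (nat_lit 589) (nat_lit 1580)))) (.a (.f (nat_lit 591) (nat_lit 623) (nat_lit 5615) (.f (nat_lit 590) (nat_lit 593) (nat_lit 3629) (.d (nat_lit 556) (nat_lit 555) (nat_lit 555) (nat_lit 589) (nat_lit 3628)))) (.d (nat_lit 559) (nat_lit 524) (nat_lit 3596) (nat_lit 593) (nat_lit 557))))) (.a s5754 (.a (.p (nat_lit 559) (.a (.f (nat_lit 561) (nat_lit 526) (nat_lit 3597) (.d (nat_lit 590) (nat_lit 589) (nat_lit 1581) (nat_lit 591) (nat_lit 1582))) (.a (.f (nat_lit 557) (nat_lit 524) (nat_lit 3596) (.f (nat_lit 556) (nat_lit 591) (nat_lit 556) (.d (nat_lit 588) (nat_lit 587) (nat_lit 1579) (nat_lit 589) (nat_lit 1580)))) (.a (.f (nat_lit 561) (nat_lit 526) (nat_lit 3597) (.f (nat_lit 557) (nat_lit 524) (nat_lit 3596) (.d (nat_lit 589) (nat_lit 588) (nat_lit 1580) (nat_lit 590) (nat_lit 1581)))) (.f (nat_lit 591) (nat_lit 623) (nat_lit 5615) (.d (nat_lit 561) (nat_lit 526) (nat_lit 3597) (nat_lit 590) (nat_lit 1582))))))) (.a (.p (nat_lit 561) (.a (.f (nat_lit 559) (nat_lit 526) (nat_lit 3597) (.d (nat_lit 590) (nat_lit 589) (nat_lit 1581) (nat_lit 591) (nat_lit 1582))) (.a (.f (nat_lit 591) (nat_lit 623) (nat_lit 5615) (.d (nat_lit 590) (nat_lit 589) (nat_lit 2605) (nat_lit 593) (nat_lit 2606))) (.f (nat_lit 559) (nat_lit 526) (nat_lit 3597) (.d (nat_lit 594) (nat_lit 593) (nat_lit 558) (nat_lit 595) (nat_lit 559)))))) (.a (.p (nat_lit 559) (.a (.f (nat_lit 557) (nat_lit 524) (nat_lit 3596) (.f (nat_lit 556) (nat_lit 591) (nat_lit 556) (.d (nat_lit 588) (nat_lit 587) (nat_lit 1579) (nat_lit 589) (nat_lit 1580)))) (.f (nat_lit 561) (nat_lit 526) (nat_lit 3597) (.d (nat_lit 594) (nat_lit 593) (nat_lit 558) (nat_lit 595) (nat_lit 559))))) (.p (nat_lit 557) (.a (.d (nat_lit 559) (nat_lit 524) (nat_lit 3596) (nat_lit 593) (nat_lit 557)) (.a (.f (nat_lit 591) (nat_lit 623) (nat_lit 5615) (.f (nat_lit 590) (nat_lit 593) (nat_lit 3629) (.f (nat_lit 493) (nat_lit 461) (nat_lit 4557) (.d (nat_lit 622) (nat_lit 526) (nat_lit 7661) (nat_lit 654) (nat_lit 7693))))) (.f (nat_lit 559) (nat_lit 524) (nat_lit 3596) (.d (nat_lit 591) (nat_lit 556) (nat_lit 556) (nat_lit 623) (nat_lit 5615))))))))))))) (.a (.p (nat_lit 558) (.a (.p (nat_lit 559) (.a (.f (nat_lit 561) (nat_lit 526) (nat_lit 3597) (.f (nat_lit 557) (nat_lit 524) (nat_lit 3596) (.d (nat_lit 589) (nat_lit 588) (nat_lit 1580) (nat_lit 590) (nat_lit 1581)))) (.a (.d (nat_lit 557) (nat_lit 524) (nat_lit 3596) (nat_lit 593) (nat_lit 557)) (.f (nat_lit 561) (nat_lit 526) (nat_lit 3597) (.d (nat_lit 594) (nat_lit 593) (nat_lit 558) (nat_lit 595) (nat_lit 559)))))) (.a (.p (nat_lit 557) (.a (.f (nat_lit 559) (nat_lit 524) (nat_lit 3596) (.f (nat_lit 556) (nat_lit 591) (nat_lit 556) (.d (nat_lit 588) (nat_lit 587) (nat_lit 1579) (nat_lit 589) (nat_lit 1580)))) (.a (.f (nat_lit 591) (nat_lit 623) (nat_lit 5615) (.f (nat_lit 590) (nat_lit 593) (nat_lit 3629) (.d (nat_lit 556) (nat_lit 555) (nat_lit 555) (nat_lit 589) (nat_lit 3628)))) (.d (nat_lit 559) (nat_lit 524) (nat_lit 3596) (nat_lit 593) (nat_lit 557))))) (.a (.p (nat_lit 590) (.a (.f (nat_lit 591) (nat_lit 623) (nat_lit 5615) (.f (nat_lit 557) (nat_lit 593) (nat_lit 3629) (.d (nat_lit 556) (nat_lit 555) (nat_lit 555) (nat_lit 589) (nat_lit 3628)))) (.a (.p (nat_lit 622) (.a (.f (nat_lit 557) (nat_lit 654) (nat_lit 7693) (.d (nat_lit 493) (nat_lit 526) (nat_lit 7661) (nat_lit 589) (nat_lit 4589))) (.a (.f (nat_lit 526) (nat_lit 493) (nat_lit 7661) (.f (nat_lit 621) (nat_lit 653) (nat_lit 5645) (.f (nat_lit 591) (nat_lit 593) (nat_lit 1613) (.d (nat_lit 620) (nat_lit 589) (nat_lit 1612) (nat_lit 619) (nat_lit 2635))))) (.a (.f (nat_lit 654) (nat_lit 557) (nat_lit 7693) (.f (nat_lit 653) (nat_lit 685) (nat_lit 5677) (.f (nat_lit 621) (nat_lit 526) (nat_lit 5645) (.f (nat_lit 655) (nat_lit 687) (nat_lit 4654) (.d (nat_lit 656) (nat_lit 620) (nat_lit 3692) (nat_lit 657) (nat_lit 3693)))))) (.f (nat_lit 557) (nat_lit 654) (nat_lit 7693) (.d (nat_lit 493) (nat_lit 461) (nat_lit 4557) (nat_lit 589) (nat_lit 4589))))))) (.a s5751 (.a (.f (nat_lit 591) (nat_lit 623) (nat_lit 5615) (.d (nat_lit 561) (nat_lit 589) (nat_lit 2605) (nat_lit 593) (nat_lit 2606))) (.f (nat_lit 591) (nat_lit 623) (nat_lit 5615) (.d (nat_lit 593) (nat_lit 557) (nat_lit 3629) (nat_lit 561) (nat_lit 2606)))))))) (.a (.p (nat_lit 559) (.a (.f (nat_lit 561) (nat_lit 526) (nat_lit 3597) (.d (nat_lit 590) (nat_lit 589) (nat_lit 1581) (nat_lit 591) (nat_lit 1582))) (.a (.f (nat_lit 557) (nat_lit 524) (nat_lit 3596) (.f (nat_lit 556) (nat_lit 591) (nat_lit 556) (.d (nat_lit 588) (nat_lit 587) (nat_lit 1579) (nat_lit 589) (nat_lit 1580)))) (.a (.f (nat_lit 561) (nat_lit 526) (nat_lit 3597) (.f (nat_lit 557) (nat_lit 524) (nat_lit 3596) (.d (nat_lit 589) (nat_lit 588) (nat_lit 1580) (nat_lit 590) (nat_lit 1581)))) (.f (nat_lit 591) (nat_lit 623) (nat_lit 5615) (.d (nat_lit 561) (nat_lit 526) (nat_lit 3597) (nat_lit 590) (nat_lit 1582))))))) (.a (.p (nat_lit 561) (.a (.f (nat_lit 559) (nat_lit 526) (nat_lit 3597) (.d (nat_lit 590) (nat_lit 589) (nat_lit 1581) (nat_lit 591) (nat_lit 1582))) (.a (.f (nat_lit 591) (nat_lit 623) (nat_lit 5615) (.d (nat_lit 590) (nat_lit 589) (nat_lit 2605) (nat_lit 593) (nat_lit 2606))) (.f (nat_lit 559) (nat_lit 526) (nat_lit 3597) (.d (nat_lit 594) (nat_lit 593) (nat_lit 558) (nat_lit 595) (nat_lit 559)))))) (.a (.p (nat_lit 559) (.a (.f (nat_lit 557) (nat_lit 524) (nat_lit 3596) (.f (nat_lit 556) (nat_lit 591) (nat_lit 556) (.d (nat_lit 588) (nat_lit 587) (nat_lit 1579) (nat_lit 589) (nat_lit 1580)))) (.f (nat_lit 561) (nat_lit 526) (nat_lit 3597) (.d (nat_lit 594) (nat_lit 593) (nat_lit 558) (nat_lit 595) (nat_lit 559))))) (.p (nat_lit 557) (.a (.d (nat_lit 559) (nat_lit 524) (nat_lit 3596) (nat_lit 593) (nat_lit 557)) (.a (.f (nat_lit 591) (nat_lit 623) (nat_lit 5615) (.f (nat_lit 590) (nat_lit 593) (nat_lit 3629) (.f (nat_lit 493) (nat_lit 461) (nat_lit 4557) (.d (nat_lit 622) (nat_lit 526) (nat_lit 7661) (nat_lit 654) (nat_lit 7693))))) (.f (nat_lit 559) (nat_lit 524) (nat_lit 3596) (.d (nat_lit 591) (nat_lit 556) (nat_lit 556) (nat_lit 623) (nat_lit 5615))))))))))))) (.a (.p (nat_lit 558) (.a (.p (nat_lit 559) (.a (.f (nat_lit 561) (nat_lit 526) (nat_lit 3597) (.f (nat_lit 557) (nat_lit 524) (nat_lit 3596) (.d (nat_lit 589) (nat_lit 588) (nat_lit 1580) (nat_lit 590) (nat_lit 1581)))) (.a (.d (nat_lit 557) (nat_lit 524) (nat_lit 3596) (nat_lit 593) (nat_lit 557)) (.f (nat_lit 561) (nat_lit 526) (nat_lit 3597) (.d (nat_lit 594) (nat_lit 593) (nat_lit 558) (nat_lit 595) (nat_lit 559)))))) (.a (.p (nat_lit 557) (.a (.f (nat_lit 559) (nat_lit 524) (nat_lit 3596) (.f (nat_lit 556) (nat_lit 591) (nat_lit 556) (.d (nat_lit 588) (nat_lit 587) (nat_lit 1579) (nat_lit 589) (nat_lit 1580)))) (.a (.f (nat_lit 591) (nat_lit 623) (nat_lit 5615) (.f (nat_lit 590) (nat_lit 593) (nat_lit 3629) (.d (nat_lit 556) (nat_lit 555) (nat_lit 555) (nat_lit 589) (nat_lit 3628)))) (.d (nat_lit 559) (nat_lit 524) (nat_lit 3596) (nat_lit 593) (nat_lit 557))))) (.a (.f (nat_lit 591) (nat_lit 623) (nat_lit 5615) (.p (nat_lit 590) (.a (.d (nat_lit 561) (nat_lit 589) (nat_lit 2605) (nat_lit 593) (nat_lit 2606)) (.a (.f (nat_lit 557) (nat_lit 593) (nat_lit 3629) (.d (nat_lit 556) (nat_lit 555) (nat_lit 555) (nat_lit 589) (nat_lit 3628))) (.a (.f (nat_lit 589) (nat_lit 561) (nat_lit 2605) (.f (nat_lit 557) (nat_lit 556) (nat_lit 3628) (.f (nat_lit 621) (nat_lit 620) (nat_lit 1612) (.d (nat_lit 526) (nat_lit 494) (nat_lit 5613) (nat_lit 653) (nat_lit 6669))))) (.d (nat_lit 593) (nat_lit 557) (nat_lit 3629) (nat_lit 561) (nat_lit 2606))))))) (.a (.p (nat_lit 559) (.a (.f (nat_lit 561) (nat_lit 526) (nat_lit 3597) (.d (nat_lit 590) (nat_lit 589) (nat_lit 1581) (nat_lit 591) (nat_lit 1582))) (.a (.f (nat_lit 557) (nat_lit 524) (nat_lit 3596) (.f (nat_lit 556) (nat_lit 591) (nat_lit 556) (.d (nat_lit 588) (nat_lit 587) (nat_lit 1579) (nat_lit 589) (nat_lit 1580)))) (.a (.f (nat_lit 561) (nat_lit 526) (nat_lit 3597) (.f (nat_lit 557) (nat_lit 524) (nat_lit 3596) (.d (nat_lit 589) (nat_lit 588) (nat_lit 1580) (nat_lit 590) (nat_lit 1581)))) (.f (nat_lit 591) (nat_lit 623) (nat_lit 5615) (.d (nat_lit 561) (nat_lit 526) (nat_lit 3597) (nat_lit 590) (nat_lit 1582))))))) (.a (.p (nat_lit 561) (.a (.f (nat_lit 559) (nat_lit 526) (nat_lit 3597) (.d (nat_lit 590) (nat_lit 589) (nat_lit 1581) (nat_lit 591) (nat_lit 1582))) (.a (.f (nat_lit 591) (nat_lit 623) (nat_lit 5615) (.d (nat_lit 590) (nat_lit 589) (nat_lit 2605) (nat_lit 593) (nat_lit 2606))) (.f (nat_lit 559) (nat_lit 526) (nat_lit 3597) (.d (nat_lit 594) (nat_lit 593) (nat_lit 558) (nat_lit 595) (nat_lit 559)))))) (.a (.p (nat_lit 559) (.a (.f (nat_lit 557) (nat_lit 524) (nat_lit 3596) (.f (nat_lit 556) (nat_lit 591) (nat_lit 556) (.d (nat_lit 588) (nat_lit 587) (nat_lit 1579) (nat_lit 589) (nat_lit 1580)))) (.f (nat_lit 561) (nat_lit 526) (nat_lit 3597) (.d (nat_lit 594) (nat_lit 593) (nat_lit 558) (nat_lit 595) (nat_lit 559))))) (.f (nat_lit 495) (nat_lit 463) (nat_lit 7631) (.f (nat_lit 497) (nat_lit 465) (nat_lit 6608) (.f (nat_lit 526) (nat_lit 494) (nat_lit 1517) (.f (nat_lit 559) (nat_lit 561) (nat_lit 3597) (.d (nat_lit 524) (nat_lit 523) (nat_lit 523) (nat_lit 557) (nat_lit 3596))))))))))))) (.a (.p (nat_lit 557) (.a (.p (nat_lit 558) (.a (.f (nat_lit 559) (nat_lit 524) (nat_lit 3596) (.f (nat_lit 556) (nat_lit 591) (nat_lit 556) (.d (nat_lit 588) (nat_lit 587) (nat_lit 1579) (nat_lit 589) (nat_lit 1580)))) (.a (.f (nat_lit 591) (nat_lit 623) (nat_lit 5615) (.f (nat_lit 590) (nat_lit 593) (nat_lit 3629) (.d (nat_lit 556) (nat_lit 555) (nat_lit 555) (nat_lit 589) (nat_lit 3628)))) (.a (.f (nat_lit 559) (nat_lit 524) (nat_lit 3596) (.f (nat_lit 589) (nat_lit 588) (nat_lit 1580) (.f (nat_lit 590) (nat_lit 561) (nat_lit 1581) (.d (nat_lit 493) (nat_lit 461) (nat_lit 4557) (nat_lit 622) (nat_lit 4589))))) (.f (nat_lit 524) (nat_lit 559) (nat_lit 3596) (.f (nat_lit 495) (nat_lit 463) (nat_lit 7631) (.f (nat_lit 493) (nat_lit 494) (nat_lit 1516) (.f (nat_lit 461) (nat_lit 590) (nat_lit 4557) (.d (nat_lit 556) (nat_lit 429) (nat_lit 5548) (nat_lit 588) (nat_lit 5580)))))))))) (.a (.p (nat_lit 558) (.a (.f (nat_lit 559) (nat_lit 524) (nat_lit 3596) (.f (nat_lit 556) (nat_lit 591) (nat_lit 556) (.d (nat_lit 588) (nat_lit 587) (nat_lit 1579) (nat_lit 589) (nat_lit 1580)))) (.a (.p (nat_lit 493) (.a (.f (nat_lit 461) (nat_lit 590) (nat_lit 4557) (.f (nat_lit 460) (nat_lit 428) (nat_lit 7596) (.f (nat_lit 462) (nat_lit 430) (nat_lit 6573) (.f (nat_lit 463) (nat_lit 495) (nat_lit 7631) (.d (nat_lit 492) (nat_lit 491) (nat_lit 1483) (nat_lit 589) (nat_lit 7628)))))) (.a (.f (nat_lit 461) (nat_lit 590) (nat_lit 4557) (.f (nat_lit 556) (nat_lit 588) (nat_lit 5580) (.f (nat_lit 524) (nat_lit 429) (nat_lit 5548) (.f (nat_lit 460) (nat_lit 428) (nat_lit 7596) (.f (nat_lit 492) (nat_lit 589) (nat_lit 4556) (.f (nat_lit 523) (nat_lit 522) (nat_lit 522) (.f (nat_lit 555) (nat_lit 587) (nat_lit 5579) (.f (nat_lit 459) (nat_lit 427) (nat_lit 7595) (.f (nat_lit 458) (nat_lit 457) (nat_lit 457) (.d (nat_lit 426) (nat_lit 425) (nat_lit 3497) (nat_lit 491) (nat_lit 7594))))))))))) (.a (.f (nat_lit 495) (nat_lit 463) (nat_lit 7631) (.f (nat_lit 494) (nat_lit 524) (nat_lit 1516) (.f (nat_lit 461) (nat_lit 460) (nat_lit 3532) (.d (nat_lit 497) (nat_lit 462) (nat_lit 3533) (nat_lit 465) (nat_lit 6608))))) (.f (nat_lit 495) (nat_lit 463) (nat_lit 7631) (.f (nat_lit 494) (nat_lit 524) (nat_lit 1516) (.f (nat_lit 589) (nat_lit 462) (nat_lit 6605) (.f (nat_lit 590) (nat_lit 622) (nat_lit 4589) (.d (nat_lit 591) (nat_lit 561) (nat_lit 2605) (nat_lit 593) (nat_lit 3629)))))))))) (.a (.f (nat_lit 559) (nat_lit 524) (nat_lit 3596) (.f (nat_lit 589) (nat_lit 588) (nat_lit 1580) (.f (nat_lit 590) (nat_lit 561) (nat_lit 1581) (.d (nat_lit 493) (nat_lit 461) (nat_lit 4557) (nat_lit 622) (nat_lit 4589))))) (.a (.f (nat_lit 524) (nat_lit 559) (nat_lit 3596) (.f (nat_lit 495) (nat_lit 463) (nat_lit 7631) (.f (nat_lit 493) (nat_lit 494) (nat_lit 1516) (.f (nat_lit 461) (nat_lit 590) (nat_lit 4557) (.d (nat_lit 556) (nat_lit 429) (nat_lit 5548) (nat_lit 588) (nat_lit 5580)))))) (.a (.f (nat_lit 559) (nat_lit 593) (nat_lit 557) (.f (nat_lit 589) (nat_lit 588) (nat_lit 1580) (.f (nat_lit 590) (nat_lit 561) (nat_lit 1581) (.d (nat_lit 622) (nat_lit 493) (nat_lit 4589) (nat_lit 654) (nat_lit 7693))))) (.d (nat_lit 559) (nat_lit 524) (nat_lit 3596) (nat_lit 593) (nat_lit 557)))))))) (.a (.p (nat_lit 558) (.a (.f (nat_lit 559) (nat_lit 524) (nat_lit 3596) (.f (nat_lit 556) (nat_lit 591) (nat_lit 556) (.d (nat_lit 588) (nat_lit 587) (nat_lit 1579) (nat_lit 589) (nat_lit 1580)))) (.a (.f (nat_lit 591) (nat_lit 623) (nat_lit 5615) (.f (nat_lit 590) (nat_lit 593) (nat_lit 3629) (.d (nat_lit 556) (nat_lit 555) (nat_lit 555) (nat_lit 589) (nat_lit 3628)))) (.a (.f (nat_lit 524) (nat_lit 559) (nat_lit 3596) (.f (nat_lit 495) (nat_lit 463) (nat_lit 7631) (.f (nat_lit 493) (nat_lit 494) (nat_lit 1516) (.f (nat_lit 461) (nat_lit 590) (nat_lit 4557) (.d (nat_lit 556) (nat_lit 429) (nat_lit 5548) (nat_lit 588) (nat_lit 5580)))))) (.d (nat_lit 559) (nat_lit 524) (nat_lit 3596) (nat_lit 593) (nat_lit 557)))))) (.a (.p (nat_lit 558) (.a (.f (nat_lit 559) (nat_lit 524) (nat_lit 3596) (.f (nat_lit 556) (nat_lit 591) (nat_lit 556) (.d (nat_lit 588) (nat_lit 587) (nat_lit 1579) (nat_lit 589) (nat_lit 1580)))) (.a (.f (nat_lit 591) (nat_lit 623) (nat_lit 5615) (.f (nat_lit 590) (nat_lit 593) (nat_lit 3629) (.d (nat_lit 556) (nat_lit 555) (nat_lit 555) (nat_lit 589) (nat_lit 3628)))) (.a (.f (nat_lit 559) (nat_lit 524) (nat_lit 3596) (.f (nat_lit 589) (nat_lit 588) (nat_lit 1580) (.f (nat_lit 590) (nat_lit 561) (nat_lit 1581) (.d (nat_lit 493) (nat_lit 461) (nat_lit 4557) (nat_lit 622) (nat_lit 4589))))) (.d (nat_lit 559) (nat_lit 524) (nat_lit 3596) (nat_lit 593) (nat_lit 557)))))) (.a (.p (nat_lit 590) (.a (.f (nat_lit 591) (nat_lit 623) (nat_lit 5615) (.f (nat_lit 558) (nat_lit 593) (nat_lit 3629) (.d (nat_lit 556) (nat_lit 555) (nat_lit 555) (nat_lit 589) (nat_lit 3628)))) (.a (.p (nat_lit 493) (.a (.f (nat_lit 589) (nat_lit 622) (nat_lit 4589) (.f (nat_lit 556) (nat_lit 591) (nat_lit 3628) (.d (nat_lit 588) (nat_lit 461) (nat_lit 5580) (nat_lit 620) (nat_lit 5612)))) (.a (.f (nat_lit 461) (nat_lit 558) (nat_lit 4557) (.f (nat_lit 556) (nat_lit 588) (nat_lit 5580) (.f (nat_lit 429) (nat_lit 524) (nat_lit 5548) (.d (nat_lit 430) (nat_lit 398) (nat_lit 6541) (nat_lit 462) (nat_lit 6573))))) (.a (.f (nat_lit 589) (nat_lit 622) (nat_lit 4589) (.f (nat_lit 620) (nat_lit 588) (nat_lit 5612) (.d (nat_lit 591) (nat_lit 556) (nat_lit 3628) (nat_lit 621) (nat_lit 1612)))) (.f (nat_lit 589) (nat_lit 622) (nat_lit 4589) (.f (nat_lit 461) (nat_lit 558) (nat_lit 4557) (.d (nat_lit 460) (nat_lit 428) (nat_lit 7596) (nat_lit 492) (nat_lit 7628)))))))) (.a (.f (nat_lit 591) (nat_lit 623) (nat_lit 5615) (.d (nat_lit 589) (nat_lit 556) (nat_lit 3628) (nat_lit 561) (nat_lit 2605))) (.a (.p (nat_lit 493) (.a (.f (nat_lit 461) (nat_lit 558) (nat_lit 4557) (.f (nat_lit 556) (nat_lit 588) (nat_lit 5580) (.f (nat_lit 429) (nat_lit 524) (nat_lit 5548) (.d (nat_lit 430) (nat_lit 398) (nat_lit 6541) (nat_lit 462) (nat_lit 6573))))) (.a (.f (nat_lit 589) (nat_lit 622) (nat_lit 4589) (.f (nat_lit 620) (nat_lit 588) (nat_lit 5612) (.f (nat_lit 621) (nat_lit 652) (nat_lit 5644) (.d (nat_lit 492) (nat_lit 460) (nat_lit 7628) (nat_lit 524) (nat_lit 7660))))) (.f (nat_lit 589) (nat_lit 622) (nat_lit 4589) (.f (nat_lit 461) (nat_lit 558) (nat_lit 4557) (.d (nat_lit 460) (nat_lit 428) (nat_lit 7596) (nat_lit 492) (nat_lit 7628))))))) (.f (nat_lit 591) (nat_lit 623) (nat_lit 5615) (.d (nat_lit 593) (nat_lit 558) (nat_lit 3629) (nat_lit 561) (nat_lit 2606)))))))) (.a (.p (nat_lit 559) (.a (.f (nat_lit 558) (nat_lit 524) (nat_lit 3596) (.f (nat_lit 556) (nat_lit 591) (nat_lit 556) (.d (nat_lit 588) (nat_lit 587) (nat_lit 1579) (nat_lit 589) (nat_lit 1580)))) (.a (.f (nat_lit 591) (nat_lit 623) (nat_lit 5615) (.f (nat_lit 590) (nat_lit 561) (nat_lit 1582) (.d (nat_lit 589) (nat_lit 556) (nat_lit 3628) (nat_lit 588) (nat_lit 2604)))) (.a (.f (nat_lit 558) (nat_lit 524) (nat_lit 3596) (.f (nat_lit 589) (nat_lit 588) (nat_lit 1580) (.f (nat_lit 590) (nat_lit 561) (nat_lit 1581) (.d (nat_lit 493) (nat_lit 461) (nat_lit 4557) (nat_lit 622) (nat_lit 4589))))) (.f (nat_lit 591) (nat_lit 623) (nat_lit 5615) (.d (nat_lit 558) (nat_lit 524) (nat_lit 3596) (nat_lit 556) (nat_lit 556))))))) (.a (.p (nat_lit 590) (.a (.f (nat_lit 591) (nat_lit 623) (nat_lit 5615) (.d (nat_lit 589) (nat_lit 556) (nat_lit 3628) (nat_lit 561) (nat_lit 2605))) (.a (.p (nat_lit 493) (.a (.f (nat_lit 589) (nat_lit 622) (nat_lit 4589) (.f (nat_lit 556) (nat_lit 591) (nat_lit 3628) (.d (nat_lit 588) (nat_lit 461) (nat_lit 5580) (nat_lit 620) (nat_lit 5612)))) (.a (.f (nat_lit 589) (nat_lit 622) (nat_lit 4589) (.f (nat_lit 620) (nat_lit 588) (nat_lit 5612) (.f (nat_lit 621) (nat_lit 652) (nat_lit 5644) (.d (nat_lit 492) (nat_lit 460) (nat_lit 7628) (nat_lit 524) (nat_lit 7660))))) (.f (nat_lit 495) (nat_lit 463) (nat_lit 7631) (.f (nat_lit 494) (nat_lit 524) (nat_lit 1516) (.f (nat_lit 461) (nat_lit 460) (nat_lit 3532) (.d (nat_lit 497) (nat_lit 462) (nat_lit 3533) (nat_lit 465) (nat_lit 6608)))))))) (.a (.p (nat_lit 493) (.a (.f (nat_lit 589) (nat_lit 622) (nat_lit 4589) (.f (nat_lit 620) (nat_lit 588) (nat_lit 5612) (.f (nat_lit 621) (nat_lit 652) (nat_lit 5644) (.d (nat_lit 492) (nat_lit 460) (nat_lit 7628) (nat_lit 524) (nat_lit 7660))))) (.a (.f (nat_lit 495) (nat_lit 463) (nat_lit 7631) (.f (nat_lit 494) (nat_lit 524) (nat_lit 1516) (.f (nat_lit 461) (nat_lit 460) (nat_lit 3532) (.d (nat_lit 497) (nat_lit 462) (nat_lit 3533) (nat_lit 465) (nat_lit 6608))))) (.a (.f (nat_lit 589) (nat_lit 622) (nat_lit 4589) (.f (nat_lit 494) (nat_lit 462) (nat_lit 6605) (.d (nat_lit 495) (nat_lit 463) (nat_lit 7631) (nat_lit 524) (nat_lit 1516)))) (.f (nat_lit 589) (nat_lit 622) (nat_lit 4589) (.f (nat_lit 588) (nat_lit 620) (nat_lit 5612) (.f (nat_lit 461) (nat_lit 556) (nat_lit 5580) (.d (nat_lit 462) (nat_lit 430) (nat_lit 6573) (nat_lit 494) (nat_lit 6605))))))))) (.f (nat_lit 591) (nat_lit 623) (nat_lit 5615) (.d (nat_lit 561) (nat_lit 559) (nat_lit 1582) (nat_lit 593) (nat_lit 2606))))))) (.a (.p (nat_lit 558) (.a (.f (nat_lit 559) (nat_lit 524) (nat_lit 3596) (.f (nat_lit 589) (nat_lit 588) (nat_lit 1580) (.f (nat_lit 590) (nat_lit 561) (nat_lit 1581) (.d (nat_lit 493) (nat_lit 461) (nat_lit 4557) (nat_lit 622) (nat_lit 4589))))) (.a (.f (nat_lit 524) (nat_lit 559) (nat_lit 3596) (.f (nat_lit 495) (nat_lit 463) (nat_lit 7631) (.f (nat_lit 493) (nat_lit 494) (nat_lit 1516) (.f (nat_lit 461) (nat_lit 590) (nat_lit 4557) (.d (nat_lit 556) (nat_lit 429) (nat_lit 5548) (nat_lit 588) (nat_lit 5580)))))) (.a (.p (nat_lit 493) (.a (.f (nat_lit 461) (nat_lit 590) (nat_lit 4557) (.f (nat_lit 460) (nat_lit 428) (nat_lit 7596) (.f (nat_lit 462) (nat_lit 430) (nat_lit 6573) (.f (nat_lit 463) (nat_lit 495) (nat_lit 7631) (.d (nat_lit 492) (nat_lit 491) (nat_lit 1483) (nat_lit 589) (nat_lit 7628)))))) (.a (.f (nat_lit 461) (nat_lit 590) (nat_lit 4557) (.f (nat_lit 556) (nat_lit 588) (nat_lit 5580) (.f (nat_lit 524) (nat_lit 429) (nat_lit 5548) (.f (nat_lit 460) (nat_lit 428) (nat_lit 7596) (.f (nat_lit 492) (nat_lit 589) (nat_lit 4556) (.f (nat_lit 523) (nat_lit 522) (nat_lit 522) (.f (nat_lit 555) (nat_lit 587) (nat_lit 5579) (.f (nat_lit 459) (nat_lit 427) (nat_lit 7595) (.f (nat_lit 458) (nat_lit 457) (nat_lit 457) (.d (nat_lit 426) (nat_lit 425) (nat_lit 3497) (nat_lit 491) (nat_lit 7594))))))))))) (.a (.f (nat_lit 495) (nat_lit 463) (nat_lit 7631) (.f (nat_lit 494) (nat_lit 524) (nat_lit 1516) (.f (nat_lit 461) (nat_lit 460) (nat_lit 3532) (.d (nat_lit 497) (nat_lit 462) (nat_lit 3533) (nat_lit 465) (nat_lit 6608))))) (.f (nat_lit 495) (nat_lit 463) (nat_lit 7631) (.f (nat_lit 494) (nat_lit 524) (nat_lit 1516) (.f (nat_lit 589) (nat_lit 462) (nat_lit 6605) (.f (nat_lit 622) (nat_lit 590) (nat_lit 4589) (.f (nat_lit 621) (nat_lit 654) (nat_lit 4621) (.d (nat_lit 620) (nat_lit 588) (nat_lit 5612) (nat_lit 652) (nat_lit 5644))))))))))) (.a (.d (nat_lit 559) (nat_lit 524) (nat_lit 3596) (nat_lit 593) (nat_lit 557)) (.f (nat_lit 559) (nat_lit 593) (nat_lit 557) (.f (nat_lit 589) (nat_lit 588) (nat_lit 1580) (.f (nat_lit 590) (nat_lit 561) (nat_lit 1581) (.d (nat_lit 622) (nat_lit 493) (nat_lit 4589) (nat_lit 654) (nat_lit 7693)))))))))) (.a (.p (nat_lit 493) (.a (.f (nat_lit 495) (nat_lit 463) (nat_lit 7631) (.f (nat_lit 494) (nat_lit 524) (nat_lit 1516) (.f (nat_lit 461) (nat_lit 460) (nat_lit 3532) (.d (nat_lit 462) (nat_lit 430) (nat_lit 6573) (nat_lit 589) (nat_lit 6605))))) (.a (.p (nat_lit 589) (.a (.f (nat_lit 492) (nat_lit 460) (nat_lit 7628) (.f (nat_lit 621) (nat_lit 524) (nat_lit 7660) (.d (nat_lit 620) (nat_lit 588) (nat_lit 5612) (nat_lit 652) (nat_lit 5644)))) (.a (.f (nat_lit 588) (nat_lit 620) (nat_lit 5612) (.f (nat_lit 461) (nat_lit 556) (nat_lit 5580) (.d (nat_lit 460) (nat_lit 428) (nat_lit 7596) (nat_lit 492) (nat_lit 7628)))) (.a (.f (nat_lit 620) (nat_lit 588) (nat_lit 5612) (.f (nat_lit 621) (nat_lit 652) (nat_lit 5644) (.f (nat_lit 654) (nat_lit 622) (nat_lit 4621) (.f (nat_lit 653) (nat_lit 686) (nat_lit 4653) (.d (nat_lit 524) (nat_lit 492) (nat_lit 7660) (nat_lit 556) (nat_lit 7692)))))) (.a (.f (nat_lit 492) (nat_lit 460) (nat_lit 7628) (.f (nat_lit 621) (nat_lit 524) (nat_lit 7660) (.f (nat_lit 652) (nat_lit 620) (nat_lit 5644) (.f (nat_lit 653) (nat_lit 684) (nat_lit 5676) (.d (nat_lit 654) (nat_lit 622) (nat_lit 4621) (nat_lit 686) (nat_lit 4653)))))) (.a (.f (nat_lit 460) (nat_lit 492) (nat_lit 7628) (.f (nat_lit 461) (nat_lit 428) (nat_lit 7596) (.f (nat_lit 430) (nat_lit 462) (nat_lit 6573) (.f (nat_lit 429) (nat_lit 398) (nat_lit 6541) (.d (nat_lit 556) (nat_lit 524) (nat_lit 5548) (nat_lit 588) (nat_lit 5580)))))) (.f (nat_lit 588) (nat_lit 620) (nat_lit 5612) (.f (nat_lit 461) (nat_lit 556) (nat_lit 5580) (.f (nat_lit 430) (nat_lit 462) (nat_lit 6573) (.f (nat_lit 429) (nat_lit 398) (nat_lit 6541) (.d (nat_lit 428) (nat_lit 396) (nat_lit 7564) (nat_lit 460) (nat_lit 7596)))))))))))) (.a (.f (nat_lit 495) (nat_lit 463) (nat_lit 7631) (.f (nat_lit 494) (nat_lit 524) (nat_lit 1516) (.f (nat_lit 460) (nat_lit 461) (nat_lit 3532) (.d (nat_lit 492) (nat_lit 459) (nat_lit 3531) (nat_lit 589) (nat_lit 7628))))) (.a (.f (nat_lit 495) (nat_lit 463) (nat_lit 7631) (.f (nat_lit 494) (nat_lit 524) (nat_lit 1516) (.f (nat_lit 461) (nat_lit 460) (nat_lit 3532) (.d (nat_lit 497) (nat_lit 462) (nat_lit 3533) (nat_lit 465) (nat_lit 6608))))) (.a (.f (nat_lit 623) (nat_lit 591) (nat_lit 5615) (.f (nat_lit 624) (nat_lit 655) (nat_lit 5647) (.f (nat_lit 495) (nat_lit 463) (nat_lit 7631) (.f (nat_lit 494) (nat_lit 524) (nat_lit 1516) (.f (nat_lit 589) (nat_lit 462) (nat_lit 6605) (.f (nat_lit 620) (nat_lit 588) (nat_lit 5612) (.f (nat_lit 621) (nat_lit 652) (nat_lit 5644) (.d (nat_lit 622) (nat_lit 593) (nat_lit 2637) (nat_lit 654) (nat_lit 4621))))))))) (.p (nat_lit 494) (.a (.f (nat_lit 495) (nat_lit 463) (nat_lit 7631) (.f (nat_lit 460) (nat_lit 461) (nat_lit 3532) (.d (nat_lit 492) (nat_lit 459) (nat_lit 3531) (nat_lit 589) (nat_lit 7628)))) (.a (.f (nat_lit 589) (nat_lit 462) (nat_lit 6605) (.f (nat_lit 588) (nat_lit 620) (nat_lit 5612) (.f (nat_lit 461) (nat_lit 556) (nat_lit 5580) (.d (nat_lit 460) (nat_lit 492) (nat_lit 7628) (nat_lit 495) (nat_lit 3532))))) (.a (.f (nat_lit 589) (nat_lit 462) (nat_lit 6605) (.f (nat_lit 588) (nat_lit 620) (nat_lit 5612) (.f (nat_lit 461) (nat_lit 556) (nat_lit 5580) (.d (nat_lit 460) (nat_lit 428) (nat_lit 7596) (nat_lit 492) (nat_lit 7628))))) (.a (.f (nat_lit 495) (nat_lit 463) (nat_lit 7631) (.f (nat_lit 461) (nat_lit 460) (nat_lit 3532) (.d (nat_lit 497) (nat_lit 462) (nat_lit 3533) (nat_lit 465) (nat_lit 6608)))) (.f (nat_lit 589) (nat_lit 462) (nat_lit 6605) (.f (nat_lit 623) (nat_lit 591) (nat_lit 5615) (.f (nat_lit 624) (nat_lit 655) (nat_lit 5647) (.f (nat_lit 620) (nat_lit 588) (nat_lit 5612) (.f (nat_lit 621) (nat_lit 652) (nat_lit 5644) (.d (nat_lit 622) (nat_lit 593) (nat_lit 2637) (nat_lit 654) (nat_lit 4621)))))))))))))))))) (.a (.p (nat_lit 558) (.a (.f (nat_lit 559) (nat_lit 524) (nat_lit 3596) (.f (nat_lit 556) (nat_lit 591) (nat_lit 556) (.d (nat_lit 588) (nat_lit 587) (nat_lit 1579) (nat_lit 589) (nat_lit 1580)))) (.a (.f (nat_lit 591) (nat_lit 623) (nat_lit 5615) (.f (nat_lit 590) (nat_lit 593) (nat_lit 3629) (.d (nat_lit 556) (nat_lit 555) (nat_lit 555) (nat_lit 589) (nat_lit 3628)))) (.d (nat_lit 559) (nat_lit 524) (nat_lit 3596) (nat_lit 593) (nat_lit 557))))) (.a (.f (nat_lit 591) (nat_lit 623) (nat_lit 5615) (.p (nat_lit 590) (.a (.d (nat_lit 561) (nat_lit 559) (nat_lit 1582) (nat_lit 593) (nat_lit 2606)) (.a (.f (nat_lit 558) (nat_lit 593) (nat_lit 3629) (.d (nat_lit 556) (nat_lit 555) (nat_lit 555) (nat_lit 559) (nat_lit 556))) (.a (.d (nat_lit 593) (nat_lit 558) (nat_lit 3629) (nat_lit 561) (nat_lit 2606)) (.f (nat_lit 559) (nat_lit 561) (nat_lit 1582) (.d (nat_lit 558) (nat_lit 524) (nat_lit 3596) (nat_lit 556) (nat_lit 556)))))))) (.a (.p (nat_lit 558) (.a (.f (nat_lit 591) (nat_lit 623) (nat_lit 5615) (.f (nat_lit 590) (nat_lit 593) (nat_lit 3629) (.d (nat_lit 556) (nat_lit 555) (nat_lit 555) (nat_lit 589) (nat_lit 3628)))) (.a (.f (nat_lit 559) (nat_lit 593) (nat_lit 557) (.f (nat_lit 589) (nat_lit 588) (nat_lit 1580) (.f (nat_lit 590) (nat_lit 561) (nat_lit 1581) (.d (nat_lit 622) (nat_lit 493) (nat_lit 4589) (nat_lit 654) (nat_lit 7693))))) (.a (.f (nat_lit 591) (nat_lit 623) (nat_lit 5615) (.f (nat_lit 559) (nat_lit 556) (nat_lit 556) (.f (nat_lit 590) (nat_lit 561) (nat_lit 1582) (.f (nat_lit 589) (nat_lit 588) (nat_lit 1580) (.d (nat_lit 493) (nat_lit 461) (nat_lit 4557) (nat_lit 622) (nat_lit 4589)))))) (.f (nat_lit 559) (nat_lit 593) (nat_lit 557) (.d (nat_lit 591) (nat_lit 556) (nat_lit 556) (nat_lit 623) (nat_lit 5615))))))) (.p (nat_lit 558) (.a (.f (nat_lit 559) (nat_lit 524) (nat_lit 3596) (.f (nat_lit 589) (nat_lit 588) (nat_lit 1580) (.f (nat_lit 590) (nat_lit 561) (nat_lit 1581) (.d (nat_lit 493) (nat_lit 461) (nat_lit 4557) (nat_lit 622) (nat_lit 4589))))) (.a (.d (nat_lit 559) (nat_lit 524) (nat_lit 3596) (nat_lit 593) (nat_lit 557)) (.f (nat_lit 591) (nat_lit 623) (nat_lit 5615) (.f (nat_lit 590) (nat_lit 593) (nat_lit 3629) (.f (nat_lit 589) (nat_lit 561) (nat_lit 2605) (.d (nat_lit 493) (nat_lit 461) (nat_lit 4557) (nat_lit 622) (nat_lit 4589))))))))))))))))))))) (.p (nat_lit 590) (.a (.f (nat_lit 591) (nat_lit 623) (nat_lit 5615) (.d (nat_lit 561) (nat_lit 559) (nat_lit 1582) (nat_lit 593) (nat_lit 2606))) (.a (.f (nat_lit 495) (nat_lit 463) (nat_lit 7631) (.f (nat_lit 497) (nat_lit 465) (nat_lit 6608) (.f (nat_lit 494) (nat_lit 526) (nat_lit 1517) (.f (nat_lit 461) (nat_lit 462) (nat_lit 3533) (.f (nat_lit 493) (nat_lit 460) (nat_lit 3532) (.f (nat_lit 557) (nat_lit 558) (nat_lit 4557) (.f (nat_lit 589) (nat_lit 622) (nat_lit 4589) (.d (nat_lit 556) (nat_lit 588) (nat_lit 5580) (nat_lit 591) (nat_lit 3628))))))))) (.f (nat_lit 497) (nat_lit 465) (nat_lit 6608) (.f (nat_lit 495) (nat_lit 463) (nat_lit 7631) (.f (nat_lit 494) (nat_lit 526) (nat_lit 1517) (.f (nat_lit 461) (nat_lit 462) (nat_lit 3533) (.f (nat_lit 493) (nat_lit 460) (nat_lit 3532) (.f (nat_lit 557) (nat_lit 558) (nat_lit 4557) (.f (nat_lit 589) (nat_lit 622) (nat_lit 4589) (.d (nat_lit 588) (nat_lit 556) (nat_lit 5580) (nat_lit 620) (nat_lit 5612))))))))))))))))))))))))) (.f (nat_lit 465) (nat_lit 497) (nat_lit 6608) (.f (nat_lit 464) (nat_lit 433) (nat_lit 6576) (.d (nat_lit 463) (nat_lit 431) (nat_lit 7599) (nat_lit 495) (nat_lit 7631)))))))))))))))))))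
end Vale.Agent.Lib.P062.Part4
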