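import Vale.Agent.Lib.P062.Part4.K_0

set_option maxRecDepth 100000
set_option linter.all false

namespace Vale.Agent.Lib.P062.Part4
open Vale.Agent.Lib.P062 Vale.Agent.Lib.P062.V2

noncomputable def s29961 : Cert := .r (nat_lit 3773962425700235453096299722244592710232032175317446804068244616434075696517633372946541333831107680986492224416003539946258365535128289863158302094148386530119930347520) (.p (nat_lit 525) (.a (.f (nat_lit 526) (nat_lit 497) (nat_lit 1517) (.d (nat_lit 524) (nat_lit 493) (nat_lit 1516) (nat_lit 523) (nat_lit 2539))) (.a (.f (nat_lit 493) (nat_lit 524) (nat_lit 1516) (.f (nat_lit 461) (nat_lit 460) (nat_lit 3532) (.f (nat_lit 462) (nat_lit 497) (nat_lit 3533) (.d (nat_lit 430) (nat_lit 398) (nat_lit 5517) (nat_lit 557) (nat_lit 6573))))) (.a (.f (nat_lit 493) (nat_lit 524) (nat_lit 1516) (.p (nat_lit 462) (.a (.f (nat_lit 461) (nat_lit 460) (nat_lit 3532) (.d (nat_lit 430) (nat_lit 398) (nat_lit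 5517) (nat_lit 557) (nat_lit 6573))) (.a (.f (nat_lit 460) (nat_lit 461) (nat_lit 3532) (.f (nat_lit 492) (nat_lit 459) (nat_lit 3531) (.f (nat_lit 491) (nat_lit 463) (nat_lit 2507) (.f (nat_lit 490) (nat_lit 526) (nat_lit 490) (.d (nat_lit 522) (nat_lit 521) (nat_lit 1513) (nat_lit 523) (nat_lit 1514)))))) (.f (nat_lit 430) (nat_lit 398) (nat_lit 5517) (.d (nat_lit 557) (nat_lit 526) (nat_lit 5549) (nat_lit 589) (nat_lit 6605))))))) (.f (nat_lit 497) (nat_lit 526) (nat_lit 1517) (.f (nat_lit 462) (nat_lit 461) (nat_lit 3533) (.f (nat_lit 498) (nat_lit 463) (nat_lit 3534) (.d (nat_lit 466) (nat_lit 465) (nat_lit 2510) (nat_lit 467) (nat_lit 2511)))))))))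
noncomputable def s30173 : Cert := .r (nat_lit 4717453032125294316178574421874326325093954885348316367260111900657258793138255112583793827655798201532923673547783478224763190270811139418251553991950010913431444520960) (.p (nat_lit 561) (.a (.f (nat_lit 559) (nat_lit 525) (nat_lit 3597) (.d (nat_lit 593) (nat_lit 464) (nat_lit 4560) (nat_lit 594) (nat_lit 558))) (.a (.f (nat_lit 559) (nat_lit 525) (nat_lit 3597) (.f (nat_lit 589) (nat_lit 590) (nat_lit 1581) (.d (nat_lit 557) (nat_lit 462) (nat_lit 5581) (nat_lit 588) (nat_lit 1580)))) (.a (.f (nat_lit 464) (nat_lit 593) (nat_lit 4560) (.f (nat_lit 431) (nat_lit 463) (nat_lit 7599) (.f (nat_lit 432) (nat_lit 399) (nat_lit 7567) (.f (nat_lit 401) (nat_lit 433) (nat_lit 6544) (.f (nat_lit 400) (nat_lit 369) (nat_lit 6512) (.f (nat_lit 429) (nat_lit 430) (nat_lit 2445) (.f (nat_lit 461) (nat_lit 462) (nat_lit 7597) (.d (nat_lit 493) (nat_lit 397) (nat_lit 4493) (nat_lit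 525) (nat_lit 4525))))))))) (.f (nat_lit 593) (nat_lit 464) (nat_lit 4560) (.f (nat_lit 559) (nat_lit 594) (nat_lit 558) (.f (nat_lit 589) (nat_lit 590) (nat_lit 1581) (.d (nat_lit 557) (nat_lit 462) (nat_lit 5581) (nat_lit 588) (nat_lit 1580)))))))))
noncomputable def s30265 : Cert := .r (nat_lit 4717453032125294316178574421874326325093954885348316367260111900657258793138255112583793827655798201532923673547783478224763190270811139418251553991950010913431444520960) (.p (nat_lit 590) (.a (.f (nat_lit 589) (nat_lit 621) (nat_lit 5613) (.f (nat_lit 561) (nat_lit 559) (nat_lit 1581) (.f (nat_lit 593) (nat_lit 464) (nat_lit 4560) (.d (nat_lit 625) (nat_lit 592) (nat_lit 4592) (nat_lit 657) (nat_lit 7696))))) (.a (.f (nat_lit 493) (nat_lit 461) (nat_lit 7629) (.f (nat_lit 622) (nat_lit 525) (nat_lit 7661) (.d (nat_lit 621) (nat_lit 589) (nat_lit 5613) (nat_lit 653) (nat_lit 5645)))) (.a (.f (nat_lit 493) (nat_lit 461)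 (nat_lit 7629) (.f (nat_lit 622) (nat_lit 525) (nat_lit 7661) (.f (nat_lit 655) (nat_lit 623) (nat_lit 4622) (.f (nat_lit 654) (nat_lit 687) (nat_lit 4654) (.d (nat_lit 653) (nat_lit 621) (nat_lit 5645) (nat_lit 685) (nat_lit 5677)))))) (.f (nat_lit 493) (nat_lit 461) (nat_lit 7629) (.f (nat_lit 525) (nat_lit 622) (nat_lit 7661) (.f (nat_lit 561) (nat_lit 559) (nat_lit 3597) (.f (nat_lit 593) (nat_lit 464) (nat_lit 4560) (.d (nat_lit 625) (nat_lit 592) (nat_lit 4592) (nat_lit 657) (nat_lit 7696))))))))))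
noncomputable def s30549 : Cert := .r (nat_lit 12265377881658540258048447100216364842888405450518375568164813380937598085480662284143616400013521915879250657628075588373582421524237545958846729326968398390488637374464) (.p (nat_lit 493) (.a (.f (nat_lit 557) (nat_lit 590) (nat_lit 4557) (.f (nat_lit 556) (nat_lit 588) (nat_lit 5580) (.f (nat_lit 524) (nat_lit 429) (nat_lit 5548) (.f (nat_lit 460) (nat_lit 428) (nat_lit 7596) (.f (nat_lit 492) (nat_lit 589) (nat_lit 4556) (.f (nat_lit 459) (nat_lit 427) (nat_lit 7595) (.d (nat_lit 458) (nat_lit 457) (nat_lit 457) (nat_lit 494) (nat_lit 458)))))))) (.a (.f (nat_lit 429) (nat_lit 526) (nat_lit 4525) (.f (nat_lit 524) (nat_lit 556) (nat_lit 5548) (.f (nat_lit 397) (nat_lit 492) (nat_lit 5516) (.d (nat_lit 398) (nat_lit 366) (nat_lit 6509) (nat_lit 430) (nat_lit 6541))))) (.a (.f (nat_lit 557) (nat_lit 590) (nat_lit 4557) (.f (nat_lit 429) (nat_lit 526) (nat_lit 4525)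 (.d (nat_lit 430) (nat_lit 398) (nat_lit 6541) (nat_lit 462) (nat_lit 6573)))) (.f (nat_lit 557) (nat_lit 590) (nat_lit 4557) (.f (nat_lit 462) (nat_lit 430) (nat_lit 6573) (.f (nat_lit 589) (nat_lit 494) (nat_lit 6605) (.d (nat_lit 460) (nat_lit 428) (nat_lit 7596) (nat_lit 492) (nat_lit 7628)))))))))
noncomputable def s30596 : Cert := .r (nat_lit 12737123184761232927078641422833944191423590991423050561077620635322876075752930381104556272949041464773709248719032911898606593473904378460918376078765969939403200528384) (.p (nat_lit 461) (.a (.f (nat_lit 493) (nat_lit 590) (nat_lit 4557) (.f (nat_lit 462) (nat_lit 430) (nat_lit 6573) (.d (nat_lit 463) (nat_lit 431) (nat_lit 7599) (nat_lit 492) (nat_lit 1484)))) (.a (.f (nat_lit 493) (nat_lit 590) (nat_lit 4557) (.f (nat_lit 524) (nat_lit 559) (nat_lit 3596) (.d (nat_lit 556) (nat_lit 429) (nat_lit 5548) (nat_lit 588) (nat_lit 5580)))) (.f (nat_lit 463) (nat_lit 431)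 (nat_lit 7599) (.f (nat_lit 462) (nat_lit 497) (nat_lit 461) (.f (nat_lit 428) (nat_lit 429) (nat_lit 3500) (.f (nat_lit 460) (nat_lit 427) (nat_lit 3499) (.d (nat_lit 492) (nat_lit 491) (nat_lit 1483) (nat_lit 524) (nat_lit 4524)))))))))
noncomputable def s30738 : Cert := .r (nat_lit 11793632578555847589018252777586876968694360686318940453983569060261470035154893168083024591654626772888342154961341950673663947316423180302778017515907795928490851696640) (.p (nat_lit 461) (.a (.f (nat_lit 463) (nat_lit 431) (nat_lit 7599) (.f (nat_lit 462) (nat_lit 497) (nat_lit 461) (.d (nat_lit 493) (nat_lit 430) (nat_lit 6573) (nat_lit 492) (nat_lit 1484)))) (.a (.p (nat_lit 493) (.a (.f (nat_lit 428) (nat_lit 460) (nat_lit 7596) (.f (nat_lit 429) (nat_lit 396) (nat_lit 7564) (.d (nat_lit 430) (nat_lit 398) (nat_lit 6541) (nat_lit 462) (nat_lit 6573)))) (.a (.f (nat_lit 460) (nat_lit 428) (nat_lit 7596) (.f (nat_lit 589) (nat_lit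 492) (nat_lit 7628) (.d (nat_lit 588) (nat_lit 556) (nat_lit 5580) (nat_lit 620) (nat_lit 5612)))) (.f (nat_lit 556) (nat_lit 588) (nat_lit 5580) (.f (nat_lit 429) (nat_lit 524) (nat_lit 5548) (.d (nat_lit 430) (nat_lit 398) (nat_lit 6541) (nat_lit 462) (nat_lit 6573))))))) (.a (.p (nat_lit 493) (.a (.f (nat_lit 460) (nat_lit 428) (nat_lit 7596) (.f (nat_lit 589) (nat_lit 492) (nat_lit 7628) (.d (nat_lit 588) (nat_lit 556) (nat_lit 5580) (nat_lit 620) (nat_lit 5612)))) (.a (.f (nat_lit 556) (nat_lit 588) (nat_lit 5580) (.f (nat_lit 429) (nat_lit 524) (nat_lit 5548) (.d (nat_lit 428) (nat_lit 396) (nat_lit 7564) (nat_lit 460) (nat_lit 7596)))) (.a (.f (nat_lit 460) (nat_lit 428) (nat_lit 7596) (.f (nat_lit 589) (nat_lit 492) (nat_lit 7628) (.d (nat_lit 590) (nat_lit 558) (nat_lit 4557) (nat_lit 622) (nat_lit 4589)))) (.a (.f (nat_lit 556) (nat_lit 588) (nat_lit 5580) (.f (nat_lit 429) (nat_lit 524) (nat_lit 5548)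 (.f (nat_lit 431) (nat_lit 463) (nat_lit 7599) (.f (nat_lit 432) (nat_lit 399) (nat_lit 7567) (.f (nat_lit 430) (nat_lit 398) (nat_lit 6541) (.d (nat_lit 396) (nat_lit 397) (nat_lit 3468) (nat_lit 428) (nat_lit 7564))))))) (.f (nat_lit 556) (nat_lit 588) (nat_lit 5580) (.f (nat_lit 524) (nat_lit 429) (nat_lit 5548) (.f (nat_lit 590) (nat_lit 558) (nat_lit 4557) (.f (nat_lit 589) (nat_lit 622) (nat_lit 4589) (.d (nat_lit 492) (nat_lit 460) (nat_lit 4556) (nat_lit 621) (nat_lit 7660))))))))))) (.a (.f (nat_lit 463) (nat_lit 431) (nat_lit 7599) (.f (nat_lit 462) (nat_lit 497) (nat_lit 461) (.f (nat_lit 428) (nat_lit 429) (nat_lit 3500) (.f (nat_lit 460) (nat_lit 427) (nat_lit 3499) (.d (nat_lit 492) (nat_lit 491) (nat_lit 1483) (nat_lit 524) (nat_lit 4524)))))) (.f (nat_lit 463) (nat_lit 431) (nat_lit 7599) (.f (nat_lit 462) (nat_lit 497) (nat_lit 461) (.f (nat_lit 493) (nat_lit 430) (nat_lit 6573) (.d (nat_lit 428)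 (nat_lit 429) (nat_lit 3500) (nat_lit 460) (nat_lit 7596))))))))))
noncomputable def s30769 : Cert := .r (nat_lit 11793632578555847589043826141711065577053838730825406072360261576246181478822731381896275636939038292848367702557638076901405249536169743357537527332672525561719980818432) (.p (nat_lit 462) (.a (.f (nat_lit 461) (nat_lit 430) (nat_lit 6573) (.f (nat_lit 589) (nat_lit 494) (nat_lit 6605) (.d (nat_lit 588) (nat_lit 556) (nat_lit 5580) (nat_lit 620) (nat_lit 5612)))) (.a (.f (nat_lit 461) (nat_lit 430) (nat_lit 6573) (.f (nat_lit 460) (nat_lit 428) (nat_lit 7596) (.f (nat_lit 492) (nat_lit 589) (nat_lit 7628) (.f (nat_lit 556) (nat_lit 588) (nat_lit 5580) (.f (nat_lit 524) (nat_lit 429) (nat_lit 5548) (.f (nat_lit 459) (nat_lit 427) (nat_lit 7595) (.f (nat_lit 490) (nat_lit 491) (nat_lit 1482) (.d (nat_lit 458) (nat_lit 457) (nat_lit 457) (nat_lit 489) (nat_lit 1481))))))))) (.a (.f (nat_lit 589) (nat_lit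 494) (nat_lit 6605) (.f (nat_lit 620) (nat_lit 588) (nat_lit 5612) (.f (nat_lit 621) (nat_lit 652) (nat_lit 5644) (.d (nat_lit 622) (nat_lit 590) (nat_lit 4589) (nat_lit 654) (nat_lit 4621))))) (.a (.f (nat_lit 461) (nat_lit 430) (nat_lit 6573) (.f (nat_lit 428) (nat_lit 460) (nat_lit 7596) (.f (nat_lit 429) (nat_lit 396) (nat_lit 7564) (.d (nat_lit 556) (nat_lit 524) (nat_lit 5548) (nat_lit 588) (nat_lit 5580))))) (.f (nat_lit 461) (nat_lit 430) (nat_lit 6573) (.f (nat_lit 589) (nat_lit 494) (nat_lit 6605) (.d (nat_lit 590) (nat_lit 558) (nat_lit 4557) (nat_lit 622) (nat_lit 4589)))))))))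
noncomputable def s30774 : Cert := .r (nat_lit 11793632578555847589043826141711065577053838730825406072360261576246181478822731381896275636939038292848367702557638076901405249536169743357537527332672525561719980818432) (.p (nat_lit 462) (.a (.f (nat_lit 461) (nat_lit 430) (nat_lit 6573) (.f (nat_lit 589) (nat_lit 494) (nat_lit 6605) (.d (nat_lit 588) (nat_lit 556) (nat_lit 5580) (nat_lit 620) (nat_lit 5612)))) (.a (.f (nat_lit 461) (nat_lit 430) (nat_lit 6573) (.f (nat_lit 460) (nat_lit 428) (nat_lit 7596) (.f (nat_lit 492) (nat_lit 589) (nat_lit 7628) (.f (nat_lit 556) (nat_lit 588) (nat_lit 5580) (.f (nat_lit 524) (nat_lit 429) (nat_lit 5548) (.f (nat_lit 459) (nat_lit 427) (nat_lit 7595) (.f (nat_lit 490) (nat_lit 491) (nat_lit 1482) (.d (nat_lit 458) (nat_lit 457) (nat_lit 457) (nat_lit 489) (nat_lit 1481))))))))) (.a (.f (nat_lit 589) (nat_lit 494) (nat_lit 6605) (.f (nat_lit 620) (nat_lit 588) (nat_lit 5612)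 (.f (nat_lit 621) (nat_lit 652) (nat_lit 5644) (.d (nat_lit 622) (nat_lit 590) (nat_lit 4589) (nat_lit 654) (nat_lit 4621))))) (.a (.f (nat_lit 461) (nat_lit 430) (nat_lit 6573) (.f (nat_lit 428) (nat_lit 460) (nat_lit 7596) (.f (nat_lit 429) (nat_lit 396) (nat_lit 7564) (.d (nat_lit 556) (nat_lit 524) (nat_lit 5548) (nat_lit 588) (nat_lit 5580))))) (.f (nat_lit 589) (nat_lit 494) (nat_lit 6605) (.f (nat_lit 492) (nat_lit 460) (nat_lit 7628) (.f (nat_lit 621) (nat_lit 524) (nat_lit 7660) (.d (nat_lit 622) (nat_lit 590) (nat_lit 4589) (nat_lit 654) (nat_lit 4621))))))))))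
noncomputable def s30799 : Cert := .r (nat_lit 11793632578555847589043826141711065577053838730825406072360261576246181478822731381896275636939038292848367702557638076901405249536169743357537527332672525561719980818432) (.p (nat_lit 590) (.a (.f (nat_lit 461) (nat_lit 558) (nat_lit 4557) (.f (nat_lit 589) (nat_lit 622) (nat_lit 4589) (.d (nat_lit 588) (nat_lit 556) (nat_lit 5580) (nat_lit 620) (nat_lit 5612)))) (.a (.f (nat_lit 589) (nat_lit 622) (nat_lit 4589) (.f (nat_lit 588) (nat_lit 620) (nat_lit 5612) (.f (nat_lit 556) (nat_lit 461) (nat_lit 5580) (.f (nat_lit 492) (nat_lit 460) (nat_lit 7628) (.f (nat_lit 524) (nat_lit 621) (nat_lit 4588) (.f (nat_lit 555) (nat_lit 554) (nat_lit 554) (.f (nat_lit 587) (nat_lit 619) (nat_lit 5611) (.f (nat_lit 491) (nat_lit 459) (nat_lit 7627) (.f (nat_lit 490) (nat_lit 489) (nat_lit 489) (.d (nat_lit 458) (nat_lit 457) (nat_lit 3529) (nat_lit 523) (nat_lit 7626))))))))))) (.a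 (.f (nat_lit 589) (nat_lit 622) (nat_lit 4589) (.f (nat_lit 620) (nat_lit 588) (nat_lit 5612) (.f (nat_lit 621) (nat_lit 652) (nat_lit 5644) (.d (nat_lit 492) (nat_lit 460) (nat_lit 7628) (nat_lit 524) (nat_lit 7660))))) (.a (.f (nat_lit 461) (nat_lit 558) (nat_lit 4557) (.f (nat_lit 556) (nat_lit 588) (nat_lit 5580) (.f (nat_lit 429) (nat_lit 524) (nat_lit 5548) (.d (nat_lit 428) (nat_lit 396) (nat_lit 7564) (nat_lit 460) (nat_lit 7596))))) (.f (nat_lit 589) (nat_lit 622) (nat_lit 4589) (.f (nat_lit 461) (nat_lit 558) (nat_lit 4557) (.d (nat_lit 460) (nat_lit 428) (nat_lit 7596) (nat_lit 492) (nat_lit 7628)))))))))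
noncomputable def s30830 : Cert := .r (nat_lit 11793632578555847589043826141711065577053838730825406072360261576246181478822731381896275636939038292848367702557638076901405249536169743357537527332672525561719980818432) (.p (nat_lit 589) (.a (.f (nat_lit 620) (nat_lit 588) (nat_lit 5612) (.f (nat_lit 621) (nat_lit 652) (nat_lit 5644) (.d (nat_lit 622) (nat_lit 590) (nat_lit 4589) (nat_lit 654) (nat_lit 4621)))) (.a (.f (nat_lit 588) (nat_lit 620) (nat_lit 5612) (.f (nat_lit 492) (nat_lit 460) (nat_lit 7628) (.f (nat_lit 621) (nat_lit 524) (nat_lit 7660) (.f (nat_lit 654) (nat_lit 622) (nat_lit 4621) (.f (nat_lit 653) (nat_lit 686) (nat_lit 4653) (.f (nat_lit 684) (nat_lit 652) (nat_lit 5676) (.d (nat_lit 685) (nat_lit 556) (nat_lit 7724) (nat_lit 716) (nat_lit 5708)))))))) (.a (.f (nat_lit 588) (nat_lit 620) (nat_lit 5612) (.f (nat_lit 558) (nat_lit 559) (nat_lit 1580) (.f (nat_lit 492) (nat_lit 460) (nat_lit 7628)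 (.f (nat_lit 524) (nat_lit 621) (nat_lit 7660) (.f (nat_lit 522) (nat_lit 523) (nat_lit 522) (.f (nat_lit 587) (nat_lit 586) (nat_lit 2602) (.f (nat_lit 556) (nat_lit 619) (nat_lit 5611) (.f (nat_lit 491) (nat_lit 459) (nat_lit 7627) (.d (nat_lit 490) (nat_lit 489) (nat_lit 489) (nat_lit 521) (nat_lit 1513)))))))))) (.a (.f (nat_lit 588) (nat_lit 620) (nat_lit 5612) (.f (nat_lit 558) (nat_lit 559) (nat_lit 1580) (.f (nat_lit 590) (nat_lit 622) (nat_lit 4589) (.f (nat_lit 587) (nat_lit 586) (nat_lit 2602) (.f (nat_lit 555) (nat_lit 554) (nat_lit 3626) (.f (nat_lit 619) (nat_lit 618) (nat_lit 1610) (.f (nat_lit 492) (nat_lit 460) (nat_lit 7628) (.d (nat_lit 524) (nat_lit 523) (nat_lit 6635) (nat_lit 556) (nat_lit 5611))))))))) (.f (nat_lit 492) (nat_lit 460) (nat_lit 7628) (.f (nat_lit 621) (nat_lit 524) (nat_lit 7660) (.d (nat_lit 622) (nat_lit 590) (nat_lit 4589) (nat_lit 654) (nat_lit 4621)))))))))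
noncomputable def s30837 : Cert := .r (nat_lit 11793632578555847589043826141711065577053838730825406072360261576246181478822731381896275636939038292848367702557638076901405249536169743357537527332672525561719980818432) (.p (nat_lit 462) (.a (.f (nat_lit 461) (nat_lit 430) (nat_lit 6573) (.f (nat_lit 589) (nat_lit 494) (nat_lit 6605) (.d (nat_lit 588) (nat_lit 556) (nat_lit 5580) (nat_lit 620) (nat_lit 5612)))) (.a (.f (nat_lit 461) (nat_lit 430) (nat_lit 6573) (.f (nat_lit 460) (nat_lit 428) (nat_lit 7596) (.f (nat_lit 492) (nat_lit 589) (nat_lit 7628) (.f (nat_lit 556) (nat_lit 588) (nat_lit 5580) (.f (nat_lit 524) (nat_lit 429) (nat_lit 5548) (.f (nat_lit 459) (nat_lit 427) (nat_lit 7595) (.f (nat_lit 490) (nat_lit 491) (nat_lit 1482) (.d (nat_lit 458) (nat_lit 457) (nat_lit 457) (nat_lit 489) (nat_lit 1481))))))))) (.a (.f (nat_lit 589) (nat_lit 494) (nat_lit 6605) (.f (nat_lit 492) (nat_lit 460) (nat_lit 7628)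 (.f (nat_lit 621) (nat_lit 524) (nat_lit 7660) (.d (nat_lit 620) (nat_lit 588) (nat_lit 5612) (nat_lit 652) (nat_lit 5644))))) (.a (.f (nat_lit 461) (nat_lit 430) (nat_lit 6573) (.f (nat_lit 428) (nat_lit 460) (nat_lit 7596) (.f (nat_lit 429) (nat_lit 396) (nat_lit 7564) (.d (nat_lit 556) (nat_lit 524) (nat_lit 5548) (nat_lit 588) (nat_lit 5580))))) (.f (nat_lit 461) (nat_lit 430) (nat_lit 6573) (.d (nat_lit 463) (nat_lit 492) (nat_lit 1484) (nat_lit 497) (nat_lit 461))))))))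
noncomputable def s30861 : Cert := .r (nat_lit 11793632578555847589043826141711065577053838730825406072360261576246181478822731381896275636939038292848367702557638076901405249536169743357537527332672525561719980818432) (.p (nat_lit 558) (.a (.f (nat_lit 461) (nat_lit 590) (nat_lit 4557) (.f (nat_lit 460) (nat_lit 428) (nat_lit 7596) (.f (nat_lit 589) (nat_lit 492) (nat_lit 7628) (.d (nat_lit 462) (nat_lit 430) (nat_lit 6573) (nat_lit 494) (nat_lit 6605))))) (.a (.f (nat_lit 559) (nat_lit 524) (nat_lit 3596) (.d (nat_lit 589) (nat_lit 588) (nat_lit 1580) (nat_lit 590) (nat_lit 1581))) (.a (.f (nat_lit 559) (nat_lit 524) (nat_lit 3596) (.f (nat_lit 589) (nat_lit 588) (nat_lit 1580) (.f (nat_lit 462) (nat_lit 494) (nat_lit 6605) (.f (nat_lit 461) (nat_lit 430) (nat_lit 6573) (.d (nat_lit 492) (nat_lit 460) (nat_lit 7628) (nat_lit 463) (nat_lit 1484)))))) (.f (nat_lit 461) (nat_lit 590) (nat_lit 4557) (.f (nat_lit 462)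 (nat_lit 430) (nat_lit 6573) (.d (nat_lit 463) (nat_lit 492) (nat_lit 1484) (nat_lit 497) (nat_lit 461))))))))
noncomputable def s30863 : Cert := .r (nat_lit 11793632578555847589043826141711065577053838730825406072360261576246181478822731381896275636939038292848367702557638076901405249536169743357537527332672525561719980818432) (.p (nat_lit 558) (.a (.f (nat_lit 461) (nat_lit 590) (nat_lit 4557) (.f (nat_lit 524) (nat_lit 559) (nat_lit 3596) (.d (nat_lit 556) (nat_lit 429) (nat_lit 5548) (nat_lit 588) (nat_lit 5580)))) (.a (.f (nat_lit 461) (nat_lit 590) (nat_lit 4557) (.f (nat_lit 556) (nat_lit 588) (nat_lit 5580) (.f (nat_lit 429) (nat_lit 524) (nat_lit 5548) (.d (nat_lit 430) (nat_lit 398) (nat_lit 6541) (nat_lit 462) (nat_lit 6573))))) (.a (.f (nat_lit 559) (nat_lit 524) (nat_lit 3596) (.d (nat_lit 589) (nat_lit 588) (nat_lit 1580) (nat_lit 590) (nat_lit 1581))) (.a (.f (nat_lit 559) (nat_lit 524) (nat_lit 3596)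 (.d (nat_lit 527) (nat_lit 432) (nat_lit 5551) (nat_lit 556) (nat_lit 2572))) (.f (nat_lit 461) (nat_lit 590) (nat_lit 4557) (.f (nat_lit 588) (nat_lit 556) (nat_lit 5580) (.d (nat_lit 589) (nat_lit 559) (nat_lit 1580) (nat_lit 620) (nat_lit 5612)))))))))
noncomputable def s30865 : Cert := .r (nat_lit 11793632578555847589018252777586876968694360686318940453983569060261470035154893168083024591654626772888342154961341950673663947316423180302778017515907795928490851696640) (.p (nat_lit 493) (.a s30769 (.a s30774 (.a s30799 (.a s30830 (.a s30837 (.a (.p (nat_lit 558) (.a (.f (nat_lit 461) (nat_lit 590) (nat_lit 4557) (.f (nat_lit 524) (nat_lit 559) (nat_lit 3596) (.d (nat_lit 556) (nat_lit 429) (nat_lit 5548) (nat_lit 588) (nat_lit 5580)))) (.a (.f (nat_lit 461) (nat_lit 590) (nat_lit 4557) (.f (nat_lit 556) (nat_lit 588) (nat_lit 5580) (.f (nat_lit 429) (nat_lit 524) (nat_lit 5548) (.d (nat_lit 430) (nat_lit 398) (nat_lit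 6541) (nat_lit 462) (nat_lit 6573))))) (.a (.f (nat_lit 559) (nat_lit 524) (nat_lit 3596) (.d (nat_lit 527) (nat_lit 432) (nat_lit 5551) (nat_lit 556) (nat_lit 2572))) (.f (nat_lit 461) (nat_lit 590) (nat_lit 4557) (.f (nat_lit 462) (nat_lit 430) (nat_lit 6573) (.d (nat_lit 463) (nat_lit 492) (nat_lit 1484) (nat_lit 497) (nat_lit 461)))))))) (.a (.p (nat_lit 462) (.a (.f (nat_lit 461) (nat_lit 430) (nat_lit 6573) (.f (nat_lit 589) (nat_lit 494) (nat_lit 6605) (.d (nat_lit 588) (nat_lit 556) (nat_lit 5580) (nat_lit 620) (nat_lit 5612)))) (.a (.f (nat_lit 461) (nat_lit 430) (nat_lit 6573) (.d (nat_lit 463) (nat_lit 492) (nat_lit 1484) (nat_lit 497) (nat_lit 461))) (.f (nat_lit 589) (nat_lit 494) (nat_lit 6605) (.f (nat_lit 620) (nat_lit 588) (nat_lit 5612) (.f (nat_lit 621) (nat_lit 652) (nat_lit 5644) (.d (nat_lit 622) (nat_lit 590) (nat_lit 4589) (nat_lit 654) (nat_lit 4621)))))))) (.a s30861 (.a s30863 (.p (nat_lit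 558) (.a (.f (nat_lit 461) (nat_lit 590) (nat_lit 4557) (.f (nat_lit 460) (nat_lit 428) (nat_lit 7596) (.f (nat_lit 589) (nat_lit 492) (nat_lit 7628) (.d (nat_lit 462) (nat_lit 430) (nat_lit 6573) (nat_lit 494) (nat_lit 6605))))) (.f (nat_lit 559) (nat_lit 524) (nat_lit 3596) (.d (nat_lit 527) (nat_lit 432) (nat_lit 5551) (nat_lit 556) (nat_lit 2572)))))))))))))))
noncomputable def s30883 : Cert := .r (nat_lit 11793632578555847589018252777586876968694360686318940453983569060261470035154893168083024591654626772888342154961341950673663947316423180302778017515907795928490851696640) (.p (nat_lit 461) (.a (.f (nat_lit 463) (nat_lit 431) (nat_lit 7599) (.f (nat_lit 462) (nat_lit 497) (nat_lit 461) (.d (nat_lit 493) (nat_lit 430) (nat_lit 6573) (nat_lit 492) (nat_lit 1484)))) (.a (.p (nat_lit 493) (.a (.f (nat_lit 428) (nat_lit 460) (nat_lit 7596) (.f (nat_lit 429) (nat_lit 396) (nat_lit 7564) (.d (nat_lit 430) (nat_lit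 398) (nat_lit 6541) (nat_lit 462) (nat_lit 6573)))) (.a (.f (nat_lit 460) (nat_lit 428) (nat_lit 7596) (.f (nat_lit 589) (nat_lit 492) (nat_lit 7628) (.d (nat_lit 588) (nat_lit 556) (nat_lit 5580) (nat_lit 620) (nat_lit 5612)))) (.f (nat_lit 556) (nat_lit 588) (nat_lit 5580) (.f (nat_lit 429) (nat_lit 524) (nat_lit 5548) (.d (nat_lit 430) (nat_lit 398) (nat_lit 6541) (nat_lit 462) (nat_lit 6573))))))) (.a (.p (nat_lit 493) (.a (.f (nat_lit 460) (nat_lit 428) (nat_lit 7596) (.f (nat_lit 589) (nat_lit 492) (nat_lit 7628) (.d (nat_lit 588) (nat_lit 556) (nat_lit 5580) (nat_lit 620) (nat_lit 5612)))) (.a (.f (nat_lit 556) (nat_lit 588) (nat_lit 5580) (.f (nat_lit 429) (nat_lit 524) (nat_lit 5548) (.d (nat_lit 428) (nat_lit 396) (nat_lit 7564) (nat_lit 460) (nat_lit 7596)))) (.a (.f (nat_lit 460) (nat_lit 428) (nat_lit 7596) (.f (nat_lit 589) (nat_lit 492) (nat_lit 7628) (.f (nat_lit 620) (nat_lit 588) (nat_lit 5612)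 (.f (nat_lit 621) (nat_lit 652) (nat_lit 5644) (.d (nat_lit 622) (nat_lit 590) (nat_lit 4589) (nat_lit 654) (nat_lit 4621)))))) (.a (.f (nat_lit 556) (nat_lit 588) (nat_lit 5580) (.f (nat_lit 429) (nat_lit 524) (nat_lit 5548) (.f (nat_lit 431) (nat_lit 463) (nat_lit 7599) (.f (nat_lit 432) (nat_lit 399) (nat_lit 7567) (.f (nat_lit 430) (nat_lit 398) (nat_lit 6541) (.d (nat_lit 396) (nat_lit 397) (nat_lit 3468) (nat_lit 428) (nat_lit 7564))))))) (.a (.f (nat_lit 460) (nat_lit 428) (nat_lit 7596) (.f (nat_lit 492) (nat_lit 589) (nat_lit 7628) (.f (nat_lit 431) (nat_lit 463) (nat_lit 7599) (.f (nat_lit 432) (nat_lit 399) (nat_lit 7567) (.f (nat_lit 429) (nat_lit 430) (nat_lit 1452) (.d (nat_lit 397) (nat_lit 365) (nat_lit 5484) (nat_lit 524) (nat_lit 5516))))))) (.f (nat_lit 556) (nat_lit 588) (nat_lit 5580) (.f (nat_lit 429) (nat_lit 524) (nat_lit 5548) (.f (nat_lit 431) (nat_lit 463) (nat_lit 7599) (.f (nat_lit 432)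 (nat_lit 399) (nat_lit 7567) (.d (nat_lit 430) (nat_lit 398) (nat_lit 6541) (nat_lit 460) (nat_lit 1452)))))))))))) (.a (.f (nat_lit 463) (nat_lit 431) (nat_lit 7599) (.f (nat_lit 462) (nat_lit 497) (nat_lit 461) (.f (nat_lit 428) (nat_lit 429) (nat_lit 3500) (.f (nat_lit 460) (nat_lit 427) (nat_lit 3499) (.d (nat_lit 492) (nat_lit 491) (nat_lit 1483) (nat_lit 524) (nat_lit 4524)))))) (.f (nat_lit 463) (nat_lit 431) (nat_lit 7599) (.f (nat_lit 462) (nat_lit 497) (nat_lit 461) (.f (nat_lit 493) (nat_lit 430) (nat_lit 6573) (.d (nat_lit 428) (nat_lit 429) (nat_lit 3500) (nat_lit 460) (nat_lit 7596))))))))))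
noncomputable def s30893 : Cert := .r (nat_lit 11793632578555847589018252777586876968694360686318940453983569060261470035154893168083024591654626772888342154961341950673663947316423180302778017515907795928490851696640) (.p (nat_lit 493) (.a s30769 (.a s30774 (.a s30799 (.a s30830 (.a s30837 (.a (.p (nat_lit 461) (.a (.f (nat_lit 428) (nat_lit 460) (nat_lit 7596) (.f (nat_lit 429) (nat_lit 396) (nat_lit 7564) (.d (nat_lit 430) (nat_lit 398) (nat_lit 6541) (nat_lit 462) (nat_lit 6573)))) (.a (.f (nat_lit 556) (nat_lit 588) (nat_lit 5580) (.f (nat_lit 429) (nat_lit 524) (nat_lit 5548) (.d (nat_lit 428) (nat_lit 396) (nat_lit 7564) (nat_lit 460) (nat_lit 7596)))) (.a (.f (nat_lit 556) (nat_lit 588) (nat_lit 5580) (.f (nat_lit 429) (nat_lit 524) (nat_lit 5548) (.d (nat_lit 430) (nat_lit 398) (nat_lit 6541) (nat_lit 462) (nat_lit 6573)))) (.f (nat_lit 462) (nat_lit 430) (nat_lit 6573) (.d (nat_lit 463) (nat_lit 431) (nat_lit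 7599) (nat_lit 492) (nat_lit 1484))))))) (.a (.p (nat_lit 462) (.a (.f (nat_lit 461) (nat_lit 430) (nat_lit 6573) (.f (nat_lit 589) (nat_lit 494) (nat_lit 6605) (.d (nat_lit 588) (nat_lit 556) (nat_lit 5580) (nat_lit 620) (nat_lit 5612)))) (.a (.f (nat_lit 461) (nat_lit 430) (nat_lit 6573) (.d (nat_lit 463) (nat_lit 492) (nat_lit 1484) (nat_lit 497) (nat_lit 461))) (.f (nat_lit 589) (nat_lit 494) (nat_lit 6605) (.f (nat_lit 620) (nat_lit 588) (nat_lit 5612) (.f (nat_lit 621) (nat_lit 652) (nat_lit 5644) (.d (nat_lit 622) (nat_lit 590) (nat_lit 4589) (nat_lit 654) (nat_lit 4621)))))))) (.a s30861 (.a (.p (nat_lit 558) (.a (.f (nat_lit 461) (nat_lit 590) (nat_lit 4557) (.f (nat_lit 524) (nat_lit 559) (nat_lit 3596) (.d (nat_lit 556) (nat_lit 429) (nat_lit 5548) (nat_lit 588) (nat_lit 5580)))) (.a (.f (nat_lit 461) (nat_lit 590) (nat_lit 4557) (.f (nat_lit 556) (nat_lit 588) (nat_lit 5580) (.f (nat_lit 429) (nat_lit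 524) (nat_lit 5548) (.d (nat_lit 430) (nat_lit 398) (nat_lit 6541) (nat_lit 462) (nat_lit 6573))))) (.a (.f (nat_lit 559) (nat_lit 524) (nat_lit 3596) (.d (nat_lit 589) (nat_lit 588) (nat_lit 1580) (nat_lit 590) (nat_lit 1581))) (.a (.f (nat_lit 559) (nat_lit 524) (nat_lit 3596) (.f (nat_lit 588) (nat_lit 589) (nat_lit 1580) (.d (nat_lit 556) (nat_lit 527) (nat_lit 2572) (nat_lit 587) (nat_lit 1579)))) (.a (.f (nat_lit 461) (nat_lit 590) (nat_lit 4557) (.f (nat_lit 588) (nat_lit 556) (nat_lit 5580) (.d (nat_lit 589) (nat_lit 559) (nat_lit 1580) (nat_lit 620) (nat_lit 5612)))) (.f (nat_lit 461) (nat_lit 590) (nat_lit 4557) (.f (nat_lit 462) (nat_lit 430) (nat_lit 6573) (.d (nat_lit 463) (nat_lit 431) (nat_lit 7599) (nat_lit 497) (nat_lit 461)))))))))) (.p (nat_lit 462) (.a (.f (nat_lit 461) (nat_lit 430) (nat_lit 6573) (.f (nat_lit 589) (nat_lit 494) (nat_lit 6605) (.d (nat_lit 590) (nat_lit 558) (nat_lit 4557) (nat_lit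 622) (nat_lit 4589)))) (.a (.f (nat_lit 589) (nat_lit 494) (nat_lit 6605) (.f (nat_lit 492) (nat_lit 460) (nat_lit 7628) (.f (nat_lit 621) (nat_lit 524) (nat_lit 7660) (.d (nat_lit 622) (nat_lit 590) (nat_lit 4589) (nat_lit 654) (nat_lit 4621))))) (.f (nat_lit 461) (nat_lit 430) (nat_lit 6573) (.d (nat_lit 463) (nat_lit 492) (nat_lit 1484) (nat_lit 497) (nat_lit 461))))))))))))))))
noncomputable def s30957 : Cert := .r (nat_lit 11793632578555847589043826141711065577053838730825406072360261576246181478822731381896275636939038292848367702557638076901405249536169743357537527332672525561719980818432) (.p (nat_lit 558) (.a (.f (nat_lit 461) (nat_lit 590) (nat_lit 4557) (.f (nat_lit 588) (nat_lit 556) (nat_lit 5580) (.d (nat_lit 589) (nat_lit 559) (nat_lit 1580) (nat_lit 620) (nat_lit 5612)))) (.a (.f (nat_lit 461) (nat_lit 590) (nat_lit 4557) (.f (nat_lit 428) (nat_lit 460) (nat_lit 7596) (.f (nat_lit 429) (nat_lit 396)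 (nat_lit 7564) (.f (nat_lit 431) (nat_lit 463) (nat_lit 7599) (.f (nat_lit 430) (nat_lit 398) (nat_lit 6541) (.d (nat_lit 399) (nat_lit 400) (nat_lit 2444) (nat_lit 432) (nat_lit 7567))))))) (.a (.f (nat_lit 431) (nat_lit 463) (nat_lit 7599) (.f (nat_lit 432) (nat_lit 399) (nat_lit 7567) (.f (nat_lit 559) (nat_lit 527) (nat_lit 5551) (.d (nat_lit 589) (nat_lit 588) (nat_lit 1580) (nat_lit 590) (nat_lit 1581))))) (.f (nat_lit 431) (nat_lit 463) (nat_lit 7599) (.f (nat_lit 432) (nat_lit 399) (nat_lit 7567) (.f (nat_lit 559) (nat_lit 527) (nat_lit 5551) (.f (nat_lit 588) (nat_lit 589) (nat_lit 1580) (.d (nat_lit 556) (nat_lit 461) (nat_lit 5580) (nat_lit 587) (nat_lit 1579))))))))))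
noncomputable def s30966 : Cert := .r (nat_lit 11793632578555847589043826141711065577053838730825406072360261576246181478822731381896275636939038292848367702557638076901405249536169743357537527332672525561719980818432) (.p (nat_lit 589) (.a (.f (nat_lit 620) (nat_lit 588) (nat_lit 5612) (.f (nat_lit 621) (nat_lit 652) (nat_lit 5644) (.d (nat_lit 622) (nat_lit 590) (nat_lit 4589) (nat_lit 654) (nat_lit 4621)))) (.a (.f (nat_lit 588) (nat_lit 620) (nat_lit 5612) (.f (nat_lit 559) (nat_lit 558) (nat_lit 1580) (.f (nat_lit 432) (nat_lit 527) (nat_lit 5551) (.d (nat_lit 431) (nat_lit 399) (nat_lit 7567) (nat_lit 463) (nat_lit 7599))))) (.f (nat_lit 590) (nat_lit 622) (nat_lit 4589) (.f (nat_lit 559) (nat_lit 558) (nat_lit 1581) (.f (nat_lit 432) (nat_lit 527) (nat_lit 5551) (.d (nat_lit 431) (nat_lit 399) (nat_lit 7567) (nat_lit 463) (nat_lit 7599))))))))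
noncomputable def s30997 : Cert := .r (nat_lit 11793632578555847589018252777586876968694360686318940453983569060261470035154893168083024591654626772888342154961341950673663947316423180302778017515907795928490851696640) (.p (nat_lit 493) (.a s30769 (.a s30774 (.a s30799 (.a s30830 (.a s30837 (.a (.p (nat_lit 558) (.a (.f (nat_lit 461) (nat_lit 590) (nat_lit 4557) (.f (nat_lit 429) (nat_lit 526) (nat_lit 4525) (.d (nat_lit 556) (nat_lit 524) (nat_lit 5548) (nat_lit 588) (nat_lit 5580)))) (.a (.f (nat_lit 461) (nat_lit 590) (nat_lit 4557) (.f (nat_lit 524) (nat_lit 559) (nat_lit 3596) (.d (nat_lit 556) (nat_lit 429) (nat_lit 5548) (nat_lit 588) (nat_lit 5580)))) (.a (.d (nat_lit 559) (nat_lit 524) (nat_lit 3596) (nat_lit 526) (nat_lit 3597)) (.f (nat_lit 461) (nat_lit 590) (nat_lit 4557) (.f (nat_lit 429) (nat_lit 526) (nat_lit 4525) (.d (nat_lit 430) (nat_lit 398) (nat_lit 6541) (nat_lit 462) (nat_lit 6573))))))))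 (.a (.p (nat_lit 462) (.a (.f (nat_lit 461) (nat_lit 430) (nat_lit 6573) (.f (nat_lit 589) (nat_lit 494) (nat_lit 6605) (.d (nat_lit 588) (nat_lit 556) (nat_lit 5580) (nat_lit 620) (nat_lit 5612)))) (.a (.f (nat_lit 461) (nat_lit 430) (nat_lit 6573) (.d (nat_lit 463) (nat_lit 492) (nat_lit 1484) (nat_lit 497) (nat_lit 461))) (.f (nat_lit 589) (nat_lit 494) (nat_lit 6605) (.f (nat_lit 620) (nat_lit 588) (nat_lit 5612) (.f (nat_lit 621) (nat_lit 652) (nat_lit 5644) (.d (nat_lit 622) (nat_lit 590) (nat_lit 4589) (nat_lit 654) (nat_lit 4621)))))))) (.a s30861 (.p (nat_lit 462) (.a (.f (nat_lit 461) (nat_lit 430) (nat_lit 6573) (.f (nat_lit 589) (nat_lit 494) (nat_lit 6605) (.d (nat_lit 590) (nat_lit 558) (nat_lit 4557) (nat_lit 622) (nat_lit 4589)))) (.a (.f (nat_lit 589) (nat_lit 494) (nat_lit 6605) (.f (nat_lit 492) (nat_lit 460) (nat_lit 7628) (.f (nat_lit 621) (nat_lit 524) (nat_lit 7660) (.d (nat_lit 622) (nat_lit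 590) (nat_lit 4589) (nat_lit 654) (nat_lit 4621))))) (.f (nat_lit 461) (nat_lit 430) (nat_lit 6573) (.d (nat_lit 463) (nat_lit 492) (nat_lit 1484) (nat_lit 497) (nat_lit 461)))))))))))))))
noncomputable def s31000 : Cert := .r (nat_lit 11793632578555847589043826141711065577053838730825406072360261576246181478822731381896275636939038292848367702557638076901405249536169743357537527332672525561719980818432) (.p (nat_lit 462) (.a (.f (nat_lit 461) (nat_lit 430) (nat_lit 6573) (.f (nat_lit 589) (nat_lit 494) (nat_lit 6605) (.d (nat_lit 588) (nat_lit 556) (nat_lit 5580) (nat_lit 620) (nat_lit 5612)))) (.a (.f (nat_lit 461) (nat_lit 430) (nat_lit 6573) (.f (nat_lit 460) (nat_lit 428) (nat_lit 7596) (.f (nat_lit 492) (nat_lit 589) (nat_lit 7628) (.f (nat_lit 556) (nat_lit 588) (nat_lit 5580) (.f (nat_lit 524) (nat_lit 429) (nat_lit 5548) (.f (nat_lit 459) (nat_lit 427) (nat_lit 7595) (.f (nat_lit 490) (nat_lit 491) (nat_lit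 1482) (.d (nat_lit 458) (nat_lit 457) (nat_lit 457) (nat_lit 489) (nat_lit 1481))))))))) (.a (.f (nat_lit 589) (nat_lit 494) (nat_lit 6605) (.f (nat_lit 620) (nat_lit 588) (nat_lit 5612) (.f (nat_lit 621) (nat_lit 652) (nat_lit 5644) (.d (nat_lit 622) (nat_lit 590) (nat_lit 4589) (nat_lit 654) (nat_lit 4621))))) (.a (.f (nat_lit 461) (nat_lit 430) (nat_lit 6573) (.f (nat_lit 428) (nat_lit 460) (nat_lit 7596) (.f (nat_lit 429) (nat_lit 396) (nat_lit 7564) (.d (nat_lit 556) (nat_lit 524) (nat_lit 5548) (nat_lit 588) (nat_lit 5580))))) (.f (nat_lit 526) (nat_lit 527) (nat_lit 525) (.d (nat_lit 430) (nat_lit 461) (nat_lit 6573) (nat_lit 494) (nat_lit 5549))))))))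
noncomputable def s31024 : Cert := .r (nat_lit 11793632578555847589043826141711065577053838730825406072360261576246181478822731381896275636939038292848367702557638076901405249536169743357537527332672525561719980818432) (.p (nat_lit 589) (.a (.f (nat_lit 526) (nat_lit 527) (nat_lit 525) (.d (nat_lit 494) (nat_lit 462) (nat_lit 6605) (nat_lit 621) (nat_lit 6637))) (.a (.f (nat_lit 492) (nat_lit 460) (nat_lit 7628) (.f (nat_lit 621) (nat_lit 524) (nat_lit 7660) (.d (nat_lit 494) (nat_lit 462) (nat_lit 6605) (nat_lit 526) (nat_lit 6637)))) (.a (.f (nat_lit 620) (nat_lit 588) (nat_lit 5612) (.f (nat_lit 621) (nat_lit 652) (nat_lit 5644) (.d (nat_lit 622) (nat_lit 590) (nat_lit 4589) (nat_lit 654) (nat_lit 4621)))) (.f (nat_lit 526) (nat_lit 527) (nat_lit 525) (.f (nat_lit 494) (nat_lit 462) (nat_lit 6605) (.f (nat_lit 492) (nat_lit 460) (nat_lit 7628) (.f (nat_lit 491) (nat_lit 490) (nat_lit 490) (.f (nat_lit 523) (nat_lit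 522) (nat_lit 1514) (.f (nat_lit 459) (nat_lit 458) (nat_lit 3530) (.f (nat_lit 588) (nat_lit 620) (nat_lit 5612) (.d (nat_lit 556) (nat_lit 524) (nat_lit 7627) (nat_lit 555) (nat_lit 4555)))))))))))))
noncomputable def s31038 : Cert := .r (nat_lit 11793632578555847589018252777586876968694360686318940453983569060261470035154893168083024591654626772888342154961341950673663947316423180302778017515907795928490851696640) (.p (nat_lit 493) (.a s30769 (.a s31000 (.a (.p (nat_lit 590) (.a (.f (nat_lit 526) (nat_lit 527) (nat_lit 525) (.d (nat_lit 622) (nat_lit 558) (nat_lit 7661) (nat_lit 589) (nat_lit 4589))) (.a (.f (nat_lit 461) (nat_lit 558) (nat_lit 4557) (.f (nat_lit 589) (nat_lit 622) (nat_lit 4589) (.d (nat_lit 588) (nat_lit 556) (nat_lit 5580) (nat_lit 620) (nat_lit 5612)))) (.a (.f (nat_lit 589) (nat_lit 622) (nat_lit 4589) (.f (nat_lit 588) (nat_lit 620) (nat_lit 5612) (.f (nat_lit 556) (nat_lit 461) (nat_lit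 5580) (.f (nat_lit 492) (nat_lit 460) (nat_lit 7628) (.f (nat_lit 524) (nat_lit 621) (nat_lit 4588) (.f (nat_lit 555) (nat_lit 554) (nat_lit 554) (.f (nat_lit 587) (nat_lit 619) (nat_lit 5611) (.f (nat_lit 491) (nat_lit 459) (nat_lit 7627) (.f (nat_lit 490) (nat_lit 489) (nat_lit 489) (.d (nat_lit 458) (nat_lit 457) (nat_lit 3529) (nat_lit 523) (nat_lit 7626))))))))))) (.a (.f (nat_lit 526) (nat_lit 527) (nat_lit 525) (.d (nat_lit 558) (nat_lit 461) (nat_lit 4557) (nat_lit 622) (nat_lit 7661))) (.f (nat_lit 461) (nat_lit 558) (nat_lit 4557) (.f (nat_lit 556) (nat_lit 588) (nat_lit 5580) (.f (nat_lit 429) (nat_lit 524) (nat_lit 5548) (.d (nat_lit 430) (nat_lit 398) (nat_lit 6541) (nat_lit 462) (nat_lit 6573)))))))))) (.a (.p (nat_lit 590) (.a (.f (nat_lit 526) (nat_lit 527) (nat_lit 525) (.d (nat_lit 622) (nat_lit 558) (nat_lit 7661) (nat_lit 589) (nat_lit 4589))) (.a (.f (nat_lit 461) (nat_lit 558) (nat_lit 4557)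 (.f (nat_lit 589) (nat_lit 622) (nat_lit 4589) (.d (nat_lit 588) (nat_lit 556) (nat_lit 5580) (nat_lit 620) (nat_lit 5612)))) (.a (.f (nat_lit 589) (nat_lit 622) (nat_lit 4589) (.f (nat_lit 588) (nat_lit 620) (nat_lit 5612) (.f (nat_lit 556) (nat_lit 461) (nat_lit 5580) (.f (nat_lit 492) (nat_lit 460) (nat_lit 7628) (.f (nat_lit 524) (nat_lit 621) (nat_lit 4588) (.f (nat_lit 555) (nat_lit 554) (nat_lit 554) (.f (nat_lit 587) (nat_lit 619) (nat_lit 5611) (.f (nat_lit 491) (nat_lit 459) (nat_lit 7627) (.f (nat_lit 490) (nat_lit 489) (nat_lit 489) (.d (nat_lit 458) (nat_lit 457) (nat_lit 3529) (nat_lit 523) (nat_lit 7626))))))))))) (.a (.f (nat_lit 526) (nat_lit 527) (nat_lit 525) (.d (nat_lit 558) (nat_lit 461) (nat_lit 4557) (nat_lit 622) (nat_lit 7661))) (.f (nat_lit 461) (nat_lit 558) (nat_lit 4557) (.f (nat_lit 556) (nat_lit 588) (nat_lit 5580) (.f (nat_lit 429) (nat_lit 524) (nat_lit 5548) (.d (nat_lit 428) (nat_lit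 396) (nat_lit 7564) (nat_lit 460) (nat_lit 7596)))))))))) (.a s31024 (.a (.p (nat_lit 462) (.a (.f (nat_lit 461) (nat_lit 430) (nat_lit 6573) (.f (nat_lit 589) (nat_lit 494) (nat_lit 6605) (.d (nat_lit 588) (nat_lit 556) (nat_lit 5580) (nat_lit 620) (nat_lit 5612)))) (.a (.f (nat_lit 461) (nat_lit 430) (nat_lit 6573) (.f (nat_lit 460) (nat_lit 428) (nat_lit 7596) (.f (nat_lit 492) (nat_lit 589) (nat_lit 7628) (.f (nat_lit 556) (nat_lit 588) (nat_lit 5580) (.f (nat_lit 524) (nat_lit 429) (nat_lit 5548) (.f (nat_lit 459) (nat_lit 427) (nat_lit 7595) (.f (nat_lit 490) (nat_lit 491) (nat_lit 1482) (.d (nat_lit 458) (nat_lit 457) (nat_lit 457) (nat_lit 489) (nat_lit 1481))))))))) (.a (.f (nat_lit 526) (nat_lit 527) (nat_lit 525) (.d (nat_lit 494) (nat_lit 430) (nat_lit 5549) (nat_lit 589) (nat_lit 6605))) (.a (.f (nat_lit 461) (nat_lit 430) (nat_lit 6573) (.f (nat_lit 428) (nat_lit 460) (nat_lit 7596) (.f (nat_lit 429)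 (nat_lit 396) (nat_lit 7564) (.d (nat_lit 556) (nat_lit 524) (nat_lit 5548) (nat_lit 588) (nat_lit 5580))))) (.f (nat_lit 589) (nat_lit 494) (nat_lit 6605) (.f (nat_lit 492) (nat_lit 460) (nat_lit 7628) (.f (nat_lit 621) (nat_lit 524) (nat_lit 7660) (.d (nat_lit 620) (nat_lit 588) (nat_lit 5612) (nat_lit 652) (nat_lit 5644)))))))))) (.a (.p (nat_lit 461) (.a (.f (nat_lit 526) (nat_lit 527) (nat_lit 525) (.d (nat_lit 558) (nat_lit 429) (nat_lit 4525) (nat_lit 590) (nat_lit 4557))) (.a (.f (nat_lit 558) (nat_lit 590) (nat_lit 4557) (.f (nat_lit 429) (nat_lit 526) (nat_lit 4525) (.d (nat_lit 556) (nat_lit 524) (nat_lit 5548) (nat_lit 588) (nat_lit 5580)))) (.a (.f (nat_lit 428) (nat_lit 460) (nat_lit 7596) (.f (nat_lit 429) (nat_lit 396) (nat_lit 7564) (.d (nat_lit 430) (nat_lit 398) (nat_lit 6541) (nat_lit 462) (nat_lit 6573)))) (.f (nat_lit 526) (nat_lit 527) (nat_lit 525) (.f (nat_lit 558) (nat_lit 590) (nat_lit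 4557) (.f (nat_lit 556) (nat_lit 588) (nat_lit 5580) (.f (nat_lit 555) (nat_lit 554) (nat_lit 2570) (.f (nat_lit 523) (nat_lit 522) (nat_lit 3594) (.f (nat_lit 587) (nat_lit 586) (nat_lit 1578) (.f (nat_lit 460) (nat_lit 428) (nat_lit 7596) (.d (nat_lit 492) (nat_lit 491) (nat_lit 6603) (nat_lit 524) (nat_lit 5579))))))))))))) (.a (.p (nat_lit 462) (.a (.f (nat_lit 461) (nat_lit 430) (nat_lit 6573) (.f (nat_lit 589) (nat_lit 494) (nat_lit 6605) (.d (nat_lit 588) (nat_lit 556) (nat_lit 5580) (nat_lit 620) (nat_lit 5612)))) (.a (.f (nat_lit 461) (nat_lit 430) (nat_lit 6573) (.f (nat_lit 526) (nat_lit 527) (nat_lit 525) (.d (nat_lit 558) (nat_lit 429) (nat_lit 4525) (nat_lit 590) (nat_lit 4557)))) (.f (nat_lit 589) (nat_lit 494) (nat_lit 6605) (.f (nat_lit 620) (nat_lit 588) (nat_lit 5612) (.f (nat_lit 621) (nat_lit 652) (nat_lit 5644) (.d (nat_lit 622) (nat_lit 590) (nat_lit 4589) (nat_lit 654) (nat_lit 4621))))))))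 (.a (.p (nat_lit 462) (.a (.f (nat_lit 589) (nat_lit 494) (nat_lit 6605) (.f (nat_lit 620) (nat_lit 588) (nat_lit 5612) (.f (nat_lit 621) (nat_lit 652) (nat_lit 5644) (.d (nat_lit 622) (nat_lit 590) (nat_lit 4589) (nat_lit 654) (nat_lit 4621))))) (.a (.f (nat_lit 461) (nat_lit 430) (nat_lit 6573) (.f (nat_lit 526) (nat_lit 527) (nat_lit 525) (.d (nat_lit 558) (nat_lit 429) (nat_lit 4525) (nat_lit 590) (nat_lit 4557)))) (.f (nat_lit 526) (nat_lit 527) (nat_lit 525) (.d (nat_lit 430) (nat_lit 461) (nat_lit 6573) (nat_lit 494) (nat_lit 5549)))))) (.p (nat_lit 462) (.a (.f (nat_lit 461) (nat_lit 430) (nat_lit 6573) (.f (nat_lit 589) (nat_lit 494) (nat_lit 6605) (.d (nat_lit 590) (nat_lit 558) (nat_lit 4557) (nat_lit 622) (nat_lit 4589)))) (.a (.f (nat_lit 526) (nat_lit 527) (nat_lit 525) (.d (nat_lit 430) (nat_lit 461) (nat_lit 6573) (nat_lit 494) (nat_lit 5549))) (.a (.f (nat_lit 461) (nat_lit 430) (nat_lit 6573) (.f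 (nat_lit 526) (nat_lit 527) (nat_lit 525) (.d (nat_lit 558) (nat_lit 429) (nat_lit 4525) (nat_lit 590) (nat_lit 4557)))) (.a (.f (nat_lit 526) (nat_lit 527) (nat_lit 525) (.d (nat_lit 494) (nat_lit 430) (nat_lit 5549) (nat_lit 589) (nat_lit 6605))) (.f (nat_lit 589) (nat_lit 494) (nat_lit 6605) (.f (nat_lit 492) (nat_lit 460) (nat_lit 7628) (.f (nat_lit 621) (nat_lit 524) (nat_lit 7660) (.d (nat_lit 622) (nat_lit 590) (nat_lit 4589) (nat_lit 654) (nat_lit 4621))))))))))))))))))))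
noncomputable def s31062 : Cert := .r (nat_lit 11793632578555847589043826141711065577053838730825406072360261576246181478822731381896275636939038292848367702557638076901405249536169743357537527332672525561719980818432) (.p (nat_lit 461) (.a (.f (nat_lit 428) (nat_lit 460) (nat_lit 7596) (.f (nat_lit 429) (nat_lit 396) (nat_lit 7564) (.d (nat_lit 430) (nat_lit 398) (nat_lit 6541) (nat_lit 462) (nat_lit 6573)))) (.a (.f (nat_lit 556) (nat_lit 588) (nat_lit 5580) (.f (nat_lit 429) (nat_lit 524) (nat_lit 5548) (.d (nat_lit 428) (nat_lit 396) (nat_lit 7564) (nat_lit 460) (nat_lit 7596)))) (.a (.f (nat_lit 556) (nat_lit 588) (nat_lit 5580) (.f (nat_lit 429) (nat_lit 524) (nat_lit 5548) (.d (nat_lit 430) (nat_lit 398) (nat_lit 6541) (nat_lit 462) (nat_lit 6573)))) (.f (nat_lit 462) (nat_lit 430) (nat_lit 6573) (.d (nat_lit 463) (nat_lit 492) (nat_lit 1484) (nat_lit 497) (nat_lit 461)))))))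
noncomputable def s31064 : Cert := .r (nat_lit 11793632578555847589043826141711065577053838730825406072360261576246181478822731381896275636939038292848367702557638076901405249536169743357537527332672525561719980818432) (.p (nat_lit 462) (.a (.f (nat_lit 461) (nat_lit 430) (nat_lit 6573) (.f (nat_lit 589) (nat_lit 494) (nat_lit 6605) (.d (nat_lit 588) (nat_lit 556) (nat_lit 5580) (nat_lit 620) (nat_lit 5612)))) (.a (.f (nat_lit 461) (nat_lit 430) (nat_lit 6573) (.f (nat_lit 428) (nat_lit 460) (nat_lit 7596) (.f (nat_lit 429) (nat_lit 396) (nat_lit 7564) (.d (nat_lit 556) (nat_lit 524) (nat_lit 5548) (nat_lit 588) (nat_lit 5580))))) (.a (.f (nat_lit 589) (nat_lit 494) (nat_lit 6605) (.f (nat_lit 620) (nat_lit 588) (nat_lit 5612) (.f (nat_lit 621) (nat_lit 652) (nat_lit 5644) (.d (nat_lit 622) (nat_lit 590) (nat_lit 4589) (nat_lit 654) (nat_lit 4621))))) (.f (nat_lit 526) (nat_lit 527) (nat_lit 525) (.d (nat_lit 430)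 (nat_lit 461) (nat_lit 6573) (nat_lit 494) (nat_lit 5549)))))))
noncomputable def s31196 : Cert := .r (nat_lit 11793632578555847589018252777586876968694360686318940453983569060261470035154893168083024591654626772888342154961341950673663947316423180302778017515907795928490851696640) (.p (nat_lit 493) (.a s30769 (.a s30774 (.a s30799 (.a s30830 (.a (.p (nat_lit 461) (.a (.f (nat_lit 428) (nat_lit 460) (nat_lit 7596) (.f (nat_lit 429) (nat_lit 396) (nat_lit 7564) (.d (nat_lit 430) (nat_lit 398) (nat_lit 6541) (nat_lit 462) (nat_lit 6573)))) (.a (.f (nat_lit 460) (nat_lit 428) (nat_lit 7596) (.f (nat_lit 589) (nat_lit 492) (nat_lit 7628) (.d (nat_lit 588) (nat_lit 556) (nat_lit 5580) (nat_lit 620) (nat_lit 5612)))) (.f (nat_lit 556) (nat_lit 588) (nat_lit 5580) (.f (nat_lit 429) (nat_lit 524) (nat_lit 5548) (.d (nat_lit 430) (nat_lit 398) (nat_lit 6541) (nat_lit 462) (nat_lit 6573))))))) (.a (.p (nat_lit 558) (.a (.f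 (nat_lit 461) (nat_lit 590) (nat_lit 4557) (.f (nat_lit 524) (nat_lit 559) (nat_lit 3596) (.d (nat_lit 556) (nat_lit 429) (nat_lit 5548) (nat_lit 588) (nat_lit 5580)))) (.a (.f (nat_lit 461) (nat_lit 590) (nat_lit 4557) (.f (nat_lit 556) (nat_lit 588) (nat_lit 5580) (.f (nat_lit 429) (nat_lit 524) (nat_lit 5548) (.d (nat_lit 430) (nat_lit 398) (nat_lit 6541) (nat_lit 462) (nat_lit 6573))))) (.a (.f (nat_lit 559) (nat_lit 524) (nat_lit 3596) (.d (nat_lit 527) (nat_lit 432) (nat_lit 5551) (nat_lit 556) (nat_lit 2572))) (.f (nat_lit 461) (nat_lit 590) (nat_lit 4557) (.f (nat_lit 428) (nat_lit 460) (nat_lit 7596) (.f (nat_lit 429) (nat_lit 396) (nat_lit 7564) (.d (nat_lit 430) (nat_lit 398) (nat_lit 6541) (nat_lit 462) (nat_lit 6573))))))))) (.a (.p (nat_lit 461) (.a (.f (nat_lit 428) (nat_lit 460) (nat_lit 7596) (.f (nat_lit 429) (nat_lit 396) (nat_lit 7564) (.d (nat_lit 430) (nat_lit 398) (nat_lit 6541) (nat_lit 462)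 (nat_lit 6573)))) (.a (.f (nat_lit 460) (nat_lit 428) (nat_lit 7596) (.f (nat_lit 589) (nat_lit 492) (nat_lit 7628) (.d (nat_lit 588) (nat_lit 556) (nat_lit 5580) (nat_lit 620) (nat_lit 5612)))) (.f (nat_lit 462) (nat_lit 430) (nat_lit 6573) (.f (nat_lit 589) (nat_lit 494) (nat_lit 6605) (.d (nat_lit 588) (nat_lit 556) (nat_lit 5580) (nat_lit 620) (nat_lit 5612))))))) (.a (.p (nat_lit 558) (.a (.f (nat_lit 461) (nat_lit 590) (nat_lit 4557) (.f (nat_lit 460) (nat_lit 428) (nat_lit 7596) (.f (nat_lit 589) (nat_lit 492) (nat_lit 7628) (.d (nat_lit 462) (nat_lit 430) (nat_lit 6573) (nat_lit 494) (nat_lit 6605))))) (.a (.f (nat_lit 559) (nat_lit 524) (nat_lit 3596) (.d (nat_lit 589) (nat_lit 588) (nat_lit 1580) (nat_lit 590) (nat_lit 1581))) (.a (.f (nat_lit 559) (nat_lit 524) (nat_lit 3596) (.f (nat_lit 589) (nat_lit 588) (nat_lit 1580) (.f (nat_lit 460) (nat_lit 492) (nat_lit 7628) (.f (nat_lit 461) (nat_lit 428) (nat_lit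 7596) (.d (nat_lit 462) (nat_lit 430) (nat_lit 6573) (nat_lit 494) (nat_lit 6605)))))) (.f (nat_lit 461) (nat_lit 590) (nat_lit 4557) (.f (nat_lit 428) (nat_lit 460) (nat_lit 7596) (.f (nat_lit 429) (nat_lit 396) (nat_lit 7564) (.d (nat_lit 430) (nat_lit 398) (nat_lit 6541) (nat_lit 462) (nat_lit 6573))))))))) (.a s30863 (.p (nat_lit 558) (.a (.f (nat_lit 461) (nat_lit 590) (nat_lit 4557) (.f (nat_lit 460) (nat_lit 428) (nat_lit 7596) (.f (nat_lit 589) (nat_lit 492) (nat_lit 7628) (.d (nat_lit 462) (nat_lit 430) (nat_lit 6573) (nat_lit 494) (nat_lit 6605))))) (.f (nat_lit 559) (nat_lit 524) (nat_lit 3596) (.d (nat_lit 527) (nat_lit 432) (nat_lit 5551) (nat_lit 556) (nat_lit 2572)))))))))))))))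
noncomputable def s31451 : Cert := .r (nat_lit 11321887275343318157425968699475998841909006349111533950560502121017055359294901794239288512479956096309275688899754472379351721476498496799724111696425400818043946270720) (.p (nat_lit 464) (.a (.f (nat_lit 465) (nat_lit 433) (nat_lit 6576) (.f (nat_lit 463) (nat_lit 431) (nat_lit 7599) (.f (nat_lit 497) (nat_lit 592) (nat_lit 6608) (.d (nat_lit 462) (nat_lit 461) (nat_lit 461) (nat_lit 498) (nat_lit 462))))) (.a (.f (nat_lit 433) (nat_lit 465) (nat_lit 6576) (.f (nat_lit 432) (nat_lit 401) (nat_lit 6544) (.d (nat_lit 431) (nat_lit 399) (nat_lit 7567) (nat_lit 463) (nat_lit 7599)))) (.a (.p (nat_lit 562) (.a (.f (nat_lit 527) (nat_lit 563) (nat_lit 3599) (.d (nat_lit 526) (nat_lit 525) (nat_lit 525) (nat_lit 559) (nat_lit 3598))) (.a (.p (nat_lit 594) (.a (.f (nat_lit 595) (nat_lit 559) (nat_lit 559) (.d (nat_lit 596) (nat_lit 563) (nat_lit 560) (nat_lit 597) (nat_lit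 3633))) (.a (.f (nat_lit 465) (nat_lit 433) (nat_lit 6576) (.f (nat_lit 497) (nat_lit 592) (nat_lit 6608) (.f (nat_lit 498) (nat_lit 530) (nat_lit 7633) (.f (nat_lit 499) (nat_lit 500) (nat_lit 3536) (.f (nat_lit 531) (nat_lit 532) (nat_lit 496) (.d (nat_lit 467) (nat_lit 468) (nat_lit 2512) (nat_lit 563) (nat_lit 5586))))))) (.f (nat_lit 465) (nat_lit 433) (nat_lit 6576) (.f (nat_lit 497) (nat_lit 592) (nat_lit 6608) (.f (nat_lit 530) (nat_lit 498) (nat_lit 7633) (.d (nat_lit 559) (nat_lit 531) (nat_lit 2575) (nat_lit 595) (nat_lit 559)))))))) (.a (.f (nat_lit 563) (nat_lit 527) (nat_lit 3599) (.f (nat_lit 596) (nat_lit 595) (nat_lit 560) (.f (nat_lit 564) (nat_lit 597) (nat_lit 561) (.d (nat_lit 532) (nat_lit 531) (nat_lit 2576) (nat_lit 533) (nat_lit 2577))))) (.p (nat_lit 594) (.a (.f (nat_lit 559) (nat_lit 595) (nat_lit 559) (.d (nat_lit 527) (nat_lit 432) (nat_lit 5551) (nat_lit 526) (nat_lit 3598))) (.a (.f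 (nat_lit 465) (nat_lit 433) (nat_lit 6576) (.f (nat_lit 497) (nat_lit 592) (nat_lit 6608) (.f (nat_lit 530) (nat_lit 498) (nat_lit 7633) (.d (nat_lit 559) (nat_lit 531) (nat_lit 2575) (nat_lit 595) (nat_lit 559))))) (.f (nat_lit 465) (nat_lit 433) (nat_lit 6576) (.f (nat_lit 497) (nat_lit 592) (nat_lit 6608) (.f (nat_lit 498) (nat_lit 530) (nat_lit 7633) (.d (nat_lit 499) (nat_lit 500) (nat_lit 3536) (nat_lit 527) (nat_lit 1519)))))))))))) (.a (.p (nat_lit 525) (.a (.f (nat_lit 527) (nat_lit 526) (nat_lit 525) (.f (nat_lit 432) (nat_lit 559) (nat_lit 5551) (.d (nat_lit 431) (nat_lit 399) (nat_lit 7567) (nat_lit 463) (nat_lit 7599)))) (.a (.p (nat_lit 558) (.a (.f (nat_lit 559) (nat_lit 526) (nat_lit 3597) (.f (nat_lit 557) (nat_lit 524) (nat_lit 3596) (.d (nat_lit 589) (nat_lit 588) (nat_lit 1580) (nat_lit 590) (nat_lit 1581)))) (.a (.p (nat_lit 461) (.a (.f (nat_lit 463) (nat_lit 431) (nat_lit 7599) (.f (nat_lit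 462) (nat_lit 497) (nat_lit 461) (.f (nat_lit 493) (nat_lit 492) (nat_lit 1484) (.d (nat_lit 429) (nat_lit 428) (nat_lit 3500) (nat_lit 526) (nat_lit 4525))))) (.a s30549 (.a (.f (nat_lit 463) (nat_lit 431) (nat_lit 7599) (.f (nat_lit 462) (nat_lit 497) (nat_lit 461) (.f (nat_lit 493) (nat_lit 492) (nat_lit 1484) (.d (nat_lit 557) (nat_lit 430) (nat_lit 6573) (nat_lit 590) (nat_lit 4557))))) (.a (.f (nat_lit 431) (nat_lit 463) (nat_lit 7599) (.f (nat_lit 432) (nat_lit 399) (nat_lit 7567) (.f (nat_lit 401) (nat_lit 433) (nat_lit 6544) (.f (nat_lit 400) (nat_lit 369) (nat_lit 6512) (.f (nat_lit 429) (nat_lit 430) (nat_lit 2445) (.f (nat_lit 493) (nat_lit 526) (nat_lit 4525) (.f (nat_lit 557) (nat_lit 590) (nat_lit 4557) (.d (nat_lit 556) (nat_lit 524) (nat_lit 5548) (nat_lit 588) (nat_lit 5580))))))))) (.f (nat_lit 431) (nat_lit 463) (nat_lit 7599) (.f (nat_lit 432) (nat_lit 399) (nat_lit 7567) (.f (nat_lit 433) (nat_lit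 401) (nat_lit 6544) (.f (nat_lit 430) (nat_lit 462) (nat_lit 1453) (.f (nat_lit 429) (nat_lit 460) (nat_lit 1452) (.d (nat_lit 397) (nat_lit 396) (nat_lit 3468) (nat_lit 398) (nat_lit 3469)))))))))))) (.a (.p (nat_lit 557) (.a (.f (nat_lit 559) (nat_lit 524) (nat_lit 3596) (.d (nat_lit 589) (nat_lit 588) (nat_lit 1580) (nat_lit 590) (nat_lit 1581))) (.a (.p (nat_lit 461) (.a (.f (nat_lit 493) (nat_lit 590) (nat_lit 4557) (.f (nat_lit 462) (nat_lit 430) (nat_lit 6573) (.d (nat_lit 463) (nat_lit 431) (nat_lit 7599) (nat_lit 492) (nat_lit 1484)))) (.a (.f (nat_lit 493) (nat_lit 590) (nat_lit 4557) (.f (nat_lit 556) (nat_lit 588) (nat_lit 5580) (.f (nat_lit 524) (nat_lit 429) (nat_lit 5548) (.f (nat_lit 460) (nat_lit 428) (nat_lit 7596) (.f (nat_lit 492) (nat_lit 589) (nat_lit 4556) (.f (nat_lit 459) (nat_lit 427) (nat_lit 7595) (.d (nat_lit 458) (nat_lit 457) (nat_lit 457) (nat_lit 494) (nat_lit 458)))))))) (.a (.f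 (nat_lit 463) (nat_lit 431) (nat_lit 7599) (.f (nat_lit 462) (nat_lit 497) (nat_lit 461) (.f (nat_lit 428) (nat_lit 429) (nat_lit 3500) (.f (nat_lit 460) (nat_lit 427) (nat_lit 3499) (.d (nat_lit 492) (nat_lit 491) (nat_lit 1483) (nat_lit 524) (nat_lit 4524)))))) (.f (nat_lit 493) (nat_lit 590) (nat_lit 4557) (.f (nat_lit 462) (nat_lit 430) (nat_lit 6573) (.d (nat_lit 463) (nat_lit 431) (nat_lit 7599) (nat_lit 497) (nat_lit 461)))))))) (.a (.f (nat_lit 559) (nat_lit 524) (nat_lit 3596) (.f (nat_lit 588) (nat_lit 589) (nat_lit 1580) (.f (nat_lit 556) (nat_lit 587) (nat_lit 1579) (.f (nat_lit 431) (nat_lit 463) (nat_lit 7599) (.f (nat_lit 432) (nat_lit 399) (nat_lit 7567) (.f (nat_lit 433) (nat_lit 401) (nat_lit 6544) (.f (nat_lit 461) (nat_lit 493) (nat_lit 5580) (.f (nat_lit 430) (nat_lit 462) (nat_lit 1453) (.f (nat_lit 429) (nat_lit 460) (nat_lit 1452) (.d (nat_lit 397) (nat_lit 396) (nat_lit 3468) (nat_lit 398)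 (nat_lit 3469))))))))))) (.a s30596 (.a (.p (nat_lit 461) (.a (.f (nat_lit 493) (nat_lit 590) (nat_lit 4557) (.f (nat_lit 462) (nat_lit 430) (nat_lit 6573) (.d (nat_lit 463) (nat_lit 431) (nat_lit 7599) (nat_lit 492) (nat_lit 1484)))) (.a (.f (nat_lit 493) (nat_lit 590) (nat_lit 4557) (.f (nat_lit 588) (nat_lit 556) (nat_lit 5580) (.d (nat_lit 589) (nat_lit 559) (nat_lit 1580) (nat_lit 620) (nat_lit 5612)))) (.f (nat_lit 431) (nat_lit 463) (nat_lit 7599) (.f (nat_lit 432) (nat_lit 399) (nat_lit 7567) (.f (nat_lit 433) (nat_lit 401) (nat_lit 6544) (.f (nat_lit 430) (nat_lit 462) (nat_lit 1453) (.f (nat_lit 429) (nat_lit 460) (nat_lit 1452) (.d (nat_lit 397) (nat_lit 396) (nat_lit 3468) (nat_lit 398) (nat_lit 3469)))))))))) (.f (nat_lit 559) (nat_lit 524) (nat_lit 3596) (.f (nat_lit 590) (nat_lit 589) (nat_lit 1581) (.f (nat_lit 431) (nat_lit 463) (nat_lit 7599) (.f (nat_lit 432) (nat_lit 399) (nat_lit 7567) (.f (nat_lit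 433) (nat_lit 401) (nat_lit 6544) (.f (nat_lit 461) (nat_lit 493) (nat_lit 4557) (.f (nat_lit 430) (nat_lit 462) (nat_lit 1453) (.f (nat_lit 429) (nat_lit 460) (nat_lit 1452) (.d (nat_lit 397) (nat_lit 396) (nat_lit 3468) (nat_lit 398) (nat_lit 3469)))))))))))))))) (.a (.p (nat_lit 461) (.a (.f (nat_lit 463) (nat_lit 431) (nat_lit 7599) (.f (nat_lit 462) (nat_lit 497) (nat_lit 461) (.f (nat_lit 493) (nat_lit 492) (nat_lit 1484) (.d (nat_lit 429) (nat_lit 428) (nat_lit 3500) (nat_lit 526) (nat_lit 4525))))) (.a (.f (nat_lit 526) (nat_lit 559) (nat_lit 3597) (.f (nat_lit 493) (nat_lit 429) (nat_lit 4525) (.d (nat_lit 590) (nat_lit 494) (nat_lit 7629) (nat_lit 622) (nat_lit 7661)))) (.a (.f (nat_lit 431) (nat_lit 463) (nat_lit 7599) (.f (nat_lit 432) (nat_lit 399) (nat_lit 7567) (.f (nat_lit 433) (nat_lit 401) (nat_lit 6544) (.f (nat_lit 430) (nat_lit 462) (nat_lit 1453) (.f (nat_lit 429) (nat_lit 460) (nat_lit 1452)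 (.d (nat_lit 397) (nat_lit 396) (nat_lit 3468) (nat_lit 398) (nat_lit 3469))))))) (.f (nat_lit 463) (nat_lit 431) (nat_lit 7599) (.f (nat_lit 462) (nat_lit 497) (nat_lit 461) (.f (nat_lit 493) (nat_lit 492) (nat_lit 1484) (.f (nat_lit 526) (nat_lit 559) (nat_lit 3597) (.d (nat_lit 590) (nat_lit 494) (nat_lit 7629) (nat_lit 622) (nat_lit 7661)))))))))) (.f (nat_lit 559) (nat_lit 526) (nat_lit 3597) (.f (nat_lit 557) (nat_lit 524) (nat_lit 3596) (.f (nat_lit 588) (nat_lit 589) (nat_lit 1580) (.f (nat_lit 556) (nat_lit 587) (nat_lit 1579) (.f (nat_lit 431) (nat_lit 463) (nat_lit 7599) (.f (nat_lit 432) (nat_lit 399) (nat_lit 7567) (.f (nat_lit 433) (nat_lit 401) (nat_lit 6544) (.f (nat_lit 461) (nat_lit 493) (nat_lit 5580) (.f (nat_lit 430) (nat_lit 462) (nat_lit 1453) (.f (nat_lit 429) (nat_lit 460) (nat_lit 1452) (.d (nat_lit 397) (nat_lit 396) (nat_lit 3468) (nat_lit 398) (nat_lit 3469))))))))))))))))) (.a (.f (nat_lit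 527) (nat_lit 526) (nat_lit 525) (.f (nat_lit 432) (nat_lit 559) (nat_lit 5551) (.f (nat_lit 401) (nat_lit 433) (nat_lit 6544) (.f (nat_lit 400) (nat_lit 369) (nat_lit 6512) (.d (nat_lit 399) (nat_lit 367) (nat_lit 7535) (nat_lit 431) (nat_lit 7567)))))) (.a (.p (nat_lit 461) (.a (.f (nat_lit 463) (nat_lit 431) (nat_lit 7599) (.f (nat_lit 462) (nat_lit 497) (nat_lit 461) (.f (nat_lit 493) (nat_lit 492) (nat_lit 1484) (.f (nat_lit 429) (nat_lit 428) (nat_lit 3500) (.d (nat_lit 430) (nat_lit 398) (nat_lit 6541) (nat_lit 557) (nat_lit 6573)))))) (.a (.p (nat_lit 493) (.a (.p (nat_lit 557) (.a (.f (nat_lit 428) (nat_lit 460) (nat_lit 7596) (.f (nat_lit 429) (nat_lit 396) (nat_lit 7564) (.d (nat_lit 430) (nat_lit 398) (nat_lit 6541) (nat_lit 462) (nat_lit 6573)))) (.a (.f (nat_lit 460) (nat_lit 428) (nat_lit 7596) (.f (nat_lit 589) (nat_lit 492) (nat_lit 7628) (.d (nat_lit 588) (nat_lit 556) (nat_lit 5580) (nat_lit 620)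 (nat_lit 5612)))) (.f (nat_lit 556) (nat_lit 588) (nat_lit 5580) (.f (nat_lit 429) (nat_lit 524) (nat_lit 5548) (.d (nat_lit 430) (nat_lit 398) (nat_lit 6541) (nat_lit 462) (nat_lit 6573))))))) (.a (.f (nat_lit 526) (nat_lit 527) (nat_lit 525) (.f (nat_lit 429) (nat_lit 558) (nat_lit 4525) (.f (nat_lit 397) (nat_lit 494) (nat_lit 4493) (.d (nat_lit 524) (nat_lit 492) (nat_lit 5516) (nat_lit 556) (nat_lit 5548))))) (.a (.f (nat_lit 526) (nat_lit 527) (nat_lit 525) (.f (nat_lit 429) (nat_lit 558) (nat_lit 4525) (.f (nat_lit 397) (nat_lit 494) (nat_lit 4493) (.d (nat_lit 398) (nat_lit 366) (nat_lit 6509) (nat_lit 430) (nat_lit 6541))))) (.p (nat_lit 557) (.a (.f (nat_lit 526) (nat_lit 527) (nat_lit 525) (.f (nat_lit 558) (nat_lit 590) (nat_lit 4557) (.f (nat_lit 556) (nat_lit 588) (nat_lit 5580) (.f (nat_lit 555) (nat_lit 554) (nat_lit 2570) (.f (nat_lit 523) (nat_lit 522) (nat_lit 3594) (.f (nat_lit 587) (nat_lit 586)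 (nat_lit 1578) (.f (nat_lit 460) (nat_lit 428) (nat_lit 7596) (.d (nat_lit 492) (nat_lit 491) (nat_lit 6603) (nat_lit 524) (nat_lit 5579))))))))) (.a (.f (nat_lit 460) (nat_lit 428) (nat_lit 7596) (.f (nat_lit 589) (nat_lit 492) (nat_lit 7628) (.d (nat_lit 588) (nat_lit 556) (nat_lit 5580) (nat_lit 620) (nat_lit 5612)))) (.a (.f (nat_lit 460) (nat_lit 428) (nat_lit 7596) (.f (nat_lit 589) (nat_lit 492) (nat_lit 7628) (.d (nat_lit 590) (nat_lit 558) (nat_lit 4557) (nat_lit 622) (nat_lit 4589)))) (.f (nat_lit 526) (nat_lit 527) (nat_lit 525) (.f (nat_lit 558) (nat_lit 590) (nat_lit 4557) (.f (nat_lit 462) (nat_lit 430) (nat_lit 6573) (.f (nat_lit 589) (nat_lit 494) (nat_lit 5581) (.d (nat_lit 588) (nat_lit 556) (nat_lit 5580) (nat_lit 620) (nat_lit 5612)))))))))))))) (.a (.f (nat_lit 463) (nat_lit 431) (nat_lit 7599) (.f (nat_lit 462) (nat_lit 497) (nat_lit 461) (.f (nat_lit 493) (nat_lit 492) (nat_lit 1484) (.f (nat_lit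 429) (nat_lit 428) (nat_lit 3500) (.f (nat_lit 398) (nat_lit 430) (nat_lit 6541) (.f (nat_lit 397) (nat_lit 366) (nat_lit 6509) (.f (nat_lit 364) (nat_lit 396) (nat_lit 7532) (.d (nat_lit 365) (nat_lit 332) (nat_lit 7500) (nat_lit 494) (nat_lit 4461))))))))) (.a (.f (nat_lit 526) (nat_lit 527) (nat_lit 525) (.f (nat_lit 431) (nat_lit 463) (nat_lit 7599) (.f (nat_lit 432) (nat_lit 399) (nat_lit 7567) (.f (nat_lit 401) (nat_lit 433) (nat_lit 6544) (.f (nat_lit 400) (nat_lit 369) (nat_lit 6512) (.f (nat_lit 429) (nat_lit 430) (nat_lit 2445) (.f (nat_lit 493) (nat_lit 558) (nat_lit 4525) (.f (nat_lit 397) (nat_lit 494) (nat_lit 4493) (.d (nat_lit 524) (nat_lit 492) (nat_lit 5516) (nat_lit 556) (nat_lit 5548)))))))))) (.a (.f (nat_lit 431) (nat_lit 463) (nat_lit 7599) (.f (nat_lit 432) (nat_lit 399) (nat_lit 7567) (.f (nat_lit 433) (nat_lit 401) (nat_lit 6544) (.f (nat_lit 430) (nat_lit 462) (nat_lit 1453) (.f (nat_lit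 429) (nat_lit 460) (nat_lit 1452) (.d (nat_lit 397) (nat_lit 396) (nat_lit 3468) (nat_lit 398) (nat_lit 3469))))))) (.a (.f (nat_lit 463) (nat_lit 431) (nat_lit 7599) (.f (nat_lit 462) (nat_lit 497) (nat_lit 461) (.f (nat_lit 493) (nat_lit 492) (nat_lit 1484) (.f (nat_lit 428) (nat_lit 429) (nat_lit 3500) (.d (nat_lit 460) (nat_lit 427) (nat_lit 3499) (nat_lit 557) (nat_lit 7596)))))) (.f (nat_lit 463) (nat_lit 431) (nat_lit 7599) (.f (nat_lit 462) (nat_lit 497) (nat_lit 461) (.f (nat_lit 493) (nat_lit 492) (nat_lit 1484) (.f (nat_lit 557) (nat_lit 430) (nat_lit 6573) (.f (nat_lit 589) (nat_lit 494) (nat_lit 6605) (.d (nat_lit 588) (nat_lit 556) (nat_lit 5580) (nat_lit 620) (nat_lit 5612)))))))))))))) (.a (.p (nat_lit 557) (.a s30738 (.a (.p (nat_lit 559) (.a (.f (nat_lit 558) (nat_lit 524) (nat_lit 3596) (.d (nat_lit 527) (nat_lit 432) (nat_lit 5551) (nat_lit 556) (nat_lit 2572))) (.a (.f (nat_lit 558) (nat_lit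 524) (nat_lit 3596) (.d (nat_lit 589) (nat_lit 588) (nat_lit 1580) (nat_lit 590) (nat_lit 1581))) (.f (nat_lit 432) (nat_lit 527) (nat_lit 5551) (.f (nat_lit 401) (nat_lit 433) (nat_lit 6544) (.f (nat_lit 400) (nat_lit 369) (nat_lit 6512) (.d (nat_lit 399) (nat_lit 367) (nat_lit 7535) (nat_lit 431) (nat_lit 7567)))))))) (.a s30865 (.a s30883 (.a s30893 (.a (.f (nat_lit 431) (nat_lit 463) (nat_lit 7599) (.f (nat_lit 432) (nat_lit 399) (nat_lit 7567) (.f (nat_lit 559) (nat_lit 527) (nat_lit 5551) (.f (nat_lit 433) (nat_lit 401) (nat_lit 6544) (.f (nat_lit 558) (nat_lit 524) (nat_lit 3596) (.f (nat_lit 588) (nat_lit 589) (nat_lit 1580) (.f (nat_lit 556) (nat_lit 587) (nat_lit 1579) (.f (nat_lit 461) (nat_lit 493) (nat_lit 5580) (.f (nat_lit 430) (nat_lit 462) (nat_lit 1453) (.f (nat_lit 429) (nat_lit 460) (nat_lit 1452) (.d (nat_lit 397) (nat_lit 396) (nat_lit 3468) (nat_lit 398) (nat_lit 3469)))))))))))) (.a (.p (nat_lit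 558) (.a s30596 (.a (.f (nat_lit 559) (nat_lit 524) (nat_lit 3596) (.d (nat_lit 527) (nat_lit 432) (nat_lit 5551) (nat_lit 556) (nat_lit 2572))) (.a (.p (nat_lit 461) (.a (.f (nat_lit 493) (nat_lit 590) (nat_lit 4557) (.f (nat_lit 462) (nat_lit 430) (nat_lit 6573) (.d (nat_lit 463) (nat_lit 431) (nat_lit 7599) (nat_lit 492) (nat_lit 1484)))) (.a (.f (nat_lit 493) (nat_lit 590) (nat_lit 4557) (.f (nat_lit 556) (nat_lit 588) (nat_lit 5580) (.f (nat_lit 429) (nat_lit 524) (nat_lit 5548) (.d (nat_lit 430) (nat_lit 398) (nat_lit 6541) (nat_lit 462) (nat_lit 6573))))) (.a (.f (nat_lit 493) (nat_lit 590) (nat_lit 4557) (.f (nat_lit 556) (nat_lit 588) (nat_lit 5580) (.f (nat_lit 429) (nat_lit 524) (nat_lit 5548) (.d (nat_lit 428) (nat_lit 396) (nat_lit 7564) (nat_lit 460) (nat_lit 7596))))) (.f (nat_lit 463) (nat_lit 431) (nat_lit 7599) (.f (nat_lit 462) (nat_lit 497) (nat_lit 461) (.f (nat_lit 428) (nat_lit 429) (nat_lit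 3500) (.f (nat_lit 460) (nat_lit 427) (nat_lit 3499) (.d (nat_lit 492) (nat_lit 491) (nat_lit 1483) (nat_lit 524) (nat_lit 4524)))))))))) (.p (nat_lit 461) (.a (.f (nat_lit 493) (nat_lit 590) (nat_lit 4557) (.f (nat_lit 462) (nat_lit 430) (nat_lit 6573) (.d (nat_lit 463) (nat_lit 431) (nat_lit 7599) (nat_lit 492) (nat_lit 1484)))) (.a (.f (nat_lit 493) (nat_lit 590) (nat_lit 4557) (.f (nat_lit 428) (nat_lit 460) (nat_lit 7596) (.f (nat_lit 429) (nat_lit 396) (nat_lit 7564) (.d (nat_lit 430) (nat_lit 398) (nat_lit 6541) (nat_lit 462) (nat_lit 6573))))) (.a (.f (nat_lit 493) (nat_lit 590) (nat_lit 4557) (.f (nat_lit 428) (nat_lit 460) (nat_lit 7596) (.f (nat_lit 429) (nat_lit 396) (nat_lit 7564) (.f (nat_lit 431) (nat_lit 463) (nat_lit 7599) (.f (nat_lit 430) (nat_lit 398) (nat_lit 6541) (.d (nat_lit 399) (nat_lit 400) (nat_lit 2444) (nat_lit 432) (nat_lit 7567))))))) (.a (.f (nat_lit 431) (nat_lit 463) (nat_lit 7599)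 (.f (nat_lit 432) (nat_lit 399) (nat_lit 7567) (.f (nat_lit 433) (nat_lit 401) (nat_lit 6544) (.f (nat_lit 430) (nat_lit 462) (nat_lit 1453) (.f (nat_lit 429) (nat_lit 460) (nat_lit 1452) (.d (nat_lit 397) (nat_lit 396) (nat_lit 3468) (nat_lit 398) (nat_lit 3469))))))) (.f (nat_lit 463) (nat_lit 431) (nat_lit 7599) (.f (nat_lit 462) (nat_lit 497) (nat_lit 461) (.d (nat_lit 493) (nat_lit 492) (nat_lit 1484) (nat_lit 590) (nat_lit 4557))))))))))))) (.a (.p (nat_lit 493) (.a (.f (nat_lit 431) (nat_lit 463) (nat_lit 7599) (.f (nat_lit 432) (nat_lit 399) (nat_lit 7567) (.f (nat_lit 401) (nat_lit 433) (nat_lit 6544) (.f (nat_lit 400) (nat_lit 369) (nat_lit 6512) (.f (nat_lit 430) (nat_lit 429) (nat_lit 2445) (.f (nat_lit 461) (nat_lit 462) (nat_lit 6573) (.f (nat_lit 460) (nat_lit 428) (nat_lit 7596) (.f (nat_lit 589) (nat_lit 492) (nat_lit 7628) (.d (nat_lit 588) (nat_lit 556) (nat_lit 5580) (nat_lit 620) (nat_lit 5612))))))))))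 (.a (.p (nat_lit 590) (.a (.f (nat_lit 461) (nat_lit 558) (nat_lit 4557) (.f (nat_lit 589) (nat_lit 622) (nat_lit 4589) (.d (nat_lit 588) (nat_lit 556) (nat_lit 5580) (nat_lit 620) (nat_lit 5612)))) (.a (.f (nat_lit 589) (nat_lit 622) (nat_lit 4589) (.f (nat_lit 588) (nat_lit 620) (nat_lit 5612) (.f (nat_lit 461) (nat_lit 556) (nat_lit 5580) (.d (nat_lit 462) (nat_lit 430) (nat_lit 6573) (nat_lit 494) (nat_lit 6605))))) (.a (.f (nat_lit 589) (nat_lit 622) (nat_lit 4589) (.f (nat_lit 559) (nat_lit 558) (nat_lit 1581) (.f (nat_lit 432) (nat_lit 527) (nat_lit 5551) (.f (nat_lit 399) (nat_lit 431) (nat_lit 7567) (.f (nat_lit 400) (nat_lit 367) (nat_lit 7535) (.d (nat_lit 401) (nat_lit 369) (nat_lit 6512) (nat_lit 433) (nat_lit 6544))))))) (.f (nat_lit 461) (nat_lit 558) (nat_lit 4557) (.f (nat_lit 430) (nat_lit 462) (nat_lit 6573) (.f (nat_lit 429) (nat_lit 398) (nat_lit 6541) (.d (nat_lit 428) (nat_lit 396) (nat_lit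 7564) (nat_lit 460) (nat_lit 7596))))))))) (.a (.p (nat_lit 462) (.a (.f (nat_lit 461) (nat_lit 430) (nat_lit 6573) (.f (nat_lit 589) (nat_lit 494) (nat_lit 6605) (.d (nat_lit 588) (nat_lit 556) (nat_lit 5580) (nat_lit 620) (nat_lit 5612)))) (.a (.f (nat_lit 461) (nat_lit 430) (nat_lit 6573) (.d (nat_lit 463) (nat_lit 492) (nat_lit 1484) (nat_lit 497) (nat_lit 461))) (.f (nat_lit 589) (nat_lit 494) (nat_lit 6605) (.f (nat_lit 620) (nat_lit 588) (nat_lit 5612) (.f (nat_lit 621) (nat_lit 652) (nat_lit 5644) (.d (nat_lit 622) (nat_lit 590) (nat_lit 4589) (nat_lit 654) (nat_lit 4621)))))))) (.a s30957 (.a s30966 (.p (nat_lit 461) (.a (.f (nat_lit 428) (nat_lit 460) (nat_lit 7596) (.f (nat_lit 429) (nat_lit 396) (nat_lit 7564) (.d (nat_lit 430) (nat_lit 398) (nat_lit 6541) (nat_lit 462) (nat_lit 6573)))) (.a (.f (nat_lit 428) (nat_lit 460) (nat_lit 7596) (.f (nat_lit 429) (nat_lit 396) (nat_lit 7564) (.f (nat_lit 431)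 (nat_lit 463) (nat_lit 7599) (.f (nat_lit 432) (nat_lit 399) (nat_lit 7567) (.f (nat_lit 401) (nat_lit 433) (nat_lit 6544) (.d (nat_lit 430) (nat_lit 398) (nat_lit 6541) (nat_lit 400) (nat_lit 2445))))))) (.f (nat_lit 463) (nat_lit 431) (nat_lit 7599) (.d (nat_lit 462) (nat_lit 492) (nat_lit 1484) (nat_lit 497) (nat_lit 461)))))))))))) (.a (.f (nat_lit 431) (nat_lit 463) (nat_lit 7599) (.f (nat_lit 432) (nat_lit 399) (nat_lit 7567) (.f (nat_lit 559) (nat_lit 527) (nat_lit 5551) (.f (nat_lit 558) (nat_lit 524) (nat_lit 3596) (.d (nat_lit 589) (nat_lit 588) (nat_lit 1580) (nat_lit 590) (nat_lit 1581)))))) (.f (nat_lit 431) (nat_lit 463) (nat_lit 7599) (.f (nat_lit 432) (nat_lit 399) (nat_lit 7567) (.f (nat_lit 559) (nat_lit 527) (nat_lit 5551) (.f (nat_lit 558) (nat_lit 524) (nat_lit 3596) (.f (nat_lit 590) (nat_lit 589) (nat_lit 1581) (.f (nat_lit 433) (nat_lit 401) (nat_lit 6544) (.f (nat_lit 461) (nat_lit 493) (nat_lit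 4557) (.f (nat_lit 430) (nat_lit 462) (nat_lit 1453) (.f (nat_lit 429) (nat_lit 460) (nat_lit 1452) (.d (nat_lit 397) (nat_lit 396) (nat_lit 3468) (nat_lit 398) (nat_lit 3469))))))))))))))))))))) (.a (.p (nat_lit 557) (.a (.f (nat_lit 527) (nat_lit 526) (nat_lit 525) (.f (nat_lit 559) (nat_lit 432) (nat_lit 5551) (.d (nat_lit 558) (nat_lit 524) (nat_lit 3596) (nat_lit 556) (nat_lit 2572)))) (.a s30997 (.a s31038 (.a s30865 (.a (.p (nat_lit 493) (.a s31000 (.a s30774 (.a (.p (nat_lit 461) (.a (.f (nat_lit 428) (nat_lit 460) (nat_lit 7596) (.f (nat_lit 429) (nat_lit 396) (nat_lit 7564) (.d (nat_lit 430) (nat_lit 398) (nat_lit 6541) (nat_lit 462) (nat_lit 6573)))) (.a (.f (nat_lit 460) (nat_lit 428) (nat_lit 7596) (.f (nat_lit 589) (nat_lit 492) (nat_lit 7628) (.d (nat_lit 588) (nat_lit 556) (nat_lit 5580) (nat_lit 620) (nat_lit 5612)))) (.f (nat_lit 556) (nat_lit 588) (nat_lit 5580) (.f (nat_lit 429) (nat_lit 524)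 (nat_lit 5548) (.d (nat_lit 430) (nat_lit 398) (nat_lit 6541) (nat_lit 462) (nat_lit 6573))))))) (.a (.p (nat_lit 461) (.a (.f (nat_lit 460) (nat_lit 428) (nat_lit 7596) (.f (nat_lit 589) (nat_lit 492) (nat_lit 7628) (.d (nat_lit 588) (nat_lit 556) (nat_lit 5580) (nat_lit 620) (nat_lit 5612)))) (.a (.f (nat_lit 556) (nat_lit 588) (nat_lit 5580) (.f (nat_lit 429) (nat_lit 524) (nat_lit 5548) (.d (nat_lit 428) (nat_lit 396) (nat_lit 7564) (nat_lit 460) (nat_lit 7596)))) (.a (.f (nat_lit 460) (nat_lit 428) (nat_lit 7596) (.f (nat_lit 589) (nat_lit 492) (nat_lit 7628) (.f (nat_lit 620) (nat_lit 588) (nat_lit 5612) (.f (nat_lit 621) (nat_lit 652) (nat_lit 5644) (.d (nat_lit 622) (nat_lit 590) (nat_lit 4589) (nat_lit 654) (nat_lit 4621)))))) (.a (.f (nat_lit 556) (nat_lit 588) (nat_lit 5580) (.f (nat_lit 429) (nat_lit 524) (nat_lit 5548) (.f (nat_lit 396) (nat_lit 428) (nat_lit 7564) (.f (nat_lit 397) (nat_lit 364) (nat_lit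 7532) (.d (nat_lit 398) (nat_lit 366) (nat_lit 6509) (nat_lit 430) (nat_lit 6541)))))) (.a (.f (nat_lit 428) (nat_lit 460) (nat_lit 7596) (.f (nat_lit 429) (nat_lit 396) (nat_lit 7564) (.f (nat_lit 398) (nat_lit 430) (nat_lit 6541) (.f (nat_lit 397) (nat_lit 366) (nat_lit 6509) (.d (nat_lit 524) (nat_lit 492) (nat_lit 5516) (nat_lit 556) (nat_lit 5548)))))) (.f (nat_lit 527) (nat_lit 526) (nat_lit 525) (.f (nat_lit 556) (nat_lit 588) (nat_lit 5580) (.f (nat_lit 429) (nat_lit 524) (nat_lit 5548) (.f (nat_lit 432) (nat_lit 559) (nat_lit 5551) (.f (nat_lit 398) (nat_lit 430) (nat_lit 6541) (.f (nat_lit 397) (nat_lit 366) (nat_lit 6509) (.f (nat_lit 364) (nat_lit 396) (nat_lit 7532) (.f (nat_lit 365) (nat_lit 332) (nat_lit 7500) (.f (nat_lit 400) (nat_lit 399) (nat_lit 3436) (.d (nat_lit 401) (nat_lit 369) (nat_lit 6512) (nat_lit 433) (nat_lit 6544))))))))))))))))) (.a s31024 (.a s31062 (.a (.p (nat_lit 462) (.a (.f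 (nat_lit 461) (nat_lit 430) (nat_lit 6573) (.f (nat_lit 589) (nat_lit 494) (nat_lit 6605) (.d (nat_lit 588) (nat_lit 556) (nat_lit 5580) (nat_lit 620) (nat_lit 5612)))) (.a (.f (nat_lit 461) (nat_lit 430) (nat_lit 6573) (.d (nat_lit 463) (nat_lit 492) (nat_lit 1484) (nat_lit 497) (nat_lit 461))) (.f (nat_lit 589) (nat_lit 494) (nat_lit 6605) (.f (nat_lit 620) (nat_lit 588) (nat_lit 5612) (.f (nat_lit 621) (nat_lit 652) (nat_lit 5644) (.d (nat_lit 622) (nat_lit 590) (nat_lit 4589) (nat_lit 654) (nat_lit 4621)))))))) (.a (.p (nat_lit 462) (.a (.f (nat_lit 589) (nat_lit 494) (nat_lit 6605) (.f (nat_lit 620) (nat_lit 588) (nat_lit 5612) (.f (nat_lit 621) (nat_lit 652) (nat_lit 5644) (.d (nat_lit 622) (nat_lit 590) (nat_lit 4589) (nat_lit 654) (nat_lit 4621))))) (.f (nat_lit 461) (nat_lit 430) (nat_lit 6573) (.d (nat_lit 463) (nat_lit 492) (nat_lit 1484) (nat_lit 497) (nat_lit 461))))) (.a s31064 (.p (nat_lit 462) (.a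 (.f (nat_lit 526) (nat_lit 527) (nat_lit 525) (.d (nat_lit 430) (nat_lit 461) (nat_lit 6573) (nat_lit 494) (nat_lit 5549))) (.a (.f (nat_lit 589) (nat_lit 494) (nat_lit 6605) (.f (nat_lit 492) (nat_lit 460) (nat_lit 7628) (.f (nat_lit 621) (nat_lit 524) (nat_lit 7660) (.d (nat_lit 622) (nat_lit 590) (nat_lit 4589) (nat_lit 654) (nat_lit 4621))))) (.f (nat_lit 461) (nat_lit 430) (nat_lit 6573) (.d (nat_lit 463) (nat_lit 492) (nat_lit 1484) (nat_lit 497) (nat_lit 461)))))))))))))))) (.a (.f (nat_lit 527) (nat_lit 526) (nat_lit 525) (.f (nat_lit 559) (nat_lit 432) (nat_lit 5551) (.f (nat_lit 558) (nat_lit 556) (nat_lit 2572) (.d (nat_lit 589) (nat_lit 588) (nat_lit 1580) (nat_lit 590) (nat_lit 1581))))) (.f (nat_lit 527) (nat_lit 526) (nat_lit 525) (.f (nat_lit 559) (nat_lit 432) (nat_lit 5551) (.f (nat_lit 558) (nat_lit 524) (nat_lit 3596) (.d (nat_lit 589) (nat_lit 588) (nat_lit 1580) (nat_lit 590) (nat_lit 1581))))))))))))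 (.p (nat_lit 461) (.a (.f (nat_lit 463) (nat_lit 431) (nat_lit 7599) (.f (nat_lit 462) (nat_lit 497) (nat_lit 461) (.f (nat_lit 493) (nat_lit 492) (nat_lit 1484) (.f (nat_lit 429) (nat_lit 428) (nat_lit 3500) (.d (nat_lit 430) (nat_lit 398) (nat_lit 6541) (nat_lit 557) (nat_lit 6573)))))) (.a (.f (nat_lit 526) (nat_lit 527) (nat_lit 525) (.f (nat_lit 558) (nat_lit 559) (nat_lit 3597) (.f (nat_lit 493) (nat_lit 429) (nat_lit 4525) (.d (nat_lit 590) (nat_lit 494) (nat_lit 7629) (nat_lit 557) (nat_lit 4557))))) (.a (.f (nat_lit 463) (nat_lit 431) (nat_lit 7599) (.f (nat_lit 462) (nat_lit 497) (nat_lit 461) (.f (nat_lit 493) (nat_lit 492) (nat_lit 1484) (.f (nat_lit 429) (nat_lit 428) (nat_lit 3500) (.f (nat_lit 398) (nat_lit 430) (nat_lit 6541) (.f (nat_lit 397) (nat_lit 366) (nat_lit 6509) (.f (nat_lit 364) (nat_lit 396) (nat_lit 7532) (.d (nat_lit 365) (nat_lit 332) (nat_lit 7500) (nat_lit 494) (nat_lit 4461)))))))))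 (.a (.f (nat_lit 526) (nat_lit 527) (nat_lit 525) (.f (nat_lit 463) (nat_lit 431) (nat_lit 7599) (.f (nat_lit 462) (nat_lit 497) (nat_lit 461) (.f (nat_lit 558) (nat_lit 559) (nat_lit 3597) (.d (nat_lit 429) (nat_lit 428) (nat_lit 3500) (nat_lit 494) (nat_lit 7597)))))) (.f (nat_lit 463) (nat_lit 431) (nat_lit 7599) (.f (nat_lit 462) (nat_lit 497) (nat_lit 461) (.f (nat_lit 493) (nat_lit 492) (nat_lit 1484) (.f (nat_lit 557) (nat_lit 430) (nat_lit 6573) (.f (nat_lit 589) (nat_lit 494) (nat_lit 6605) (.d (nat_lit 588) (nat_lit 556) (nat_lit 5580) (nat_lit 620) (nat_lit 5612))))))))))))))))))) (.p (nat_lit 525) (.a (.f (nat_lit 527) (nat_lit 526) (nat_lit 525) (.f (nat_lit 432) (nat_lit 559) (nat_lit 5551) (.d (nat_lit 431) (nat_lit 399) (nat_lit 7567) (nat_lit 463) (nat_lit 7599)))) (.a (.p (nat_lit 461) (.a (.f (nat_lit 463) (nat_lit 431) (nat_lit 7599) (.f (nat_lit 462) (nat_lit 497) (nat_lit 461) (.f (nat_lit 493)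 (nat_lit 492) (nat_lit 1484) (.f (nat_lit 429) (nat_lit 428) (nat_lit 3500) (.d (nat_lit 430) (nat_lit 398) (nat_lit 6541) (nat_lit 557) (nat_lit 6573)))))) (.a (.p (nat_lit 558) (.a s30549 (.a (.p (nat_lit 557) (.a (.f (nat_lit 493) (nat_lit 590) (nat_lit 4557) (.f (nat_lit 556) (nat_lit 588) (nat_lit 5580) (.f (nat_lit 524) (nat_lit 429) (nat_lit 5548) (.f (nat_lit 460) (nat_lit 428) (nat_lit 7596) (.f (nat_lit 492) (nat_lit 589) (nat_lit 4556) (.f (nat_lit 459) (nat_lit 427) (nat_lit 7595) (.d (nat_lit 458) (nat_lit 457) (nat_lit 457) (nat_lit 494) (nat_lit 458)))))))) (.a (.f (nat_lit 493) (nat_lit 590) (nat_lit 4557) (.f (nat_lit 524) (nat_lit 559) (nat_lit 3596) (.d (nat_lit 556) (nat_lit 429) (nat_lit 5548) (nat_lit 588) (nat_lit 5580)))) (.a (.f (nat_lit 559) (nat_lit 524) (nat_lit 3596) (.d (nat_lit 589) (nat_lit 588) (nat_lit 1580) (nat_lit 590) (nat_lit 1581))) (.a (.f (nat_lit 559) (nat_lit 524) (nat_lit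 3596) (.f (nat_lit 588) (nat_lit 589) (nat_lit 1580) (.d (nat_lit 556) (nat_lit 493) (nat_lit 5580) (nat_lit 587) (nat_lit 1579)))) (.a (.f (nat_lit 493) (nat_lit 590) (nat_lit 4557) (.f (nat_lit 588) (nat_lit 556) (nat_lit 5580) (.d (nat_lit 589) (nat_lit 559) (nat_lit 1580) (nat_lit 620) (nat_lit 5612)))) (.f (nat_lit 493) (nat_lit 590) (nat_lit 4557) (.f (nat_lit 428) (nat_lit 460) (nat_lit 7596) (.f (nat_lit 429) (nat_lit 396) (nat_lit 7564) (.d (nat_lit 430) (nat_lit 398) (nat_lit 6541) (nat_lit 462) (nat_lit 6573))))))))))) (.a (.f (nat_lit 526) (nat_lit 559) (nat_lit 3597) (.f (nat_lit 493) (nat_lit 429) (nat_lit 4525) (.d (nat_lit 590) (nat_lit 494) (nat_lit 7629) (nat_lit 622) (nat_lit 7661)))) (.a (.f (nat_lit 559) (nat_lit 526) (nat_lit 3597) (.f (nat_lit 557) (nat_lit 524) (nat_lit 3596) (.d (nat_lit 589) (nat_lit 588) (nat_lit 1580) (nat_lit 590) (nat_lit 1581)))) (.f (nat_lit 559) (nat_lit 526) (nat_lit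 3597) (.f (nat_lit 557) (nat_lit 524) (nat_lit 3596) (.f (nat_lit 588) (nat_lit 589) (nat_lit 1580) (.d (nat_lit 556) (nat_lit 493) (nat_lit 5580) (nat_lit 587) (nat_lit 1579)))))))))) (.a (.f (nat_lit 463) (nat_lit 431) (nat_lit 7599) (.f (nat_lit 462) (nat_lit 497) (nat_lit 461) (.f (nat_lit 493) (nat_lit 492) (nat_lit 1484) (.f (nat_lit 429) (nat_lit 428) (nat_lit 3500) (.f (nat_lit 398) (nat_lit 430) (nat_lit 6541) (.f (nat_lit 397) (nat_lit 366) (nat_lit 6509) (.f (nat_lit 364) (nat_lit 396) (nat_lit 7532) (.d (nat_lit 365) (nat_lit 332) (nat_lit 7500) (nat_lit 494) (nat_lit 4461))))))))) (.a (.p (nat_lit 558) (.a (.f (nat_lit 526) (nat_lit 559) (nat_lit 3597) (.f (nat_lit 493) (nat_lit 429) (nat_lit 4525) (.d (nat_lit 590) (nat_lit 494) (nat_lit 7629) (nat_lit 622) (nat_lit 7661)))) (.a (.p (nat_lit 493) (.a (.f (nat_lit 557) (nat_lit 590) (nat_lit 4557) (.f (nat_lit 556) (nat_lit 588) (nat_lit 5580) (.f (nat_lit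 524) (nat_lit 429) (nat_lit 5548) (.f (nat_lit 460) (nat_lit 428) (nat_lit 7596) (.f (nat_lit 492) (nat_lit 589) (nat_lit 4556) (.f (nat_lit 459) (nat_lit 427) (nat_lit 7595) (.d (nat_lit 458) (nat_lit 457) (nat_lit 457) (nat_lit 494) (nat_lit 458)))))))) (.a (.f (nat_lit 429) (nat_lit 526) (nat_lit 4525) (.f (nat_lit 524) (nat_lit 556) (nat_lit 5548) (.f (nat_lit 397) (nat_lit 492) (nat_lit 5516) (.d (nat_lit 398) (nat_lit 366) (nat_lit 6509) (nat_lit 430) (nat_lit 6541))))) (.a (.f (nat_lit 557) (nat_lit 590) (nat_lit 4557) (.f (nat_lit 588) (nat_lit 556) (nat_lit 5580) (.f (nat_lit 589) (nat_lit 620) (nat_lit 5612) (.d (nat_lit 460) (nat_lit 428) (nat_lit 7596) (nat_lit 492) (nat_lit 7628))))) (.f (nat_lit 429) (nat_lit 526) (nat_lit 4525) (.f (nat_lit 557) (nat_lit 590) (nat_lit 4557) (.d (nat_lit 428) (nat_lit 396) (nat_lit 7564) (nat_lit 460) (nat_lit 7596)))))))) (.a (.p (nat_lit 557) (.a (.f (nat_lit 493)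 (nat_lit 590) (nat_lit 4557) (.f (nat_lit 556) (nat_lit 588) (nat_lit 5580) (.f (nat_lit 524) (nat_lit 429) (nat_lit 5548) (.f (nat_lit 460) (nat_lit 428) (nat_lit 7596) (.f (nat_lit 492) (nat_lit 589) (nat_lit 4556) (.f (nat_lit 459) (nat_lit 427) (nat_lit 7595) (.d (nat_lit 458) (nat_lit 457) (nat_lit 457) (nat_lit 494) (nat_lit 458)))))))) (.a (.f (nat_lit 493) (nat_lit 590) (nat_lit 4557) (.f (nat_lit 524) (nat_lit 559) (nat_lit 3596) (.d (nat_lit 556) (nat_lit 429) (nat_lit 5548) (nat_lit 588) (nat_lit 5580)))) (.a (.f (nat_lit 559) (nat_lit 524) (nat_lit 3596) (.d (nat_lit 589) (nat_lit 588) (nat_lit 1580) (nat_lit 590) (nat_lit 1581))) (.a (.f (nat_lit 559) (nat_lit 524) (nat_lit 3596) (.f (nat_lit 588) (nat_lit 589) (nat_lit 1580) (.d (nat_lit 556) (nat_lit 493) (nat_lit 5580) (nat_lit 587) (nat_lit 1579)))) (.a (.f (nat_lit 493) (nat_lit 590) (nat_lit 4557) (.f (nat_lit 588) (nat_lit 556) (nat_lit 5580)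 (.d (nat_lit 589) (nat_lit 559) (nat_lit 1580) (nat_lit 620) (nat_lit 5612)))) (.f (nat_lit 493) (nat_lit 590) (nat_lit 4557) (.f (nat_lit 428) (nat_lit 460) (nat_lit 7596) (.f (nat_lit 429) (nat_lit 396) (nat_lit 7564) (.f (nat_lit 431) (nat_lit 463) (nat_lit 7599) (.f (nat_lit 430) (nat_lit 398) (nat_lit 6541) (.d (nat_lit 399) (nat_lit 400) (nat_lit 2444) (nat_lit 432) (nat_lit 7567))))))))))))) (.a (.f (nat_lit 559) (nat_lit 526) (nat_lit 3597) (.f (nat_lit 557) (nat_lit 524) (nat_lit 3596) (.d (nat_lit 589) (nat_lit 588) (nat_lit 1580) (nat_lit 590) (nat_lit 1581)))) (.f (nat_lit 559) (nat_lit 526) (nat_lit 3597) (.f (nat_lit 557) (nat_lit 524) (nat_lit 3596) (.f (nat_lit 588) (nat_lit 589) (nat_lit 1580) (.d (nat_lit 556) (nat_lit 493) (nat_lit 5580) (nat_lit 587) (nat_lit 1579)))))))))) (.p (nat_lit 562) (.a (.p (nat_lit 559) (.a (.f (nat_lit 558) (nat_lit 526) (nat_lit 3597) (.f (nat_lit 557) (nat_lit 524)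 (nat_lit 3596) (.d (nat_lit 589) (nat_lit 588) (nat_lit 1580) (nat_lit 590) (nat_lit 1581)))) (.f (nat_lit 595) (nat_lit 594) (nat_lit 559) (.f (nat_lit 563) (nat_lit 596) (nat_lit 560) (.d (nat_lit 531) (nat_lit 530) (nat_lit 2575) (nat_lit 532) (nat_lit 2576)))))) (.a (.p (nat_lit 563) (.a (.f (nat_lit 532) (nat_lit 531) (nat_lit 2576) (.f (nat_lit 564) (nat_lit 533) (nat_lit 2577) (.d (nat_lit 596) (nat_lit 595) (nat_lit 560) (nat_lit 597) (nat_lit 561)))) (.a (.f (nat_lit 463) (nat_lit 431) (nat_lit 7599) (.f (nat_lit 497) (nat_lit 462) (nat_lit 461) (.f (nat_lit 532) (nat_lit 531) (nat_lit 2576) (.f (nat_lit 465) (nat_lit 592) (nat_lit 6608) (.f (nat_lit 499) (nat_lit 498) (nat_lit 3535) (.f (nat_lit 564) (nat_lit 533) (nat_lit 2577) (.f (nat_lit 596) (nat_lit 597) (nat_lit 561) (.f (nat_lit 467) (nat_lit 500) (nat_lit 7635) (.f (nat_lit 466) (nat_lit 468) (nat_lit 1488) (.d (nat_lit 435) (nat_lit 434) (nat_lit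 2479) (nat_lit 436) (nat_lit 2480))))))))))) (.a (.f (nat_lit 463) (nat_lit 431) (nat_lit 7599) (.f (nat_lit 497) (nat_lit 462) (nat_lit 461) (.f (nat_lit 465) (nat_lit 592) (nat_lit 6608) (.f (nat_lit 498) (nat_lit 499) (nat_lit 3535) (.f (nat_lit 595) (nat_lit 596) (nat_lit 560) (.d (nat_lit 530) (nat_lit 466) (nat_lit 4562) (nat_lit 594) (nat_lit 7633))))))) (.f (nat_lit 463) (nat_lit 431) (nat_lit 7599) (.f (nat_lit 497) (nat_lit 462) (nat_lit 461) (.f (nat_lit 465) (nat_lit 592) (nat_lit 6608) (.f (nat_lit 498) (nat_lit 499) (nat_lit 3535) (.f (nat_lit 530) (nat_lit 594) (nat_lit 7633) (.f (nat_lit 466) (nat_lit 595) (nat_lit 4562) (.d (nat_lit 467) (nat_lit 435) (nat_lit 6578) (nat_lit 468) (nat_lit 1488)))))))))))) (.a (.p (nat_lit 559) (.a (.f (nat_lit 558) (nat_lit 526) (nat_lit 3597) (.f (nat_lit 557) (nat_lit 524) (nat_lit 3596) (.d (nat_lit 589) (nat_lit 588) (nat_lit 1580) (nat_lit 590) (nat_lit 1581))))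 (.f (nat_lit 463) (nat_lit 431) (nat_lit 7599) (.f (nat_lit 497) (nat_lit 462) (nat_lit 461) (.f (nat_lit 531) (nat_lit 530) (nat_lit 2575) (.f (nat_lit 563) (nat_lit 532) (nat_lit 2576) (.f (nat_lit 499) (nat_lit 498) (nat_lit 3535) (.f (nat_lit 596) (nat_lit 595) (nat_lit 560) (.d (nat_lit 564) (nat_lit 467) (nat_lit 4563) (nat_lit 597) (nat_lit 561)))))))))) (.a (.f (nat_lit 463) (nat_lit 431) (nat_lit 7599) (.f (nat_lit 497) (nat_lit 462) (nat_lit 461) (.f (nat_lit 465) (nat_lit 592) (nat_lit 6608) (.f (nat_lit 498) (nat_lit 499) (nat_lit 3535) (.f (nat_lit 530) (nat_lit 594) (nat_lit 7633) (.f (nat_lit 559) (nat_lit 531) (nat_lit 2575) (.f (nat_lit 558) (nat_lit 526) (nat_lit 3597) (.f (nat_lit 557) (nat_lit 524) (nat_lit 3596) (.d (nat_lit 589) (nat_lit 588) (nat_lit 1580) (nat_lit 590) (nat_lit 1581)))))))))) (.a (.p (nat_lit 559) (.a (.f (nat_lit 558) (nat_lit 526) (nat_lit 3597) (.f (nat_lit 557) (nat_lit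 524) (nat_lit 3596) (.d (nat_lit 589) (nat_lit 588) (nat_lit 1580) (nat_lit 590) (nat_lit 1581)))) (.f (nat_lit 463) (nat_lit 431) (nat_lit 7599) (.f (nat_lit 497) (nat_lit 462) (nat_lit 461) (.f (nat_lit 465) (nat_lit 592) (nat_lit 6608) (.f (nat_lit 499) (nat_lit 498) (nat_lit 3535) (.f (nat_lit 595) (nat_lit 594) (nat_lit 559) (.f (nat_lit 563) (nat_lit 596) (nat_lit 560) (.f (nat_lit 531) (nat_lit 532) (nat_lit 2576) (.f (nat_lit 468) (nat_lit 500) (nat_lit 6611) (.d (nat_lit 467) (nat_lit 436) (nat_lit 6579) (nat_lit 466) (nat_lit 1488)))))))))))) (.f (nat_lit 463) (nat_lit 431) (nat_lit 7599) (.f (nat_lit 497) (nat_lit 462) (nat_lit 461) (.f (nat_lit 465) (nat_lit 592) (nat_lit 6608) (.f (nat_lit 498) (nat_lit 499) (nat_lit 3535) (.f (nat_lit 594) (nat_lit 530) (nat_lit 7633) (.f (nat_lit 595) (nat_lit 559) (nat_lit 559) (.d (nat_lit 596) (nat_lit 563) (nat_lit 560) (nat_lit 597) (nat_lit 3633)))))))))))))))))))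 (.a (.p (nat_lit 557) (.a (.f (nat_lit 527) (nat_lit 526) (nat_lit 525) (.f (nat_lit 559) (nat_lit 432) (nat_lit 5551) (.d (nat_lit 558) (nat_lit 524) (nat_lit 3596) (nat_lit 556) (nat_lit 2572)))) (.a (.p (nat_lit 493) (.a s30769 (.a s30774 (.a s30799 (.a s30830 (.a (.p (nat_lit 461) (.a (.f (nat_lit 428) (nat_lit 460) (nat_lit 7596) (.f (nat_lit 429) (nat_lit 396) (nat_lit 7564) (.d (nat_lit 430) (nat_lit 398) (nat_lit 6541) (nat_lit 462) (nat_lit 6573)))) (.a (.f (nat_lit 460) (nat_lit 428) (nat_lit 7596) (.f (nat_lit 589) (nat_lit 492) (nat_lit 7628) (.d (nat_lit 588) (nat_lit 556) (nat_lit 5580) (nat_lit 620) (nat_lit 5612)))) (.f (nat_lit 556) (nat_lit 588) (nat_lit 5580) (.f (nat_lit 429) (nat_lit 524) (nat_lit 5548) (.d (nat_lit 430) (nat_lit 398) (nat_lit 6541) (nat_lit 462) (nat_lit 6573))))))) (.a (.p (nat_lit 558) (.a (.f (nat_lit 461) (nat_lit 590) (nat_lit 4557) (.f (nat_lit 429) (nat_lit 526) (nat_lit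 4525) (.d (nat_lit 556) (nat_lit 524) (nat_lit 5548) (nat_lit 588) (nat_lit 5580)))) (.a (.f (nat_lit 461) (nat_lit 590) (nat_lit 4557) (.f (nat_lit 524) (nat_lit 559) (nat_lit 3596) (.d (nat_lit 556) (nat_lit 429) (nat_lit 5548) (nat_lit 588) (nat_lit 5580)))) (.a (.d (nat_lit 559) (nat_lit 524) (nat_lit 3596) (nat_lit 526) (nat_lit 3597)) (.f (nat_lit 461) (nat_lit 590) (nat_lit 4557) (.f (nat_lit 429) (nat_lit 526) (nat_lit 4525) (.d (nat_lit 430) (nat_lit 398) (nat_lit 6541) (nat_lit 462) (nat_lit 6573)))))))) (.a (.p (nat_lit 558) (.a (.f (nat_lit 461) (nat_lit 590) (nat_lit 4557) (.f (nat_lit 588) (nat_lit 556) (nat_lit 5580) (.d (nat_lit 589) (nat_lit 559) (nat_lit 1580) (nat_lit 620) (nat_lit 5612)))) (.a (.f (nat_lit 461) (nat_lit 590) (nat_lit 4557) (.f (nat_lit 429) (nat_lit 526) (nat_lit 4525) (.d (nat_lit 430) (nat_lit 398) (nat_lit 6541) (nat_lit 462) (nat_lit 6573)))) (.a (.f (nat_lit 559) (nat_lit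 526) (nat_lit 3597) (.d (nat_lit 589) (nat_lit 588) (nat_lit 1580) (nat_lit 590) (nat_lit 1581))) (.f (nat_lit 526) (nat_lit 559) (nat_lit 3597) (.f (nat_lit 461) (nat_lit 429) (nat_lit 4525) (.f (nat_lit 462) (nat_lit 430) (nat_lit 6573) (.f (nat_lit 589) (nat_lit 494) (nat_lit 5581) (.d (nat_lit 588) (nat_lit 556) (nat_lit 5580) (nat_lit 620) (nat_lit 5612)))))))))) (.a (.p (nat_lit 558) (.a (.f (nat_lit 461) (nat_lit 590) (nat_lit 4557) (.f (nat_lit 429) (nat_lit 526) (nat_lit 4525) (.d (nat_lit 430) (nat_lit 398) (nat_lit 6541) (nat_lit 462) (nat_lit 6573)))) (.a (.f (nat_lit 461) (nat_lit 590) (nat_lit 4557) (.f (nat_lit 460) (nat_lit 428) (nat_lit 7596) (.f (nat_lit 589) (nat_lit 492) (nat_lit 7628) (.d (nat_lit 462) (nat_lit 430) (nat_lit 6573) (nat_lit 494) (nat_lit 6605))))) (.a (.f (nat_lit 559) (nat_lit 524) (nat_lit 3596) (.d (nat_lit 589) (nat_lit 588) (nat_lit 1580) (nat_lit 590) (nat_lit 1581))) (.d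 (nat_lit 559) (nat_lit 524) (nat_lit 3596) (nat_lit 526) (nat_lit 3597)))))) (.p (nat_lit 558) (.a (.f (nat_lit 461) (nat_lit 590) (nat_lit 4557) (.f (nat_lit 429) (nat_lit 526) (nat_lit 4525) (.d (nat_lit 430) (nat_lit 398) (nat_lit 6541) (nat_lit 462) (nat_lit 6573)))) (.a (.f (nat_lit 461) (nat_lit 590) (nat_lit 4557) (.f (nat_lit 460) (nat_lit 428) (nat_lit 7596) (.f (nat_lit 589) (nat_lit 492) (nat_lit 7628) (.d (nat_lit 462) (nat_lit 430) (nat_lit 6573) (nat_lit 494) (nat_lit 6605))))) (.a (.f (nat_lit 590) (nat_lit 461) (nat_lit 4557) (.d (nat_lit 559) (nat_lit 524) (nat_lit 3596) (nat_lit 589) (nat_lit 1581))) (.d (nat_lit 559) (nat_lit 524) (nat_lit 3596) (nat_lit 526) (nat_lit 3597))))))))))))))) (.a s31038 (.a s31196 (.a (.p (nat_lit 493) (.a s31000 (.a s30774 (.a (.p (nat_lit 461) (.a (.f (nat_lit 428) (nat_lit 460) (nat_lit 7596) (.f (nat_lit 429) (nat_lit 396) (nat_lit 7564) (.d (nat_lit 430) (nat_lit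 398) (nat_lit 6541) (nat_lit 462) (nat_lit 6573)))) (.a (.f (nat_lit 460) (nat_lit 428) (nat_lit 7596) (.f (nat_lit 589) (nat_lit 492) (nat_lit 7628) (.d (nat_lit 588) (nat_lit 556) (nat_lit 5580) (nat_lit 620) (nat_lit 5612)))) (.f (nat_lit 556) (nat_lit 588) (nat_lit 5580) (.f (nat_lit 429) (nat_lit 524) (nat_lit 5548) (.d (nat_lit 430) (nat_lit 398) (nat_lit 6541) (nat_lit 462) (nat_lit 6573))))))) (.a (.p (nat_lit 461) (.a (.f (nat_lit 460) (nat_lit 428) (nat_lit 7596) (.f (nat_lit 589) (nat_lit 492) (nat_lit 7628) (.d (nat_lit 588) (nat_lit 556) (nat_lit 5580) (nat_lit 620) (nat_lit 5612)))) (.a (.f (nat_lit 556) (nat_lit 588) (nat_lit 5580) (.f (nat_lit 429) (nat_lit 524) (nat_lit 5548) (.d (nat_lit 428) (nat_lit 396) (nat_lit 7564) (nat_lit 460) (nat_lit 7596)))) (.a (.f (nat_lit 460) (nat_lit 428) (nat_lit 7596) (.f (nat_lit 589) (nat_lit 492) (nat_lit 7628) (.f (nat_lit 620) (nat_lit 588) (nat_lit 5612)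 (.f (nat_lit 621) (nat_lit 652) (nat_lit 5644) (.d (nat_lit 622) (nat_lit 590) (nat_lit 4589) (nat_lit 654) (nat_lit 4621)))))) (.a (.f (nat_lit 556) (nat_lit 588) (nat_lit 5580) (.f (nat_lit 429) (nat_lit 524) (nat_lit 5548) (.f (nat_lit 396) (nat_lit 428) (nat_lit 7564) (.f (nat_lit 397) (nat_lit 364) (nat_lit 7532) (.d (nat_lit 398) (nat_lit 366) (nat_lit 6509) (nat_lit 430) (nat_lit 6541)))))) (.a (.f (nat_lit 428) (nat_lit 460) (nat_lit 7596) (.f (nat_lit 429) (nat_lit 396) (nat_lit 7564) (.f (nat_lit 398) (nat_lit 430) (nat_lit 6541) (.f (nat_lit 397) (nat_lit 366) (nat_lit 6509) (.d (nat_lit 524) (nat_lit 492) (nat_lit 5516) (nat_lit 556) (nat_lit 5548)))))) (.f (nat_lit 527) (nat_lit 526) (nat_lit 525) (.f (nat_lit 556) (nat_lit 588) (nat_lit 5580) (.f (nat_lit 429) (nat_lit 524) (nat_lit 5548) (.f (nat_lit 432) (nat_lit 559) (nat_lit 5551) (.f (nat_lit 430) (nat_lit 398) (nat_lit 6541) (.d (nat_lit 431)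 (nat_lit 399) (nat_lit 7567) (nat_lit 460) (nat_lit 1452))))))))))))) (.a s31024 (.a (.p (nat_lit 430) (.a (.f (nat_lit 461) (nat_lit 462) (nat_lit 6573) (.f (nat_lit 429) (nat_lit 398) (nat_lit 6541) (.d (nat_lit 556) (nat_lit 524) (nat_lit 5548) (nat_lit 588) (nat_lit 5580)))) (.a (.f (nat_lit 527) (nat_lit 526) (nat_lit 525) (.f (nat_lit 432) (nat_lit 559) (nat_lit 5551) (.f (nat_lit 431) (nat_lit 399) (nat_lit 7567) (.f (nat_lit 429) (nat_lit 465) (nat_lit 429) (.d (nat_lit 461) (nat_lit 398) (nat_lit 6541) (nat_lit 460) (nat_lit 1452)))))) (.a (.f (nat_lit 527) (nat_lit 526) (nat_lit 525) (.f (nat_lit 432) (nat_lit 559) (nat_lit 5551) (.f (nat_lit 431) (nat_lit 399) (nat_lit 7567) (.f (nat_lit 429) (nat_lit 465) (nat_lit 429) (.f (nat_lit 396) (nat_lit 397) (nat_lit 3468) (.f (nat_lit 428) (nat_lit 395) (nat_lit 3467) (.d (nat_lit 460) (nat_lit 459) (nat_lit 1451) (nat_lit 492) (nat_lit 4492)))))))) (.f (nat_lit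 527) (nat_lit 526) (nat_lit 525) (.f (nat_lit 432) (nat_lit 559) (nat_lit 5551) (.f (nat_lit 462) (nat_lit 461) (nat_lit 6573) (.f (nat_lit 399) (nat_lit 431) (nat_lit 7567) (.f (nat_lit 398) (nat_lit 494) (nat_lit 5517) (.f (nat_lit 400) (nat_lit 367) (nat_lit 7535) (.f (nat_lit 369) (nat_lit 401) (nat_lit 6512) (.d (nat_lit 368) (nat_lit 337) (nat_lit 6480) (nat_lit 397) (nat_lit 2413))))))))))))) (.a (.p (nat_lit 461) (.a (.f (nat_lit 428) (nat_lit 460) (nat_lit 7596) (.f (nat_lit 429) (nat_lit 396) (nat_lit 7564) (.d (nat_lit 430) (nat_lit 398) (nat_lit 6541) (nat_lit 462) (nat_lit 6573)))) (.a (.f (nat_lit 460) (nat_lit 428) (nat_lit 7596) (.f (nat_lit 589) (nat_lit 492) (nat_lit 7628) (.d (nat_lit 588) (nat_lit 556) (nat_lit 5580) (nat_lit 620) (nat_lit 5612)))) (.f (nat_lit 462) (nat_lit 430) (nat_lit 6573) (.f (nat_lit 589) (nat_lit 494) (nat_lit 6605) (.d (nat_lit 588) (nat_lit 556) (nat_lit 5580) (nat_lit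 620) (nat_lit 5612))))))) (.a (.p (nat_lit 462) (.a (.f (nat_lit 589) (nat_lit 494) (nat_lit 6605) (.f (nat_lit 620) (nat_lit 588) (nat_lit 5612) (.f (nat_lit 621) (nat_lit 652) (nat_lit 5644) (.d (nat_lit 622) (nat_lit 590) (nat_lit 4589) (nat_lit 654) (nat_lit 4621))))) (.a (.f (nat_lit 461) (nat_lit 430) (nat_lit 6573) (.f (nat_lit 460) (nat_lit 428) (nat_lit 7596) (.f (nat_lit 589) (nat_lit 492) (nat_lit 7628) (.f (nat_lit 622) (nat_lit 590) (nat_lit 4589) (.f (nat_lit 621) (nat_lit 654) (nat_lit 4621) (.d (nat_lit 620) (nat_lit 588) (nat_lit 5612) (nat_lit 652) (nat_lit 5644))))))) (.f (nat_lit 526) (nat_lit 527) (nat_lit 525) (.d (nat_lit 430) (nat_lit 461) (nat_lit 6573) (nat_lit 494) (nat_lit 5549)))))) (.a s31064 (.a (.p (nat_lit 462) (.a (.f (nat_lit 461) (nat_lit 430) (nat_lit 6573) (.f (nat_lit 589) (nat_lit 494) (nat_lit 6605) (.d (nat_lit 588) (nat_lit 556) (nat_lit 5580) (nat_lit 620) (nat_lit 5612))))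 (.a (.f (nat_lit 527) (nat_lit 526) (nat_lit 525) (.f (nat_lit 461) (nat_lit 430) (nat_lit 6573) (.f (nat_lit 556) (nat_lit 588) (nat_lit 5580) (.f (nat_lit 429) (nat_lit 524) (nat_lit 5548) (.f (nat_lit 432) (nat_lit 559) (nat_lit 5551) (.f (nat_lit 396) (nat_lit 428) (nat_lit 7564) (.f (nat_lit 397) (nat_lit 364) (nat_lit 7532) (.f (nat_lit 398) (nat_lit 366) (nat_lit 6509) (.f (nat_lit 399) (nat_lit 431) (nat_lit 396) (.d (nat_lit 367) (nat_lit 368) (nat_lit 2412) (nat_lit 400) (nat_lit 7535))))))))))) (.a (.f (nat_lit 589) (nat_lit 494) (nat_lit 6605) (.f (nat_lit 620) (nat_lit 588) (nat_lit 5612) (.f (nat_lit 621) (nat_lit 652) (nat_lit 5644) (.d (nat_lit 622) (nat_lit 590) (nat_lit 4589) (nat_lit 654) (nat_lit 4621))))) (.f (nat_lit 526) (nat_lit 527) (nat_lit 525) (.d (nat_lit 430) (nat_lit 461) (nat_lit 6573) (nat_lit 494) (nat_lit 5549))))))) (.p (nat_lit 462) (.a (.f (nat_lit 526) (nat_lit 527) (nat_lit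 525) (.d (nat_lit 430) (nat_lit 461) (nat_lit 6573) (nat_lit 494) (nat_lit 5549))) (.a (.f (nat_lit 589) (nat_lit 494) (nat_lit 6605) (.f (nat_lit 492) (nat_lit 460) (nat_lit 7628) (.f (nat_lit 621) (nat_lit 524) (nat_lit 7660) (.d (nat_lit 622) (nat_lit 590) (nat_lit 4589) (nat_lit 654) (nat_lit 4621))))) (.f (nat_lit 527) (nat_lit 526) (nat_lit 525) (.f (nat_lit 461) (nat_lit 430) (nat_lit 6573) (.f (nat_lit 460) (nat_lit 428) (nat_lit 7596) (.f (nat_lit 492) (nat_lit 589) (nat_lit 7628) (.f (nat_lit 432) (nat_lit 559) (nat_lit 5551) (.f (nat_lit 399) (nat_lit 431) (nat_lit 7567) (.f (nat_lit 400) (nat_lit 367) (nat_lit 7535) (.f (nat_lit 369) (nat_lit 401) (nat_lit 6512) (.f (nat_lit 368) (nat_lit 337) (nat_lit 6480) (.f (nat_lit 397) (nat_lit 398) (nat_lit 2413) (.d (nat_lit 429) (nat_lit 365) (nat_lit 5484) (nat_lit 524) (nat_lit 5516)))))))))))))))))))))))))) (.a (.f (nat_lit 527) (nat_lit 526) (nat_lit 525)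 (.f (nat_lit 559) (nat_lit 432) (nat_lit 5551) (.f (nat_lit 558) (nat_lit 556) (nat_lit 2572) (.d (nat_lit 589) (nat_lit 588) (nat_lit 1580) (nat_lit 590) (nat_lit 1581))))) (.f (nat_lit 527) (nat_lit 526) (nat_lit 525) (.f (nat_lit 559) (nat_lit 432) (nat_lit 5551) (.f (nat_lit 558) (nat_lit 524) (nat_lit 3596) (.d (nat_lit 589) (nat_lit 588) (nat_lit 1580) (nat_lit 590) (nat_lit 1581)))))))))))) (.a (.f (nat_lit 463) (nat_lit 431) (nat_lit 7599) (.p (nat_lit 462) (.a (.f (nat_lit 461) (nat_lit 497) (nat_lit 461) (.f (nat_lit 493) (nat_lit 492) (nat_lit 1484) (.f (nat_lit 429) (nat_lit 428) (nat_lit 3500) (.d (nat_lit 430) (nat_lit 398) (nat_lit 6541) (nat_lit 557) (nat_lit 6573))))) (.a (.p (nat_lit 494) (.a (.f (nat_lit 493) (nat_lit 465) (nat_lit 1485) (.d (nat_lit 492) (nat_lit 461) (nat_lit 1484) (nat_lit 491) (nat_lit 2507))) (.a (.f (nat_lit 526) (nat_lit 527) (nat_lit 525) (.f (nat_lit 557) (nat_lit 430)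 (nat_lit 5549) (.d (nat_lit 589) (nat_lit 493) (nat_lit 6605) (nat_lit 558) (nat_lit 5581)))) (.f (nat_lit 526) (nat_lit 527) (nat_lit 525) (.f (nat_lit 430) (nat_lit 557) (nat_lit 5549) (.d (nat_lit 429) (nat_lit 397) (nat_lit 7565) (nat_lit 465) (nat_lit 3501))))))) (.a (.f (nat_lit 497) (nat_lit 461) (nat_lit 461) (.d (nat_lit 498) (nat_lit 465) (nat_lit 462) (nat_lit 499) (nat_lit 3535))) (.p (nat_lit 494) (.a (.f (nat_lit 465) (nat_lit 493) (nat_lit 1485) (.d (nat_lit 497) (nat_lit 498) (nat_lit 462) (nat_lit 592) (nat_lit 6608))) (.a (.f (nat_lit 526) (nat_lit 527) (nat_lit 525) (.f (nat_lit 493) (nat_lit 465) (nat_lit 1485) (.d (nat_lit 430) (nat_lit 398) (nat_lit 5517) (nat_lit 557) (nat_lit 5549)))) (.a (.f (nat_lit 526) (nat_lit 527) (nat_lit 525) (.f (nat_lit 557) (nat_lit 430) (nat_lit 5549) (.d (nat_lit 589) (nat_lit 493) (nat_lit 6605) (nat_lit 558) (nat_lit 5581)))) (.f (nat_lit 526) (nat_lit 527)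 (nat_lit 525) (.f (nat_lit 430) (nat_lit 557) (nat_lit 5549) (.d (nat_lit 429) (nat_lit 397) (nat_lit 7565) (nat_lit 465) (nat_lit 3501))))))))))))) (.a (.p (nat_lit 557) (.a s30738 (.a s31196 (.a s30883 (.a s30893 (.a (.f (nat_lit 431) (nat_lit 463) (nat_lit 7599) (.f (nat_lit 432) (nat_lit 399) (nat_lit 7567) (.f (nat_lit 559) (nat_lit 527) (nat_lit 5551) (.f (nat_lit 558) (nat_lit 524) (nat_lit 3596) (.d (nat_lit 589) (nat_lit 588) (nat_lit 1580) (nat_lit 590) (nat_lit 1581)))))) (.a (.p (nat_lit 562) (.a (.f (nat_lit 563) (nat_lit 527) (nat_lit 3599) (.f (nat_lit 532) (nat_lit 531) (nat_lit 2576) (.f (nat_lit 564) (nat_lit 533) (nat_lit 2577) (.d (nat_lit 596) (nat_lit 595) (nat_lit 560) (nat_lit 597) (nat_lit 561))))) (.a (.p (nat_lit 559) (.a (.f (nat_lit 595) (nat_lit 594) (nat_lit 559) (.f (nat_lit 563) (nat_lit 596) (nat_lit 560) (.d (nat_lit 531) (nat_lit 530) (nat_lit 2575) (nat_lit 532) (nat_lit 2576))))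 (.a (.f (nat_lit 558) (nat_lit 524) (nat_lit 3596) (.f (nat_lit 588) (nat_lit 589) (nat_lit 1580) (.f (nat_lit 556) (nat_lit 587) (nat_lit 1579) (.f (nat_lit 531) (nat_lit 530) (nat_lit 2575) (.f (nat_lit 563) (nat_lit 532) (nat_lit 2576) (.f (nat_lit 596) (nat_lit 595) (nat_lit 560) (.f (nat_lit 564) (nat_lit 597) (nat_lit 561) (.f (nat_lit 463) (nat_lit 431) (nat_lit 7599) (.f (nat_lit 461) (nat_lit 493) (nat_lit 5580) (.f (nat_lit 497) (nat_lit 462) (nat_lit 461) (.d (nat_lit 499) (nat_lit 467) (nat_lit 4563) (nat_lit 498) (nat_lit 3535)))))))))))) (.a (.f (nat_lit 558) (nat_lit 524) (nat_lit 3596) (.f (nat_lit 588) (nat_lit 589) (nat_lit 1580) (.f (nat_lit 556) (nat_lit 587) (nat_lit 1579) (.f (nat_lit 463) (nat_lit 431) (nat_lit 7599) (.f (nat_lit 461) (nat_lit 493) (nat_lit 5580) (.f (nat_lit 497) (nat_lit 462) (nat_lit 461) (.f (nat_lit 465) (nat_lit 592) (nat_lit 6608) (.f (nat_lit 498) (nat_lit 499) (nat_lit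 3535) (.d (nat_lit 594) (nat_lit 530) (nat_lit 7633) (nat_lit 595) (nat_lit 559)))))))))) (.a (.f (nat_lit 558) (nat_lit 524) (nat_lit 3596) (.f (nat_lit 588) (nat_lit 589) (nat_lit 1580) (.f (nat_lit 556) (nat_lit 587) (nat_lit 1579) (.f (nat_lit 531) (nat_lit 530) (nat_lit 2575) (.f (nat_lit 563) (nat_lit 532) (nat_lit 2576) (.f (nat_lit 461) (nat_lit 493) (nat_lit 5580) (.f (nat_lit 463) (nat_lit 431) (nat_lit 7599) (.f (nat_lit 497) (nat_lit 462) (nat_lit 461) (.f (nat_lit 499) (nat_lit 498) (nat_lit 3535) (.f (nat_lit 467) (nat_lit 594) (nat_lit 5586) (.f (nat_lit 466) (nat_lit 434) (nat_lit 7602) (.d (nat_lit 468) (nat_lit 436) (nat_lit 6579) (nat_lit 465) (nat_lit 1488))))))))))))) (.f (nat_lit 558) (nat_lit 524) (nat_lit 3596) (.f (nat_lit 588) (nat_lit 589) (nat_lit 1580) (.f (nat_lit 556) (nat_lit 587) (nat_lit 1579) (.f (nat_lit 595) (nat_lit 594) (nat_lit 559) (.f (nat_lit 563) (nat_lit 596) (nat_lit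 560) (.f (nat_lit 531) (nat_lit 532) (nat_lit 2576) (.f (nat_lit 463) (nat_lit 431) (nat_lit 7599) (.f (nat_lit 461) (nat_lit 493) (nat_lit 5580) (.f (nat_lit 497) (nat_lit 462) (nat_lit 461) (.f (nat_lit 499) (nat_lit 498) (nat_lit 3535) (.f (nat_lit 468) (nat_lit 500) (nat_lit 6611) (.f (nat_lit 467) (nat_lit 436) (nat_lit 6579) (.d (nat_lit 465) (nat_lit 466) (nat_lit 1488) (nat_lit 592) (nat_lit 6608))))))))))))))))))) (.a (.p (nat_lit 559) (.a (.f (nat_lit 558) (nat_lit 524) (nat_lit 3596) (.f (nat_lit 588) (nat_lit 589) (nat_lit 1580) (.f (nat_lit 556) (nat_lit 587) (nat_lit 1579) (.f (nat_lit 463) (nat_lit 431) (nat_lit 7599) (.f (nat_lit 461) (nat_lit 493) (nat_lit 5580) (.f (nat_lit 497) (nat_lit 462) (nat_lit 461) (.f (nat_lit 465) (nat_lit 592) (nat_lit 6608) (.f (nat_lit 498) (nat_lit 499) (nat_lit 3535) (.d (nat_lit 594) (nat_lit 530) (nat_lit 7633) (nat_lit 595) (nat_lit 559)))))))))) (.a (.f (nat_lit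 558) (nat_lit 524) (nat_lit 3596) (.d (nat_lit 527) (nat_lit 432) (nat_lit 5551) (nat_lit 556) (nat_lit 2572))) (.f (nat_lit 432) (nat_lit 527) (nat_lit 5551) (.d (nat_lit 431) (nat_lit 399) (nat_lit 7567) (nat_lit 463) (nat_lit 7599)))))) (.f (nat_lit 563) (nat_lit 527) (nat_lit 3599) (.f (nat_lit 531) (nat_lit 532) (nat_lit 2576) (.f (nat_lit 559) (nat_lit 530) (nat_lit 2575) (.f (nat_lit 558) (nat_lit 524) (nat_lit 3596) (.f (nat_lit 588) (nat_lit 589) (nat_lit 1580) (.f (nat_lit 556) (nat_lit 587) (nat_lit 1579) (.f (nat_lit 463) (nat_lit 431) (nat_lit 7599) (.f (nat_lit 461) (nat_lit 493) (nat_lit 5580) (.f (nat_lit 497) (nat_lit 462) (nat_lit 461) (.f (nat_lit 499) (nat_lit 498) (nat_lit 3535) (.f (nat_lit 467) (nat_lit 594) (nat_lit 5586) (.f (nat_lit 466) (nat_lit 434) (nat_lit 7602) (.d (nat_lit 468) (nat_lit 436) (nat_lit 6579) (nat_lit 465) (nat_lit 1488)))))))))))))))))) (.a (.p (nat_lit 559) (.a (.f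 (nat_lit 558) (nat_lit 524) (nat_lit 3596) (.d (nat_lit 527) (nat_lit 432) (nat_lit 5551) (nat_lit 556) (nat_lit 2572))) (.a (.p (nat_lit 461) (.a (.f (nat_lit 463) (nat_lit 431) (nat_lit 7599) (.f (nat_lit 462) (nat_lit 497) (nat_lit 461) (.d (nat_lit 493) (nat_lit 430) (nat_lit 6573) (nat_lit 492) (nat_lit 1484)))) (.a (.f (nat_lit 558) (nat_lit 524) (nat_lit 3596) (.f (nat_lit 493) (nat_lit 590) (nat_lit 4557) (.f (nat_lit 428) (nat_lit 460) (nat_lit 7596) (.f (nat_lit 429) (nat_lit 396) (nat_lit 7564) (.d (nat_lit 430) (nat_lit 398) (nat_lit 6541) (nat_lit 462) (nat_lit 6573)))))) (.a (.f (nat_lit 558) (nat_lit 524) (nat_lit 3596) (.f (nat_lit 493) (nat_lit 590) (nat_lit 4557) (.f (nat_lit 428) (nat_lit 460) (nat_lit 7596) (.f (nat_lit 429) (nat_lit 396) (nat_lit 7564) (.f (nat_lit 431) (nat_lit 463) (nat_lit 7599) (.f (nat_lit 430) (nat_lit 398) (nat_lit 6541) (.d (nat_lit 399) (nat_lit 400) (nat_lit 2444) (nat_lit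 432) (nat_lit 7567)))))))) (.f (nat_lit 463) (nat_lit 431) (nat_lit 7599) (.f (nat_lit 462) (nat_lit 497) (nat_lit 461) (.f (nat_lit 428) (nat_lit 429) (nat_lit 3500) (.f (nat_lit 460) (nat_lit 427) (nat_lit 3499) (.d (nat_lit 492) (nat_lit 491) (nat_lit 1483) (nat_lit 524) (nat_lit 4524)))))))))) (.a (.f (nat_lit 432) (nat_lit 527) (nat_lit 5551) (.d (nat_lit 431) (nat_lit 399) (nat_lit 7567) (nat_lit 463) (nat_lit 7599))) (.p (nat_lit 562) (.a (.f (nat_lit 595) (nat_lit 594) (nat_lit 559) (.f (nat_lit 563) (nat_lit 596) (nat_lit 560) (.d (nat_lit 531) (nat_lit 530) (nat_lit 2575) (nat_lit 532) (nat_lit 2576)))) (.a (.f (nat_lit 558) (nat_lit 524) (nat_lit 3596) (.d (nat_lit 527) (nat_lit 556) (nat_lit 2572) (nat_lit 563) (nat_lit 3599))) (.f (nat_lit 558) (nat_lit 524) (nat_lit 3596) (.f (nat_lit 556) (nat_lit 527) (nat_lit 2572) (.f (nat_lit 588) (nat_lit 587) (nat_lit 1579) (.f (nat_lit 461) (nat_lit 493) (nat_lit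 5580) (.f (nat_lit 463) (nat_lit 431) (nat_lit 7599) (.f (nat_lit 497) (nat_lit 462) (nat_lit 461) (.f (nat_lit 498) (nat_lit 499) (nat_lit 3535) (.f (nat_lit 530) (nat_lit 531) (nat_lit 2575) (.d (nat_lit 594) (nat_lit 465) (nat_lit 7633) (nat_lit 595) (nat_lit 559))))))))))))))))) (.a (.p (nat_lit 493) (.a (.p (nat_lit 462) (.a (.f (nat_lit 461) (nat_lit 430) (nat_lit 6573) (.f (nat_lit 589) (nat_lit 494) (nat_lit 6605) (.d (nat_lit 588) (nat_lit 556) (nat_lit 5580) (nat_lit 620) (nat_lit 5612)))) (.a (.f (nat_lit 461) (nat_lit 430) (nat_lit 6573) (.d (nat_lit 463) (nat_lit 492) (nat_lit 1484) (nat_lit 497) (nat_lit 461))) (.f (nat_lit 589) (nat_lit 494) (nat_lit 6605) (.f (nat_lit 620) (nat_lit 588) (nat_lit 5612) (.f (nat_lit 621) (nat_lit 652) (nat_lit 5644) (.d (nat_lit 622) (nat_lit 590) (nat_lit 4589) (nat_lit 654) (nat_lit 4621)))))))) (.a (.p (nat_lit 461) (.a (.f (nat_lit 428) (nat_lit 460) (nat_lit 7596)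 (.f (nat_lit 429) (nat_lit 396) (nat_lit 7564) (.d (nat_lit 430) (nat_lit 398) (nat_lit 6541) (nat_lit 462) (nat_lit 6573)))) (.a (.f (nat_lit 460) (nat_lit 428) (nat_lit 7596) (.f (nat_lit 589) (nat_lit 492) (nat_lit 7628) (.d (nat_lit 588) (nat_lit 556) (nat_lit 5580) (nat_lit 620) (nat_lit 5612)))) (.f (nat_lit 462) (nat_lit 430) (nat_lit 6573) (.f (nat_lit 589) (nat_lit 494) (nat_lit 6605) (.d (nat_lit 588) (nat_lit 556) (nat_lit 5580) (nat_lit 620) (nat_lit 5612))))))) (.a s30957 (.a s30966 (.p (nat_lit 461) (.a (.f (nat_lit 428) (nat_lit 460) (nat_lit 7596) (.f (nat_lit 429) (nat_lit 396) (nat_lit 7564) (.d (nat_lit 430) (nat_lit 398) (nat_lit 6541) (nat_lit 462) (nat_lit 6573)))) (.a (.f (nat_lit 428) (nat_lit 460) (nat_lit 7596) (.f (nat_lit 429) (nat_lit 396) (nat_lit 7564) (.f (nat_lit 431) (nat_lit 463) (nat_lit 7599) (.f (nat_lit 432) (nat_lit 399) (nat_lit 7567) (.d (nat_lit 430) (nat_lit 398) (nat_lit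 6541) (nat_lit 465) (nat_lit 429)))))) (.f (nat_lit 463) (nat_lit 431) (nat_lit 7599) (.d (nat_lit 462) (nat_lit 492) (nat_lit 1484) (nat_lit 497) (nat_lit 461))))))))))) (.p (nat_lit 562) (.a (.f (nat_lit 563) (nat_lit 527) (nat_lit 3599) (.f (nat_lit 532) (nat_lit 531) (nat_lit 2576) (.f (nat_lit 564) (nat_lit 533) (nat_lit 2577) (.d (nat_lit 596) (nat_lit 595) (nat_lit 560) (nat_lit 597) (nat_lit 561))))) (.a (.p (nat_lit 559) (.a (.f (nat_lit 595) (nat_lit 594) (nat_lit 559) (.f (nat_lit 563) (nat_lit 596) (nat_lit 560) (.d (nat_lit 531) (nat_lit 530) (nat_lit 2575) (nat_lit 532) (nat_lit 2576)))) (.a (.f (nat_lit 558) (nat_lit 524) (nat_lit 3596) (.f (nat_lit 590) (nat_lit 589) (nat_lit 1581) (.f (nat_lit 531) (nat_lit 530) (nat_lit 2575) (.f (nat_lit 563) (nat_lit 532) (nat_lit 2576) (.f (nat_lit 596) (nat_lit 595) (nat_lit 560) (.f (nat_lit 564) (nat_lit 597) (nat_lit 561) (.f (nat_lit 463) (nat_lit 431) (nat_lit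 7599) (.f (nat_lit 461) (nat_lit 493) (nat_lit 4557) (.f (nat_lit 497) (nat_lit 462) (nat_lit 461) (.d (nat_lit 499) (nat_lit 467) (nat_lit 4563) (nat_lit 498) (nat_lit 3535))))))))))) (.a (.f (nat_lit 558) (nat_lit 524) (nat_lit 3596) (.f (nat_lit 590) (nat_lit 589) (nat_lit 1581) (.f (nat_lit 463) (nat_lit 431) (nat_lit 7599) (.f (nat_lit 461) (nat_lit 493) (nat_lit 4557) (.f (nat_lit 497) (nat_lit 462) (nat_lit 461) (.f (nat_lit 465) (nat_lit 592) (nat_lit 6608) (.f (nat_lit 498) (nat_lit 499) (nat_lit 3535) (.d (nat_lit 594) (nat_lit 530) (nat_lit 7633) (nat_lit 595) (nat_lit 559))))))))) (.a (.f (nat_lit 558) (nat_lit 524) (nat_lit 3596) (.f (nat_lit 590) (nat_lit 589) (nat_lit 1581) (.f (nat_lit 531) (nat_lit 530) (nat_lit 2575) (.f (nat_lit 563) (nat_lit 532) (nat_lit 2576) (.f (nat_lit 461) (nat_lit 493) (nat_lit 4557) (.f (nat_lit 463) (nat_lit 431) (nat_lit 7599) (.f (nat_lit 497) (nat_lit 462) (nat_lit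 461) (.f (nat_lit 499) (nat_lit 498) (nat_lit 3535) (.f (nat_lit 467) (nat_lit 594) (nat_lit 5586) (.f (nat_lit 466) (nat_lit 434) (nat_lit 7602) (.d (nat_lit 468) (nat_lit 436) (nat_lit 6579) (nat_lit 465) (nat_lit 1488)))))))))))) (.f (nat_lit 558) (nat_lit 524) (nat_lit 3596) (.f (nat_lit 590) (nat_lit 589) (nat_lit 1581) (.f (nat_lit 595) (nat_lit 594) (nat_lit 559) (.f (nat_lit 563) (nat_lit 596) (nat_lit 560) (.f (nat_lit 531) (nat_lit 532) (nat_lit 2576) (.f (nat_lit 463) (nat_lit 431) (nat_lit 7599) (.f (nat_lit 461) (nat_lit 493) (nat_lit 4557) (.f (nat_lit 497) (nat_lit 462) (nat_lit 461) (.f (nat_lit 499) (nat_lit 498) (nat_lit 3535) (.f (nat_lit 468) (nat_lit 500) (nat_lit 6611) (.f (nat_lit 467) (nat_lit 436) (nat_lit 6579) (.d (nat_lit 465) (nat_lit 466) (nat_lit 1488) (nat_lit 592) (nat_lit 6608)))))))))))))))))) (.a (.p (nat_lit 559) (.a (.f (nat_lit 558) (nat_lit 524) (nat_lit 3596) (.d (nat_lit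 527) (nat_lit 432) (nat_lit 5551) (nat_lit 556) (nat_lit 2572))) (.a (.f (nat_lit 558) (nat_lit 524) (nat_lit 3596) (.f (nat_lit 590) (nat_lit 589) (nat_lit 1581) (.f (nat_lit 463) (nat_lit 431) (nat_lit 7599) (.f (nat_lit 461) (nat_lit 493) (nat_lit 4557) (.f (nat_lit 497) (nat_lit 462) (nat_lit 461) (.f (nat_lit 465) (nat_lit 592) (nat_lit 6608) (.f (nat_lit 498) (nat_lit 499) (nat_lit 3535) (.d (nat_lit 594) (nat_lit 530) (nat_lit 7633) (nat_lit 595) (nat_lit 559))))))))) (.f (nat_lit 432) (nat_lit 527) (nat_lit 5551) (.d (nat_lit 431) (nat_lit 399) (nat_lit 7567) (nat_lit 463) (nat_lit 7599)))))) (.f (nat_lit 563) (nat_lit 527) (nat_lit 3599) (.f (nat_lit 531) (nat_lit 532) (nat_lit 2576) (.f (nat_lit 559) (nat_lit 530) (nat_lit 2575) (.f (nat_lit 558) (nat_lit 524) (nat_lit 3596) (.f (nat_lit 590) (nat_lit 589) (nat_lit 1581) (.f (nat_lit 463) (nat_lit 431) (nat_lit 7599) (.f (nat_lit 461) (nat_lit 493) (nat_lit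 4557) (.f (nat_lit 497) (nat_lit 462) (nat_lit 461) (.f (nat_lit 499) (nat_lit 498) (nat_lit 3535) (.f (nat_lit 467) (nat_lit 594) (nat_lit 5586) (.f (nat_lit 466) (nat_lit 434) (nat_lit 7602) (.d (nat_lit 468) (nat_lit 436) (nat_lit 6579) (nat_lit 465) (nat_lit 1488)))))))))))))))))))))))))) (.p (nat_lit 557) (.a (.f (nat_lit 527) (nat_lit 526) (nat_lit 525) (.f (nat_lit 559) (nat_lit 432) (nat_lit 5551) (.d (nat_lit 558) (nat_lit 524) (nat_lit 3596) (nat_lit 556) (nat_lit 2572)))) (.a s30997 (.a s31038 (.a s30865 (.a (.p (nat_lit 493) (.a s31000 (.a s30774 (.a (.p (nat_lit 461) (.a (.f (nat_lit 428) (nat_lit 460) (nat_lit 7596) (.f (nat_lit 429) (nat_lit 396) (nat_lit 7564) (.d (nat_lit 430) (nat_lit 398) (nat_lit 6541) (nat_lit 462) (nat_lit 6573)))) (.a (.f (nat_lit 460) (nat_lit 428) (nat_lit 7596) (.f (nat_lit 589) (nat_lit 492) (nat_lit 7628) (.d (nat_lit 588) (nat_lit 556) (nat_lit 5580) (nat_lit 620) (nat_lit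 5612)))) (.f (nat_lit 556) (nat_lit 588) (nat_lit 5580) (.f (nat_lit 429) (nat_lit 524) (nat_lit 5548) (.d (nat_lit 430) (nat_lit 398) (nat_lit 6541) (nat_lit 462) (nat_lit 6573))))))) (.a (.p (nat_lit 461) (.a (.f (nat_lit 460) (nat_lit 428) (nat_lit 7596) (.f (nat_lit 589) (nat_lit 492) (nat_lit 7628) (.d (nat_lit 588) (nat_lit 556) (nat_lit 5580) (nat_lit 620) (nat_lit 5612)))) (.a (.f (nat_lit 556) (nat_lit 588) (nat_lit 5580) (.f (nat_lit 429) (nat_lit 524) (nat_lit 5548) (.d (nat_lit 428) (nat_lit 396) (nat_lit 7564) (nat_lit 460) (nat_lit 7596)))) (.a (.f (nat_lit 460) (nat_lit 428) (nat_lit 7596) (.f (nat_lit 589) (nat_lit 492) (nat_lit 7628) (.f (nat_lit 620) (nat_lit 588) (nat_lit 5612) (.f (nat_lit 621) (nat_lit 652) (nat_lit 5644) (.d (nat_lit 622) (nat_lit 590) (nat_lit 4589) (nat_lit 654) (nat_lit 4621)))))) (.a (.f (nat_lit 556) (nat_lit 588) (nat_lit 5580) (.f (nat_lit 429) (nat_lit 524) (nat_lit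 5548) (.f (nat_lit 396) (nat_lit 428) (nat_lit 7564) (.f (nat_lit 397) (nat_lit 364) (nat_lit 7532) (.d (nat_lit 398) (nat_lit 366) (nat_lit 6509) (nat_lit 430) (nat_lit 6541)))))) (.a (.f (nat_lit 428) (nat_lit 460) (nat_lit 7596) (.f (nat_lit 429) (nat_lit 396) (nat_lit 7564) (.f (nat_lit 398) (nat_lit 430) (nat_lit 6541) (.f (nat_lit 397) (nat_lit 366) (nat_lit 6509) (.d (nat_lit 524) (nat_lit 492) (nat_lit 5516) (nat_lit 556) (nat_lit 5548)))))) (.f (nat_lit 588) (nat_lit 556) (nat_lit 5580) (.f (nat_lit 589) (nat_lit 620) (nat_lit 5612) (.f (nat_lit 622) (nat_lit 590) (nat_lit 4589) (.f (nat_lit 621) (nat_lit 654) (nat_lit 4621) (.d (nat_lit 492) (nat_lit 460) (nat_lit 7628) (nat_lit 524) (nat_lit 7660)))))))))))) (.a s31024 (.a s31062 (.a (.p (nat_lit 462) (.a (.f (nat_lit 461) (nat_lit 430) (nat_lit 6573) (.f (nat_lit 589) (nat_lit 494) (nat_lit 6605) (.d (nat_lit 588) (nat_lit 556) (nat_lit 5580) (nat_lit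 620) (nat_lit 5612)))) (.a (.f (nat_lit 461) (nat_lit 430) (nat_lit 6573) (.d (nat_lit 463) (nat_lit 492) (nat_lit 1484) (nat_lit 497) (nat_lit 461))) (.f (nat_lit 589) (nat_lit 494) (nat_lit 6605) (.f (nat_lit 620) (nat_lit 588) (nat_lit 5612) (.f (nat_lit 621) (nat_lit 652) (nat_lit 5644) (.d (nat_lit 622) (nat_lit 590) (nat_lit 4589) (nat_lit 654) (nat_lit 4621)))))))) (.a (.p (nat_lit 462) (.a (.f (nat_lit 589) (nat_lit 494) (nat_lit 6605) (.f (nat_lit 620) (nat_lit 588) (nat_lit 5612) (.f (nat_lit 621) (nat_lit 652) (nat_lit 5644) (.d (nat_lit 622) (nat_lit 590) (nat_lit 4589) (nat_lit 654) (nat_lit 4621))))) (.f (nat_lit 461) (nat_lit 430) (nat_lit 6573) (.d (nat_lit 463) (nat_lit 492) (nat_lit 1484) (nat_lit 497) (nat_lit 461))))) (.a s31064 (.p (nat_lit 462) (.a (.f (nat_lit 526) (nat_lit 527) (nat_lit 525) (.d (nat_lit 430) (nat_lit 461) (nat_lit 6573) (nat_lit 494) (nat_lit 5549))) (.a (.f (nat_lit 589)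 (nat_lit 494) (nat_lit 6605) (.f (nat_lit 492) (nat_lit 460) (nat_lit 7628) (.f (nat_lit 621) (nat_lit 524) (nat_lit 7660) (.d (nat_lit 622) (nat_lit 590) (nat_lit 4589) (nat_lit 654) (nat_lit 4621))))) (.f (nat_lit 461) (nat_lit 430) (nat_lit 6573) (.d (nat_lit 463) (nat_lit 492) (nat_lit 1484) (nat_lit 497) (nat_lit 461)))))))))))))))) (.a (.f (nat_lit 527) (nat_lit 526) (nat_lit 525) (.f (nat_lit 559) (nat_lit 432) (nat_lit 5551) (.f (nat_lit 558) (nat_lit 556) (nat_lit 2572) (.d (nat_lit 589) (nat_lit 588) (nat_lit 1580) (nat_lit 590) (nat_lit 1581))))) (.f (nat_lit 527) (nat_lit 526) (nat_lit 525) (.f (nat_lit 559) (nat_lit 432) (nat_lit 5551) (.f (nat_lit 558) (nat_lit 524) (nat_lit 3596) (.d (nat_lit 589) (nat_lit 588) (nat_lit 1580) (nat_lit 590) (nat_lit 1581)))))))))))))))))))))))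
noncomputable def s31452 : Cert := .r (nat_lit 3773962425700235452942859537499461060075163908278653093808089520525807034510604090067035062124638561226338938838226782579810552216648911534601243193560008730745155616768) (.p (nat_lit 561) (.a (.f (nat_lit 593) (nat_lit 464) (nat_lit 4560) (.d (nat_lit 625) (nat_lit 592) (nat_lit 4592) (nat_lit 657) (nat_lit 7696))) (.a (.p (nat_lit 562) (.a (.f (nat_lit 527) (nat_lit 563) (nat_lit 3599) (.d (nat_lit 526) (nat_lit 525) (nat_lit 525) (nat_lit 559) (nat_lit 3598))) (.a (.p (nat_lit 563) (.a (.f (nat_lit 595) (nat_lit 596) (nat_lit 560) (.f (nat_lit 531) (nat_lit 532) (nat_lit 2576) (.d (nat_lit 559) (nat_lit 530) (nat_lit 2575) (nat_lit 594) (nat_lit 559)))) (.a (.f (nat_lit 596) (nat_lit 595) (nat_lit 560) (.f (nat_lit 564) (nat_lit 597) (nat_lit 561) (.d (nat_lit 532) (nat_lit 531) (nat_lit 2576) (nat_lit 533) (nat_lit 2577)))) (.a (.f (nat_lit 532) (nat_lit 531) (nat_lit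 2576) (.f (nat_lit 564) (nat_lit 533) (nat_lit 2577) (.f (nat_lit 593) (nat_lit 592) (nat_lit 1584) (.f (nat_lit 597) (nat_lit 596) (nat_lit 561) (.d (nat_lit 565) (nat_lit 594) (nat_lit 1585) (nat_lit 598) (nat_lit 562)))))) (.a (.f (nat_lit 596) (nat_lit 595) (nat_lit 560) (.f (nat_lit 564) (nat_lit 597) (nat_lit 561) (.f (nat_lit 593) (nat_lit 592) (nat_lit 1584) (.f (nat_lit 533) (nat_lit 532) (nat_lit 2577) (.d (nat_lit 565) (nat_lit 534) (nat_lit 2578) (nat_lit 594) (nat_lit 1585)))))) (.a (.f (nat_lit 531) (nat_lit 532) (nat_lit 2576) (.f (nat_lit 559) (nat_lit 530) (nat_lit 2575) (.f (nat_lit 594) (nat_lit 595) (nat_lit 559) (.f (nat_lit 593) (nat_lit 558) (nat_lit 558) (.d (nat_lit 564) (nat_lit 565) (nat_lit 1585) (nat_lit 592) (nat_lit 1584)))))) (.f (nat_lit 596) (nat_lit 595) (nat_lit 560) (.f (nat_lit 564) (nat_lit 597) (nat_lit 561) (.f (nat_lit 593) (nat_lit 592) (nat_lit 1584) (.f (nat_lit 594) (nat_lit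 565) (nat_lit 1585) (.f (nat_lit 625) (nat_lit 657) (nat_lit 7696) (.f (nat_lit 530) (nat_lit 498) (nat_lit 5617) (.d (nat_lit 559) (nat_lit 531) (nat_lit 2575) (nat_lit 558) (nat_lit 558)))))))))))))) (.a (.f (nat_lit 563) (nat_lit 527) (nat_lit 3599) (.f (nat_lit 596) (nat_lit 595) (nat_lit 560) (.f (nat_lit 564) (nat_lit 597) (nat_lit 561) (.d (nat_lit 532) (nat_lit 531) (nat_lit 2576) (nat_lit 533) (nat_lit 2577))))) (.p (nat_lit 559) (.a (.f (nat_lit 527) (nat_lit 526) (nat_lit 3598) (.f (nat_lit 594) (nat_lit 595) (nat_lit 559) (.f (nat_lit 558) (nat_lit 593) (nat_lit 558) (.f (nat_lit 557) (nat_lit 556) (nat_lit 2572) (.d (nat_lit 589) (nat_lit 588) (nat_lit 1580) (nat_lit 590) (nat_lit 1581)))))) (.a (.f (nat_lit 594) (nat_lit 595) (nat_lit 559) (.f (nat_lit 593) (nat_lit 558) (nat_lit 558) (.d (nat_lit 625) (nat_lit 592) (nat_lit 4592) (nat_lit 657) (nat_lit 7696)))) (.a (.p (nat_lit 558) (.a (.d (nat_lit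 526) (nat_lit 525) (nat_lit 3597) (nat_lit 527) (nat_lit 3598)) (.a (.f (nat_lit 589) (nat_lit 590) (nat_lit 1581) (.f (nat_lit 557) (nat_lit 588) (nat_lit 1580) (.d (nat_lit 525) (nat_lit 524) (nat_lit 3596) (nat_lit 526) (nat_lit 3597)))) (.a (.f (nat_lit 589) (nat_lit 590) (nat_lit 1581) (.f (nat_lit 557) (nat_lit 588) (nat_lit 1580) (.f (nat_lit 556) (nat_lit 527) (nat_lit 2572) (.d (nat_lit 524) (nat_lit 523) (nat_lit 3595) (nat_lit 525) (nat_lit 3596))))) (.f (nat_lit 527) (nat_lit 526) (nat_lit 3598) (.f (nat_lit 557) (nat_lit 556) (nat_lit 2572) (.d (nat_lit 589) (nat_lit 588) (nat_lit 1580) (nat_lit 590) (nat_lit 1581)))))))) (.p (nat_lit 498) (.a (.f (nat_lit 527) (nat_lit 526) (nat_lit 3598) (.f (nat_lit 497) (nat_lit 499) (nat_lit 1519) (.f (nat_lit 530) (nat_lit 531) (nat_lit 2575) (.d (nat_lit 594) (nat_lit 465) (nat_lit 7633) (nat_lit 595) (nat_lit 559))))) (.a (.f (nat_lit 530) (nat_lit 531) (nat_lit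 2575) (.f (nat_lit 594) (nat_lit 595) (nat_lit 559) (.f (nat_lit 465) (nat_lit 497) (nat_lit 7633) (.f (nat_lit 466) (nat_lit 433) (nat_lit 7601) (.d (nat_lit 467) (nat_lit 435) (nat_lit 6578) (nat_lit 499) (nat_lit 6610)))))) (.a (.f (nat_lit 527) (nat_lit 526) (nat_lit 3598) (.f (nat_lit 530) (nat_lit 531) (nat_lit 2575) (.f (nat_lit 594) (nat_lit 595) (nat_lit 559) (.d (nat_lit 499) (nat_lit 467) (nat_lit 6610) (nat_lit 497) (nat_lit 1519))))) (.a (.f (nat_lit 530) (nat_lit 531) (nat_lit 2575) (.f (nat_lit 594) (nat_lit 595) (nat_lit 559) (.d (nat_lit 593) (nat_lit 466) (nat_lit 5585) (nat_lit 625) (nat_lit 5617)))) (.a (.f (nat_lit 530) (nat_lit 531) (nat_lit 2575) (.f (nat_lit 593) (nat_lit 466) (nat_lit 5585) (.d (nat_lit 625) (nat_lit 592) (nat_lit 4592) (nat_lit 657) (nat_lit 6673)))) (.f (nat_lit 527) (nat_lit 526) (nat_lit 3598) (.f (nat_lit 497) (nat_lit 499) (nat_lit 1519) (.f (nat_lit 592) (nat_lit 465)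 (nat_lit 6608) (.f (nat_lit 624) (nat_lit 656) (nat_lit 7695) (.d (nat_lit 625) (nat_lit 593) (nat_lit 4592) (nat_lit 657) (nat_lit 4624)))))))))))))))))))) (.a (.f (nat_lit 464) (nat_lit 593) (nat_lit 4560) (.f (nat_lit 433) (nat_lit 465) (nat_lit 6576) (.f (nat_lit 432) (nat_lit 401) (nat_lit 6544) (.d (nat_lit 431) (nat_lit 399) (nat_lit 7567) (nat_lit 463) (nat_lit 7599))))) s31451))))
noncomputable def s31555 : Cert := .r (nat_lit 3773962425700235452738272624505952193199339552226928146794549392648115485167898379561026699849346401546134558067857772757880134458676407096525164659442171664912122642432) (.p (nat_lit 496) (.a s29735 (.a (.p (nat_lit 592) (.a (.f (nat_lit 593) (nat_lit 625) (nat_lit 4592) (.f (nat_lit 464) (nat_lit 561) (nat_lit 4560) (.d (nat_lit 465) (nat_lit 433) (nat_lit 6576) (nat_lit 497) (nat_lit 6608)))) (.a (.f (nat_lit 495) (nat_lit 463) (nat_lit 7631) (.f (nat_lit 497) (nat_lit 465) (nat_lit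 6608) (.f (nat_lit 527) (nat_lit 624) (nat_lit 7663) (.d (nat_lit 526) (nat_lit 498) (nat_lit 1518) (nat_lit 525) (nat_lit 2541))))) (.f (nat_lit 593) (nat_lit 625) (nat_lit 4592) (.f (nat_lit 561) (nat_lit 464) (nat_lit 4560) (.f (nat_lit 495) (nat_lit 463) (nat_lit 7631) (.f (nat_lit 527) (nat_lit 624) (nat_lit 7663) (.f (nat_lit 526) (nat_lit 525) (nat_lit 525) (.d (nat_lit 562) (nat_lit 559) (nat_lit 3598) (nat_lit 563) (nat_lit 3599)))))))))) (.a (.p (nat_lit 561) (.a (.f (nat_lit 593) (nat_lit 464) (nat_lit 4560) (.d (nat_lit 625) (nat_lit 592) (nat_lit 4592) (nat_lit 657) (nat_lit 7696))) (.a (.p (nat_lit 559) (.a (.f (nat_lit 464) (nat_lit 593) (nat_lit 4560) (.f (nat_lit 527) (nat_lit 432) (nat_lit 5551) (.d (nat_lit 562) (nat_lit 526) (nat_lit 3598) (nat_lit 563) (nat_lit 3599)))) (.a (.f (nat_lit 593) (nat_lit 464) (nat_lit 4560) (.f (nat_lit 558) (nat_lit 594) (nat_lit 558) (.f (nat_lit 589) (nat_lit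 590) (nat_lit 1581) (.f (nat_lit 557) (nat_lit 588) (nat_lit 1580) (.d (nat_lit 525) (nat_lit 524) (nat_lit 3596) (nat_lit 526) (nat_lit 3597)))))) (.a (.p (nat_lit 562) (.a (.f (nat_lit 527) (nat_lit 526) (nat_lit 3598) (.f (nat_lit 594) (nat_lit 595) (nat_lit 559) (.f (nat_lit 558) (nat_lit 593) (nat_lit 558) (.f (nat_lit 557) (nat_lit 556) (nat_lit 2572) (.d (nat_lit 589) (nat_lit 588) (nat_lit 1580) (nat_lit 590) (nat_lit 1581)))))) (.a (.f (nat_lit 594) (nat_lit 595) (nat_lit 559) (.f (nat_lit 530) (nat_lit 531) (nat_lit 2575) (.f (nat_lit 593) (nat_lit 558) (nat_lit 558) (.d (nat_lit 498) (nat_lit 466) (nat_lit 5585) (nat_lit 625) (nat_lit 5617))))) (.a (.f (nat_lit 595) (nat_lit 594) (nat_lit 559) (.f (nat_lit 563) (nat_lit 596) (nat_lit 560) (.d (nat_lit 531) (nat_lit 530) (nat_lit 2575) (nat_lit 532) (nat_lit 2576)))) (.d (nat_lit 527) (nat_lit 526) (nat_lit 3598) (nat_lit 563) (nat_lit 3599)))))) (.a (.p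 (nat_lit 558) (.a (.f (nat_lit 526) (nat_lit 525) (nat_lit 3597) (.f (nat_lit 527) (nat_lit 562) (nat_lit 3598) (.f (nat_lit 590) (nat_lit 589) (nat_lit 1581) (.d (nat_lit 495) (nat_lit 463) (nat_lit 5582) (nat_lit 622) (nat_lit 6638))))) (.a (.f (nat_lit 589) (nat_lit 590) (nat_lit 1581) (.f (nat_lit 557) (nat_lit 588) (nat_lit 1580) (.d (nat_lit 525) (nat_lit 524) (nat_lit 3596) (nat_lit 526) (nat_lit 3597)))) (.a (.f (nat_lit 589) (nat_lit 590) (nat_lit 1581) (.f (nat_lit 557) (nat_lit 588) (nat_lit 1580) (.f (nat_lit 556) (nat_lit 527) (nat_lit 2572) (.d (nat_lit 524) (nat_lit 523) (nat_lit 3595) (nat_lit 525) (nat_lit 3596))))) (.a (.f (nat_lit 589) (nat_lit 590) (nat_lit 1581) (.f (nat_lit 557) (nat_lit 588) (nat_lit 1580) (.f (nat_lit 527) (nat_lit 556) (nat_lit 2572) (.d (nat_lit 562) (nat_lit 526) (nat_lit 3598) (nat_lit 563) (nat_lit 3599))))) (.a (.f (nat_lit 526) (nat_lit 525) (nat_lit 3597) (.f (nat_lit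 527) (nat_lit 562) (nat_lit 3598) (.f (nat_lit 557) (nat_lit 556) (nat_lit 2572) (.f (nat_lit 589) (nat_lit 588) (nat_lit 1580) (.f (nat_lit 464) (nat_lit 432) (nat_lit 5551) (.f (nat_lit 463) (nat_lit 431) (nat_lit 7599) (.f (nat_lit 462) (nat_lit 494) (nat_lit 5581) (.f (nat_lit 497) (nat_lit 461) (nat_lit 461) (.d (nat_lit 498) (nat_lit 465) (nat_lit 462) (nat_lit 495) (nat_lit 1518)))))))))) (.f (nat_lit 526) (nat_lit 525) (nat_lit 3597) (.f (nat_lit 527) (nat_lit 562) (nat_lit 3598) (.f (nat_lit 464) (nat_lit 432) (nat_lit 5551) (.f (nat_lit 463) (nat_lit 431) (nat_lit 7599) (.f (nat_lit 495) (nat_lit 590) (nat_lit 5582) (.f (nat_lit 462) (nat_lit 430) (nat_lit 7598) (.d (nat_lit 461) (nat_lit 460) (nat_lit 460) (nat_lit 497) (nat_lit 461)))))))))))))) (.f (nat_lit 464) (nat_lit 593) (nat_lit 4560) (.f (nat_lit 432) (nat_lit 527) (nat_lit 5551) (.d (nat_lit 431) (nat_lit 399) (nat_lit 7567) (nat_lit 463) (nat_lit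 7599))))))))) (.a (.p (nat_lit 592) (.a (.f (nat_lit 495) (nat_lit 463) (nat_lit 7631) (.f (nat_lit 527) (nat_lit 624) (nat_lit 7663) (.f (nat_lit 526) (nat_lit 525) (nat_lit 525) (.d (nat_lit 497) (nat_lit 465) (nat_lit 6608) (nat_lit 498) (nat_lit 1518))))) (.a (.p (nat_lit 624) (.a (.d (nat_lit 625) (nat_lit 593) (nat_lit 4592) (nat_lit 657) (nat_lit 4624)) (.a (.f (nat_lit 655) (nat_lit 623) (nat_lit 5647) (.f (nat_lit 656) (nat_lit 687) (nat_lit 5679) (.d (nat_lit 657) (nat_lit 625) (nat_lit 4624) (nat_lit 689) (nat_lit 4656)))) (.a (.f (nat_lit 655) (nat_lit 623) (nat_lit 5647) (.f (nat_lit 656) (nat_lit 687) (nat_lit 5679) (.f (nat_lit 689) (nat_lit 657) (nat_lit 4656) (.d (nat_lit 688) (nat_lit 593) (nat_lit 6704) (nat_lit 721) (nat_lit 4688))))) (.f (nat_lit 593) (nat_lit 625) (nat_lit 4592) (.f (nat_lit 656) (nat_lit 688) (nat_lit 6704) (.d (nat_lit 655) (nat_lit 623) (nat_lit 5647) (nat_lit 687) (nat_lit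 5679)))))))) (.p (nat_lit 526) (.a (.f (nat_lit 593) (nat_lit 625) (nat_lit 4592) (.f (nat_lit 495) (nat_lit 463) (nat_lit 7631) (.f (nat_lit 497) (nat_lit 465) (nat_lit 6608) (.f (nat_lit 494) (nat_lit 525) (nat_lit 1517) (.f (nat_lit 461) (nat_lit 462) (nat_lit 3533) (.f (nat_lit 493) (nat_lit 460) (nat_lit 3532) (.f (nat_lit 558) (nat_lit 590) (nat_lit 7629) (.d (nat_lit 559) (nat_lit 557) (nat_lit 557) (nat_lit 594) (nat_lit 558))))))))) (.a (.f (nat_lit 527) (nat_lit 525) (nat_lit 525) (.d (nat_lit 562) (nat_lit 559) (nat_lit 3598) (nat_lit 563) (nat_lit 3599))) (.a (.f (nat_lit 527) (nat_lit 525) (nat_lit 525) (.f (nat_lit 495) (nat_lit 463) (nat_lit 7631) (.d (nat_lit 497) (nat_lit 465) (nat_lit 6608) (nat_lit 498) (nat_lit 1518)))) (.f (nat_lit 495) (nat_lit 463) (nat_lit 7631) (.f (nat_lit 497) (nat_lit 465) (nat_lit 6608) (.f (nat_lit 498) (nat_lit 527) (nat_lit 1518) (.f (nat_lit 531) (nat_lit 530) (nat_lit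 495) (.f (nat_lit 499) (nat_lit 532) (nat_lit 496) (.d (nat_lit 467) (nat_lit 466) (nat_lit 2511) (nat_lit 468) (nat_lit 2512)))))))))))))) (.p (nat_lit 527) (.a (.f (nat_lit 526) (nat_lit 525) (nat_lit 525) (.d (nat_lit 562) (nat_lit 559) (nat_lit 3598) (nat_lit 563) (nat_lit 3599))) (.a (.p (nat_lit 495) (.a (.p (nat_lit 494) (.a (.f (nat_lit 526) (nat_lit 525) (nat_lit 525) (.f (nat_lit 463) (nat_lit 431) (nat_lit 4527) (.f (nat_lit 497) (nat_lit 498) (nat_lit 1518) (.f (nat_lit 462) (nat_lit 461) (nat_lit 3533) (.f (nat_lit 430) (nat_lit 398) (nat_lit 4494) (.f (nat_lit 465) (nat_lit 466) (nat_lit 2510) (.d (nat_lit 429) (nat_lit 397) (nat_lit 7565) (nat_lit 464) (nat_lit 3501)))))))) (.a (.f (nat_lit 526) (nat_lit 525) (nat_lit 525) (.f (nat_lit 497) (nat_lit 498) (nat_lit 1518) (.f (nat_lit 493) (nat_lit 492) (nat_lit 492) (.d (nat_lit 461) (nat_lit 460) (nat_lit 3532) (nat_lit 462) (nat_lit 3533))))) (.a (.f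 (nat_lit 463) (nat_lit 431) (nat_lit 4527) (.f (nat_lit 493) (nat_lit 492) (nat_lit 492) (.f (nat_lit 464) (nat_lit 465) (nat_lit 2509) (.f (nat_lit 461) (nat_lit 460) (nat_lit 3532) (.f (nat_lit 462) (nat_lit 497) (nat_lit 461) (.f (nat_lit 430) (nat_lit 398) (nat_lit 4494) (.d (nat_lit 525) (nat_lit 524) (nat_lit 1516) (nat_lit 557) (nat_lit 6573)))))))) (.a (.f (nat_lit 463) (nat_lit 431) (nat_lit 4527) (.f (nat_lit 493) (nat_lit 492) (nat_lit 492) (.f (nat_lit 464) (nat_lit 465) (nat_lit 2509) (.f (nat_lit 461) (nat_lit 460) (nat_lit 3532) (.f (nat_lit 497) (nat_lit 462) (nat_lit 461) (.d (nat_lit 498) (nat_lit 499) (nat_lit 1519) (nat_lit 526) (nat_lit 1518))))))) (.f (nat_lit 493) (nat_lit 492) (nat_lit 492) (.d (nat_lit 525) (nat_lit 524) (nat_lit 1516) (nat_lit 526) (nat_lit 525)))))))) (.a (.d (nat_lit 463) (nat_lit 431) (nat_lit 4527) (nat_lit 592) (nat_lit 7631)) (.f (nat_lit 526) (nat_lit 525) (nat_lit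 525) (.f (nat_lit 497) (nat_lit 498) (nat_lit 1518) (.d (nat_lit 592) (nat_lit 465) (nat_lit 6608) (nat_lit 624) (nat_lit 7663))))))) (.p (nat_lit 464) (.a (.f (nat_lit 432) (nat_lit 559) (nat_lit 5551) (.d (nat_lit 431) (nat_lit 399) (nat_lit 7567) (nat_lit 463) (nat_lit 7599))) (.a (.f (nat_lit 432) (nat_lit 559) (nat_lit 5551) (.f (nat_lit 400) (nat_lit 495) (nat_lit 5519) (.d (nat_lit 399) (nat_lit 367) (nat_lit 7535) (nat_lit 431) (nat_lit 7567)))) (.a (.p (nat_lit 497) (.a (.f (nat_lit 463) (nat_lit 431) (nat_lit 7599) (.f (nat_lit 498) (nat_lit 499) (nat_lit 1519) (.d (nat_lit 462) (nat_lit 465) (nat_lit 462) (nat_lit 495) (nat_lit 3534)))) (.a (.f (nat_lit 465) (nat_lit 592) (nat_lit 6608) (.f (nat_lit 498) (nat_lit 499) (nat_lit 1519) (.f (nat_lit 562) (nat_lit 563) (nat_lit 3599) (.f (nat_lit 530) (nat_lit 594) (nat_lit 7633) (.f (nat_lit 495) (nat_lit 531) (nat_lit 495) (.d (nat_lit 494) (nat_lit 466)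 (nat_lit 2510) (nat_lit 493) (nat_lit 2509))))))) (.a (.f (nat_lit 463) (nat_lit 431) (nat_lit 7599) (.f (nat_lit 498) (nat_lit 499) (nat_lit 1519) (.d (nat_lit 495) (nat_lit 462) (nat_lit 3534) (nat_lit 592) (nat_lit 7631)))) (.a (.f (nat_lit 463) (nat_lit 431) (nat_lit 7599) (.f (nat_lit 498) (nat_lit 499) (nat_lit 1519) (.d (nat_lit 462) (nat_lit 461) (nat_lit 461) (nat_lit 465) (nat_lit 462)))) (.f (nat_lit 431) (nat_lit 463) (nat_lit 7599) (.f (nat_lit 432) (nat_lit 399) (nat_lit 7567) (.f (nat_lit 400) (nat_lit 495) (nat_lit 5519) (.f (nat_lit 368) (nat_lit 465) (nat_lit 4464) (.d (nat_lit 369) (nat_lit 337) (nat_lit 6480) (nat_lit 401) (nat_lit 6512))))))))))) (.a (.f (nat_lit 432) (nat_lit 559) (nat_lit 5551) (.f (nat_lit 400) (nat_lit 495) (nat_lit 5519) (.f (nat_lit 369) (nat_lit 401) (nat_lit 6512) (.f (nat_lit 368) (nat_lit 337) (nat_lit 6480) (.d (nat_lit 367) (nat_lit 335) (nat_lit 7503) (nat_lit 399)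 (nat_lit 7535)))))) (.p (nat_lit 497) (.a (.f (nat_lit 463) (nat_lit 431) (nat_lit 7599) (.f (nat_lit 498) (nat_lit 499) (nat_lit 1519) (.d (nat_lit 462) (nat_lit 465) (nat_lit 462) (nat_lit 495) (nat_lit 3534)))) (.a (.f (nat_lit 465) (nat_lit 592) (nat_lit 6608) (.f (nat_lit 498) (nat_lit 499) (nat_lit 1519) (.f (nat_lit 562) (nat_lit 563) (nat_lit 3599) (.f (nat_lit 530) (nat_lit 594) (nat_lit 7633) (.f (nat_lit 495) (nat_lit 531) (nat_lit 495) (.d (nat_lit 494) (nat_lit 466) (nat_lit 2510) (nat_lit 493) (nat_lit 2509))))))) (.a (.f (nat_lit 463) (nat_lit 431) (nat_lit 7599) (.f (nat_lit 498) (nat_lit 499) (nat_lit 1519) (.d (nat_lit 495) (nat_lit 462) (nat_lit 3534) (nat_lit 592) (nat_lit 7631)))) (.a (.f (nat_lit 463) (nat_lit 431) (nat_lit 7599) (.f (nat_lit 498) (nat_lit 499) (nat_lit 1519) (.d (nat_lit 462) (nat_lit 461) (nat_lit 461) (nat_lit 465) (nat_lit 462)))) (.f (nat_lit 463) (nat_lit 431) (nat_lit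 7599) (.d (nat_lit 592) (nat_lit 465) (nat_lit 6608) (nat_lit 495) (nat_lit 7631)))))))))))))))))))) (.a (.p (nat_lit 527) (.a (.p (nat_lit 464) (.a (.f (nat_lit 561) (nat_lit 593) (nat_lit 4560) (.f (nat_lit 526) (nat_lit 525) (nat_lit 525) (.d (nat_lit 562) (nat_lit 559) (nat_lit 3598) (nat_lit 563) (nat_lit 3599)))) (.a (.f (nat_lit 432) (nat_lit 559) (nat_lit 5551) (.f (nat_lit 400) (nat_lit 495) (nat_lit 5519) (.d (nat_lit 399) (nat_lit 367) (nat_lit 7535) (nat_lit 431) (nat_lit 7567)))) (.f (nat_lit 593) (nat_lit 561) (nat_lit 4560) (.f (nat_lit 592) (nat_lit 625) (nat_lit 4592) (.f (nat_lit 495) (nat_lit 624) (nat_lit 7663) (.f (nat_lit 497) (nat_lit 465) (nat_lit 6608) (.d (nat_lit 526) (nat_lit 498) (nat_lit 1518) (nat_lit 525) (nat_lit 2541))))))))) (.a (.p (nat_lit 464) (.a (.f (nat_lit 561) (nat_lit 593) (nat_lit 4560) (.f (nat_lit 526) (nat_lit 525) (nat_lit 525) (.d (nat_lit 562) (nat_lit 559) (nat_lit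 3598) (nat_lit 563) (nat_lit 3599)))) (.a (.f (nat_lit 432) (nat_lit 559) (nat_lit 5551) (.f (nat_lit 400) (nat_lit 495) (nat_lit 5519) (.d (nat_lit 399) (nat_lit 367) (nat_lit 7535) (nat_lit 431) (nat_lit 7567)))) (.f (nat_lit 433) (nat_lit 465) (nat_lit 6576) (.f (nat_lit 432) (nat_lit 401) (nat_lit 6544) (.f (nat_lit 400) (nat_lit 495) (nat_lit 5519) (.d (nat_lit 399) (nat_lit 367) (nat_lit 7535) (nat_lit 431) (nat_lit 7567)))))))) (.a (.p (nat_lit 592) (.a (.f (nat_lit 624) (nat_lit 495) (nat_lit 7663) (.d (nat_lit 625) (nat_lit 593) (nat_lit 4592) (nat_lit 657) (nat_lit 4624))) (.a (.f (nat_lit 624) (nat_lit 495) (nat_lit 7663) (.f (nat_lit 656) (nat_lit 559) (nat_lit 7695) (.d (nat_lit 655) (nat_lit 623) (nat_lit 5647) (nat_lit 687) (nat_lit 5679)))) (.a (.f (nat_lit 497) (nat_lit 465) (nat_lit 6608) (.f (nat_lit 526) (nat_lit 525) (nat_lit 2541) (.d (nat_lit 498) (nat_lit 495) (nat_lit 1518) (nat_lit 499)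 (nat_lit 1519)))) (.f (nat_lit 625) (nat_lit 593) (nat_lit 4592) (.f (nat_lit 624) (nat_lit 657) (nat_lit 4624) (.f (nat_lit 655) (nat_lit 623) (nat_lit 5647) (.d (nat_lit 656) (nat_lit 559) (nat_lit 7695) (nat_lit 687) (nat_lit 5679))))))))) (.a (.p (nat_lit 464) (.a (.f (nat_lit 432) (nat_lit 559) (nat_lit 5551) (.f (nat_lit 400) (nat_lit 495) (nat_lit 5519) (.d (nat_lit 399) (nat_lit 367) (nat_lit 7535) (nat_lit 431) (nat_lit 7567)))) (.a (.f (nat_lit 433) (nat_lit 465) (nat_lit 6576) (.f (nat_lit 432) (nat_lit 401) (nat_lit 6544) (.f (nat_lit 400) (nat_lit 495) (nat_lit 5519) (.d (nat_lit 399) (nat_lit 367) (nat_lit 7535) (nat_lit 431) (nat_lit 7567))))) (.a (.f (nat_lit 432) (nat_lit 559) (nat_lit 5551) (.d (nat_lit 433) (nat_lit 401) (nat_lit 6544) (nat_lit 465) (nat_lit 6576))) (.f (nat_lit 465) (nat_lit 433) (nat_lit 6576) (.f (nat_lit 497) (nat_lit 592) (nat_lit 6608) (.f (nat_lit 526) (nat_lit 525) (nat_lit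 2541) (.d (nat_lit 498) (nat_lit 495) (nat_lit 1518) (nat_lit 499) (nat_lit 1519))))))))) (.a (.p (nat_lit 592) (.a (.f (nat_lit 624) (nat_lit 495) (nat_lit 7663) (.d (nat_lit 625) (nat_lit 593) (nat_lit 4592) (nat_lit 657) (nat_lit 4624))) (.a (.f (nat_lit 497) (nat_lit 465) (nat_lit 6608) (.f (nat_lit 526) (nat_lit 525) (nat_lit 2541) (.d (nat_lit 498) (nat_lit 495) (nat_lit 1518) (nat_lit 499) (nat_lit 1519)))) (.f (nat_lit 593) (nat_lit 625) (nat_lit 4592) (.f (nat_lit 464) (nat_lit 561) (nat_lit 4560) (.d (nat_lit 465) (nat_lit 433) (nat_lit 6576) (nat_lit 497) (nat_lit 6608))))))) (.a (.p (nat_lit 561) (.a (.f (nat_lit 526) (nat_lit 525) (nat_lit 525) (.d (nat_lit 562) (nat_lit 559) (nat_lit 3598) (nat_lit 563) (nat_lit 3599))) (.f (nat_lit 593) (nat_lit 464) (nat_lit 4560) (.d (nat_lit 625) (nat_lit 592) (nat_lit 4592) (nat_lit 657) (nat_lit 7696))))) (.p (nat_lit 464) (.a (.f (nat_lit 432) (nat_lit 559) (nat_lit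 5551) (.f (nat_lit 400) (nat_lit 495) (nat_lit 5519) (.d (nat_lit 399) (nat_lit 367) (nat_lit 7535) (nat_lit 431) (nat_lit 7567)))) (.a (.f (nat_lit 433) (nat_lit 465) (nat_lit 6576) (.f (nat_lit 432) (nat_lit 401) (nat_lit 6544) (.f (nat_lit 400) (nat_lit 495) (nat_lit 5519) (.d (nat_lit 399) (nat_lit 367) (nat_lit 7535) (nat_lit 431) (nat_lit 7567))))) (.a (.f (nat_lit 432) (nat_lit 559) (nat_lit 5551) (.d (nat_lit 433) (nat_lit 401) (nat_lit 6544) (nat_lit 465) (nat_lit 6576))) (.f (nat_lit 465) (nat_lit 433) (nat_lit 6576) (.f (nat_lit 592) (nat_lit 497) (nat_lit 6608) (.d (nat_lit 593) (nat_lit 561) (nat_lit 4560) (nat_lit 625) (nat_lit 4592))))))))))))))) (.a (.p (nat_lit 495) (.a (.f (nat_lit 592) (nat_lit 463) (nat_lit 7631) (.f (nat_lit 497) (nat_lit 465) (nat_lit 6608) (.f (nat_lit 527) (nat_lit 624) (nat_lit 7663) (.d (nat_lit 526) (nat_lit 498) (nat_lit 1518) (nat_lit 525) (nat_lit 2541))))) (.a (.p (nat_lit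 497) (.a (.f (nat_lit 592) (nat_lit 465) (nat_lit 6608) (.f (nat_lit 527) (nat_lit 624) (nat_lit 7663) (.d (nat_lit 526) (nat_lit 498) (nat_lit 1518) (nat_lit 525) (nat_lit 2541)))) (.a s282 (.a (.f (nat_lit 465) (nat_lit 592) (nat_lit 6608) (.f (nat_lit 494) (nat_lit 466) (nat_lit 2510) (.f (nat_lit 525) (nat_lit 526) (nat_lit 1517) (.f (nat_lit 493) (nat_lit 524) (nat_lit 1516) (.d (nat_lit 461) (nat_lit 460) (nat_lit 3532) (nat_lit 462) (nat_lit 3533)))))) (.a s300 (.f (nat_lit 592) (nat_lit 465) (nat_lit 6608) (.f (nat_lit 624) (nat_lit 527) (nat_lit 7663) (.d (nat_lit 625) (nat_lit 593) (nat_lit 4592) (nat_lit 657) (nat_lit 4624))))))))) (.a (.f (nat_lit 592) (nat_lit 463) (nat_lit 7631) (.f (nat_lit 624) (nat_lit 527) (nat_lit 7663) (.d (nat_lit 625) (nat_lit 593) (nat_lit 4592) (nat_lit 657) (nat_lit 4624)))) (.a (.p (nat_lit 494) (.a s320 (.a s29961 (.a (.p (nat_lit 526) (.a (.f (nat_lit 525) (nat_lit 497)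 (nat_lit 1517) (.d (nat_lit 524) (nat_lit 493) (nat_lit 1516) (nat_lit 523) (nat_lit 2539))) (.f (nat_lit 463) (nat_lit 592) (nat_lit 7631) (.f (nat_lit 431) (nat_lit 399) (nat_lit 4495) (.d (nat_lit 558) (nat_lit 462) (nat_lit 6574) (nat_lit 590) (nat_lit 6606)))))) (.a (.p (nat_lit 493) (.a (.f (nat_lit 461) (nat_lit 460) (nat_lit 3532) (.f (nat_lit 525) (nat_lit 524) (nat_lit 1516) (.f (nat_lit 462) (nat_lit 497) (nat_lit 3533) (.d (nat_lit 430) (nat_lit 398) (nat_lit 5517) (nat_lit 557) (nat_lit 6573))))) (.a (.f (nat_lit 461) (nat_lit 460) (nat_lit 3532) (.f (nat_lit 497) (nat_lit 462) (nat_lit 3533) (.d (nat_lit 465) (nat_lit 466) (nat_lit 2510) (nat_lit 592) (nat_lit 6608)))) (.a (.f (nat_lit 460) (nat_lit 461) (nat_lit 3532) (.f (nat_lit 492) (nat_lit 459) (nat_lit 3531) (.d (nat_lit 524) (nat_lit 523) (nat_lit 1515) (nat_lit 525) (nat_lit 1516)))) (.a (.f (nat_lit 463) (nat_lit 592) (nat_lit 7631) (.f (nat_lit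 524) (nat_lit 525) (nat_lit 1516) (.f (nat_lit 492) (nat_lit 523) (nat_lit 1515) (.f (nat_lit 491) (nat_lit 462) (nat_lit 2507) (.d (nat_lit 459) (nat_lit 458) (nat_lit 3530) (nat_lit 460) (nat_lit 3531)))))) (.f (nat_lit 592) (nat_lit 463) (nat_lit 7631) (.f (nat_lit 497) (nat_lit 465) (nat_lit 6608) (.f (nat_lit 625) (nat_lit 593) (nat_lit 4592) (.f (nat_lit 624) (nat_lit 657) (nat_lit 4624) (.f (nat_lit 623) (nat_lit 655) (nat_lit 5647) (.f (nat_lit 525) (nat_lit 524) (nat_lit 1516) (.f (nat_lit 462) (nat_lit 461) (nat_lit 3533) (.f (nat_lit 589) (nat_lit 557) (nat_lit 6605) (.f (nat_lit 622) (nat_lit 590) (nat_lit 3661) (.f (nat_lit 621) (nat_lit 588) (nat_lit 3660) (.d (nat_lit 653) (nat_lit 652) (nat_lit 1644) (nat_lit 654) (nat_lit 1645))))))))))))))))) (.a (.p (nat_lit 497) (.a (.d (nat_lit 592) (nat_lit 463) (nat_lit 7631) (nat_lit 465) (nat_lit 6608)) (.a (.f (nat_lit 462) (nat_lit 461) (nat_lit 3533) (.f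 (nat_lit 498) (nat_lit 463) (nat_lit 3534) (.d (nat_lit 466) (nat_lit 465) (nat_lit 2510) (nat_lit 467) (nat_lit 2511)))) (.a (.d (nat_lit 465) (nat_lit 466) (nat_lit 2510) (nat_lit 592) (nat_lit 6608)) (.f (nat_lit 463) (nat_lit 592) (nat_lit 7631) (.d (nat_lit 462) (nat_lit 461) (nat_lit 3533) (nat_lit 498) (nat_lit 3534))))))) (.a (.p (nat_lit 493) (.a (.f (nat_lit 460) (nat_lit 461) (nat_lit 3532) (.f (nat_lit 492) (nat_lit 459) (nat_lit 3531) (.d (nat_lit 524) (nat_lit 523) (nat_lit 1515) (nat_lit 525) (nat_lit 1516)))) (.a (.f (nat_lit 463) (nat_lit 592) (nat_lit 7631) (.f (nat_lit 460) (nat_lit 461) (nat_lit 3532) (.f (nat_lit 492) (nat_lit 459) (nat_lit 3531) (.f (nat_lit 523) (nat_lit 524) (nat_lit 1515) (.d (nat_lit 491) (nat_lit 462) (nat_lit 2507) (nat_lit 522) (nat_lit 1514)))))) (.a (.f (nat_lit 463) (nat_lit 592) (nat_lit 7631) (.f (nat_lit 524) (nat_lit 525) (nat_lit 1516) (.f (nat_lit 492) (nat_lit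 523) (nat_lit 1515) (.f (nat_lit 491) (nat_lit 462) (nat_lit 2507) (.d (nat_lit 459) (nat_lit 458) (nat_lit 3530) (nat_lit 460) (nat_lit 3531)))))) (.a (.p (nat_lit 558) (.a (.f (nat_lit 461) (nat_lit 460) (nat_lit 3532) (.f (nat_lit 526) (nat_lit 590) (nat_lit 7629) (.d (nat_lit 429) (nat_lit 397) (nat_lit 4493) (nat_lit 462) (nat_lit 7597)))) (.f (nat_lit 592) (nat_lit 463) (nat_lit 7631) (.f (nat_lit 593) (nat_lit 625) (nat_lit 4592) (.f (nat_lit 559) (nat_lit 557) (nat_lit 557) (.d (nat_lit 594) (nat_lit 561) (nat_lit 558) (nat_lit 595) (nat_lit 3631))))))) (.p (nat_lit 589) (.a (.f (nat_lit 525) (nat_lit 524) (nat_lit 1516) (.f (nat_lit 557) (nat_lit 462) (nat_lit 6605) (.f (nat_lit 590) (nat_lit 622) (nat_lit 4589) (.f (nat_lit 558) (nat_lit 461) (nat_lit 4557) (.d (nat_lit 559) (nat_lit 561) (nat_lit 1581) (nat_lit 588) (nat_lit 1580)))))) (.a (.f (nat_lit 525) (nat_lit 524) (nat_lit 1516) (.f (nat_lit 557)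 (nat_lit 462) (nat_lit 6605) (.f (nat_lit 590) (nat_lit 622) (nat_lit 4589) (.f (nat_lit 558) (nat_lit 461) (nat_lit 4557) (.d (nat_lit 588) (nat_lit 559) (nat_lit 1580) (nat_lit 620) (nat_lit 5612)))))) (.a (.f (nat_lit 525) (nat_lit 524) (nat_lit 1516) (.f (nat_lit 557) (nat_lit 462) (nat_lit 6605) (.f (nat_lit 590) (nat_lit 622) (nat_lit 4589) (.f (nat_lit 526) (nat_lit 621) (nat_lit 6637) (.d (nat_lit 558) (nat_lit 461) (nat_lit 4557) (nat_lit 463) (nat_lit 6606)))))) (.a (.f (nat_lit 592) (nat_lit 463) (nat_lit 7631) (.f (nat_lit 625) (nat_lit 593) (nat_lit 4592) (.f (nat_lit 624) (nat_lit 657) (nat_lit 4624) (.f (nat_lit 623) (nat_lit 655) (nat_lit 5647) (.f (nat_lit 622) (nat_lit 590) (nat_lit 3661) (.f (nat_lit 621) (nat_lit 588) (nat_lit 3660) (.d (nat_lit 653) (nat_lit 652) (nat_lit 1644) (nat_lit 654) (nat_lit 1645)))))))) (.a (.f (nat_lit 525) (nat_lit 524) (nat_lit 1516) (.f (nat_lit 557) (nat_lit 462)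 (nat_lit 6605) (.f (nat_lit 588) (nat_lit 620) (nat_lit 5612) (.f (nat_lit 621) (nat_lit 526) (nat_lit 6637) (.f (nat_lit 622) (nat_lit 654) (nat_lit 4621) (.f (nat_lit 592) (nat_lit 463) (nat_lit 7631) (.f (nat_lit 624) (nat_lit 623) (nat_lit 3660) (.d (nat_lit 625) (nat_lit 593) (nat_lit 4592) (nat_lit 657) (nat_lit 4624))))))))) (.f (nat_lit 525) (nat_lit 524) (nat_lit 1516) (.f (nat_lit 557) (nat_lit 462) (nat_lit 6605) (.f (nat_lit 526) (nat_lit 621) (nat_lit 6637) (.f (nat_lit 463) (nat_lit 592) (nat_lit 7631) (.f (nat_lit 558) (nat_lit 590) (nat_lit 6606) (.d (nat_lit 588) (nat_lit 559) (nat_lit 1580) (nat_lit 620) (nat_lit 5612)))))))))))))))))) (.f (nat_lit 592) (nat_lit 463) (nat_lit 7631) (.f (nat_lit 497) (nat_lit 465) (nat_lit 6608) (.f (nat_lit 625) (nat_lit 593) (nat_lit 4592) (.f (nat_lit 624) (nat_lit 657) (nat_lit 4624) (.f (nat_lit 623) (nat_lit 655) (nat_lit 5647) (.f (nat_lit 525) (nat_lit 526)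 (nat_lit 1517) (.f (nat_lit 493) (nat_lit 524) (nat_lit 1516) (.f (nat_lit 460) (nat_lit 461) (nat_lit 3532) (.f (nat_lit 492) (nat_lit 459) (nat_lit 3531) (.f (nat_lit 589) (nat_lit 557) (nat_lit 7628) (.f (nat_lit 622) (nat_lit 590) (nat_lit 3661) (.f (nat_lit 621) (nat_lit 588) (nat_lit 3660) (.d (nat_lit 653) (nat_lit 652) (nat_lit 1644) (nat_lit 654) (nat_lit 1645))))))))))))))))))))) (.p (nat_lit 494) (.a (.p (nat_lit 525) (.a (.f (nat_lit 526) (nat_lit 497) (nat_lit 1517) (.d (nat_lit 524) (nat_lit 493) (nat_lit 1516) (nat_lit 523) (nat_lit 2539))) (.a (.f (nat_lit 493) (nat_lit 524) (nat_lit 1516) (.f (nat_lit 461) (nat_lit 460) (nat_lit 3532) (.f (nat_lit 462) (nat_lit 497) (nat_lit 3533) (.d (nat_lit 430) (nat_lit 398) (nat_lit 5517) (nat_lit 557) (nat_lit 6573))))) (.a (.f (nat_lit 493) (nat_lit 524) (nat_lit 1516) (.f (nat_lit 492) (nat_lit 527) (nat_lit 492) (.d (nat_lit 460) (nat_lit 459) (nat_lit 3531)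 (nat_lit 461) (nat_lit 3532)))) (.a (.f (nat_lit 526) (nat_lit 497) (nat_lit 1517) (.d (nat_lit 524) (nat_lit 523) (nat_lit 2539) (nat_lit 527) (nat_lit 2540))) (.f (nat_lit 497) (nat_lit 526) (nat_lit 1517) (.f (nat_lit 466) (nat_lit 465) (nat_lit 2510) (.f (nat_lit 498) (nat_lit 467) (nat_lit 2511) (.f (nat_lit 499) (nat_lit 527) (nat_lit 1519) (.d (nat_lit 531) (nat_lit 530) (nat_lit 495) (nat_lit 532) (nat_lit 496))))))))))) (.a s29961 (.a (.p (nat_lit 525) (.a (.f (nat_lit 526) (nat_lit 497) (nat_lit 1517) (.d (nat_lit 524) (nat_lit 493) (nat_lit 1516) (nat_lit 523) (nat_lit 2539))) (.a (.f (nat_lit 493) (nat_lit 524) (nat_lit 1516) (.f (nat_lit 461) (nat_lit 460) (nat_lit 3532) (.f (nat_lit 462) (nat_lit 497) (nat_lit 3533) (.d (nat_lit 430) (nat_lit 398) (nat_lit 5517) (nat_lit 557) (nat_lit 6573))))) (.a (.f (nat_lit 493) (nat_lit 524) (nat_lit 1516) (.f (nat_lit 492) (nat_lit 527) (nat_lit 492) (.d (nat_lit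 460) (nat_lit 459) (nat_lit 3531) (nat_lit 461) (nat_lit 3532)))) (.a (.f (nat_lit 526) (nat_lit 497) (nat_lit 1517) (.d (nat_lit 524) (nat_lit 523) (nat_lit 2539) (nat_lit 527) (nat_lit 2540))) (.f (nat_lit 526) (nat_lit 497) (nat_lit 1517) (.f (nat_lit 527) (nat_lit 561) (nat_lit 525) (.f (nat_lit 493) (nat_lit 492) (nat_lit 492) (.f (nat_lit 557) (nat_lit 556) (nat_lit 1548) (.d (nat_lit 462) (nat_lit 430) (nat_lit 5549) (nat_lit 589) (nat_lit 6605))))))))))) (.a (.p (nat_lit 493) (.a (.f (nat_lit 461) (nat_lit 460) (nat_lit 3532) (.f (nat_lit 525) (nat_lit 524) (nat_lit 1516) (.f (nat_lit 462) (nat_lit 497) (nat_lit 3533) (.d (nat_lit 430) (nat_lit 398) (nat_lit 5517) (nat_lit 557) (nat_lit 6573))))) (.a (.f (nat_lit 492) (nat_lit 527) (nat_lit 492) (.d (nat_lit 460) (nat_lit 459) (nat_lit 3531) (nat_lit 461) (nat_lit 3532))) (.f (nat_lit 492) (nat_lit 527) (nat_lit 492) (.d (nat_lit 524) (nat_lit 523) (nat_lit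 1515) (nat_lit 525) (nat_lit 1516)))))) (.a s506 (.a (.p (nat_lit 493) (.a (.f (nat_lit 460) (nat_lit 461) (nat_lit 3532) (.f (nat_lit 492) (nat_lit 459) (nat_lit 3531) (.d (nat_lit 524) (nat_lit 523) (nat_lit 1515) (nat_lit 525) (nat_lit 1516)))) (.a (.f (nat_lit 492) (nat_lit 527) (nat_lit 492) (.d (nat_lit 460) (nat_lit 459) (nat_lit 3531) (nat_lit 461) (nat_lit 3532))) (.a (.f (nat_lit 492) (nat_lit 527) (nat_lit 492) (.d (nat_lit 524) (nat_lit 523) (nat_lit 1515) (nat_lit 525) (nat_lit 1516))) (.p (nat_lit 526) (.a (.f (nat_lit 461) (nat_lit 460) (nat_lit 3532) (.f (nat_lit 558) (nat_lit 590) (nat_lit 7629) (.d (nat_lit 429) (nat_lit 397) (nat_lit 4493) (nat_lit 462) (nat_lit 7597)))) (.a (.f (nat_lit 525) (nat_lit 524) (nat_lit 1516) (.f (nat_lit 527) (nat_lit 561) (nat_lit 525) (.f (nat_lit 557) (nat_lit 556) (nat_lit 1548) (.d (nat_lit 589) (nat_lit 462) (nat_lit 6605) (nat_lit 621) (nat_lit 6637))))) (.f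 (nat_lit 525) (nat_lit 524) (nat_lit 1516) (.f (nat_lit 461) (nat_lit 460) (nat_lit 3532) (.d (nat_lit 429) (nat_lit 397) (nat_lit 4493) (nat_lit 558) (nat_lit 4525))))))))))) (.a (.p (nat_lit 525) (.a (.f (nat_lit 526) (nat_lit 497) (nat_lit 1517) (.d (nat_lit 524) (nat_lit 493) (nat_lit 1516) (nat_lit 523) (nat_lit 2539))) (.a (.f (nat_lit 493) (nat_lit 524) (nat_lit 1516) (.f (nat_lit 492) (nat_lit 527) (nat_lit 492) (.d (nat_lit 460) (nat_lit 459) (nat_lit 3531) (nat_lit 461) (nat_lit 3532)))) (.a (.f (nat_lit 526) (nat_lit 497) (nat_lit 1517) (.d (nat_lit 524) (nat_lit 523) (nat_lit 2539) (nat_lit 527) (nat_lit 2540))) (.f (nat_lit 497) (nat_lit 526) (nat_lit 1517) (.f (nat_lit 466) (nat_lit 465) (nat_lit 2510) (.f (nat_lit 498) (nat_lit 467) (nat_lit 2511) (.f (nat_lit 499) (nat_lit 527) (nat_lit 1519) (.d (nat_lit 531) (nat_lit 530) (nat_lit 495) (nat_lit 532) (nat_lit 496)))))))))) (.a (.p (nat_lit 497) (.a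 (.f (nat_lit 526) (nat_lit 525) (nat_lit 1517) (.f (nat_lit 527) (nat_lit 498) (nat_lit 1518) (.f (nat_lit 462) (nat_lit 461) (nat_lit 3533) (.d (nat_lit 430) (nat_lit 398) (nat_lit 4494) (nat_lit 559) (nat_lit 4526))))) (.a (.f (nat_lit 462) (nat_lit 461) (nat_lit 3533) (.f (nat_lit 498) (nat_lit 463) (nat_lit 3534) (.d (nat_lit 466) (nat_lit 465) (nat_lit 2510) (nat_lit 467) (nat_lit 2511)))) (.a (.f (nat_lit 526) (nat_lit 525) (nat_lit 1517) (.f (nat_lit 498) (nat_lit 527) (nat_lit 1518) (.d (nat_lit 466) (nat_lit 465) (nat_lit 2510) (nat_lit 467) (nat_lit 2511)))) (.p (nat_lit 431) (.a (.d (nat_lit 463) (nat_lit 399) (nat_lit 4495) (nat_lit 527) (nat_lit 4527)) (.a (.f (nat_lit 463) (nat_lit 399) (nat_lit 4495) (.f (nat_lit 462) (nat_lit 461) (nat_lit 3533) (.d (nat_lit 526) (nat_lit 525) (nat_lit 1517) (nat_lit 558) (nat_lit 6574)))) (.a (.f (nat_lit 526) (nat_lit 525) (nat_lit 1517) (.f (nat_lit 462) (nat_lit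 461) (nat_lit 3533) (.f (nat_lit 430) (nat_lit 399) (nat_lit 6542) (.d (nat_lit 527) (nat_lit 398) (nat_lit 4494) (nat_lit 559) (nat_lit 4526))))) (.f (nat_lit 527) (nat_lit 463) (nat_lit 4527) (.f (nat_lit 526) (nat_lit 525) (nat_lit 1517) (.f (nat_lit 462) (nat_lit 461) (nat_lit 3533) (.d (nat_lit 430) (nat_lit 398) (nat_lit 4494) (nat_lit 559) (nat_lit 4526))))))))))))) (.p (nat_lit 463) (.a (.d (nat_lit 431) (nat_lit 399) (nat_lit 4495) (nat_lit 527) (nat_lit 4527)) (.a (.p (nat_lit 526) (.a (.f (nat_lit 431) (nat_lit 399) (nat_lit 4495) (.d (nat_lit 558) (nat_lit 462) (nat_lit 6574) (nat_lit 590) (nat_lit 6606))) (.f (nat_lit 525) (nat_lit 497) (nat_lit 1517) (.d (nat_lit 524) (nat_lit 493) (nat_lit 1516) (nat_lit 523) (nat_lit 2539))))) (.p (nat_lit 525) (.a (.f (nat_lit 526) (nat_lit 497) (nat_lit 1517) (.d (nat_lit 524) (nat_lit 493) (nat_lit 1516) (nat_lit 523) (nat_lit 2539))) (.a (.f (nat_lit 493) (nat_lit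 524) (nat_lit 1516) (.f (nat_lit 492) (nat_lit 527) (nat_lit 492) (.f (nat_lit 491) (nat_lit 462) (nat_lit 2507) (.d (nat_lit 459) (nat_lit 458) (nat_lit 3530) (nat_lit 460) (nat_lit 3531))))) (.a (.f (nat_lit 526) (nat_lit 497) (nat_lit 1517) (.d (nat_lit 524) (nat_lit 523) (nat_lit 2539) (nat_lit 527) (nat_lit 2540))) (.f (nat_lit 526) (nat_lit 497) (nat_lit 1517) (.f (nat_lit 527) (nat_lit 561) (nat_lit 525) (.f (nat_lit 493) (nat_lit 492) (nat_lit 492) (.f (nat_lit 557) (nat_lit 556) (nat_lit 1548) (.d (nat_lit 462) (nat_lit 430) (nat_lit 5549) (nat_lit 589) (nat_lit 6605))))))))))))))))))))))))))) (.a (.p (nat_lit 526) (.a (.p (nat_lit 464) (.a (.f (nat_lit 561) (nat_lit 593) (nat_lit 4560) (.f (nat_lit 527) (nat_lit 525) (nat_lit 525) (.d (nat_lit 559) (nat_lit 432) (nat_lit 5551) (nat_lit 562) (nat_lit 3598)))) (.a (.f (nat_lit 463) (nat_lit 431) (nat_lit 7599) (.f (nat_lit 592) (nat_lit 495) (nat_lit 7631)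 (.d (nat_lit 593) (nat_lit 561) (nat_lit 4560) (nat_lit 625) (nat_lit 4592)))) (.a (.f (nat_lit 463) (nat_lit 431) (nat_lit 7599) (.f (nat_lit 592) (nat_lit 495) (nat_lit 7631) (.f (nat_lit 625) (nat_lit 593) (nat_lit 4592) (.f (nat_lit 624) (nat_lit 657) (nat_lit 4624) (.f (nat_lit 655) (nat_lit 623) (nat_lit 5647) (.f (nat_lit 656) (nat_lit 687) (nat_lit 5679) (.f (nat_lit 527) (nat_lit 559) (nat_lit 7695) (.f (nat_lit 525) (nat_lit 497) (nat_lit 2541) (.f (nat_lit 492) (nat_lit 493) (nat_lit 3564) (.f (nat_lit 524) (nat_lit 491) (nat_lit 3563) (.d (nat_lit 556) (nat_lit 555) (nat_lit 1547) (nat_lit 557) (nat_lit 1548)))))))))))) (.f (nat_lit 431) (nat_lit 463) (nat_lit 7599) (.f (nat_lit 432) (nat_lit 399) (nat_lit 7567) (.f (nat_lit 527) (nat_lit 559) (nat_lit 5551) (.d (nat_lit 525) (nat_lit 497) (nat_lit 2541) (nat_lit 561) (nat_lit 525))))))))) (.a (.p (nat_lit 527) (.a (.d (nat_lit 525) (nat_lit 497) (nat_lit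 2541) (nat_lit 561) (nat_lit 525)) (.a (.f (nat_lit 525) (nat_lit 497) (nat_lit 2541) (.d (nat_lit 524) (nat_lit 495) (nat_lit 2540) (nat_lit 559) (nat_lit 524))) (.p (nat_lit 464) (.a (.f (nat_lit 432) (nat_lit 559) (nat_lit 5551) (.d (nat_lit 431) (nat_lit 399) (nat_lit 7567) (nat_lit 463) (nat_lit 7599))) (.a (.f (nat_lit 432) (nat_lit 559) (nat_lit 5551) (.f (nat_lit 400) (nat_lit 495) (nat_lit 5519) (.d (nat_lit 401) (nat_lit 369) (nat_lit 6512) (nat_lit 433) (nat_lit 6544)))) (.a (.f (nat_lit 431) (nat_lit 463) (nat_lit 7599) (.f (nat_lit 432) (nat_lit 399) (nat_lit 7567) (.f (nat_lit 401) (nat_lit 433) (nat_lit 6544) (.d (nat_lit 400) (nat_lit 369) (nat_lit 6512) (nat_lit 495) (nat_lit 5519))))) (.f (nat_lit 561) (nat_lit 593) (nat_lit 4560) (.d (nat_lit 562) (nat_lit 559) (nat_lit 3598) (nat_lit 563) (nat_lit 3599)))))))))) (.a (.p (nat_lit 494) (.a (.p (nat_lit 558) (.a (.p (nat_lit 464) (.a (.f (nat_lit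 561) (nat_lit 593) (nat_lit 4560) (.f (nat_lit 559) (nat_lit 525) (nat_lit 3597) (.f (nat_lit 589) (nat_lit 590) (nat_lit 1581) (.d (nat_lit 557) (nat_lit 462) (nat_lit 5581) (nat_lit 588) (nat_lit 1580))))) (.a (.f (nat_lit 431) (nat_lit 463) (nat_lit 7599) (.f (nat_lit 399) (nat_lit 432) (nat_lit 7567) (.f (nat_lit 462) (nat_lit 430) (nat_lit 6542) (.f (nat_lit 589) (nat_lit 557) (nat_lit 5581) (.f (nat_lit 590) (nat_lit 621) (nat_lit 5613) (.d (nat_lit 461) (nat_lit 429) (nat_lit 7597) (nat_lit 493) (nat_lit 7629))))))) (.a (.f (nat_lit 463) (nat_lit 431) (nat_lit 7599) (.f (nat_lit 495) (nat_lit 590) (nat_lit 6606) (.f (nat_lit 497) (nat_lit 525) (nat_lit 1517) (.d (nat_lit 462) (nat_lit 461) (nat_lit 461) (nat_lit 498) (nat_lit 3534))))) (.a (.f (nat_lit 463) (nat_lit 431) (nat_lit 7599) (.f (nat_lit 590) (nat_lit 495) (nat_lit 6606) (.f (nat_lit 589) (nat_lit 621) (nat_lit 5613) (.d (nat_lit 561) (nat_lit 559)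 (nat_lit 1581) (nat_lit 593) (nat_lit 4560))))) (.f (nat_lit 431) (nat_lit 463) (nat_lit 7599) (.f (nat_lit 432) (nat_lit 399) (nat_lit 7567) (.f (nat_lit 401) (nat_lit 433) (nat_lit 6544) (.f (nat_lit 400) (nat_lit 369) (nat_lit 6512) (.f (nat_lit 429) (nat_lit 430) (nat_lit 2445) (.f (nat_lit 461) (nat_lit 462) (nat_lit 7597) (.d (nat_lit 493) (nat_lit 397) (nat_lit 4493) (nat_lit 525) (nat_lit 4525))))))))))))) (.a (.p (nat_lit 462) (.a (.f (nat_lit 461) (nat_lit 429) (nat_lit 7597) (.f (nat_lit 495) (nat_lit 497) (nat_lit 3533) (.d (nat_lit 493) (nat_lit 460) (nat_lit 3532) (nat_lit 590) (nat_lit 7629)))) (.f (nat_lit 557) (nat_lit 589) (nat_lit 5581) (.f (nat_lit 525) (nat_lit 430) (nat_lit 5549) (.d (nat_lit 559) (nat_lit 524) (nat_lit 3596) (nat_lit 561) (nat_lit 3597)))))) (.a (.p (nat_lit 462) (.a (.f (nat_lit 461) (nat_lit 429) (nat_lit 7597) (.f (nat_lit 495) (nat_lit 497) (nat_lit 3533) (.d (nat_lit 493)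 (nat_lit 460) (nat_lit 3532) (nat_lit 590) (nat_lit 7629)))) (.a (.f (nat_lit 557) (nat_lit 589) (nat_lit 5581) (.f (nat_lit 525) (nat_lit 430) (nat_lit 5549) (.f (nat_lit 461) (nat_lit 429) (nat_lit 7597) (.f (nat_lit 493) (nat_lit 590) (nat_lit 4557) (.f (nat_lit 463) (nat_lit 431) (nat_lit 6574) (.d (nat_lit 464) (nat_lit 492) (nat_lit 1484) (nat_lit 497) (nat_lit 461))))))) (.a (.f (nat_lit 463) (nat_lit 431) (nat_lit 6574) (.f (nat_lit 461) (nat_lit 429) (nat_lit 7597) (.d (nat_lit 495) (nat_lit 460) (nat_lit 460) (nat_lit 590) (nat_lit 6606)))) (.a (.f (nat_lit 463) (nat_lit 431) (nat_lit 6574) (.f (nat_lit 495) (nat_lit 590) (nat_lit 6606) (.d (nat_lit 497) (nat_lit 498) (nat_lit 3534) (nat_lit 525) (nat_lit 1517)))) (.f (nat_lit 463) (nat_lit 431) (nat_lit 6574) (.f (nat_lit 461) (nat_lit 429) (nat_lit 7597) (.d (nat_lit 495) (nat_lit 460) (nat_lit 460) (nat_lit 497) (nat_lit 3533))))))))) (.a s30173 (.a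 (.p (nat_lit 462) (.a (.f (nat_lit 461) (nat_lit 429) (nat_lit 7597) (.f (nat_lit 495) (nat_lit 497) (nat_lit 3533) (.d (nat_lit 493) (nat_lit 460) (nat_lit 3532) (nat_lit 590) (nat_lit 7629)))) (.a (.f (nat_lit 431) (nat_lit 463) (nat_lit 6574) (.f (nat_lit 430) (nat_lit 399) (nat_lit 6542) (.d (nat_lit 429) (nat_lit 397) (nat_lit 7565) (nat_lit 461) (nat_lit 7597)))) (.f (nat_lit 463) (nat_lit 431) (nat_lit 6574) (.f (nat_lit 589) (nat_lit 557) (nat_lit 5581) (.d (nat_lit 590) (nat_lit 495) (nat_lit 6606) (nat_lit 621) (nat_lit 5613))))))) (.a (.p (nat_lit 464) (.a (.f (nat_lit 463) (nat_lit 431) (nat_lit 7599) (.f (nat_lit 495) (nat_lit 590) (nat_lit 6606) (.f (nat_lit 497) (nat_lit 525) (nat_lit 1517) (.d (nat_lit 462) (nat_lit 461) (nat_lit 461) (nat_lit 498) (nat_lit 3534))))) (.a (.f (nat_lit 561) (nat_lit 593) (nat_lit 4560) (.f (nat_lit 525) (nat_lit 559) (nat_lit 3597) (.f (nat_lit 495) (nat_lit 497) (nat_lit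 1517) (.d (nat_lit 524) (nat_lit 493) (nat_lit 1516) (nat_lit 523) (nat_lit 2539))))) (.a (.f (nat_lit 431) (nat_lit 463) (nat_lit 7599) (.f (nat_lit 432) (nat_lit 399) (nat_lit 7567) (.f (nat_lit 401) (nat_lit 433) (nat_lit 6544) (.f (nat_lit 400) (nat_lit 369) (nat_lit 6512) (.f (nat_lit 429) (nat_lit 430) (nat_lit 2445) (.f (nat_lit 461) (nat_lit 462) (nat_lit 7597) (.d (nat_lit 493) (nat_lit 397) (nat_lit 4493) (nat_lit 525) (nat_lit 4525)))))))) (.f (nat_lit 463) (nat_lit 431) (nat_lit 7599) (.f (nat_lit 590) (nat_lit 495) (nat_lit 6606) (.f (nat_lit 589) (nat_lit 621) (nat_lit 5613) (.d (nat_lit 561) (nat_lit 559) (nat_lit 1581) (nat_lit 593) (nat_lit 4560))))))))) (.a (.p (nat_lit 561) (.a (.f (nat_lit 525) (nat_lit 559) (nat_lit 3597) (.f (nat_lit 495) (nat_lit 497) (nat_lit 1517) (.d (nat_lit 524) (nat_lit 493) (nat_lit 1516) (nat_lit 523) (nat_lit 2539)))) (.a (.f (nat_lit 464) (nat_lit 593) (nat_lit 4560)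 (.f (nat_lit 463) (nat_lit 431) (nat_lit 7599) (.f (nat_lit 495) (nat_lit 590) (nat_lit 6606) (.f (nat_lit 493) (nat_lit 492) (nat_lit 2508) (.d (nat_lit 525) (nat_lit 497) (nat_lit 1517) (nat_lit 524) (nat_lit 1516)))))) (.a (.f (nat_lit 559) (nat_lit 525) (nat_lit 3597) (.d (nat_lit 593) (nat_lit 464) (nat_lit 4560) (nat_lit 594) (nat_lit 558))) (.f (nat_lit 464) (nat_lit 593) (nat_lit 4560) (.f (nat_lit 463) (nat_lit 431) (nat_lit 7599) (.f (nat_lit 590) (nat_lit 495) (nat_lit 6606) (.d (nat_lit 589) (nat_lit 559) (nat_lit 1581) (nat_lit 621) (nat_lit 5613))))))))) (.a (.p (nat_lit 464) (.a (.f (nat_lit 561) (nat_lit 593) (nat_lit 4560) (.f (nat_lit 559) (nat_lit 525) (nat_lit 3597) (.f (nat_lit 589) (nat_lit 590) (nat_lit 1581) (.d (nat_lit 557) (nat_lit 462) (nat_lit 5581) (nat_lit 588) (nat_lit 1580))))) (.a (.f (nat_lit 463) (nat_lit 431) (nat_lit 7599) (.f (nat_lit 495) (nat_lit 590) (nat_lit 6606) (.f (nat_lit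 497) (nat_lit 525) (nat_lit 1517) (.d (nat_lit 462) (nat_lit 461) (nat_lit 461) (nat_lit 498) (nat_lit 3534))))) (.a (.f (nat_lit 463) (nat_lit 431) (nat_lit 7599) (.f (nat_lit 590) (nat_lit 495) (nat_lit 6606) (.f (nat_lit 589) (nat_lit 621) (nat_lit 5613) (.d (nat_lit 561) (nat_lit 559) (nat_lit 1581) (nat_lit 593) (nat_lit 4560))))) (.f (nat_lit 463) (nat_lit 431) (nat_lit 7599) (.f (nat_lit 561) (nat_lit 593) (nat_lit 4560) (.f (nat_lit 525) (nat_lit 559) (nat_lit 3597) (.f (nat_lit 497) (nat_lit 495) (nat_lit 1517) (.f (nat_lit 462) (nat_lit 461) (nat_lit 461) (.d (nat_lit 557) (nat_lit 430) (nat_lit 5549) (nat_lit 589) (nat_lit 5581))))))))))) (.a (.p (nat_lit 464) (.a (.f (nat_lit 431) (nat_lit 463) (nat_lit 7599) (.f (nat_lit 432) (nat_lit 399) (nat_lit 7567) (.f (nat_lit 401) (nat_lit 433) (nat_lit 6544) (.f (nat_lit 400) (nat_lit 369) (nat_lit 6512) (.f (nat_lit 429) (nat_lit 430) (nat_lit 2445) (.f (nat_lit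 461) (nat_lit 462) (nat_lit 7597) (.d (nat_lit 493) (nat_lit 397) (nat_lit 4493) (nat_lit 525) (nat_lit 4525)))))))) (.a (.f (nat_lit 561) (nat_lit 593) (nat_lit 4560) (.f (nat_lit 525) (nat_lit 559) (nat_lit 3597) (.f (nat_lit 495) (nat_lit 497) (nat_lit 1517) (.d (nat_lit 524) (nat_lit 493) (nat_lit 1516) (nat_lit 523) (nat_lit 2539))))) (.a (.f (nat_lit 431) (nat_lit 463) (nat_lit 7599) (.f (nat_lit 399) (nat_lit 432) (nat_lit 7567) (.f (nat_lit 462) (nat_lit 430) (nat_lit 6542) (.f (nat_lit 461) (nat_lit 429) (nat_lit 7597) (.f (nat_lit 495) (nat_lit 497) (nat_lit 3533) (.d (nat_lit 460) (nat_lit 459) (nat_lit 459) (nat_lit 493) (nat_lit 3532))))))) (.f (nat_lit 463) (nat_lit 431) (nat_lit 7599) (.f (nat_lit 561) (nat_lit 593) (nat_lit 4560) (.f (nat_lit 525) (nat_lit 559) (nat_lit 3597) (.f (nat_lit 497) (nat_lit 495) (nat_lit 1517) (.f (nat_lit 462) (nat_lit 461) (nat_lit 461) (.d (nat_lit 557) (nat_lit 430)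 (nat_lit 5549) (nat_lit 589) (nat_lit 5581))))))))))) (.p (nat_lit 464) (.a (.f (nat_lit 463) (nat_lit 431) (nat_lit 7599) (.f (nat_lit 495) (nat_lit 590) (nat_lit 6606) (.f (nat_lit 497) (nat_lit 525) (nat_lit 1517) (.d (nat_lit 462) (nat_lit 461) (nat_lit 461) (nat_lit 498) (nat_lit 3534))))) (.a (.f (nat_lit 561) (nat_lit 593) (nat_lit 4560) (.f (nat_lit 525) (nat_lit 559) (nat_lit 3597) (.f (nat_lit 495) (nat_lit 497) (nat_lit 1517) (.d (nat_lit 524) (nat_lit 493) (nat_lit 1516) (nat_lit 523) (nat_lit 2539))))) (.a (.f (nat_lit 431) (nat_lit 463) (nat_lit 7599) (.f (nat_lit 432) (nat_lit 399) (nat_lit 7567) (.f (nat_lit 401) (nat_lit 433) (nat_lit 6544) (.f (nat_lit 400) (nat_lit 369) (nat_lit 6512) (.f (nat_lit 429) (nat_lit 430) (nat_lit 2445) (.f (nat_lit 461) (nat_lit 462) (nat_lit 7597) (.d (nat_lit 493) (nat_lit 397) (nat_lit 4493) (nat_lit 525) (nat_lit 4525)))))))) (.f (nat_lit 431) (nat_lit 463) (nat_lit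 7599) (.f (nat_lit 399) (nat_lit 432) (nat_lit 7567) (.f (nat_lit 462) (nat_lit 430) (nat_lit 6542) (.f (nat_lit 461) (nat_lit 429) (nat_lit 7597) (.f (nat_lit 495) (nat_lit 497) (nat_lit 3533) (.d (nat_lit 460) (nat_lit 459) (nat_lit 459) (nat_lit 493) (nat_lit 3532))))))))))))))))))))) (.a (.p (nat_lit 495) (.a (.f (nat_lit 525) (nat_lit 497) (nat_lit 1517) (.d (nat_lit 524) (nat_lit 493) (nat_lit 1516) (nat_lit 523) (nat_lit 2539))) (.f (nat_lit 463) (nat_lit 592) (nat_lit 7631) (.f (nat_lit 431) (nat_lit 399) (nat_lit 4495) (.d (nat_lit 558) (nat_lit 462) (nat_lit 6574) (nat_lit 590) (nat_lit 6606)))))) (.a (.p (nat_lit 558) (.a (.p (nat_lit 462) (.a (.f (nat_lit 461) (nat_lit 429) (nat_lit 7597) (.f (nat_lit 495) (nat_lit 497) (nat_lit 3533) (.d (nat_lit 493) (nat_lit 460) (nat_lit 3532) (nat_lit 590) (nat_lit 7629)))) (.f (nat_lit 557) (nat_lit 589) (nat_lit 5581) (.f (nat_lit 525) (nat_lit 430) (nat_lit 5549)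 (.d (nat_lit 559) (nat_lit 524) (nat_lit 3596) (nat_lit 561) (nat_lit 3597)))))) (.a (.p (nat_lit 462) (.a (.f (nat_lit 461) (nat_lit 429) (nat_lit 7597) (.f (nat_lit 495) (nat_lit 497) (nat_lit 3533) (.d (nat_lit 493) (nat_lit 460) (nat_lit 3532) (nat_lit 590) (nat_lit 7629)))) (.a (.f (nat_lit 589) (nat_lit 557) (nat_lit 5581) (.f (nat_lit 590) (nat_lit 621) (nat_lit 5613) (.d (nat_lit 461) (nat_lit 429) (nat_lit 7597) (nat_lit 493) (nat_lit 7629)))) (.f (nat_lit 557) (nat_lit 589) (nat_lit 5581) (.f (nat_lit 525) (nat_lit 430) (nat_lit 5549) (.f (nat_lit 524) (nat_lit 559) (nat_lit 3596) (.d (nat_lit 495) (nat_lit 497) (nat_lit 1517) (nat_lit 523) (nat_lit 2539)))))))) (.a (.p (nat_lit 462) (.a (.f (nat_lit 461) (nat_lit 429) (nat_lit 7597) (.f (nat_lit 495) (nat_lit 497) (nat_lit 3533) (.d (nat_lit 493) (nat_lit 460) (nat_lit 3532) (nat_lit 590) (nat_lit 7629)))) (.a (.f (nat_lit 589) (nat_lit 557) (nat_lit 5581)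 (.f (nat_lit 590) (nat_lit 621) (nat_lit 5613) (.d (nat_lit 461) (nat_lit 429) (nat_lit 7597) (nat_lit 493) (nat_lit 7629)))) (.a (.f (nat_lit 557) (nat_lit 589) (nat_lit 5581) (.f (nat_lit 430) (nat_lit 525) (nat_lit 5549) (.d (nat_lit 429) (nat_lit 397) (nat_lit 7565) (nat_lit 461) (nat_lit 7597)))) (.f (nat_lit 557) (nat_lit 589) (nat_lit 5581) (.f (nat_lit 525) (nat_lit 430) (nat_lit 5549) (.f (nat_lit 495) (nat_lit 497) (nat_lit 1517) (.d (nat_lit 524) (nat_lit 493) (nat_lit 1516) (nat_lit 523) (nat_lit 2539))))))))) (.a (.p (nat_lit 561) (.a (.f (nat_lit 559) (nat_lit 525) (nat_lit 3597) (.d (nat_lit 593) (nat_lit 464) (nat_lit 4560) (nat_lit 594) (nat_lit 558))) (.a (.f (nat_lit 559) (nat_lit 525) (nat_lit 3597) (.f (nat_lit 589) (nat_lit 590) (nat_lit 1581) (.d (nat_lit 557) (nat_lit 462) (nat_lit 5581) (nat_lit 588) (nat_lit 1580)))) (.f (nat_lit 593) (nat_lit 464) (nat_lit 4560) (.d (nat_lit 625) (nat_lit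 592) (nat_lit 4592) (nat_lit 657) (nat_lit 7696)))))) (.a (.p (nat_lit 462) (.a (.f (nat_lit 461) (nat_lit 429) (nat_lit 7597) (.f (nat_lit 495) (nat_lit 497) (nat_lit 3533) (.d (nat_lit 493) (nat_lit 460) (nat_lit 3532) (nat_lit 590) (nat_lit 7629)))) (.a (.f (nat_lit 589) (nat_lit 557) (nat_lit 5581) (.f (nat_lit 590) (nat_lit 621) (nat_lit 5613) (.d (nat_lit 461) (nat_lit 429) (nat_lit 7597) (nat_lit 493) (nat_lit 7629)))) (.a (.f (nat_lit 589) (nat_lit 557) (nat_lit 5581) (.f (nat_lit 590) (nat_lit 621) (nat_lit 5613) (.f (nat_lit 561) (nat_lit 559) (nat_lit 1581) (.f (nat_lit 593) (nat_lit 464) (nat_lit 4560) (.d (nat_lit 625) (nat_lit 592) (nat_lit 4592) (nat_lit 657) (nat_lit 7696)))))) (.f (nat_lit 461) (nat_lit 429) (nat_lit 7597) (.f (nat_lit 495) (nat_lit 497) (nat_lit 3533) (.d (nat_lit 460) (nat_lit 459) (nat_lit 459) (nat_lit 493) (nat_lit 3532)))))))) (.p (nat_lit 561) (.a (.f (nat_lit 525) (nat_lit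 559) (nat_lit 3597) (.f (nat_lit 495) (nat_lit 497) (nat_lit 1517) (.d (nat_lit 524) (nat_lit 493) (nat_lit 1516) (nat_lit 523) (nat_lit 2539)))) (.f (nat_lit 593) (nat_lit 464) (nat_lit 4560) (.d (nat_lit 625) (nat_lit 592) (nat_lit 4592) (nat_lit 657) (nat_lit 7696))))))))))) (.a (.p (nat_lit 558) (.a s30173 (.a (.p (nat_lit 462) (.a (.f (nat_lit 557) (nat_lit 589) (nat_lit 5581) (.f (nat_lit 525) (nat_lit 430) (nat_lit 5549) (.d (nat_lit 559) (nat_lit 524) (nat_lit 3596) (nat_lit 561) (nat_lit 3597)))) (.a (.f (nat_lit 431) (nat_lit 463) (nat_lit 6574) (.f (nat_lit 430) (nat_lit 399) (nat_lit 6542) (.d (nat_lit 429) (nat_lit 397) (nat_lit 7565) (nat_lit 461) (nat_lit 7597)))) (.f (nat_lit 589) (nat_lit 557) (nat_lit 5581) (.f (nat_lit 590) (nat_lit 621) (nat_lit 5613) (.d (nat_lit 461) (nat_lit 429) (nat_lit 7597) (nat_lit 493) (nat_lit 7629))))))) (.a (.p (nat_lit 462) (.a (.f (nat_lit 557) (nat_lit 589) (nat_lit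 5581) (.f (nat_lit 525) (nat_lit 430) (nat_lit 5549) (.f (nat_lit 461) (nat_lit 429) (nat_lit 7597) (.f (nat_lit 493) (nat_lit 590) (nat_lit 4557) (.f (nat_lit 463) (nat_lit 431) (nat_lit 6574) (.d (nat_lit 464) (nat_lit 492) (nat_lit 1484) (nat_lit 497) (nat_lit 461))))))) (.a (.f (nat_lit 431) (nat_lit 463) (nat_lit 6574) (.f (nat_lit 430) (nat_lit 399) (nat_lit 6542) (.d (nat_lit 429) (nat_lit 397) (nat_lit 7565) (nat_lit 461) (nat_lit 7597)))) (.a (.f (nat_lit 589) (nat_lit 557) (nat_lit 5581) (.f (nat_lit 590) (nat_lit 621) (nat_lit 5613) (.d (nat_lit 461) (nat_lit 429) (nat_lit 7597) (nat_lit 493) (nat_lit 7629)))) (.f (nat_lit 557) (nat_lit 589) (nat_lit 5581) (.f (nat_lit 430) (nat_lit 525) (nat_lit 5549) (.d (nat_lit 431) (nat_lit 399) (nat_lit 6542) (nat_lit 463) (nat_lit 6574)))))))) (.a (.p (nat_lit 561) (.a (.f (nat_lit 559) (nat_lit 525) (nat_lit 3597) (.d (nat_lit 593) (nat_lit 464) (nat_lit 4560)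 (nat_lit 594) (nat_lit 558))) (.a (.f (nat_lit 559) (nat_lit 525) (nat_lit 3597) (.f (nat_lit 589) (nat_lit 590) (nat_lit 1581) (.d (nat_lit 557) (nat_lit 462) (nat_lit 5581) (nat_lit 588) (nat_lit 1580)))) (.f (nat_lit 593) (nat_lit 464) (nat_lit 4560) (.d (nat_lit 625) (nat_lit 592) (nat_lit 4592) (nat_lit 657) (nat_lit 7696)))))) (.a (.p (nat_lit 462) (.a (.f (nat_lit 431) (nat_lit 463) (nat_lit 6574) (.f (nat_lit 430) (nat_lit 399) (nat_lit 6542) (.d (nat_lit 429) (nat_lit 397) (nat_lit 7565) (nat_lit 461) (nat_lit 7597)))) (.a (.f (nat_lit 589) (nat_lit 557) (nat_lit 5581) (.f (nat_lit 590) (nat_lit 621) (nat_lit 5613) (.d (nat_lit 461) (nat_lit 429) (nat_lit 7597) (nat_lit 493) (nat_lit 7629)))) (.f (nat_lit 589) (nat_lit 557) (nat_lit 5581) (.f (nat_lit 590) (nat_lit 621) (nat_lit 5613) (.f (nat_lit 561) (nat_lit 559) (nat_lit 1581) (.f (nat_lit 593) (nat_lit 464) (nat_lit 4560) (.d (nat_lit 625) (nat_lit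 592) (nat_lit 4592) (nat_lit 657) (nat_lit 7696))))))))) (.a s30265 (.a (.p (nat_lit 462) (.a (.f (nat_lit 557) (nat_lit 589) (nat_lit 5581) (.f (nat_lit 525) (nat_lit 430) (nat_lit 5549) (.d (nat_lit 559) (nat_lit 524) (nat_lit 3596) (nat_lit 561) (nat_lit 3597)))) (.a (.f (nat_lit 431) (nat_lit 463) (nat_lit 6574) (.f (nat_lit 430) (nat_lit 399) (nat_lit 6542) (.d (nat_lit 429) (nat_lit 397) (nat_lit 7565) (nat_lit 461) (nat_lit 7597)))) (.f (nat_lit 557) (nat_lit 589) (nat_lit 5581) (.f (nat_lit 463) (nat_lit 431) (nat_lit 6574) (.f (nat_lit 461) (nat_lit 429) (nat_lit 7597) (.f (nat_lit 464) (nat_lit 497) (nat_lit 461) (.f (nat_lit 593) (nat_lit 561) (nat_lit 4560) (.d (nat_lit 592) (nat_lit 559) (nat_lit 557) (nat_lit 625) (nat_lit 4592)))))))))) (.p (nat_lit 462) (.a (.f (nat_lit 431) (nat_lit 463) (nat_lit 6574) (.f (nat_lit 430) (nat_lit 399) (nat_lit 6542) (.d (nat_lit 429) (nat_lit 397) (nat_lit 7565) (nat_lit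 461) (nat_lit 7597)))) (.a (.f (nat_lit 429) (nat_lit 461) (nat_lit 7597) (.f (nat_lit 430) (nat_lit 397) (nat_lit 7565) (.f (nat_lit 525) (nat_lit 557) (nat_lit 5549) (.f (nat_lit 399) (nat_lit 431) (nat_lit 6542) (.d (nat_lit 398) (nat_lit 367) (nat_lit 6510) (nat_lit 493) (nat_lit 5517)))))) (.a (.f (nat_lit 429) (nat_lit 461) (nat_lit 7597) (.f (nat_lit 430) (nat_lit 397) (nat_lit 7565) (.f (nat_lit 525) (nat_lit 557) (nat_lit 5549) (.f (nat_lit 561) (nat_lit 559) (nat_lit 3597) (.f (nat_lit 593) (nat_lit 464) (nat_lit 4560) (.d (nat_lit 625) (nat_lit 592) (nat_lit 4592) (nat_lit 657) (nat_lit 7696))))))) (.a (.f (nat_lit 431) (nat_lit 463) (nat_lit 6574) (.f (nat_lit 430) (nat_lit 399) (nat_lit 6542) (.f (nat_lit 397) (nat_lit 429) (nat_lit 7565) (.f (nat_lit 398) (nat_lit 365) (nat_lit 7533) (.f (nat_lit 525) (nat_lit 493) (nat_lit 5517) (.f (nat_lit 561) (nat_lit 559) (nat_lit 3597) (.f (nat_lit 593) (nat_lit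 464) (nat_lit 4560) (.d (nat_lit 625) (nat_lit 592) (nat_lit 4592) (nat_lit 657) (nat_lit 7696))))))))) (.a (.f (nat_lit 461) (nat_lit 429) (nat_lit 7597) (.f (nat_lit 463) (nat_lit 431) (nat_lit 6574) (.f (nat_lit 493) (nat_lit 590) (nat_lit 7629) (.d (nat_lit 464) (nat_lit 492) (nat_lit 1484) (nat_lit 497) (nat_lit 461))))) (.f (nat_lit 431) (nat_lit 463) (nat_lit 6574) (.f (nat_lit 430) (nat_lit 399) (nat_lit 6542) (.f (nat_lit 525) (nat_lit 557) (nat_lit 5549) (.f (nat_lit 493) (nat_lit 398) (nat_lit 5517) (.d (nat_lit 590) (nat_lit 461) (nat_lit 7629) (nat_lit 622) (nat_lit 7661)))))))))))))))))))) (.a (.p (nat_lit 462) (.a (.p (nat_lit 558) (.a (.f (nat_lit 461) (nat_lit 429) (nat_lit 7597) (.f (nat_lit 495) (nat_lit 497) (nat_lit 3533) (.d (nat_lit 493) (nat_lit 460) (nat_lit 3532) (nat_lit 590) (nat_lit 7629)))) (.a (.f (nat_lit 431) (nat_lit 463) (nat_lit 6574) (.f (nat_lit 430) (nat_lit 399) (nat_lit 6542)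 (.d (nat_lit 429) (nat_lit 397) (nat_lit 7565) (nat_lit 461) (nat_lit 7597)))) (.f (nat_lit 463) (nat_lit 431) (nat_lit 6574) (.f (nat_lit 589) (nat_lit 557) (nat_lit 5581) (.d (nat_lit 590) (nat_lit 495) (nat_lit 6606) (nat_lit 621) (nat_lit 5613))))))) (.a (.p (nat_lit 558) (.a (.f (nat_lit 461) (nat_lit 429) (nat_lit 7597) (.f (nat_lit 495) (nat_lit 497) (nat_lit 3533) (.d (nat_lit 493) (nat_lit 460) (nat_lit 3532) (nat_lit 590) (nat_lit 7629)))) (.a (.f (nat_lit 589) (nat_lit 557) (nat_lit 5581) (.f (nat_lit 590) (nat_lit 621) (nat_lit 5613) (.d (nat_lit 461) (nat_lit 429) (nat_lit 7597) (nat_lit 493) (nat_lit 7629)))) (.a (.f (nat_lit 589) (nat_lit 557) (nat_lit 5581) (.f (nat_lit 590) (nat_lit 621) (nat_lit 5613) (.f (nat_lit 561) (nat_lit 559) (nat_lit 1581) (.f (nat_lit 593) (nat_lit 464) (nat_lit 4560) (.d (nat_lit 625) (nat_lit 592) (nat_lit 4592) (nat_lit 657) (nat_lit 7696)))))) (.f (nat_lit 461) (nat_lit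 429) (nat_lit 7597) (.f (nat_lit 495) (nat_lit 497) (nat_lit 3533) (.d (nat_lit 460) (nat_lit 459) (nat_lit 459) (nat_lit 493) (nat_lit 3532)))))))) (.a (.p (nat_lit 558) (.a (.f (nat_lit 431) (nat_lit 463) (nat_lit 6574) (.f (nat_lit 430) (nat_lit 399) (nat_lit 6542) (.d (nat_lit 429) (nat_lit 397) (nat_lit 7565) (nat_lit 461) (nat_lit 7597)))) (.a (.f (nat_lit 589) (nat_lit 557) (nat_lit 5581) (.f (nat_lit 590) (nat_lit 621) (nat_lit 5613) (.d (nat_lit 461) (nat_lit 429) (nat_lit 7597) (nat_lit 493) (nat_lit 7629)))) (.f (nat_lit 589) (nat_lit 557) (nat_lit 5581) (.f (nat_lit 590) (nat_lit 621) (nat_lit 5613) (.f (nat_lit 561) (nat_lit 559) (nat_lit 1581) (.f (nat_lit 593) (nat_lit 464) (nat_lit 4560) (.d (nat_lit 625) (nat_lit 592) (nat_lit 4592) (nat_lit 657) (nat_lit 7696))))))))) (.a (.p (nat_lit 463) (.a (.f (nat_lit 495) (nat_lit 592) (nat_lit 7631) (.d (nat_lit 431) (nat_lit 399) (nat_lit 5518) (nat_lit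 464) (nat_lit 7599))) (.a (.f (nat_lit 431) (nat_lit 464) (nat_lit 7599) (.d (nat_lit 399) (nat_lit 430) (nat_lit 6542) (nat_lit 495) (nat_lit 4495))) (.a (.f (nat_lit 495) (nat_lit 592) (nat_lit 7631) (.d (nat_lit 461) (nat_lit 460) (nat_lit 460) (nat_lit 497) (nat_lit 3533))) (.f (nat_lit 464) (nat_lit 431) (nat_lit 7599) (.f (nat_lit 461) (nat_lit 497) (nat_lit 461) (.f (nat_lit 429) (nat_lit 428) (nat_lit 3500) (.d (nat_lit 397) (nat_lit 365) (nat_lit 4461) (nat_lit 493) (nat_lit 4493))))))))) (.a (.p (nat_lit 558) (.a (.f (nat_lit 463) (nat_lit 431) (nat_lit 6574) (.f (nat_lit 461) (nat_lit 429) (nat_lit 7597) (.d (nat_lit 495) (nat_lit 460) (nat_lit 460) (nat_lit 590) (nat_lit 6606)))) (.a (.f (nat_lit 589) (nat_lit 557) (nat_lit 5581) (.f (nat_lit 590) (nat_lit 621) (nat_lit 5613) (.f (nat_lit 561) (nat_lit 559) (nat_lit 1581) (.f (nat_lit 593) (nat_lit 464) (nat_lit 4560) (.d (nat_lit 625) (nat_lit 592) (nat_lit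 4592) (nat_lit 657) (nat_lit 7696)))))) (.f (nat_lit 463) (nat_lit 431) (nat_lit 6574) (.f (nat_lit 461) (nat_lit 429) (nat_lit 7597) (.d (nat_lit 495) (nat_lit 460) (nat_lit 460) (nat_lit 497) (nat_lit 3533))))))) (.p (nat_lit 558) (.a (.f (nat_lit 463) (nat_lit 431) (nat_lit 6574) (.f (nat_lit 589) (nat_lit 557) (nat_lit 5581) (.d (nat_lit 590) (nat_lit 495) (nat_lit 6606) (nat_lit 621) (nat_lit 5613)))) (.a (.f (nat_lit 589) (nat_lit 557) (nat_lit 5581) (.f (nat_lit 590) (nat_lit 621) (nat_lit 5613) (.f (nat_lit 561) (nat_lit 559) (nat_lit 1581) (.f (nat_lit 593) (nat_lit 464) (nat_lit 4560) (.d (nat_lit 625) (nat_lit 592) (nat_lit 4592) (nat_lit 657) (nat_lit 7696)))))) (.a (.f (nat_lit 463) (nat_lit 431) (nat_lit 6574) (.d (nat_lit 495) (nat_lit 590) (nat_lit 6606) (nat_lit 592) (nat_lit 7631))) (.f (nat_lit 463) (nat_lit 431) (nat_lit 6574) (.f (nat_lit 592) (nat_lit 495) (nat_lit 7631) (.f (nat_lit 593) (nat_lit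 625) (nat_lit 4592) (.d (nat_lit 557) (nat_lit 559) (nat_lit 557) (nat_lit 589) (nat_lit 5581))))))))))))))) (.a (.p (nat_lit 558) (.a s30173 (.a (.p (nat_lit 462) (.a (.f (nat_lit 557) (nat_lit 589) (nat_lit 5581) (.f (nat_lit 525) (nat_lit 430) (nat_lit 5549) (.d (nat_lit 559) (nat_lit 524) (nat_lit 3596) (nat_lit 561) (nat_lit 3597)))) (.f (nat_lit 463) (nat_lit 431) (nat_lit 6574) (.f (nat_lit 461) (nat_lit 429) (nat_lit 7597) (.d (nat_lit 495) (nat_lit 460) (nat_lit 460) (nat_lit 590) (nat_lit 6606)))))) (.a (.p (nat_lit 462) (.a (.f (nat_lit 463) (nat_lit 431) (nat_lit 6574) (.f (nat_lit 461) (nat_lit 429) (nat_lit 7597) (.d (nat_lit 495) (nat_lit 460) (nat_lit 460) (nat_lit 590) (nat_lit 6606)))) (.a (.f (nat_lit 589) (nat_lit 557) (nat_lit 5581) (.f (nat_lit 590) (nat_lit 621) (nat_lit 5613) (.d (nat_lit 461) (nat_lit 429) (nat_lit 7597) (nat_lit 493) (nat_lit 7629)))) (.a (.f (nat_lit 463) (nat_lit 431)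 (nat_lit 6574) (.f (nat_lit 589) (nat_lit 557) (nat_lit 5581) (.d (nat_lit 590) (nat_lit 495) (nat_lit 6606) (nat_lit 621) (nat_lit 5613)))) (.f (nat_lit 431) (nat_lit 463) (nat_lit 6574) (.f (nat_lit 430) (nat_lit 399) (nat_lit 6542) (.d (nat_lit 429) (nat_lit 397) (nat_lit 7565) (nat_lit 461) (nat_lit 7597)))))))) (.a (.p (nat_lit 561) (.a (.f (nat_lit 559) (nat_lit 525) (nat_lit 3597) (.d (nat_lit 593) (nat_lit 464) (nat_lit 4560) (nat_lit 594) (nat_lit 558))) (.a (.f (nat_lit 559) (nat_lit 525) (nat_lit 3597) (.f (nat_lit 589) (nat_lit 590) (nat_lit 1581) (.d (nat_lit 557) (nat_lit 462) (nat_lit 5581) (nat_lit 588) (nat_lit 1580)))) (.f (nat_lit 593) (nat_lit 464) (nat_lit 4560) (.d (nat_lit 625) (nat_lit 592) (nat_lit 4592) (nat_lit 657) (nat_lit 7696)))))) (.a s30265 (.a (.p (nat_lit 464) (.a (.f (nat_lit 431) (nat_lit 463) (nat_lit 7599) (.f (nat_lit 432) (nat_lit 399) (nat_lit 7567) (.f (nat_lit 401) (nat_lit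 433) (nat_lit 6544) (.f (nat_lit 400) (nat_lit 369) (nat_lit 6512) (.f (nat_lit 429) (nat_lit 430) (nat_lit 2445) (.f (nat_lit 461) (nat_lit 462) (nat_lit 7597) (.d (nat_lit 493) (nat_lit 397) (nat_lit 4493) (nat_lit 525) (nat_lit 4525)))))))) (.a (.f (nat_lit 593) (nat_lit 561) (nat_lit 4560) (.f (nat_lit 592) (nat_lit 625) (nat_lit 4592) (.f (nat_lit 557) (nat_lit 559) (nat_lit 557) (.f (nat_lit 462) (nat_lit 589) (nat_lit 5581) (.f (nat_lit 430) (nat_lit 525) (nat_lit 5549) (.d (nat_lit 429) (nat_lit 397) (nat_lit 7565) (nat_lit 461) (nat_lit 7597))))))) (.a (.f (nat_lit 431) (nat_lit 463) (nat_lit 7599) (.f (nat_lit 593) (nat_lit 561) (nat_lit 4560) (.f (nat_lit 592) (nat_lit 625) (nat_lit 4592) (.f (nat_lit 432) (nat_lit 399) (nat_lit 7567) (.f (nat_lit 401) (nat_lit 433) (nat_lit 6544) (.f (nat_lit 400) (nat_lit 369) (nat_lit 6512) (.f (nat_lit 429) (nat_lit 430) (nat_lit 2445) (.f (nat_lit 557) (nat_lit 559)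 (nat_lit 557) (.d (nat_lit 462) (nat_lit 461) (nat_lit 7597) (nat_lit 589) (nat_lit 5581)))))))))) (.a (.f (nat_lit 463) (nat_lit 431) (nat_lit 7599) (.f (nat_lit 495) (nat_lit 592) (nat_lit 7631) (.f (nat_lit 493) (nat_lit 492) (nat_lit 2508) (.f (nat_lit 525) (nat_lit 524) (nat_lit 1516) (.d (nat_lit 461) (nat_lit 429) (nat_lit 4525) (nat_lit 460) (nat_lit 3532)))))) (.f (nat_lit 463) (nat_lit 431) (nat_lit 7599) (.f (nat_lit 593) (nat_lit 561) (nat_lit 4560) (.d (nat_lit 592) (nat_lit 495) (nat_lit 7631) (nat_lit 625) (nat_lit 4592))))))))) (.p (nat_lit 592) (.a (.f (nat_lit 593) (nat_lit 625) (nat_lit 4592) (.f (nat_lit 559) (nat_lit 557) (nat_lit 557) (.d (nat_lit 561) (nat_lit 525) (nat_lit 3597) (nat_lit 594) (nat_lit 558)))) (.f (nat_lit 463) (nat_lit 495) (nat_lit 7631) (.d (nat_lit 431) (nat_lit 462) (nat_lit 6574) (nat_lit 464) (nat_lit 7599)))))))))))) (.a (.p (nat_lit 495) (.a (.f (nat_lit 525) (nat_lit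 497) (nat_lit 1517) (.d (nat_lit 524) (nat_lit 493) (nat_lit 1516) (nat_lit 523) (nat_lit 2539))) (.f (nat_lit 463) (nat_lit 592) (nat_lit 7631) (.d (nat_lit 431) (nat_lit 399) (nat_lit 4495) (nat_lit 464) (nat_lit 7599))))) (.p (nat_lit 463) (.a (.f (nat_lit 431) (nat_lit 464) (nat_lit 7599) (.f (nat_lit 495) (nat_lit 399) (nat_lit 4495) (.d (nat_lit 558) (nat_lit 462) (nat_lit 6574) (nat_lit 590) (nat_lit 6606)))) (.a (.f (nat_lit 495) (nat_lit 592) (nat_lit 7631) (.f (nat_lit 431) (nat_lit 399) (nat_lit 4495) (.d (nat_lit 558) (nat_lit 462) (nat_lit 6574) (nat_lit 590) (nat_lit 6606)))) (.a (.f (nat_lit 431) (nat_lit 464) (nat_lit 7599) (.f (nat_lit 462) (nat_lit 558) (nat_lit 6574) (.d (nat_lit 399) (nat_lit 367) (nat_lit 5486) (nat_lit 430) (nat_lit 6542)))) (.a (.f (nat_lit 495) (nat_lit 592) (nat_lit 7631) (.f (nat_lit 497) (nat_lit 525) (nat_lit 1517) (.d (nat_lit 462) (nat_lit 461) (nat_lit 3533) (nat_lit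 498) (nat_lit 3534)))) (.f (nat_lit 495) (nat_lit 592) (nat_lit 7631) (.d (nat_lit 431) (nat_lit 399) (nat_lit 4495) (nat_lit 464) (nat_lit 7599)))))))))))))))) (.a (.p (nat_lit 495) (.a (.p (nat_lit 525) (.a (.d (nat_lit 527) (nat_lit 524) (nat_lit 2540) (nat_lit 561) (nat_lit 525)) (.a (.f (nat_lit 494) (nat_lit 497) (nat_lit 1517) (.d (nat_lit 524) (nat_lit 493) (nat_lit 1516) (nat_lit 523) (nat_lit 2539))) (.d (nat_lit 497) (nat_lit 494) (nat_lit 1517) (nat_lit 527) (nat_lit 2541))))) (.a (.p (nat_lit 494) (.a (.f (nat_lit 525) (nat_lit 497) (nat_lit 1517) (.d (nat_lit 524) (nat_lit 493) (nat_lit 1516) (nat_lit 523) (nat_lit 2539))) (.f (nat_lit 463) (nat_lit 592) (nat_lit 7631) (.f (nat_lit 431) (nat_lit 399) (nat_lit 4495) (.d (nat_lit 558) (nat_lit 462) (nat_lit 6574) (nat_lit 590) (nat_lit 6606)))))) (.f (nat_lit 463) (nat_lit 592) (nat_lit 7631) (.d (nat_lit 431) (nat_lit 399) (nat_lit 4495) (nat_lit 527)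 (nat_lit 4527)))))) (.a (.p (nat_lit 525) (.a (.f (nat_lit 527) (nat_lit 497) (nat_lit 2541) (.d (nat_lit 524) (nat_lit 495) (nat_lit 2540) (nat_lit 559) (nat_lit 524))) (.a (.p (nat_lit 495) (.a (.f (nat_lit 494) (nat_lit 497) (nat_lit 1517) (.d (nat_lit 524) (nat_lit 493) (nat_lit 1516) (nat_lit 523) (nat_lit 2539))) (.f (nat_lit 463) (nat_lit 592) (nat_lit 7631) (.d (nat_lit 431) (nat_lit 399) (nat_lit 4495) (nat_lit 464) (nat_lit 7599))))) (.a (.f (nat_lit 527) (nat_lit 497) (nat_lit 2541) (.f (nat_lit 524) (nat_lit 559) (nat_lit 524) (.d (nat_lit 556) (nat_lit 555) (nat_lit 1547) (nat_lit 557) (nat_lit 1548)))) (.a (.p (nat_lit 495) (.a (.f (nat_lit 463) (nat_lit 592) (nat_lit 7631) (.d (nat_lit 431) (nat_lit 399) (nat_lit 4495) (nat_lit 464) (nat_lit 7599))) (.f (nat_lit 524) (nat_lit 527) (nat_lit 2540) (.d (nat_lit 494) (nat_lit 493) (nat_lit 1516) (nat_lit 523) (nat_lit 2539))))) (.f (nat_lit 497) (nat_lit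 527) (nat_lit 2541) (.f (nat_lit 495) (nat_lit 494) (nat_lit 1517) (.f (nat_lit 463) (nat_lit 592) (nat_lit 7631) (.d (nat_lit 431) (nat_lit 399) (nat_lit 4495) (nat_lit 464) (nat_lit 7599)))))))))) (.a (.p (nat_lit 561) (.a (.f (nat_lit 527) (nat_lit 525) (nat_lit 525) (.d (nat_lit 562) (nat_lit 559) (nat_lit 3598) (nat_lit 563) (nat_lit 3599))) (.f (nat_lit 593) (nat_lit 464) (nat_lit 4560) (.d (nat_lit 625) (nat_lit 592) (nat_lit 4592) (nat_lit 657) (nat_lit 7696))))) (.p (nat_lit 592) (.a (.f (nat_lit 593) (nat_lit 625) (nat_lit 4592) (.f (nat_lit 495) (nat_lit 463) (nat_lit 7631) (.f (nat_lit 527) (nat_lit 624) (nat_lit 7663) (.f (nat_lit 561) (nat_lit 464) (nat_lit 4560) (.d (nat_lit 562) (nat_lit 559) (nat_lit 3598) (nat_lit 563) (nat_lit 3599)))))) (.a (.f (nat_lit 593) (nat_lit 625) (nat_lit 4592) (.f (nat_lit 464) (nat_lit 561) (nat_lit 4560) (.d (nat_lit 463) (nat_lit 431) (nat_lit 7599) (nat_lit 495)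 (nat_lit 7631)))) (.a (.f (nat_lit 495) (nat_lit 463) (nat_lit 7631) (.f (nat_lit 624) (nat_lit 527) (nat_lit 7663) (.d (nat_lit 625) (nat_lit 593) (nat_lit 4592) (nat_lit 657) (nat_lit 4624)))) (.a (.f (nat_lit 495) (nat_lit 463) (nat_lit 7631) (.f (nat_lit 624) (nat_lit 527) (nat_lit 7663) (.f (nat_lit 655) (nat_lit 623) (nat_lit 5647) (.f (nat_lit 656) (nat_lit 687) (nat_lit 5679) (.d (nat_lit 657) (nat_lit 625) (nat_lit 4624) (nat_lit 689) (nat_lit 4656)))))) (.a (.f (nat_lit 625) (nat_lit 593) (nat_lit 4592) (.f (nat_lit 624) (nat_lit 657) (nat_lit 4624) (.f (nat_lit 527) (nat_lit 495) (nat_lit 7663) (.f (nat_lit 655) (nat_lit 623) (nat_lit 5647) (.d (nat_lit 656) (nat_lit 559) (nat_lit 7695) (nat_lit 687) (nat_lit 5679)))))) (.a (.p (nat_lit 561) (.a (.f (nat_lit 495) (nat_lit 463) (nat_lit 7631) (.f (nat_lit 527) (nat_lit 624) (nat_lit 7663) (.d (nat_lit 562) (nat_lit 559) (nat_lit 3598) (nat_lit 563) (nat_lit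 3599)))) (.a (.f (nat_lit 464) (nat_lit 593) (nat_lit 4560) (.d (nat_lit 463) (nat_lit 431) (nat_lit 7599) (nat_lit 495) (nat_lit 7631))) (.p (nat_lit 562) (.a (.f (nat_lit 593) (nat_lit 464) (nat_lit 4560) (.f (nat_lit 563) (nat_lit 564) (nat_lit 1584) (.f (nat_lit 595) (nat_lit 596) (nat_lit 560) (.f (nat_lit 594) (nat_lit 559) (nat_lit 559) (.f (nat_lit 627) (nat_lit 628) (nat_lit 592) (.d (nat_lit 530) (nat_lit 498) (nat_lit 4594) (nat_lit 659) (nat_lit 7698))))))) (.a (.d (nat_lit 527) (nat_lit 559) (nat_lit 3598) (nat_lit 563) (nat_lit 3599)) (.a (.f (nat_lit 563) (nat_lit 527) (nat_lit 3599) (.d (nat_lit 593) (nat_lit 464) (nat_lit 4560) (nat_lit 564) (nat_lit 1584))) (.f (nat_lit 559) (nat_lit 527) (nat_lit 3598) (.f (nat_lit 593) (nat_lit 464) (nat_lit 4560) (.d (nat_lit 558) (nat_lit 557) (nat_lit 557) (nat_lit 594) (nat_lit 558))))))))))) (.f (nat_lit 593) (nat_lit 625) (nat_lit 4592) (.p (nat_lit 594)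 (.a (.f (nat_lit 595) (nat_lit 559) (nat_lit 3631) (.d (nat_lit 561) (nat_lit 464) (nat_lit 4560) (nat_lit 596) (nat_lit 3632))) (.a (.f (nat_lit 595) (nat_lit 559) (nat_lit 3631) (.f (nat_lit 596) (nat_lit 561) (nat_lit 3632) (.d (nat_lit 564) (nat_lit 563) (nat_lit 2608) (nat_lit 565) (nat_lit 2609)))) (.a (.f (nat_lit 595) (nat_lit 559) (nat_lit 3631) (.f (nat_lit 564) (nat_lit 563) (nat_lit 2608) (.f (nat_lit 596) (nat_lit 565) (nat_lit 2609) (.d (nat_lit 628) (nat_lit 627) (nat_lit 592) (nat_lit 629) (nat_lit 593))))) (.a (.f (nat_lit 561) (nat_lit 464) (nat_lit 4560) (.f (nat_lit 595) (nat_lit 596) (nat_lit 3632) (.f (nat_lit 563) (nat_lit 564) (nat_lit 2608) (.f (nat_lit 627) (nat_lit 628) (nat_lit 592) (.f (nat_lit 562) (nat_lit 527) (nat_lit 3599) (.d (nat_lit 530) (nat_lit 498) (nat_lit 4594) (nat_lit 659) (nat_lit 7698))))))) (.f (nat_lit 561) (nat_lit 464) (nat_lit 4560) (.f (nat_lit 559) (nat_lit 558)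 (nat_lit 558) (.f (nat_lit 562) (nat_lit 527) (nat_lit 3598) (.f (nat_lit 563) (nat_lit 564) (nat_lit 1584) (.d (nat_lit 531) (nat_lit 530) (nat_lit 2575) (nat_lit 532) (nat_lit 2576)))))))))))))))))))))))))) (.a s31452 (.a (.p (nat_lit 464) (.a (.f (nat_lit 431) (nat_lit 463) (nat_lit 7599) (.f (nat_lit 432) (nat_lit 399) (nat_lit 7567) (.d (nat_lit 433) (nat_lit 401) (nat_lit 6544) (nat_lit 465) (nat_lit 6576)))) (.a (.f (nat_lit 433) (nat_lit 465) (nat_lit 6576) (.f (nat_lit 432) (nat_lit 401) (nat_lit 6544) (.f (nat_lit 527) (nat_lit 559) (nat_lit 5551) (.f (nat_lit 400) (nat_lit 495) (nat_lit 5519) (.d (nat_lit 399) (nat_lit 367) (nat_lit 7535) (nat_lit 431) (nat_lit 7567)))))) (.a (.f (nat_lit 463) (nat_lit 431) (nat_lit 7599) (.f (nat_lit 592) (nat_lit 495) (nat_lit 7631) (.d (nat_lit 593) (nat_lit 561) (nat_lit 4560) (nat_lit 625) (nat_lit 4592)))) (.f (nat_lit 593) (nat_lit 561) (nat_lit 4560) (.f (nat_lit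 592) (nat_lit 625) (nat_lit 4592) (.f (nat_lit 495) (nat_lit 463) (nat_lit 7631) (.f (nat_lit 527) (nat_lit 624) (nat_lit 7663) (.d (nat_lit 432) (nat_lit 400) (nat_lit 5519) (nat_lit 559) (nat_lit 5551)))))))))) (.a (.p (nat_lit 464) (.a (.f (nat_lit 463) (nat_lit 431) (nat_lit 7599) (.f (nat_lit 465) (nat_lit 433) (nat_lit 6576) (.d (nat_lit 592) (nat_lit 495) (nat_lit 7631) (nat_lit 497) (nat_lit 6608)))) (.a (.f (nat_lit 431) (nat_lit 463) (nat_lit 7599) (.f (nat_lit 432) (nat_lit 399) (nat_lit 7567) (.d (nat_lit 433) (nat_lit 401) (nat_lit 6544) (nat_lit 465) (nat_lit 6576)))) (.a (.f (nat_lit 433) (nat_lit 465) (nat_lit 6576) (.f (nat_lit 432) (nat_lit 401) (nat_lit 6544) (.f (nat_lit 527) (nat_lit 559) (nat_lit 5551) (.f (nat_lit 400) (nat_lit 495) (nat_lit 5519) (.d (nat_lit 399) (nat_lit 367) (nat_lit 7535) (nat_lit 431) (nat_lit 7567)))))) (.a (.f (nat_lit 431) (nat_lit 463) (nat_lit 7599) (.f (nat_lit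 432) (nat_lit 399) (nat_lit 7567) (.f (nat_lit 401) (nat_lit 433) (nat_lit 6544) (.f (nat_lit 400) (nat_lit 369) (nat_lit 6512) (.d (nat_lit 527) (nat_lit 495) (nat_lit 5519) (nat_lit 559) (nat_lit 5551)))))) (.a (.f (nat_lit 465) (nat_lit 433) (nat_lit 6576) (.f (nat_lit 592) (nat_lit 497) (nat_lit 6608) (.f (nat_lit 495) (nat_lit 463) (nat_lit 7631) (.f (nat_lit 624) (nat_lit 527) (nat_lit 7663) (.d (nat_lit 625) (nat_lit 593) (nat_lit 4592) (nat_lit 657) (nat_lit 4624)))))) (.f (nat_lit 431) (nat_lit 463) (nat_lit 7599) (.f (nat_lit 432) (nat_lit 399) (nat_lit 7567) (.f (nat_lit 527) (nat_lit 559) (nat_lit 5551) (.f (nat_lit 495) (nat_lit 400) (nat_lit 5519) (.f (nat_lit 592) (nat_lit 624) (nat_lit 7663) (.f (nat_lit 497) (nat_lit 465) (nat_lit 6608) (.d (nat_lit 526) (nat_lit 498) (nat_lit 1518) (nat_lit 525) (nat_lit 2541)))))))))))))) (.a (.p (nat_lit 464) (.a (.f (nat_lit 431) (nat_lit 463) (nat_lit 7599)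 (.f (nat_lit 432) (nat_lit 399) (nat_lit 7567) (.d (nat_lit 433) (nat_lit 401) (nat_lit 6544) (nat_lit 465) (nat_lit 6576)))) (.a (.f (nat_lit 433) (nat_lit 465) (nat_lit 6576) (.f (nat_lit 432) (nat_lit 401) (nat_lit 6544) (.f (nat_lit 527) (nat_lit 559) (nat_lit 5551) (.f (nat_lit 400) (nat_lit 495) (nat_lit 5519) (.d (nat_lit 399) (nat_lit 367) (nat_lit 7535) (nat_lit 431) (nat_lit 7567)))))) (.a (.f (nat_lit 431) (nat_lit 463) (nat_lit 7599) (.f (nat_lit 432) (nat_lit 399) (nat_lit 7567) (.f (nat_lit 401) (nat_lit 433) (nat_lit 6544) (.f (nat_lit 400) (nat_lit 369) (nat_lit 6512) (.d (nat_lit 527) (nat_lit 495) (nat_lit 5519) (nat_lit 559) (nat_lit 5551)))))) (.a (.p (nat_lit 432) (.a (.d (nat_lit 433) (nat_lit 401) (nat_lit 6544) (nat_lit 465) (nat_lit 6576)) (.a (.f (nat_lit 527) (nat_lit 559) (nat_lit 5551) (.f (nat_lit 400) (nat_lit 495) (nat_lit 5519) (.d (nat_lit 401) (nat_lit 369) (nat_lit 6512) (nat_lit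 433) (nat_lit 6544)))) (.a (.f (nat_lit 527) (nat_lit 559) (nat_lit 5551) (.f (nat_lit 400) (nat_lit 495) (nat_lit 5519) (.f (nat_lit 369) (nat_lit 401) (nat_lit 6512) (.f (nat_lit 368) (nat_lit 337) (nat_lit 6480) (.d (nat_lit 367) (nat_lit 335) (nat_lit 7503) (nat_lit 399) (nat_lit 7535)))))) (.f (nat_lit 527) (nat_lit 559) (nat_lit 5551) (.f (nat_lit 400) (nat_lit 495) (nat_lit 5519) (.f (nat_lit 465) (nat_lit 433) (nat_lit 6576) (.f (nat_lit 368) (nat_lit 497) (nat_lit 4464) (.d (nat_lit 367) (nat_lit 335) (nat_lit 7503) (nat_lit 399) (nat_lit 7535)))))))))) (.a (.p (nat_lit 527) (.a (.f (nat_lit 432) (nat_lit 559) (nat_lit 5551) (.d (nat_lit 431) (nat_lit 399) (nat_lit 7567) (nat_lit 463) (nat_lit 7599))) (.a (.f (nat_lit 561) (nat_lit 593) (nat_lit 4560) (.f (nat_lit 526) (nat_lit 525) (nat_lit 525) (.d (nat_lit 562) (nat_lit 559) (nat_lit 3598) (nat_lit 563) (nat_lit 3599)))) (.p (nat_lit 497) (.a (.f (nat_lit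 463) (nat_lit 431) (nat_lit 7599) (.f (nat_lit 498) (nat_lit 499) (nat_lit 3535) (.d (nat_lit 495) (nat_lit 462) (nat_lit 3534) (nat_lit 526) (nat_lit 1518)))) (.a (.f (nat_lit 526) (nat_lit 525) (nat_lit 2541) (.d (nat_lit 498) (nat_lit 495) (nat_lit 1518) (nat_lit 499) (nat_lit 1519))) (.a (.f (nat_lit 463) (nat_lit 431) (nat_lit 7599) (.f (nat_lit 498) (nat_lit 499) (nat_lit 3535) (.d (nat_lit 462) (nat_lit 465) (nat_lit 462) (nat_lit 495) (nat_lit 3534)))) (.a (.f (nat_lit 463) (nat_lit 431) (nat_lit 7599) (.f (nat_lit 498) (nat_lit 499) (nat_lit 3535) (.d (nat_lit 462) (nat_lit 461) (nat_lit 461) (nat_lit 465) (nat_lit 462)))) (.a (.f (nat_lit 463) (nat_lit 431) (nat_lit 7599) (.f (nat_lit 462) (nat_lit 461) (nat_lit 461) (.d (nat_lit 498) (nat_lit 465) (nat_lit 462) (nat_lit 495) (nat_lit 3534)))) (.f (nat_lit 431) (nat_lit 463) (nat_lit 7599) (.f (nat_lit 432) (nat_lit 399) (nat_lit 7567) (.f (nat_lit 400)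 (nat_lit 495) (nat_lit 5519) (.f (nat_lit 368) (nat_lit 465) (nat_lit 4464) (.d (nat_lit 369) (nat_lit 337) (nat_lit 6480) (nat_lit 401) (nat_lit 6512))))))))))))))) (.p (nat_lit 498) (.a (.f (nat_lit 463) (nat_lit 431) (nat_lit 7599) (.f (nat_lit 497) (nat_lit 499) (nat_lit 3535) (.d (nat_lit 462) (nat_lit 461) (nat_lit 461) (nat_lit 495) (nat_lit 3534)))) (.a (.p (nat_lit 527) (.a (.f (nat_lit 497) (nat_lit 499) (nat_lit 1519) (.d (nat_lit 526) (nat_lit 495) (nat_lit 1518) (nat_lit 525) (nat_lit 2541))) (.a (.f (nat_lit 497) (nat_lit 499) (nat_lit 1519) (.f (nat_lit 465) (nat_lit 433) (nat_lit 6576) (.f (nat_lit 561) (nat_lit 593) (nat_lit 4560) (.f (nat_lit 562) (nat_lit 563) (nat_lit 3599) (.f (nat_lit 530) (nat_lit 594) (nat_lit 7633) (.d (nat_lit 531) (nat_lit 495) (nat_lit 495) (nat_lit 559) (nat_lit 2575))))))) (.f (nat_lit 561) (nat_lit 593) (nat_lit 4560) (.f (nat_lit 526) (nat_lit 525) (nat_lit 525) (.d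 (nat_lit 562) (nat_lit 559) (nat_lit 3598) (nat_lit 563) (nat_lit 3599))))))) (.a (.f (nat_lit 463) (nat_lit 431) (nat_lit 7599) (.f (nat_lit 497) (nat_lit 499) (nat_lit 3535) (.d (nat_lit 462) (nat_lit 461) (nat_lit 461) (nat_lit 465) (nat_lit 462)))) (.a (.f (nat_lit 465) (nat_lit 433) (nat_lit 6576) (.f (nat_lit 463) (nat_lit 431) (nat_lit 7599) (.f (nat_lit 466) (nat_lit 499) (nat_lit 463) (.d (nat_lit 495) (nat_lit 467) (nat_lit 1487) (nat_lit 494) (nat_lit 1486))))) (.f (nat_lit 463) (nat_lit 431) (nat_lit 7599) (.f (nat_lit 465) (nat_lit 433) (nat_lit 6576) (.f (nat_lit 462) (nat_lit 497) (nat_lit 462) (.f (nat_lit 494) (nat_lit 493) (nat_lit 1485) (.f (nat_lit 495) (nat_lit 466) (nat_lit 1486) (.f (nat_lit 430) (nat_lit 429) (nat_lit 3501) (.d (nat_lit 398) (nat_lit 366) (nat_lit 4462) (nat_lit 527) (nat_lit 4494))))))))))))))))))) (.p (nat_lit 464) (.a (.f (nat_lit 463) (nat_lit 431) (nat_lit 7599) (.f (nat_lit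 465) (nat_lit 433) (nat_lit 6576) (.d (nat_lit 592) (nat_lit 495) (nat_lit 7631) (nat_lit 497) (nat_lit 6608)))) (.a (.f (nat_lit 431) (nat_lit 463) (nat_lit 7599) (.f (nat_lit 432) (nat_lit 399) (nat_lit 7567) (.d (nat_lit 433) (nat_lit 401) (nat_lit 6544) (nat_lit 465) (nat_lit 6576)))) (.a (.f (nat_lit 433) (nat_lit 465) (nat_lit 6576) (.f (nat_lit 432) (nat_lit 401) (nat_lit 6544) (.f (nat_lit 527) (nat_lit 559) (nat_lit 5551) (.f (nat_lit 400) (nat_lit 495) (nat_lit 5519) (.d (nat_lit 399) (nat_lit 367) (nat_lit 7535) (nat_lit 431) (nat_lit 7567)))))) (.a (.f (nat_lit 431) (nat_lit 463) (nat_lit 7599) (.f (nat_lit 432) (nat_lit 399) (nat_lit 7567) (.f (nat_lit 401) (nat_lit 433) (nat_lit 6544) (.f (nat_lit 400) (nat_lit 369) (nat_lit 6512) (.d (nat_lit 527) (nat_lit 495) (nat_lit 5519) (nat_lit 559) (nat_lit 5551)))))) (.a (.f (nat_lit 465) (nat_lit 433) (nat_lit 6576) (.f (nat_lit 592) (nat_lit 497) (nat_lit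 6608) (.f (nat_lit 495) (nat_lit 463) (nat_lit 7631) (.f (nat_lit 527) (nat_lit 624) (nat_lit 7663) (.d (nat_lit 432) (nat_lit 400) (nat_lit 5519) (nat_lit 559) (nat_lit 5551)))))) (.f (nat_lit 431) (nat_lit 463) (nat_lit 7599) (.f (nat_lit 432) (nat_lit 399) (nat_lit 7567) (.f (nat_lit 527) (nat_lit 559) (nat_lit 5551) (.f (nat_lit 495) (nat_lit 400) (nat_lit 5519) (.f (nat_lit 592) (nat_lit 624) (nat_lit 7663) (.f (nat_lit 497) (nat_lit 465) (nat_lit 6608) (.d (nat_lit 526) (nat_lit 498) (nat_lit 1518) (nat_lit 525) (nat_lit 2541)))))))))))))))))))))))))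
end Vale.Agent.Lib.P062.Part4
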