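import Vale.Agent.Lib.P062.Part4.K_0

set_option maxRecDepth 100000
set_option linter.all false

namespace Vale.Agent.Lib.P062.Part4
open Vale.Agent.Lib.P062 Vale.Agent.Lib.P062.V2

noncomputable def s37491 : Cert := .r (nat_lit 16209045194715341170109002195406050381527741113466963275787586520503247710330410762735691421379375889955541304622694811570862313610734769212297415533273767914027281989764951048192) (.p (nat_lit 496) (.a (.f (nat_lit 591) (nat_lit 623) (nat_lit 5615) (.f (nat_lit 464) (nat_lit 559) (nat_lit 5583) (.d (nat_lit 465) (nat_lit 433) (nat_lit 6576) (nat_lit 497) (nat_lit 6608)))) (.a (.f (nat_lit 463) (nat_lit 495) (nat_lit 7631) (.f (nat_lit 464) (nat_lit 431) (nat_lit 7599) (.d (nat_lit 465) (nat_lit 433) (nat_lit 6576) (nat_lit 497) (nat_lit 6608)))) (.a (.f (nat_lit 591) (nat_lit 623) (nat_lit 5615) (.f (nat_lit 495) (nat_lit 463) (nat_lit 7631) (.f (nat_lit 497) (nat_lit 465) (nat_lit 6608) (.f (nat_lit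 494) (nat_lit 525) (nat_lit 1517) (.f (nat_lit 462) (nat_lit 461) (nat_lit 3533) (.f (nat_lit 558) (nat_lit 559) (nat_lit 4558) (.f (nat_lit 589) (nat_lit 557) (nat_lit 5581) (.d (nat_lit 590) (nat_lit 561) (nat_lit 2605) (nat_lit 621) (nat_lit 5613))))))))) (.f (nat_lit 591) (nat_lit 623) (nat_lit 5615) (.f (nat_lit 464) (nat_lit 559) (nat_lit 5583) (.d (nat_lit 463) (nat_lit 431) (nat_lit 7599) (nat_lit 495) (nat_lit 7631))))))))
noncomputable def s37506 : Cert := .r (nat_lit 16209045194715341170109002195406050381527741113466963275787586520503247710330410762735691421379375889955541304622694811570862313610734769212297415533273767914027281989764951048192) (.p (nat_lit 496) (.a (.f (nat_lit 591) (nat_lit 623) (nat_lit 5615) (.f (nat_lit 464) (nat_lit 559) (nat_lit 5583) (.d (nat_lit 465) (nat_lit 433) (nat_lit 6576) (nat_lit 497) (nat_lit 6608)))) (.a (.f (nat_lit 463) (nat_lit 495) (nat_lit 7631) (.f (nat_lit 464) (nat_lit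 431) (nat_lit 7599) (.d (nat_lit 465) (nat_lit 433) (nat_lit 6576) (nat_lit 497) (nat_lit 6608)))) (.a (.f (nat_lit 495) (nat_lit 463) (nat_lit 7631) (.f (nat_lit 527) (nat_lit 624) (nat_lit 7663) (.d (nat_lit 497) (nat_lit 465) (nat_lit 6608) (nat_lit 498) (nat_lit 1518)))) (.f (nat_lit 591) (nat_lit 623) (nat_lit 5615) (.f (nat_lit 464) (nat_lit 559) (nat_lit 5583) (.d (nat_lit 463) (nat_lit 431) (nat_lit 7599) (nat_lit 495) (nat_lit 7631))))))))
noncomputable def s37580 : Cert := .r (nat_lit 4717453032125294315973987508880817458218130529296591420246571772779567243795549402077785465380506041852719292777414468402832772512838634980175475457832173847598411546624) (.p (nat_lit 590) (.a (.f (nat_lit 589) (nat_lit 621) (nat_lit 5613) (.f (nat_lit 559) (nat_lit 561) (nat_lit 1581) (.d (nat_lit 557) (nat_lit 462) (nat_lit 5581) (nat_lit 588) (nat_lit 1580)))) (.a (.f (nat_lit 589) (nat_lit 621) (nat_lit 5613) (.f (nat_lit 462)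 (nat_lit 557) (nat_lit 5581) (.d (nat_lit 463) (nat_lit 431) (nat_lit 6574) (nat_lit 495) (nat_lit 6606)))) (.a (.f (nat_lit 591) (nat_lit 623) (nat_lit 4590) (.f (nat_lit 559) (nat_lit 462) (nat_lit 4558) (.d (nat_lit 561) (nat_lit 525) (nat_lit 3597) (nat_lit 589) (nat_lit 1581)))) (.a (.f (nat_lit 591) (nat_lit 623) (nat_lit 4590) (.f (nat_lit 559) (nat_lit 462) (nat_lit 4558) (.d (nat_lit 561) (nat_lit 525) (nat_lit 3597) (nat_lit 562) (nat_lit 1582)))) (.f (nat_lit 589) (nat_lit 621) (nat_lit 5613) (.f (nat_lit 559) (nat_lit 561) (nat_lit 1581) (.d (nat_lit 588) (nat_lit 557) (nat_lit 1580) (nat_lit 587) (nat_lit 2603)))))))))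
noncomputable def s37596 : Cert := .r (nat_lit 4717453032125294315973987508880817458218130529296591420246571772779567243795549402077785465380506041852719292777414468402832772512838634980175475457832173847598411546624) (.p (nat_lit 462) (.a (.f (nat_lit 559) (nat_lit 591) (nat_lit 4558) (.f (nat_lit 527) (nat_lit 430) (nat_lit 4526) (.d (nat_lit 561) (nat_lit 525) (nat_lit 3597) (nat_lit 562) (nat_lit 3598)))) (.a (.f (nat_lit 559) (nat_lit 591) (nat_lit 4558) (.f (nat_lit 525) (nat_lit 561) (nat_lit 3597) (.d (nat_lit 557) (nat_lit 524) (nat_lit 3596) (nat_lit 589) (nat_lit 5581)))) (.a (.f (nat_lit 557) (nat_lit 589) (nat_lit 5581) (.f (nat_lit 525) (nat_lit 430) (nat_lit 5549) (.d (nat_lit 561) (nat_lit 527) (nat_lit 525) (nat_lit 559) (nat_lit 3597)))) (.a (.f (nat_lit 559) (nat_lit 591) (nat_lit 4558) (.f (nat_lit 527) (nat_lit 430) (nat_lit 4526) (.d (nat_lit 557) (nat_lit 556) (nat_lit 2572) (nat_lit 589) (nat_lit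 5581)))) (.f (nat_lit 557) (nat_lit 589) (nat_lit 5581) (.f (nat_lit 525) (nat_lit 430) (nat_lit 5549) (.d (nat_lit 527) (nat_lit 556) (nat_lit 1548) (nat_lit 561) (nat_lit 525)))))))))
noncomputable def s37608 : Cert := .r (nat_lit 4717453032125294315922840780632440241499174440283660183493186740810144356459872974451283374811683001932668197584822215947350168073345508870656455824302714581140153303040) (.p (nat_lit 494) (.a (.p (nat_lit 590) (.a (.f (nat_lit 589) (nat_lit 621) (nat_lit 5613) (.f (nat_lit 559) (nat_lit 561) (nat_lit 1581) (.d (nat_lit 557) (nat_lit 462) (nat_lit 5581) (nat_lit 588) (nat_lit 1580)))) (.f (nat_lit 495) (nat_lit 463) (nat_lit 6606) (.f (nat_lit 493) (nat_lit 461) (nat_lit 7629) (.d (nat_lit 527) (nat_lit 492) (nat_lit 492) (nat_lit 622) (nat_lit 6638)))))) (.a s37580 (.a s37596 (.a (.p (nat_lit 590) (.a (.f (nat_lit 495) (nat_lit 463) (nat_lit 6606) (.f (nat_lit 493) (nat_lit 461) (nat_lit 7629)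 (.d (nat_lit 527) (nat_lit 492) (nat_lit 492) (nat_lit 622) (nat_lit 6638)))) (.a (.f (nat_lit 589) (nat_lit 621) (nat_lit 5613) (.f (nat_lit 462) (nat_lit 557) (nat_lit 5581) (.d (nat_lit 463) (nat_lit 431) (nat_lit 6574) (nat_lit 495) (nat_lit 6606)))) (.f (nat_lit 493) (nat_lit 461) (nat_lit 7629) (.f (nat_lit 525) (nat_lit 622) (nat_lit 7661) (.d (nat_lit 527) (nat_lit 492) (nat_lit 3564) (nat_lit 561) (nat_lit 525))))))) (.a (.p (nat_lit 590) (.a (.f (nat_lit 495) (nat_lit 463) (nat_lit 6606) (.f (nat_lit 493) (nat_lit 461) (nat_lit 7629) (.d (nat_lit 527) (nat_lit 492) (nat_lit 492) (nat_lit 622) (nat_lit 6638)))) (.f (nat_lit 591) (nat_lit 623) (nat_lit 4590) (.f (nat_lit 559) (nat_lit 462) (nat_lit 4558) (.d (nat_lit 561) (nat_lit 525) (nat_lit 3597) (nat_lit 589) (nat_lit 1581)))))) (.a (.p (nat_lit 590) (.a (.f (nat_lit 495) (nat_lit 463) (nat_lit 6606) (.f (nat_lit 493) (nat_lit 461) (nat_lit 7629) (.d (nat_lit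 527) (nat_lit 492) (nat_lit 492) (nat_lit 622) (nat_lit 6638)))) (.a (.f (nat_lit 589) (nat_lit 621) (nat_lit 5613) (.f (nat_lit 462) (nat_lit 557) (nat_lit 5581) (.d (nat_lit 463) (nat_lit 431) (nat_lit 6574) (nat_lit 495) (nat_lit 6606)))) (.f (nat_lit 591) (nat_lit 623) (nat_lit 4590) (.f (nat_lit 559) (nat_lit 462) (nat_lit 4558) (.d (nat_lit 589) (nat_lit 588) (nat_lit 2604) (nat_lit 621) (nat_lit 5613))))))) (.a (.p (nat_lit 590) (.a (.f (nat_lit 495) (nat_lit 463) (nat_lit 6606) (.f (nat_lit 493) (nat_lit 461) (nat_lit 7629) (.d (nat_lit 527) (nat_lit 492) (nat_lit 492) (nat_lit 622) (nat_lit 6638)))) (.f (nat_lit 591) (nat_lit 623) (nat_lit 4590) (.f (nat_lit 559) (nat_lit 462) (nat_lit 4558) (.d (nat_lit 561) (nat_lit 525) (nat_lit 3597) (nat_lit 562) (nat_lit 1582)))))) (.p (nat_lit 590) (.a (.f (nat_lit 495) (nat_lit 463) (nat_lit 6606) (.f (nat_lit 493) (nat_lit 461) (nat_lit 7629) (.d (nat_lit 527) (nat_lit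 492) (nat_lit 492) (nat_lit 622) (nat_lit 6638)))) (.f (nat_lit 589) (nat_lit 621) (nat_lit 5613) (.f (nat_lit 559) (nat_lit 561) (nat_lit 1581) (.d (nat_lit 588) (nat_lit 557) (nat_lit 1580) (nat_lit 587) (nat_lit 2603))))))))))))))
noncomputable def s37624 : Cert := .r (nat_lit 4717453032125294315973987508880817458218130529296591420246571772779567243795549402077785465380506041852719292777414468402832772512838634980175475457832173847598411546624) (.p (nat_lit 590) (.a (.f (nat_lit 589) (nat_lit 621) (nat_lit 5613) (.f (nat_lit 559) (nat_lit 561) (nat_lit 1581) (.d (nat_lit 557) (nat_lit 462) (nat_lit 5581) (nat_lit 588) (nat_lit 1580)))) (.a (.f (nat_lit 589) (nat_lit 621) (nat_lit 5613) (.f (nat_lit 462) (nat_lit 557) (nat_lit 5581) (.d (nat_lit 463) (nat_lit 431) (nat_lit 6574) (nat_lit 495) (nat_lit 6606)))) (.a (.f (nat_lit 591) (nat_lit 623) (nat_lit 4590) (.f (nat_lit 559) (nat_lit 462) (nat_lit 4558) (.d (nat_lit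 589) (nat_lit 588) (nat_lit 2604) (nat_lit 621) (nat_lit 5613)))) (.a (.f (nat_lit 591) (nat_lit 623) (nat_lit 4590) (.f (nat_lit 462) (nat_lit 559) (nat_lit 4558) (.d (nat_lit 463) (nat_lit 431) (nat_lit 6574) (nat_lit 495) (nat_lit 6606)))) (.f (nat_lit 589) (nat_lit 621) (nat_lit 5613) (.f (nat_lit 559) (nat_lit 561) (nat_lit 1581) (.d (nat_lit 588) (nat_lit 557) (nat_lit 1580) (nat_lit 587) (nat_lit 2603)))))))))
noncomputable def s37633 : Cert := .r (nat_lit 4717453032125294315973987508880817458218130529296591420246571772779567243795549402077785465380506041852719292777414468402832772512838634980175475457832173847598411546624) (.p (nat_lit 590) (.a (.f (nat_lit 589) (nat_lit 621) (nat_lit 5613) (.f (nat_lit 462) (nat_lit 557) (nat_lit 5581) (.d (nat_lit 463) (nat_lit 431) (nat_lit 6574) (nat_lit 495) (nat_lit 6606)))) (.a (.f (nat_lit 589) (nat_lit 621) (nat_lit 5613) (.f (nat_lit 557) (nat_lit 462) (nat_lit 5581) (.f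 (nat_lit 493) (nat_lit 461) (nat_lit 7629) (.f (nat_lit 525) (nat_lit 622) (nat_lit 4589) (.f (nat_lit 588) (nat_lit 620) (nat_lit 5612) (.f (nat_lit 591) (nat_lit 623) (nat_lit 4590) (.f (nat_lit 555) (nat_lit 556) (nat_lit 3627) (.d (nat_lit 587) (nat_lit 554) (nat_lit 3626) (nat_lit 586) (nat_lit 2602))))))))) (.f (nat_lit 493) (nat_lit 461) (nat_lit 7629) (.f (nat_lit 525) (nat_lit 622) (nat_lit 7661) (.f (nat_lit 495) (nat_lit 463) (nat_lit 6606) (.d (nat_lit 524) (nat_lit 496) (nat_lit 1516) (nat_lit 523) (nat_lit 2539))))))))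
noncomputable def s37634 : Cert := .r (nat_lit 4717453032125294315973987508880817458218130529296591420246571772779567243795549402077785465380506041852719292777414468402832772512838634980175475457832173847598411546624) (.p (nat_lit 590) (.a (.f (nat_lit 589) (nat_lit 621) (nat_lit 5613) (.f (nat_lit 559) (nat_lit 561) (nat_lit 1581) (.d (nat_lit 557) (nat_lit 462) (nat_lit 5581) (nat_lit 588) (nat_lit 1580)))) (.a (.f (nat_lit 589) (nat_lit 621) (nat_lit 5613) (.f (nat_lit 557) (nat_lit 462) (nat_lit 5581) (.f (nat_lit 493) (nat_lit 461) (nat_lit 7629) (.f (nat_lit 525) (nat_lit 622) (nat_lit 4589) (.f (nat_lit 588) (nat_lit 620) (nat_lit 5612) (.f (nat_lit 591) (nat_lit 623) (nat_lit 4590) (.f (nat_lit 555) (nat_lit 556) (nat_lit 3627) (.d (nat_lit 587) (nat_lit 554) (nat_lit 3626) (nat_lit 586) (nat_lit 2602))))))))) (.a (.f (nat_lit 591) (nat_lit 623) (nat_lit 4590) (.f (nat_lit 559) (nat_lit 462) (nat_lit 4558) (.d (nat_lit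 561) (nat_lit 525) (nat_lit 3597) (nat_lit 589) (nat_lit 1581)))) (.a (.f (nat_lit 591) (nat_lit 623) (nat_lit 4590) (.f (nat_lit 559) (nat_lit 462) (nat_lit 4558) (.d (nat_lit 561) (nat_lit 525) (nat_lit 3597) (nat_lit 562) (nat_lit 1582)))) (.f (nat_lit 589) (nat_lit 621) (nat_lit 5613) (.f (nat_lit 559) (nat_lit 561) (nat_lit 1581) (.d (nat_lit 588) (nat_lit 557) (nat_lit 1580) (nat_lit 587) (nat_lit 2603)))))))))
noncomputable def s37647 : Cert := .r (nat_lit 4052261302452797718172567620308740342168032265173429225435669294519214876955562468178336889438689423921251250576516624520754980669431979897453785075845873487448399936024439947264) (.p (nat_lit 494) (.a (.f (nat_lit 589) (nat_lit 621) (nat_lit 5613) (.f (nat_lit 559) (nat_lit 561) (nat_lit 1581) (.d (nat_lit 557) (nat_lit 462) (nat_lit 5581) (nat_lit 588) (nat_lit 1580)))) (.a (.f (nat_lit 493) (nat_lit 461) (nat_lit 7629) (.f (nat_lit 525) (nat_lit 622) (nat_lit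 7661) (.d (nat_lit 527) (nat_lit 492) (nat_lit 3564) (nat_lit 561) (nat_lit 525)))) (.f (nat_lit 493) (nat_lit 461) (nat_lit 7629) (.f (nat_lit 525) (nat_lit 622) (nat_lit 7661) (.f (nat_lit 527) (nat_lit 492) (nat_lit 3564) (.f (nat_lit 557) (nat_lit 556) (nat_lit 1548) (.d (nat_lit 589) (nat_lit 462) (nat_lit 6605) (nat_lit 621) (nat_lit 5613)))))))))
noncomputable def s37656 : Cert := .r (nat_lit 4052261302452797718172567620308740342168032265173429225435669294519214876955562468178336889438689423921251250576516624520754980669431979897453785075845873487448399936024439947264) (.p (nat_lit 494) (.a (.f (nat_lit 495) (nat_lit 463) (nat_lit 6606) (.f (nat_lit 493) (nat_lit 461) (nat_lit 7629) (.d (nat_lit 527) (nat_lit 492) (nat_lit 492) (nat_lit 622) (nat_lit 6638)))) (.a (.f (nat_lit 589) (nat_lit 621) (nat_lit 5613) (.f (nat_lit 462) (nat_lit 557) (nat_lit 5581) (.d (nat_lit 463) (nat_lit 431) (nat_lit 6574) (nat_lit 495)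 (nat_lit 6606)))) (.f (nat_lit 493) (nat_lit 461) (nat_lit 7629) (.f (nat_lit 525) (nat_lit 622) (nat_lit 7661) (.f (nat_lit 527) (nat_lit 492) (nat_lit 3564) (.f (nat_lit 557) (nat_lit 556) (nat_lit 1548) (.d (nat_lit 589) (nat_lit 462) (nat_lit 6605) (nat_lit 621) (nat_lit 5613)))))))))
noncomputable def s37668 : Cert := .r (nat_lit 4052261302452797718172567620308740342168032265173429225435669294519214876955562468178336889438689423921251250576516624520754980669431979897453785075845873487448399936024439947264) (.p (nat_lit 494) (.a (.f (nat_lit 589) (nat_lit 621) (nat_lit 5613) (.f (nat_lit 559) (nat_lit 561) (nat_lit 1581) (.d (nat_lit 557) (nat_lit 462) (nat_lit 5581) (nat_lit 588) (nat_lit 1580)))) (.a (.f (nat_lit 589) (nat_lit 621) (nat_lit 5613) (.f (nat_lit 462) (nat_lit 557) (nat_lit 5581) (.d (nat_lit 463) (nat_lit 431) (nat_lit 6574) (nat_lit 495) (nat_lit 6606)))) (.a (.f (nat_lit 463) (nat_lit 495) (nat_lit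 6606) (.f (nat_lit 462) (nat_lit 431) (nat_lit 6574) (.d (nat_lit 461) (nat_lit 429) (nat_lit 7597) (nat_lit 493) (nat_lit 7629)))) (.f (nat_lit 589) (nat_lit 621) (nat_lit 5613) (.f (nat_lit 559) (nat_lit 561) (nat_lit 1581) (.d (nat_lit 588) (nat_lit 557) (nat_lit 1580) (nat_lit 587) (nat_lit 2603))))))))
noncomputable def s37700 : Cert := .r (nat_lit 4717453032125294315973987508880817458218130529296591420246571772779567243795549402077785465380506041852719292777414468402832772512838634980175475457832173847598411546624) (.p (nat_lit 462) (.a (.f (nat_lit 559) (nat_lit 591) (nat_lit 4558) (.f (nat_lit 527) (nat_lit 430) (nat_lit 4526) (.d (nat_lit 557) (nat_lit 556) (nat_lit 2572) (nat_lit 589) (nat_lit 5581)))) (.a (.f (nat_lit 431) (nat_lit 463) (nat_lit 6574) (.f (nat_lit 430) (nat_lit 399) (nat_lit 6542) (.d (nat_lit 429) (nat_lit 397) (nat_lit 7565) (nat_lit 461) (nat_lit 7597)))) (.f (nat_lit 559) (nat_lit 591) (nat_lit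 4558) (.f (nat_lit 557) (nat_lit 589) (nat_lit 5581) (.f (nat_lit 556) (nat_lit 527) (nat_lit 2572) (.f (nat_lit 587) (nat_lit 588) (nat_lit 1579) (.f (nat_lit 555) (nat_lit 586) (nat_lit 1578) (.d (nat_lit 523) (nat_lit 522) (nat_lit 3594) (nat_lit 524) (nat_lit 3595))))))))))
noncomputable def s37708 : Cert := .r (nat_lit 4717453032125294315973987508880817458218130529296591420246571772779567243795549402077785465380506041852719292777414468402832772512838634980175475457832173847598411546624) (.p (nat_lit 590) (.a (.f (nat_lit 589) (nat_lit 621) (nat_lit 5613) (.f (nat_lit 559) (nat_lit 561) (nat_lit 1581) (.d (nat_lit 557) (nat_lit 462) (nat_lit 5581) (nat_lit 588) (nat_lit 1580)))) (.a (.f (nat_lit 589) (nat_lit 621) (nat_lit 5613) (.f (nat_lit 462) (nat_lit 557) (nat_lit 5581) (.d (nat_lit 461) (nat_lit 429) (nat_lit 7597) (nat_lit 493) (nat_lit 7629)))) (.a (.f (nat_lit 591) (nat_lit 623) (nat_lit 4590) (.f (nat_lit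 559) (nat_lit 462) (nat_lit 4558) (.d (nat_lit 589) (nat_lit 588) (nat_lit 2604) (nat_lit 621) (nat_lit 5613)))) (.a (.f (nat_lit 591) (nat_lit 623) (nat_lit 4590) (.f (nat_lit 462) (nat_lit 559) (nat_lit 4558) (.d (nat_lit 461) (nat_lit 429) (nat_lit 7597) (nat_lit 493) (nat_lit 7629)))) (.f (nat_lit 589) (nat_lit 621) (nat_lit 5613) (.f (nat_lit 559) (nat_lit 561) (nat_lit 1581) (.d (nat_lit 588) (nat_lit 557) (nat_lit 1580) (nat_lit 587) (nat_lit 2603)))))))))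
noncomputable def s37711 : Cert := .r (nat_lit 4717453032125294315922840780632440241499174440283660183493186740810144356459872974451283374811683001932668197584822215947350168073345508870656455824302714581140153303040) (.p (nat_lit 494) (.a (.p (nat_lit 590) (.a (.f (nat_lit 589) (nat_lit 621) (nat_lit 5613) (.f (nat_lit 559) (nat_lit 561) (nat_lit 1581) (.d (nat_lit 557) (nat_lit 462) (nat_lit 5581) (nat_lit 588) (nat_lit 1580)))) (.f (nat_lit 495) (nat_lit 463) (nat_lit 6606) (.f (nat_lit 493) (nat_lit 461) (nat_lit 7629) (.d (nat_lit 527) (nat_lit 492) (nat_lit 492) (nat_lit 622) (nat_lit 6638)))))) (.a s37624 (.a s37700 (.a (.p (nat_lit 590) (.a (.f (nat_lit 495) (nat_lit 463) (nat_lit 6606) (.f (nat_lit 493) (nat_lit 461) (nat_lit 7629) (.d (nat_lit 527) (nat_lit 492) (nat_lit 492) (nat_lit 622) (nat_lit 6638)))) (.a (.f (nat_lit 589) (nat_lit 621) (nat_lit 5613) (.f (nat_lit 462) (nat_lit 557) (nat_lit 5581) (.d (nat_lit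 463) (nat_lit 431) (nat_lit 6574) (nat_lit 495) (nat_lit 6606)))) (.f (nat_lit 589) (nat_lit 621) (nat_lit 5613) (.f (nat_lit 462) (nat_lit 557) (nat_lit 5581) (.d (nat_lit 461) (nat_lit 429) (nat_lit 7597) (nat_lit 493) (nat_lit 7629))))))) (.a s37708 (.a (.p (nat_lit 590) (.a (.f (nat_lit 495) (nat_lit 463) (nat_lit 6606) (.f (nat_lit 493) (nat_lit 461) (nat_lit 7629) (.d (nat_lit 527) (nat_lit 492) (nat_lit 492) (nat_lit 622) (nat_lit 6638)))) (.f (nat_lit 591) (nat_lit 623) (nat_lit 4590) (.f (nat_lit 559) (nat_lit 462) (nat_lit 4558) (.d (nat_lit 589) (nat_lit 588) (nat_lit 2604) (nat_lit 621) (nat_lit 5613)))))) (.a (.p (nat_lit 590) (.a (.f (nat_lit 495) (nat_lit 463) (nat_lit 6606) (.f (nat_lit 493) (nat_lit 461) (nat_lit 7629) (.d (nat_lit 527) (nat_lit 492) (nat_lit 492) (nat_lit 622) (nat_lit 6638)))) (.a (.f (nat_lit 591) (nat_lit 623) (nat_lit 4590) (.f (nat_lit 462) (nat_lit 559) (nat_lit 4558) (.d (nat_lit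 463) (nat_lit 431) (nat_lit 6574) (nat_lit 495) (nat_lit 6606)))) (.f (nat_lit 591) (nat_lit 623) (nat_lit 4590) (.f (nat_lit 462) (nat_lit 559) (nat_lit 4558) (.d (nat_lit 461) (nat_lit 429) (nat_lit 7597) (nat_lit 493) (nat_lit 7629))))))) (.p (nat_lit 590) (.a (.f (nat_lit 495) (nat_lit 463) (nat_lit 6606) (.f (nat_lit 493) (nat_lit 461) (nat_lit 7629) (.d (nat_lit 527) (nat_lit 492) (nat_lit 492) (nat_lit 622) (nat_lit 6638)))) (.f (nat_lit 589) (nat_lit 621) (nat_lit 5613) (.f (nat_lit 559) (nat_lit 561) (nat_lit 1581) (.d (nat_lit 588) (nat_lit 557) (nat_lit 1580) (nat_lit 587) (nat_lit 2603))))))))))))))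
noncomputable def s37719 : Cert := .r (nat_lit 4052261302452797718172567620308740342168032265173429225435669294519214876955562468178336889438689423921251250576516624520754980669431979897453785075845873487448399936024439947264) (.p (nat_lit 494) (.a (.f (nat_lit 493) (nat_lit 461) (nat_lit 7629) (.f (nat_lit 525) (nat_lit 622) (nat_lit 7661) (.d (nat_lit 527) (nat_lit 492) (nat_lit 3564) (nat_lit 561) (nat_lit 525)))) (.a (.f (nat_lit 589) (nat_lit 621) (nat_lit 5613) (.f (nat_lit 557) (nat_lit 462) (nat_lit 5581) (.f (nat_lit 493) (nat_lit 461) (nat_lit 7629) (.f (nat_lit 525) (nat_lit 622) (nat_lit 4589) (.f (nat_lit 588) (nat_lit 620) (nat_lit 5612) (.f (nat_lit 591) (nat_lit 623) (nat_lit 4590) (.f (nat_lit 555) (nat_lit 556) (nat_lit 3627) (.d (nat_lit 587) (nat_lit 554) (nat_lit 3626) (nat_lit 586) (nat_lit 2602))))))))) (.a (.f (nat_lit 589) (nat_lit 621) (nat_lit 5613) (.f (nat_lit 462) (nat_lit 557) (nat_lit 5581)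 (.d (nat_lit 461) (nat_lit 429) (nat_lit 7597) (nat_lit 493) (nat_lit 7629)))) (.f (nat_lit 589) (nat_lit 621) (nat_lit 5613) (.f (nat_lit 557) (nat_lit 462) (nat_lit 5581) (.f (nat_lit 623) (nat_lit 591) (nat_lit 4590) (.f (nat_lit 622) (nat_lit 655) (nat_lit 4622) (.d (nat_lit 654) (nat_lit 525) (nat_lit 7693) (nat_lit 686) (nat_lit 7725))))))))))
noncomputable def s37737 : Cert := .r (nat_lit 4052261302452797718172567620308740342168032265173429225435669294519214876955562468178336889438689423921251250576516624520754980669431979897453785075845873487448399936024439947264) (.p (nat_lit 525) (.a (.f (nat_lit 527) (nat_lit 561) (nat_lit 525) (.d (nat_lit 493) (nat_lit 492) (nat_lit 3564) (nat_lit 622) (nat_lit 7661))) (.a (.f (nat_lit 622) (nat_lit 493) (nat_lit 7661) (.f (nat_lit 654) (nat_lit 557) (nat_lit 7693) (.d (nat_lit 653) (nat_lit 621) (nat_lit 5645) (nat_lit 685) (nat_lit 5677)))) (.a (.f (nat_lit 527) (nat_lit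 561) (nat_lit 525) (.f (nat_lit 622) (nat_lit 495) (nat_lit 6638) (.d (nat_lit 557) (nat_lit 556) (nat_lit 1548) (nat_lit 654) (nat_lit 7693)))) (.f (nat_lit 527) (nat_lit 561) (nat_lit 525) (.f (nat_lit 557) (nat_lit 556) (nat_lit 1548) (.d (nat_lit 493) (nat_lit 461) (nat_lit 4557) (nat_lit 492) (nat_lit 3564))))))))
noncomputable def s37748 : Cert := .r (nat_lit 4717453032125294315973987508880817458218130529296591420246571772779567243795549402077785465380506041852719292777414468402832772512838634980175475457832173847598411546624) (.p (nat_lit 590) (.a (.f (nat_lit 495) (nat_lit 463) (nat_lit 6606) (.f (nat_lit 493) (nat_lit 461) (nat_lit 7629) (.d (nat_lit 527) (nat_lit 492) (nat_lit 492) (nat_lit 622) (nat_lit 6638)))) (.a (.f (nat_lit 493) (nat_lit 461) (nat_lit 7629) (.f (nat_lit 525) (nat_lit 622) (nat_lit 7661) (.f (nat_lit 495) (nat_lit 463) (nat_lit 6606) (.d (nat_lit 524) (nat_lit 496) (nat_lit 1516) (nat_lit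 523) (nat_lit 2539))))) (.a (.f (nat_lit 493) (nat_lit 461) (nat_lit 7629) (.f (nat_lit 525) (nat_lit 622) (nat_lit 7661) (.d (nat_lit 527) (nat_lit 492) (nat_lit 3564) (nat_lit 561) (nat_lit 525)))) (.a (.f (nat_lit 495) (nat_lit 463) (nat_lit 6606) (.f (nat_lit 527) (nat_lit 622) (nat_lit 6638) (.f (nat_lit 525) (nat_lit 561) (nat_lit 525) (.d (nat_lit 524) (nat_lit 523) (nat_lit 2539) (nat_lit 559) (nat_lit 524))))) (.f (nat_lit 463) (nat_lit 495) (nat_lit 6606) (.f (nat_lit 462) (nat_lit 431) (nat_lit 6574) (.d (nat_lit 461) (nat_lit 429) (nat_lit 7597) (nat_lit 493) (nat_lit 7629)))))))))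
noncomputable def s37753 : Cert := .r (nat_lit 4717453032125294315973987508880817458218130529296591420246571772779567243795549402077785465380506041852719292777414468402832772512838634980175475457832173847598411546624) (.p (nat_lit 590) (.a (.f (nat_lit 495) (nat_lit 463) (nat_lit 6606) (.f (nat_lit 493) (nat_lit 461) (nat_lit 7629) (.d (nat_lit 527) (nat_lit 492) (nat_lit 492) (nat_lit 622) (nat_lit 6638)))) (.a (.f (nat_lit 493) (nat_lit 461) (nat_lit 7629) (.f (nat_lit 525) (nat_lit 622) (nat_lit 7661) (.f (nat_lit 495) (nat_lit 463) (nat_lit 6606) (.d (nat_lit 524) (nat_lit 496) (nat_lit 1516) (nat_lit 523) (nat_lit 2539))))) (.a (.f (nat_lit 493) (nat_lit 461) (nat_lit 7629) (.f (nat_lit 525) (nat_lit 622) (nat_lit 7661) (.d (nat_lit 527) (nat_lit 492) (nat_lit 3564) (nat_lit 561) (nat_lit 525)))) (.a (.f (nat_lit 495) (nat_lit 463) (nat_lit 6606) (.f (nat_lit 622) (nat_lit 527) (nat_lit 6638) (.d (nat_lit 621) (nat_lit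 589) (nat_lit 5613) (nat_lit 653) (nat_lit 5645)))) (.f (nat_lit 463) (nat_lit 495) (nat_lit 6606) (.f (nat_lit 462) (nat_lit 431) (nat_lit 6574) (.d (nat_lit 461) (nat_lit 429) (nat_lit 7597) (nat_lit 493) (nat_lit 7629)))))))))
noncomputable def s37759 : Cert := .r (nat_lit 4717453032125294315973987508880817458218130529296591420246571772779567243795549402077785465380506041852719292777414468402832772512838634980175475457832173847598411546624) (.p (nat_lit 590) (.a (.f (nat_lit 591) (nat_lit 623) (nat_lit 4590) (.f (nat_lit 559) (nat_lit 462) (nat_lit 4558) (.d (nat_lit 561) (nat_lit 525) (nat_lit 3597) (nat_lit 589) (nat_lit 1581)))) (.a (.f (nat_lit 495) (nat_lit 463) (nat_lit 6606) (.f (nat_lit 527) (nat_lit 622) (nat_lit 6638) (.f (nat_lit 525) (nat_lit 561) (nat_lit 525) (.d (nat_lit 524) (nat_lit 523) (nat_lit 2539) (nat_lit 559) (nat_lit 524))))) (.a (.f (nat_lit 591) (nat_lit 623) (nat_lit 4590) (.f (nat_lit 559)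 (nat_lit 462) (nat_lit 4558) (.d (nat_lit 589) (nat_lit 588) (nat_lit 2604) (nat_lit 621) (nat_lit 5613)))) (.f (nat_lit 495) (nat_lit 463) (nat_lit 6606) (.f (nat_lit 622) (nat_lit 527) (nat_lit 6638) (.d (nat_lit 621) (nat_lit 589) (nat_lit 5613) (nat_lit 653) (nat_lit 5645))))))))
noncomputable def s37774 : Cert := .r (nat_lit 4717453032125294315973987508880817458218130529296591420246571772779567243795549402077785465380506041852719292777414468402832772512838634980175475457832173847598411546624) (.p (nat_lit 590) (.a (.f (nat_lit 589) (nat_lit 621) (nat_lit 5613) (.f (nat_lit 462) (nat_lit 557) (nat_lit 5581) (.d (nat_lit 463) (nat_lit 431) (nat_lit 6574) (nat_lit 495) (nat_lit 6606)))) (.a (.f (nat_lit 591) (nat_lit 623) (nat_lit 4590) (.f (nat_lit 559) (nat_lit 462) (nat_lit 4558) (.d (nat_lit 589) (nat_lit 588) (nat_lit 2604) (nat_lit 621) (nat_lit 5613)))) (.a (.f (nat_lit 591) (nat_lit 623) (nat_lit 4590) (.f (nat_lit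 462) (nat_lit 559) (nat_lit 4558) (.d (nat_lit 463) (nat_lit 431) (nat_lit 6574) (nat_lit 495) (nat_lit 6606)))) (.f (nat_lit 495) (nat_lit 463) (nat_lit 6606) (.f (nat_lit 622) (nat_lit 527) (nat_lit 6638) (.d (nat_lit 621) (nat_lit 589) (nat_lit 5613) (nat_lit 653) (nat_lit 5645))))))))
noncomputable def s37776 : Cert := .r (nat_lit 4717453032125294315973987508880817458218130529296591420246571772779567243795549402077785465380506041852719292777414468402832772512838634980175475457832173847598411546624) (.p (nat_lit 590) (.a (.f (nat_lit 495) (nat_lit 463) (nat_lit 6606) (.f (nat_lit 493) (nat_lit 461) (nat_lit 7629) (.d (nat_lit 527) (nat_lit 492) (nat_lit 492) (nat_lit 622) (nat_lit 6638)))) (.a (.f (nat_lit 493) (nat_lit 461) (nat_lit 7629) (.f (nat_lit 525) (nat_lit 622) (nat_lit 7661) (.f (nat_lit 495) (nat_lit 463) (nat_lit 6606) (.d (nat_lit 524) (nat_lit 496) (nat_lit 1516) (nat_lit 523) (nat_lit 2539))))) (.a (.f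 (nat_lit 493) (nat_lit 461) (nat_lit 7629) (.f (nat_lit 525) (nat_lit 622) (nat_lit 7661) (.d (nat_lit 527) (nat_lit 492) (nat_lit 3564) (nat_lit 561) (nat_lit 525)))) (.a (.f (nat_lit 495) (nat_lit 463) (nat_lit 6606) (.f (nat_lit 527) (nat_lit 622) (nat_lit 6638) (.f (nat_lit 525) (nat_lit 561) (nat_lit 525) (.d (nat_lit 524) (nat_lit 496) (nat_lit 2540) (nat_lit 523) (nat_lit 2539))))) (.f (nat_lit 463) (nat_lit 495) (nat_lit 6606) (.f (nat_lit 462) (nat_lit 431) (nat_lit 6574) (.d (nat_lit 461) (nat_lit 429) (nat_lit 7597) (nat_lit 493) (nat_lit 7629)))))))))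
noncomputable def s37779 : Cert := .r (nat_lit 4717453032125294315973987508880817458218130529296591420246571772779567243795549402077785465380506041852719292777414468402832772512838634980175475457832173847598411546624) (.p (nat_lit 590) (.a (.f (nat_lit 591) (nat_lit 623) (nat_lit 4590) (.f (nat_lit 559) (nat_lit 462) (nat_lit 4558) (.d (nat_lit 561) (nat_lit 525) (nat_lit 3597) (nat_lit 562) (nat_lit 1582)))) (.a (.f (nat_lit 495) (nat_lit 463) (nat_lit 6606) (.f (nat_lit 527) (nat_lit 622) (nat_lit 6638) (.f (nat_lit 525) (nat_lit 561) (nat_lit 525) (.d (nat_lit 524) (nat_lit 523) (nat_lit 2539) (nat_lit 559) (nat_lit 524))))) (.a (.f (nat_lit 591) (nat_lit 623) (nat_lit 4590) (.f (nat_lit 462) (nat_lit 559) (nat_lit 4558) (.d (nat_lit 463) (nat_lit 431) (nat_lit 6574) (nat_lit 495) (nat_lit 6606)))) (.f (nat_lit 495) (nat_lit 463) (nat_lit 6606) (.f (nat_lit 527) (nat_lit 622) (nat_lit 6638) (.f (nat_lit 525) (nat_lit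 561) (nat_lit 525) (.d (nat_lit 524) (nat_lit 496) (nat_lit 2540) (nat_lit 523) (nat_lit 2539)))))))))
noncomputable def s37782 : Cert := .r (nat_lit 4717453032125294315973987508880817458218130529296591420246571772779567243795549402077785465380506041852719292777414468402832772512838634980175475457832173847598411546624) (.p (nat_lit 590) (.a (.f (nat_lit 493) (nat_lit 461) (nat_lit 7629) (.f (nat_lit 525) (nat_lit 622) (nat_lit 7661) (.d (nat_lit 527) (nat_lit 492) (nat_lit 3564) (nat_lit 561) (nat_lit 525)))) (.a (.f (nat_lit 589) (nat_lit 621) (nat_lit 5613) (.f (nat_lit 557) (nat_lit 462) (nat_lit 5581) (.f (nat_lit 493) (nat_lit 461) (nat_lit 7629) (.f (nat_lit 525) (nat_lit 622) (nat_lit 4589) (.f (nat_lit 588) (nat_lit 620) (nat_lit 5612) (.f (nat_lit 591) (nat_lit 623) (nat_lit 4590) (.f (nat_lit 555) (nat_lit 556) (nat_lit 3627) (.d (nat_lit 587) (nat_lit 554) (nat_lit 3626) (nat_lit 586) (nat_lit 2602))))))))) (.a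 (.f (nat_lit 589) (nat_lit 621) (nat_lit 5613) (.f (nat_lit 462) (nat_lit 557) (nat_lit 5581) (.d (nat_lit 461) (nat_lit 429) (nat_lit 7597) (nat_lit 493) (nat_lit 7629)))) (.f (nat_lit 589) (nat_lit 621) (nat_lit 5613) (.f (nat_lit 557) (nat_lit 462) (nat_lit 5581) (.f (nat_lit 623) (nat_lit 591) (nat_lit 4590) (.f (nat_lit 622) (nat_lit 655) (nat_lit 4622) (.d (nat_lit 654) (nat_lit 525) (nat_lit 7693) (nat_lit 686) (nat_lit 7725))))))))))
noncomputable def s37784 : Cert := .r (nat_lit 4717453032125294315922840780632440241499174440283660183493186740810144356459872974451283374811683001932668197584822215947350168073345508870656455824302714581140153303040) (.p (nat_lit 494) (.a s37596 (.a (.p (nat_lit 462) (.a (.f (nat_lit 559) (nat_lit 591) (nat_lit 4558) (.f (nat_lit 525) (nat_lit 561) (nat_lit 3597) (.d (nat_lit 557) (nat_lit 524) (nat_lit 3596) (nat_lit 589) (nat_lit 5581)))) (.a (.f (nat_lit 557) (nat_lit 589) (nat_lit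 5581) (.f (nat_lit 525) (nat_lit 430) (nat_lit 5549) (.d (nat_lit 559) (nat_lit 524) (nat_lit 3596) (nat_lit 561) (nat_lit 3597)))) (.f (nat_lit 431) (nat_lit 463) (nat_lit 6574) (.f (nat_lit 430) (nat_lit 399) (nat_lit 6542) (.d (nat_lit 429) (nat_lit 397) (nat_lit 7565) (nat_lit 461) (nat_lit 7597))))))) (.a (.p (nat_lit 590) (.a (.f (nat_lit 589) (nat_lit 621) (nat_lit 5613) (.f (nat_lit 559) (nat_lit 561) (nat_lit 1581) (.d (nat_lit 557) (nat_lit 462) (nat_lit 5581) (nat_lit 588) (nat_lit 1580)))) (.a (.f (nat_lit 493) (nat_lit 461) (nat_lit 7629) (.f (nat_lit 525) (nat_lit 622) (nat_lit 7661) (.d (nat_lit 527) (nat_lit 492) (nat_lit 3564) (nat_lit 561) (nat_lit 525)))) (.f (nat_lit 493) (nat_lit 461) (nat_lit 7629) (.f (nat_lit 525) (nat_lit 622) (nat_lit 7661) (.f (nat_lit 527) (nat_lit 492) (nat_lit 3564) (.f (nat_lit 557) (nat_lit 556) (nat_lit 1548) (.d (nat_lit 589) (nat_lit 462) (nat_lit 6605) (nat_lit 621) (nat_lit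 5613))))))))) (.a s37700 (.a s37782 (.a (.p (nat_lit 462) (.a (.f (nat_lit 559) (nat_lit 591) (nat_lit 4558) (.f (nat_lit 527) (nat_lit 430) (nat_lit 4526) (.d (nat_lit 561) (nat_lit 525) (nat_lit 3597) (nat_lit 562) (nat_lit 3598)))) (.a (.f (nat_lit 431) (nat_lit 463) (nat_lit 6574) (.f (nat_lit 430) (nat_lit 399) (nat_lit 6542) (.d (nat_lit 429) (nat_lit 397) (nat_lit 7565) (nat_lit 461) (nat_lit 7597)))) (.f (nat_lit 559) (nat_lit 591) (nat_lit 4558) (.f (nat_lit 525) (nat_lit 561) (nat_lit 3597) (.d (nat_lit 524) (nat_lit 523) (nat_lit 523) (nat_lit 527) (nat_lit 524))))))) (.p (nat_lit 590) (.a (.f (nat_lit 589) (nat_lit 621) (nat_lit 5613) (.f (nat_lit 559) (nat_lit 561) (nat_lit 1581) (.d (nat_lit 588) (nat_lit 557) (nat_lit 1580) (nat_lit 587) (nat_lit 2603)))) (.a (.f (nat_lit 493) (nat_lit 461) (nat_lit 7629) (.f (nat_lit 525) (nat_lit 622) (nat_lit 7661) (.d (nat_lit 527) (nat_lit 492) (nat_lit 3564) (nat_lit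 561) (nat_lit 525)))) (.f (nat_lit 493) (nat_lit 461) (nat_lit 7629) (.f (nat_lit 525) (nat_lit 622) (nat_lit 7661) (.f (nat_lit 527) (nat_lit 492) (nat_lit 3564) (.f (nat_lit 559) (nat_lit 524) (nat_lit 524) (.f (nat_lit 591) (nat_lit 623) (nat_lit 4590) (.d (nat_lit 589) (nat_lit 588) (nat_lit 2604) (nat_lit 621) (nat_lit 5613)))))))))))))))))
noncomputable def s37803 : Cert := .r (nat_lit 4717453032125294315973987508880817458218130529296591420246571772779567243795549402077785465380506041852719292777414468402832772512838634980175475457832173847598411546624) (.p (nat_lit 590) (.a (.f (nat_lit 589) (nat_lit 621) (nat_lit 5613) (.f (nat_lit 462) (nat_lit 557) (nat_lit 5581) (.d (nat_lit 463) (nat_lit 431) (nat_lit 6574) (nat_lit 495) (nat_lit 6606)))) (.a (.f (nat_lit 589) (nat_lit 621) (nat_lit 5613) (.f (nat_lit 557) (nat_lit 462) (nat_lit 5581) (.f (nat_lit 623) (nat_lit 591) (nat_lit 4590) (.f (nat_lit 622) (nat_lit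 655) (nat_lit 4622) (.d (nat_lit 654) (nat_lit 525) (nat_lit 7693) (nat_lit 686) (nat_lit 7725)))))) (.a (.f (nat_lit 495) (nat_lit 463) (nat_lit 6606) (.f (nat_lit 622) (nat_lit 527) (nat_lit 6638) (.d (nat_lit 621) (nat_lit 589) (nat_lit 5613) (nat_lit 653) (nat_lit 5645)))) (.f (nat_lit 495) (nat_lit 463) (nat_lit 6606) (.f (nat_lit 527) (nat_lit 622) (nat_lit 6638) (.f (nat_lit 525) (nat_lit 561) (nat_lit 525) (.d (nat_lit 524) (nat_lit 496) (nat_lit 2540) (nat_lit 523) (nat_lit 2539)))))))))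
noncomputable def s37812 : Cert := .r (nat_lit 4717453032125294315922840780632440241499174440283660183493186740810144356459872974451283374811683001932668197584822215947350168073345508870656455824302714581140153303040) (.p (nat_lit 494) (.a (.p (nat_lit 590) (.a (.f (nat_lit 589) (nat_lit 621) (nat_lit 5613) (.f (nat_lit 559) (nat_lit 561) (nat_lit 1581) (.d (nat_lit 557) (nat_lit 462) (nat_lit 5581) (nat_lit 588) (nat_lit 1580)))) (.f (nat_lit 495) (nat_lit 463) (nat_lit 6606) (.f (nat_lit 493) (nat_lit 461) (nat_lit 7629) (.d (nat_lit 527) (nat_lit 492) (nat_lit 492) (nat_lit 622) (nat_lit 6638)))))) (.a s37580 (.a (.p (nat_lit 462) (.a (.f (nat_lit 559) (nat_lit 591) (nat_lit 4558) (.f (nat_lit 527) (nat_lit 430) (nat_lit 4526) (.d (nat_lit 561) (nat_lit 525) (nat_lit 3597) (nat_lit 562) (nat_lit 3598)))) (.a (.f (nat_lit 431) (nat_lit 463) (nat_lit 6574) (.f (nat_lit 430) (nat_lit 399) (nat_lit 6542) (.d (nat_lit 429)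 (nat_lit 397) (nat_lit 7565) (nat_lit 461) (nat_lit 7597)))) (.f (nat_lit 559) (nat_lit 591) (nat_lit 4558) (.f (nat_lit 557) (nat_lit 589) (nat_lit 5581) (.f (nat_lit 527) (nat_lit 556) (nat_lit 2572) (.d (nat_lit 561) (nat_lit 525) (nat_lit 3597) (nat_lit 562) (nat_lit 3598)))))))) (.a (.p (nat_lit 590) (.a (.f (nat_lit 495) (nat_lit 463) (nat_lit 6606) (.f (nat_lit 493) (nat_lit 461) (nat_lit 7629) (.d (nat_lit 527) (nat_lit 492) (nat_lit 492) (nat_lit 622) (nat_lit 6638)))) (.a (.f (nat_lit 589) (nat_lit 621) (nat_lit 5613) (.f (nat_lit 462) (nat_lit 557) (nat_lit 5581) (.d (nat_lit 463) (nat_lit 431) (nat_lit 6574) (nat_lit 495) (nat_lit 6606)))) (.f (nat_lit 493) (nat_lit 461) (nat_lit 7629) (.f (nat_lit 525) (nat_lit 622) (nat_lit 7661) (.d (nat_lit 527) (nat_lit 492) (nat_lit 3564) (nat_lit 561) (nat_lit 525))))))) (.a s37634 (.a (.p (nat_lit 590) (.a (.f (nat_lit 495) (nat_lit 463) (nat_lit 6606) (.f (nat_lit 493)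 (nat_lit 461) (nat_lit 7629) (.d (nat_lit 527) (nat_lit 492) (nat_lit 492) (nat_lit 622) (nat_lit 6638)))) (.f (nat_lit 591) (nat_lit 623) (nat_lit 4590) (.f (nat_lit 559) (nat_lit 462) (nat_lit 4558) (.d (nat_lit 561) (nat_lit 525) (nat_lit 3597) (nat_lit 589) (nat_lit 1581)))))) (.a (.p (nat_lit 590) (.a (.f (nat_lit 495) (nat_lit 463) (nat_lit 6606) (.f (nat_lit 493) (nat_lit 461) (nat_lit 7629) (.d (nat_lit 527) (nat_lit 492) (nat_lit 492) (nat_lit 622) (nat_lit 6638)))) (.a (.f (nat_lit 589) (nat_lit 621) (nat_lit 5613) (.f (nat_lit 462) (nat_lit 557) (nat_lit 5581) (.d (nat_lit 463) (nat_lit 431) (nat_lit 6574) (nat_lit 495) (nat_lit 6606)))) (.f (nat_lit 591) (nat_lit 623) (nat_lit 4590) (.f (nat_lit 559) (nat_lit 462) (nat_lit 4558) (.d (nat_lit 589) (nat_lit 588) (nat_lit 2604) (nat_lit 621) (nat_lit 5613))))))) (.a (.p (nat_lit 590) (.a (.f (nat_lit 495) (nat_lit 463) (nat_lit 6606) (.f (nat_lit 493) (nat_lit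 461) (nat_lit 7629) (.d (nat_lit 527) (nat_lit 492) (nat_lit 492) (nat_lit 622) (nat_lit 6638)))) (.f (nat_lit 591) (nat_lit 623) (nat_lit 4590) (.f (nat_lit 559) (nat_lit 462) (nat_lit 4558) (.d (nat_lit 561) (nat_lit 525) (nat_lit 3597) (nat_lit 562) (nat_lit 1582)))))) (.p (nat_lit 590) (.a (.f (nat_lit 495) (nat_lit 463) (nat_lit 6606) (.f (nat_lit 493) (nat_lit 461) (nat_lit 7629) (.d (nat_lit 527) (nat_lit 492) (nat_lit 492) (nat_lit 622) (nat_lit 6638)))) (.f (nat_lit 589) (nat_lit 621) (nat_lit 5613) (.f (nat_lit 559) (nat_lit 561) (nat_lit 1581) (.d (nat_lit 588) (nat_lit 557) (nat_lit 1580) (nat_lit 587) (nat_lit 2603)))))))))))))))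
noncomputable def s37826 : Cert := .r (nat_lit 3773962425919908978067039048378881885645768491231275023412675293626429865204541471935760055792560469727505484597500264544337939673836815150592175795562377636060837445632) (.p (nat_lit 464) (.a (.f (nat_lit 465) (nat_lit 433) (nat_lit 6576) (.f (nat_lit 463) (nat_lit 431) (nat_lit 7599) (.d (nat_lit 592) (nat_lit 495) (nat_lit 7631) (nat_lit 497) (nat_lit 6608)))) (.a (.f (nat_lit 433) (nat_lit 465) (nat_lit 6576) (.f (nat_lit 432) (nat_lit 401) (nat_lit 6544) (.d (nat_lit 431) (nat_lit 399) (nat_lit 7567) (nat_lit 463) (nat_lit 7599)))) (.a (.f (nat_lit 465) (nat_lit 433) (nat_lit 6576) (.f (nat_lit 592) (nat_lit 497) (nat_lit 6608) (.d (nat_lit 591) (nat_lit 559) (nat_lit 5583) (nat_lit 623) (nat_lit 5615)))) (.f (nat_lit 463) (nat_lit 431) (nat_lit 7599) (.f (nat_lit 592) (nat_lit 495) (nat_lit 7631) (.d (nat_lit 591) (nat_lit 559) (nat_lit 5583) (nat_lit 623) (nat_lit 5615))))))))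
noncomputable def s37843 : Cert := .r (nat_lit 4717453032125294316178574421874326325093954885348316367260111900657258793138255112583793827655798201532923673547783478224763190270811139418251553991950010913431444520960) (.p (nat_lit 464) (.a (.f (nat_lit 463) (nat_lit 431) (nat_lit 7599) (.f (nat_lit 465) (nat_lit 433) (nat_lit 6576) (.d (nat_lit 493) (nat_lit 462) (nat_lit 1485) (nat_lit 495) (nat_lit 2509)))) (.a (.f (nat_lit 465) (nat_lit 433) (nat_lit 6576) (.f (nat_lit 495) (nat_lit 493) (nat_lit 2509) (.d (nat_lit 497) (nat_lit 466) (nat_lit 2510) (nat_lit 525) (nat_lit 1517)))) (.a (.f (nat_lit 431) (nat_lit 463) (nat_lit 7599) (.f (nat_lit 432) (nat_lit 399) (nat_lit 7567) (.d (nat_lit 433) (nat_lit 401) (nat_lit 6544) (nat_lit 465) (nat_lit 6576)))) (.a (.f (nat_lit 431) (nat_lit 463) (nat_lit 7599) (.f (nat_lit 432) (nat_lit 399) (nat_lit 7567) (.f (nat_lit 401) (nat_lit 433) (nat_lit 6544) (.f (nat_lit 400) (nat_lit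 369) (nat_lit 6512) (.f (nat_lit 429) (nat_lit 430) (nat_lit 2445) (.f (nat_lit 461) (nat_lit 462) (nat_lit 7597) (.d (nat_lit 493) (nat_lit 397) (nat_lit 4493) (nat_lit 525) (nat_lit 4525)))))))) (.f (nat_lit 431) (nat_lit 463) (nat_lit 7599) (.f (nat_lit 399) (nat_lit 432) (nat_lit 7567) (.f (nat_lit 462) (nat_lit 430) (nat_lit 6542) (.f (nat_lit 461) (nat_lit 429) (nat_lit 7597) (.f (nat_lit 495) (nat_lit 497) (nat_lit 3533) (.d (nat_lit 460) (nat_lit 459) (nat_lit 459) (nat_lit 493) (nat_lit 3532))))))))))))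
noncomputable def s37847 : Cert := .r (nat_lit 4717453032125294316178574421874326325093954885348316367260111900657258793138255112583793827655798201532923673547783478224763190270811139418251553991950010913431444520960) (.p (nat_lit 464) (.a (.f (nat_lit 463) (nat_lit 431) (nat_lit 7599) (.f (nat_lit 465) (nat_lit 433) (nat_lit 6576) (.d (nat_lit 493) (nat_lit 462) (nat_lit 1485) (nat_lit 495) (nat_lit 2509)))) (.a (.f (nat_lit 465) (nat_lit 433) (nat_lit 6576) (.f (nat_lit 495) (nat_lit 493) (nat_lit 2509) (.d (nat_lit 466) (nat_lit 467) (nat_lit 1487) (nat_lit 497) (nat_lit 2510)))) (.a (.f (nat_lit 431) (nat_lit 463) (nat_lit 7599) (.f (nat_lit 432) (nat_lit 399) (nat_lit 7567) (.d (nat_lit 433) (nat_lit 401) (nat_lit 6544) (nat_lit 465) (nat_lit 6576)))) (.f (nat_lit 431) (nat_lit 463) (nat_lit 7599) (.f (nat_lit 399) (nat_lit 432) (nat_lit 7567) (.f (nat_lit 462) (nat_lit 430) (nat_lit 6542) (.f (nat_lit 461) (nat_lit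 429) (nat_lit 7597) (.f (nat_lit 495) (nat_lit 497) (nat_lit 3533) (.d (nat_lit 460) (nat_lit 459) (nat_lit 459) (nat_lit 493) (nat_lit 3532)))))))))))
noncomputable def s37870 : Cert := .r (nat_lit 4717453032125294316178574421874326325093954885348316367260111900657258793138255112583793827655798201532923673547783478224763190270811139418251553991950010913431444520960) (.p (nat_lit 590) (.a (.f (nat_lit 589) (nat_lit 621) (nat_lit 5613) (.f (nat_lit 559) (nat_lit 561) (nat_lit 1581) (.d (nat_lit 557) (nat_lit 462) (nat_lit 5581) (nat_lit 588) (nat_lit 1580)))) (.a (.f (nat_lit 495) (nat_lit 463) (nat_lit 6606) (.f (nat_lit 497) (nat_lit 525) (nat_lit 1517) (.f (nat_lit 462) (nat_lit 461) (nat_lit 3533) (.d (nat_lit 589) (nat_lit 557) (nat_lit 5581) (nat_lit 621) (nat_lit 5613))))) (.f (nat_lit 495) (nat_lit 463) (nat_lit 6606) (.f (nat_lit 497) (nat_lit 525) (nat_lit 1517) (.f (nat_lit 465) (nat_lit 466) (nat_lit 2510) (.d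 (nat_lit 433) (nat_lit 401) (nat_lit 5520) (nat_lit 464) (nat_lit 6576))))))))
noncomputable def s37882 : Cert := .r (nat_lit 4717453032125294316178574421874326325093954885348316367260111900657258793138255112583793827655798201532923673547783478224763190270811139418251553991950010913431444520960) (.p (nat_lit 590) (.a (.f (nat_lit 589) (nat_lit 621) (nat_lit 5613) (.f (nat_lit 559) (nat_lit 561) (nat_lit 1581) (.d (nat_lit 557) (nat_lit 462) (nat_lit 5581) (nat_lit 588) (nat_lit 1580)))) (.a (.f (nat_lit 461) (nat_lit 493) (nat_lit 7629) (.f (nat_lit 462) (nat_lit 429) (nat_lit 7597) (.d (nat_lit 589) (nat_lit 557) (nat_lit 5581) (nat_lit 621) (nat_lit 5613)))) (.a (.f (nat_lit 591) (nat_lit 623) (nat_lit 4590) (.d (nat_lit 559) (nat_lit 462) (nat_lit 4558) (nat_lit 464) (nat_lit 5583))) (.f (nat_lit 589) (nat_lit 621) (nat_lit 5613) (.f (nat_lit 559) (nat_lit 561) (nat_lit 1581) (.d (nat_lit 588) (nat_lit 557) (nat_lit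 1580) (nat_lit 587) (nat_lit 2603))))))))
noncomputable def s37896 : Cert := .r (nat_lit 4717453032125294316178574421874326325093954885348316367260111900657258793138255112583793827655798201532923673547783478224763190270811139418251553991950010913431444520960) (.p (nat_lit 462) (.a (.f (nat_lit 461) (nat_lit 429) (nat_lit 7597) (.f (nat_lit 495) (nat_lit 497) (nat_lit 3533) (.d (nat_lit 460) (nat_lit 459) (nat_lit 459) (nat_lit 493) (nat_lit 3532)))) (.a (.f (nat_lit 557) (nat_lit 589) (nat_lit 5581) (.f (nat_lit 430) (nat_lit 525) (nat_lit 5549) (.d (nat_lit 429) (nat_lit 397) (nat_lit 7565) (nat_lit 461) (nat_lit 7597)))) (.a (.f (nat_lit 557) (nat_lit 589) (nat_lit 5581) (.f (nat_lit 430) (nat_lit 525) (nat_lit 5549) (.f (nat_lit 399) (nat_lit 431) (nat_lit 6542) (.f (nat_lit 398) (nat_lit 367) (nat_lit 6510) (.d (nat_lit 397) (nat_lit 365) (nat_lit 7533) (nat_lit 429) (nat_lit 7565)))))) (.f (nat_lit 557) (nat_lit 589)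 (nat_lit 5581) (.f (nat_lit 525) (nat_lit 430) (nat_lit 5549) (.f (nat_lit 495) (nat_lit 497) (nat_lit 1517) (.d (nat_lit 524) (nat_lit 493) (nat_lit 1516) (nat_lit 523) (nat_lit 2539)))))))))
noncomputable def s37904 : Cert := .r (nat_lit 4717453032125294316178574421874326325093954885348316367260111900657258793138255112583793827655798201532923673547783478224763190270811139418251553991950010913431444520960) (.p (nat_lit 590) (.a (.f (nat_lit 461) (nat_lit 493) (nat_lit 7629) (.f (nat_lit 462) (nat_lit 429) (nat_lit 7597) (.d (nat_lit 463) (nat_lit 431) (nat_lit 6574) (nat_lit 495) (nat_lit 6606)))) (.a (.f (nat_lit 591) (nat_lit 623) (nat_lit 4590) (.f (nat_lit 462) (nat_lit 559) (nat_lit 4558) (.d (nat_lit 461) (nat_lit 429) (nat_lit 7597) (nat_lit 493) (nat_lit 7629)))) (.a (.f (nat_lit 495) (nat_lit 463) (nat_lit 6606) (.f (nat_lit 525) (nat_lit 497) (nat_lit 1517) (.d (nat_lit 493) (nat_lit 461) (nat_lit 7629) (nat_lit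 524) (nat_lit 1516)))) (.f (nat_lit 591) (nat_lit 623) (nat_lit 4590) (.f (nat_lit 462) (nat_lit 559) (nat_lit 4558) (.d (nat_lit 463) (nat_lit 431) (nat_lit 6574) (nat_lit 495) (nat_lit 6606))))))))
noncomputable def s37910 : Cert := .r (nat_lit 4717453032125294316127427693625949108374998796335385130506726868687835905802578684957291737086975161612872578355191225769280585831318013308732534358420551646973186277376) (.p (nat_lit 494) (.a (.p (nat_lit 462) (.a (.f (nat_lit 461) (nat_lit 429) (nat_lit 7597) (.f (nat_lit 495) (nat_lit 497) (nat_lit 3533) (.d (nat_lit 460) (nat_lit 459) (nat_lit 459) (nat_lit 493) (nat_lit 3532)))) (.f (nat_lit 557) (nat_lit 589) (nat_lit 5581) (.f (nat_lit 525) (nat_lit 430) (nat_lit 5549) (.d (nat_lit 559) (nat_lit 524) (nat_lit 3596) (nat_lit 561) (nat_lit 3597)))))) (.a (.p (nat_lit 590) (.a (.f (nat_lit 589) (nat_lit 621) (nat_lit 5613) (.f (nat_lit 559) (nat_lit 561) (nat_lit 1581) (.d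 (nat_lit 557) (nat_lit 462) (nat_lit 5581) (nat_lit 588) (nat_lit 1580)))) (.a (.f (nat_lit 461) (nat_lit 493) (nat_lit 7629) (.f (nat_lit 462) (nat_lit 429) (nat_lit 7597) (.d (nat_lit 463) (nat_lit 431) (nat_lit 6574) (nat_lit 495) (nat_lit 6606)))) (.f (nat_lit 589) (nat_lit 621) (nat_lit 5613) (.f (nat_lit 559) (nat_lit 561) (nat_lit 1581) (.d (nat_lit 588) (nat_lit 557) (nat_lit 1580) (nat_lit 587) (nat_lit 2603))))))) (.a s37896 (.a (.p (nat_lit 590) (.a (.f (nat_lit 461) (nat_lit 493) (nat_lit 7629) (.f (nat_lit 462) (nat_lit 429) (nat_lit 7597) (.d (nat_lit 463) (nat_lit 431) (nat_lit 6574) (nat_lit 495) (nat_lit 6606)))) (.f (nat_lit 621) (nat_lit 589) (nat_lit 5613) (.f (nat_lit 622) (nat_lit 653) (nat_lit 5645) (.d (nat_lit 623) (nat_lit 591) (nat_lit 4590) (nat_lit 655) (nat_lit 4622)))))) (.a s37904 (.a (.p (nat_lit 462) (.a (.f (nat_lit 557) (nat_lit 589) (nat_lit 5581) (.f (nat_lit 525) (nat_lit 430) (nat_lit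 5549) (.d (nat_lit 559) (nat_lit 524) (nat_lit 3596) (nat_lit 561) (nat_lit 3597)))) (.a (.f (nat_lit 431) (nat_lit 463) (nat_lit 6574) (.f (nat_lit 430) (nat_lit 399) (nat_lit 6542) (.d (nat_lit 429) (nat_lit 397) (nat_lit 7565) (nat_lit 461) (nat_lit 7597)))) (.f (nat_lit 559) (nat_lit 591) (nat_lit 4558) (.f (nat_lit 557) (nat_lit 589) (nat_lit 5581) (.d (nat_lit 525) (nat_lit 524) (nat_lit 3596) (nat_lit 561) (nat_lit 3597))))))) (.a (.p (nat_lit 590) (.a (.f (nat_lit 589) (nat_lit 621) (nat_lit 5613) (.f (nat_lit 559) (nat_lit 561) (nat_lit 1581) (.d (nat_lit 588) (nat_lit 557) (nat_lit 1580) (nat_lit 587) (nat_lit 2603)))) (.f (nat_lit 495) (nat_lit 463) (nat_lit 6606) (.f (nat_lit 525) (nat_lit 497) (nat_lit 1517) (.d (nat_lit 493) (nat_lit 461) (nat_lit 7629) (nat_lit 524) (nat_lit 1516)))))) (.p (nat_lit 590) (.a (.f (nat_lit 589) (nat_lit 621) (nat_lit 5613) (.f (nat_lit 559) (nat_lit 561) (nat_lit 1581) (.d (nat_lit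 557) (nat_lit 462) (nat_lit 5581) (nat_lit 588) (nat_lit 1580)))) (.a (.f (nat_lit 621) (nat_lit 589) (nat_lit 5613) (.f (nat_lit 622) (nat_lit 653) (nat_lit 5645) (.d (nat_lit 623) (nat_lit 591) (nat_lit 4590) (nat_lit 655) (nat_lit 4622)))) (.f (nat_lit 591) (nat_lit 623) (nat_lit 4590) (.f (nat_lit 462) (nat_lit 559) (nat_lit 4558) (.d (nat_lit 463) (nat_lit 431) (nat_lit 6574) (nat_lit 495) (nat_lit 6606)))))))))))))))
noncomputable def s37914 : Cert := .r (nat_lit 4717453032125294316178574421874326325093954885348316367260111900657258793138255112583793827655798201532923673547783478224763190270811139418251553991950010913431444520960) (.p (nat_lit 462) (.a (.f (nat_lit 431) (nat_lit 463) (nat_lit 6574) (.f (nat_lit 430) (nat_lit 399) (nat_lit 6542) (.d (nat_lit 429) (nat_lit 397) (nat_lit 7565) (nat_lit 461) (nat_lit 7597)))) (.a (.f (nat_lit 557) (nat_lit 589) (nat_lit 5581) (.f (nat_lit 430) (nat_lit 525) (nat_lit 5549)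 (.d (nat_lit 429) (nat_lit 397) (nat_lit 7565) (nat_lit 461) (nat_lit 7597)))) (.a (.f (nat_lit 557) (nat_lit 589) (nat_lit 5581) (.f (nat_lit 430) (nat_lit 525) (nat_lit 5549) (.f (nat_lit 399) (nat_lit 431) (nat_lit 6542) (.f (nat_lit 398) (nat_lit 367) (nat_lit 6510) (.d (nat_lit 397) (nat_lit 365) (nat_lit 7533) (nat_lit 429) (nat_lit 7565)))))) (.a (.f (nat_lit 431) (nat_lit 463) (nat_lit 6574) (.f (nat_lit 430) (nat_lit 399) (nat_lit 6542) (.d (nat_lit 557) (nat_lit 525) (nat_lit 5549) (nat_lit 589) (nat_lit 5581)))) (.f (nat_lit 463) (nat_lit 431) (nat_lit 6574) (.f (nat_lit 461) (nat_lit 429) (nat_lit 7597) (.f (nat_lit 464) (nat_lit 497) (nat_lit 461) (.d (nat_lit 493) (nat_lit 465) (nat_lit 1485) (nat_lit 492) (nat_lit 1484))))))))))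
noncomputable def s37917 : Cert := .r (nat_lit 4717453032125294316178574421874326325093954885348316367260111900657258793138255112583793827655798201532923673547783478224763190270811139418251553991950010913431444520960) (.p (nat_lit 590) (.a (.f (nat_lit 621) (nat_lit 589) (nat_lit 5613) (.f (nat_lit 622) (nat_lit 653) (nat_lit 5645) (.d (nat_lit 623) (nat_lit 591) (nat_lit 4590) (nat_lit 655) (nat_lit 4622)))) (.a (.f (nat_lit 495) (nat_lit 463) (nat_lit 6606) (.f (nat_lit 497) (nat_lit 525) (nat_lit 1517) (.f (nat_lit 462) (nat_lit 461) (nat_lit 3533) (.d (nat_lit 589) (nat_lit 557) (nat_lit 5581) (nat_lit 621) (nat_lit 5613))))) (.f (nat_lit 495) (nat_lit 463) (nat_lit 6606) (.f (nat_lit 497) (nat_lit 525) (nat_lit 1517) (.f (nat_lit 465) (nat_lit 466) (nat_lit 2510) (.d (nat_lit 433) (nat_lit 401) (nat_lit 5520) (nat_lit 464) (nat_lit 6576))))))))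
noncomputable def s38003 : Cert := .r (nat_lit 3773962425919908978067039048378881885645768491231275023412675293626429865204541471935760055792560469727505484597500264544337939673836815150592175795562377636060837445632) (.p (nat_lit 463) (.a (.f (nat_lit 464) (nat_lit 431) (nat_lit 7599) (.f (nat_lit 465) (nat_lit 433) (nat_lit 6576) (.d (nat_lit 592) (nat_lit 495) (nat_lit 7631) (nat_lit 497) (nat_lit 6608)))) (.a (.f (nat_lit 464) (nat_lit 431) (nat_lit 7599) (.p (nat_lit 462) (.a (.f (nat_lit 465) (nat_lit 433) (nat_lit 6576) (.d (nat_lit 497) (nat_lit 461) (nat_lit 461) (nat_lit 498) (nat_lit 462))) (.a (.f (nat_lit 461) (nat_lit 497) (nat_lit 461) (.f (nat_lit 460) (nat_lit 495) (nat_lit 460) (.d (nat_lit 492) (nat_lit 491) (nat_lit 1483) (nat_lit 493) (nat_lit 1484)))) (.a (.f (nat_lit 465) (nat_lit 433) (nat_lit 6576) (.f (nat_lit 494) (nat_lit 493) (nat_lit 1485) (.f (nat_lit 495) (nat_lit 466) (nat_lit 1486) (.d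 (nat_lit 497) (nat_lit 498) (nat_lit 462) (nat_lit 525) (nat_lit 1517))))) (.f (nat_lit 465) (nat_lit 433) (nat_lit 6576) (.f (nat_lit 494) (nat_lit 493) (nat_lit 1485) (.f (nat_lit 495) (nat_lit 466) (nat_lit 1486) (.f (nat_lit 430) (nat_lit 429) (nat_lit 3501) (.f (nat_lit 558) (nat_lit 590) (nat_lit 6606) (.d (nat_lit 557) (nat_lit 525) (nat_lit 5549) (nat_lit 589) (nat_lit 5581)))))))))))) (.a (.f (nat_lit 495) (nat_lit 592) (nat_lit 7631) (.p (nat_lit 494) (.a (.f (nat_lit 431) (nat_lit 399) (nat_lit 4495) (.d (nat_lit 558) (nat_lit 462) (nat_lit 6574) (nat_lit 590) (nat_lit 6606))) (.a (.f (nat_lit 431) (nat_lit 399) (nat_lit 4495) (.f (nat_lit 462) (nat_lit 558) (nat_lit 6574) (.d (nat_lit 497) (nat_lit 498) (nat_lit 3534) (nat_lit 525) (nat_lit 1517)))) (.a (.f (nat_lit 497) (nat_lit 525) (nat_lit 1517) (.d (nat_lit 462) (nat_lit 461) (nat_lit 3533) (nat_lit 498) (nat_lit 3534))) (.f (nat_lit 525) (nat_lit 497)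 (nat_lit 1517) (.d (nat_lit 524) (nat_lit 493) (nat_lit 1516) (nat_lit 523) (nat_lit 2539)))))))) (.a (.f (nat_lit 464) (nat_lit 431) (nat_lit 7599) (.f (nat_lit 465) (nat_lit 433) (nat_lit 6576) (.f (nat_lit 497) (nat_lit 592) (nat_lit 6608) (.d (nat_lit 462) (nat_lit 461) (nat_lit 461) (nat_lit 498) (nat_lit 462))))) (.a (.p (nat_lit 462) (.a (.f (nat_lit 495) (nat_lit 592) (nat_lit 7631) (.f (nat_lit 497) (nat_lit 498) (nat_lit 3534) (.d (nat_lit 461) (nat_lit 460) (nat_lit 460) (nat_lit 494) (nat_lit 3533)))) (.a (.p (nat_lit 464) (.a (.f (nat_lit 465) (nat_lit 433) (nat_lit 6576) (.d (nat_lit 497) (nat_lit 461) (nat_lit 461) (nat_lit 498) (nat_lit 462))) (.a (.f (nat_lit 461) (nat_lit 497) (nat_lit 461) (.f (nat_lit 460) (nat_lit 495) (nat_lit 460) (.d (nat_lit 492) (nat_lit 491) (nat_lit 1483) (nat_lit 493) (nat_lit 1484)))) (.a (.f (nat_lit 465) (nat_lit 433) (nat_lit 6576) (.f (nat_lit 494) (nat_lit 493) (nat_lit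 1485) (.f (nat_lit 495) (nat_lit 466) (nat_lit 1486) (.d (nat_lit 497) (nat_lit 498) (nat_lit 462) (nat_lit 525) (nat_lit 1517))))) (.f (nat_lit 465) (nat_lit 433) (nat_lit 6576) (.f (nat_lit 494) (nat_lit 493) (nat_lit 1485) (.f (nat_lit 495) (nat_lit 466) (nat_lit 1486) (.f (nat_lit 430) (nat_lit 429) (nat_lit 3501) (.f (nat_lit 558) (nat_lit 590) (nat_lit 6606) (.d (nat_lit 557) (nat_lit 525) (nat_lit 5549) (nat_lit 589) (nat_lit 5581))))))))))) (.a (.p (nat_lit 464) (.a (.f (nat_lit 465) (nat_lit 433) (nat_lit 6576) (.d (nat_lit 497) (nat_lit 461) (nat_lit 461) (nat_lit 498) (nat_lit 462))) (.a (.f (nat_lit 461) (nat_lit 497) (nat_lit 461) (.f (nat_lit 429) (nat_lit 428) (nat_lit 3500) (.f (nat_lit 493) (nat_lit 492) (nat_lit 1484) (.d (nat_lit 494) (nat_lit 397) (nat_lit 4493) (nat_lit 558) (nat_lit 7597))))) (.a (.f (nat_lit 465) (nat_lit 433) (nat_lit 6576) (.d (nat_lit 497) (nat_lit 498) (nat_lit 462) (nat_lit 592)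 (nat_lit 6608))) (.f (nat_lit 465) (nat_lit 433) (nat_lit 6576) (.f (nat_lit 429) (nat_lit 430) (nat_lit 3501) (.f (nat_lit 461) (nat_lit 428) (nat_lit 3500) (.d (nat_lit 493) (nat_lit 492) (nat_lit 1484) (nat_lit 494) (nat_lit 1485))))))))) (.a (.f (nat_lit 495) (nat_lit 592) (nat_lit 7631) (.f (nat_lit 497) (nat_lit 498) (nat_lit 3534) (.d (nat_lit 461) (nat_lit 460) (nat_lit 460) (nat_lit 464) (nat_lit 461)))) (.a (.f (nat_lit 495) (nat_lit 592) (nat_lit 7631) (.f (nat_lit 497) (nat_lit 498) (nat_lit 3534) (.f (nat_lit 494) (nat_lit 525) (nat_lit 1517) (.f (nat_lit 465) (nat_lit 466) (nat_lit 2510) (.d (nat_lit 464) (nat_lit 433) (nat_lit 6576) (nat_lit 493) (nat_lit 2509)))))) (.p (nat_lit 464) (.a (.f (nat_lit 465) (nat_lit 433) (nat_lit 6576) (.f (nat_lit 494) (nat_lit 493) (nat_lit 1485) (.f (nat_lit 495) (nat_lit 466) (nat_lit 1486) (.f (nat_lit 430) (nat_lit 429) (nat_lit 3501) (.f (nat_lit 558) (nat_lit 590) (nat_lit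 6606) (.d (nat_lit 557) (nat_lit 525) (nat_lit 5549) (nat_lit 589) (nat_lit 5581))))))) (.a (.f (nat_lit 465) (nat_lit 433) (nat_lit 6576) (.f (nat_lit 429) (nat_lit 430) (nat_lit 3501) (.f (nat_lit 461) (nat_lit 428) (nat_lit 3500) (.d (nat_lit 493) (nat_lit 492) (nat_lit 1484) (nat_lit 494) (nat_lit 1485))))) (.a (.f (nat_lit 495) (nat_lit 592) (nat_lit 7631) (.f (nat_lit 461) (nat_lit 460) (nat_lit 460) (.f (nat_lit 493) (nat_lit 492) (nat_lit 1484) (.f (nat_lit 429) (nat_lit 428) (nat_lit 3500) (.d (nat_lit 558) (nat_lit 494) (nat_lit 7597) (nat_lit 525) (nat_lit 4525)))))) (.f (nat_lit 433) (nat_lit 465) (nat_lit 6576) (.d (nat_lit 432) (nat_lit 401) (nat_lit 6544) (nat_lit 461) (nat_lit 2477))))))))))))) (.f (nat_lit 431) (nat_lit 464) (nat_lit 7599) (.d (nat_lit 495) (nat_lit 399) (nat_lit 4495) (nat_lit 592) (nat_lit 7631)))))))))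
noncomputable def s38011 : Cert := .r (nat_lit 4717453032125294316178574421874326325093954885348316367260111900657258793138255112583793827655798201532923673547783478224763190270811139418251553991950010913431444520960) (.p (nat_lit 462) (.a (.f (nat_lit 463) (nat_lit 431) (nat_lit 6574) (.f (nat_lit 495) (nat_lit 592) (nat_lit 7631) (.d (nat_lit 461) (nat_lit 429) (nat_lit 7597) (nat_lit 460) (nat_lit 460)))) (.a (.f (nat_lit 461) (nat_lit 429) (nat_lit 7597) (.f (nat_lit 495) (nat_lit 497) (nat_lit 3533) (.d (nat_lit 460) (nat_lit 459) (nat_lit 459) (nat_lit 493) (nat_lit 3532)))) (.a (.f (nat_lit 431) (nat_lit 463) (nat_lit 6574) (.f (nat_lit 430) (nat_lit 399) (nat_lit 6542) (.d (nat_lit 429) (nat_lit 397) (nat_lit 7565) (nat_lit 461) (nat_lit 7597)))) (.f (nat_lit 463) (nat_lit 431) (nat_lit 6574) (.f (nat_lit 592) (nat_lit 495) (nat_lit 7631) (.d (nat_lit 591) (nat_lit 559) (nat_lit 4558) (nat_lit 623) (nat_lit 5615))))))))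
noncomputable def s38014 : Cert := .r (nat_lit 4717453032125294316178574421874326325093954885348316367260111900657258793138255112583793827655798201532923673547783478224763190270811139418251553991950010913431444520960) (.p (nat_lit 462) (.a (.f (nat_lit 463) (nat_lit 431) (nat_lit 6574) (.f (nat_lit 495) (nat_lit 592) (nat_lit 7631) (.d (nat_lit 461) (nat_lit 429) (nat_lit 7597) (nat_lit 460) (nat_lit 460)))) (.a (.f (nat_lit 461) (nat_lit 429) (nat_lit 7597) (.f (nat_lit 495) (nat_lit 497) (nat_lit 3533) (.d (nat_lit 460) (nat_lit 459) (nat_lit 459) (nat_lit 493) (nat_lit 3532)))) (.a (.f (nat_lit 431) (nat_lit 463) (nat_lit 6574) (.f (nat_lit 430) (nat_lit 399) (nat_lit 6542) (.d (nat_lit 429) (nat_lit 397) (nat_lit 7565) (nat_lit 461) (nat_lit 7597)))) (.f (nat_lit 463) (nat_lit 431) (nat_lit 6574) (.f (nat_lit 495) (nat_lit 592) (nat_lit 7631) (.d (nat_lit 497) (nat_lit 498) (nat_lit 3534) (nat_lit 525) (nat_lit 1517))))))))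
noncomputable def s38031 : Cert := .r (nat_lit 3773962425919908978118185776627259102364724580244206260166060325595852752540217899562262146361383509647556579790092516999820544113329941260111195429091836902519095689216) (.p (nat_lit 495) (.a (.f (nat_lit 497) (nat_lit 525) (nat_lit 1517) (.d (nat_lit 592) (nat_lit 463) (nat_lit 7631) (nat_lit 465) (nat_lit 6608))) (.a (.f (nat_lit 497) (nat_lit 525) (nat_lit 1517) (.f (nat_lit 462) (nat_lit 461) (nat_lit 3533) (.f (nat_lit 463) (nat_lit 498) (nat_lit 3534) (.d (nat_lit 431) (nat_lit 399) (nat_lit 4495) (nat_lit 558) (nat_lit 6574))))) (.a (.f (nat_lit 463) (nat_lit 592) (nat_lit 7631) (.f (nat_lit 431) (nat_lit 399) (nat_lit 4495) (.d (nat_lit 558) (nat_lit 462) (nat_lit 6574) (nat_lit 590) (nat_lit 6606)))) (.f (nat_lit 497) (nat_lit 525) (nat_lit 1517) (.d (nat_lit 465) (nat_lit 466) (nat_lit 2510) (nat_lit 592) (nat_lit 6608)))))))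
noncomputable def s38056 : Cert := .r (nat_lit 3773962425919908978220479233135922061461495981564828854941267455825548587265071773914918262922405183584108681751053336085680055250463726633146299755413786348518834700288) (.p (nat_lit 430) (.a (.f (nat_lit 463) (nat_lit 592) (nat_lit 7631) (.f (nat_lit 399) (nat_lit 431) (nat_lit 5518) (.d (nat_lit 398) (nat_lit 366) (nat_lit 4462) (nat_lit 367) (nat_lit 6510)))) (.a (.f (nat_lit 399) (nat_lit 431) (nat_lit 6542) (.f (nat_lit 398) (nat_lit 367) (nat_lit 6510) (.d (nat_lit 397) (nat_lit 365) (nat_lit 7533) (nat_lit 429) (nat_lit 7565)))) (.a (.f (nat_lit 463) (nat_lit 592) (nat_lit 7631) (.f (nat_lit 398) (nat_lit 366) (nat_lit 4462) (.d (nat_lit 397) (nat_lit 365) (nat_lit 7533) (nat_lit 429) (nat_lit 7565)))) (.f (nat_lit 463) (nat_lit 592) (nat_lit 7631) (.f (nat_lit 431) (nat_lit 399) (nat_lit 5518) (.f (nat_lit 460) (nat_lit 461) (nat_lit 460) (.f (nat_lit 429) (nat_lit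 397) (nat_lit 7565) (.d (nat_lit 428) (nat_lit 427) (nat_lit 427) (nat_lit 459) (nat_lit 1451))))))))))
noncomputable def s38061 : Cert := .r (nat_lit 4717453032125294316178574421874326325093954885348316367260111900657258793138255112583793827655798201532923673547783478224763190270811139418251553991950010913431444520960) (.p (nat_lit 590) (.a (.f (nat_lit 589) (nat_lit 621) (nat_lit 5613) (.f (nat_lit 559) (nat_lit 561) (nat_lit 1581) (.d (nat_lit 557) (nat_lit 462) (nat_lit 5581) (nat_lit 588) (nat_lit 1580)))) (.a (.f (nat_lit 461) (nat_lit 493) (nat_lit 7629) (.f (nat_lit 462) (nat_lit 429) (nat_lit 7597) (.d (nat_lit 589) (nat_lit 557) (nat_lit 5581) (nat_lit 621) (nat_lit 5613)))) (.a (.f (nat_lit 621) (nat_lit 589) (nat_lit 5613) (.f (nat_lit 622) (nat_lit 653) (nat_lit 5645) (.d (nat_lit 623) (nat_lit 591) (nat_lit 4590) (nat_lit 655) (nat_lit 4622)))) (.f (nat_lit 591) (nat_lit 623) (nat_lit 4590) (.f (nat_lit 462)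 (nat_lit 559) (nat_lit 4558) (.d (nat_lit 461) (nat_lit 429) (nat_lit 7597) (nat_lit 493) (nat_lit 7629))))))))
noncomputable def s38116 : Cert := .r (nat_lit 4717453032125294316178574421874326325093954885348316367260111900657258793138255112583793827655798201532923673547783478224763190270811139418251553991950010913431444520960) (.p (nat_lit 590) (.a (.f (nat_lit 589) (nat_lit 621) (nat_lit 5613) (.f (nat_lit 559) (nat_lit 561) (nat_lit 1581) (.d (nat_lit 557) (nat_lit 462) (nat_lit 5581) (nat_lit 588) (nat_lit 1580)))) (.a (.f (nat_lit 461) (nat_lit 493) (nat_lit 7629) (.f (nat_lit 462) (nat_lit 429) (nat_lit 7597) (.d (nat_lit 589) (nat_lit 557) (nat_lit 5581) (nat_lit 621) (nat_lit 5613)))) (.a (.f (nat_lit 493) (nat_lit 461) (nat_lit 7629) (.f (nat_lit 622) (nat_lit 525) (nat_lit 7661) (.f (nat_lit 655) (nat_lit 623) (nat_lit 4622) (.f (nat_lit 654) (nat_lit 687) (nat_lit 4654) (.d (nat_lit 653) (nat_lit 621) (nat_lit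 5645) (nat_lit 685) (nat_lit 5677)))))) (.f (nat_lit 493) (nat_lit 461) (nat_lit 7629) (.f (nat_lit 525) (nat_lit 622) (nat_lit 7661) (.f (nat_lit 559) (nat_lit 561) (nat_lit 3597) (.d (nat_lit 524) (nat_lit 523) (nat_lit 523) (nat_lit 557) (nat_lit 3596)))))))))
noncomputable def s38120 : Cert := .r (nat_lit 4717453032125294316178574421874326325093954885348316367260111900657258793138255112583793827655798201532923673547783478224763190270811139418251553991950010913431444520960) (.p (nat_lit 590) (.a (.f (nat_lit 461) (nat_lit 493) (nat_lit 7629) (.f (nat_lit 462) (nat_lit 429) (nat_lit 7597) (.d (nat_lit 589) (nat_lit 557) (nat_lit 5581) (nat_lit 621) (nat_lit 5613)))) (.a (.f (nat_lit 621) (nat_lit 589) (nat_lit 5613) (.f (nat_lit 622) (nat_lit 653) (nat_lit 5645) (.d (nat_lit 623) (nat_lit 591) (nat_lit 4590) (nat_lit 655) (nat_lit 4622)))) (.a (.f (nat_lit 493) (nat_lit 461) (nat_lit 7629) (.f (nat_lit 622) (nat_lit 525)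 (nat_lit 7661) (.f (nat_lit 655) (nat_lit 623) (nat_lit 4622) (.f (nat_lit 654) (nat_lit 687) (nat_lit 4654) (.d (nat_lit 653) (nat_lit 621) (nat_lit 5645) (nat_lit 685) (nat_lit 5677)))))) (.f (nat_lit 623) (nat_lit 591) (nat_lit 4590) (.f (nat_lit 622) (nat_lit 655) (nat_lit 4622) (.d (nat_lit 493) (nat_lit 461) (nat_lit 7629) (nat_lit 525) (nat_lit 7661))))))))
noncomputable def s38123 : Cert := .r (nat_lit 4717453032125294316178574421874326325093954885348316367260111900657258793138255112583793827655798201532923673547783478224763190270811139418251553991950010913431444520960) (.p (nat_lit 590) (.a (.f (nat_lit 589) (nat_lit 621) (nat_lit 5613) (.f (nat_lit 559) (nat_lit 561) (nat_lit 1581) (.d (nat_lit 588) (nat_lit 557) (nat_lit 1580) (nat_lit 587) (nat_lit 2603)))) (.a (.f (nat_lit 621) (nat_lit 589) (nat_lit 5613) (.f (nat_lit 622) (nat_lit 653) (nat_lit 5645) (.d (nat_lit 623) (nat_lit 591) (nat_lit 4590) (nat_lit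 655) (nat_lit 4622)))) (.a (.f (nat_lit 493) (nat_lit 461) (nat_lit 7629) (.f (nat_lit 622) (nat_lit 525) (nat_lit 7661) (.f (nat_lit 655) (nat_lit 623) (nat_lit 4622) (.f (nat_lit 654) (nat_lit 687) (nat_lit 4654) (.d (nat_lit 653) (nat_lit 621) (nat_lit 5645) (nat_lit 685) (nat_lit 5677)))))) (.f (nat_lit 493) (nat_lit 461) (nat_lit 7629) (.f (nat_lit 525) (nat_lit 622) (nat_lit 7661) (.f (nat_lit 559) (nat_lit 561) (nat_lit 3597) (.d (nat_lit 524) (nat_lit 523) (nat_lit 523) (nat_lit 557) (nat_lit 3596)))))))))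
noncomputable def s38188 : Cert := .r (nat_lit 4717453032125294316178574421874326325093954885348316367260111900657258793138255112583793827655798201532923673547783478224763190270811139418251553991950010913431444520960) (.p (nat_lit 590) (.a (.f (nat_lit 589) (nat_lit 621) (nat_lit 5613) (.f (nat_lit 559) (nat_lit 561) (nat_lit 1581) (.d (nat_lit 557) (nat_lit 462) (nat_lit 5581) (nat_lit 588) (nat_lit 1580)))) (.a (.f (nat_lit 461) (nat_lit 493) (nat_lit 7629) (.f (nat_lit 462) (nat_lit 429) (nat_lit 7597) (.d (nat_lit 589) (nat_lit 557) (nat_lit 5581) (nat_lit 621) (nat_lit 5613)))) (.a (.f (nat_lit 461) (nat_lit 493) (nat_lit 7629) (.f (nat_lit 462) (nat_lit 429) (nat_lit 7597) (.f (nat_lit 497) (nat_lit 495) (nat_lit 3533) (.f (nat_lit 465) (nat_lit 592) (nat_lit 6608) (.d (nat_lit 433) (nat_lit 401) (nat_lit 5520) (nat_lit 464) (nat_lit 6576)))))) (.f (nat_lit 589) (nat_lit 621) (nat_lit 5613) (.f (nat_lit 559) (nat_lit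 561) (nat_lit 1581) (.d (nat_lit 588) (nat_lit 557) (nat_lit 1580) (nat_lit 587) (nat_lit 2603))))))))
noncomputable def s38204 : Cert := .r (nat_lit 4717453032125294316178574421874326325093954885348316367260111900657258793138255112583793827655798201532923673547783478224763190270811139418251553991950010913431444520960) (.p (nat_lit 461) (.a (.f (nat_lit 493) (nat_lit 590) (nat_lit 7629) (.d (nat_lit 429) (nat_lit 462) (nat_lit 7597) (nat_lit 525) (nat_lit 4525))) (.a (.f (nat_lit 429) (nat_lit 462) (nat_lit 7597) (.d (nat_lit 493) (nat_lit 397) (nat_lit 4493) (nat_lit 525) (nat_lit 4525))) (.a (.f (nat_lit 493) (nat_lit 590) (nat_lit 7629) (.d (nat_lit 429) (nat_lit 397) (nat_lit 4493) (nat_lit 462) (nat_lit 7597))) (.a (.f (nat_lit 493) (nat_lit 590) (nat_lit 7629) (.d (nat_lit 429) (nat_lit 397) (nat_lit 4493) (nat_lit 525) (nat_lit 4525))) (.a (.f (nat_lit 462) (nat_lit 429) (nat_lit 7597) (.f (nat_lit 497) (nat_lit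 495) (nat_lit 3533) (.f (nat_lit 465) (nat_lit 592) (nat_lit 6608) (.d (nat_lit 433) (nat_lit 401) (nat_lit 5520) (nat_lit 464) (nat_lit 6576))))) (.f (nat_lit 493) (nat_lit 590) (nat_lit 7629) (.f (nat_lit 495) (nat_lit 460) (nat_lit 3532) (.d (nat_lit 525) (nat_lit 497) (nat_lit 1517) (nat_lit 524) (nat_lit 1516))))))))))
noncomputable def s38214 : Cert := .r (nat_lit 4052261302452797718172567620513327255161541132049253581487394241532755004833254017521042599944697786196543410256721005291123990491362397655426289513921952021566237001857472921600) (.p (nat_lit 494) (.a (.f (nat_lit 589) (nat_lit 621) (nat_lit 5613) (.f (nat_lit 559) (nat_lit 561) (nat_lit 1581) (.d (nat_lit 557) (nat_lit 462) (nat_lit 5581) (nat_lit 588) (nat_lit 1580)))) (.a (.f (nat_lit 461) (nat_lit 493) (nat_lit 7629) (.f (nat_lit 462) (nat_lit 429) (nat_lit 7597) (.d (nat_lit 589) (nat_lit 557) (nat_lit 5581) (nat_lit 621) (nat_lit 5613)))) (.a (.f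 (nat_lit 621) (nat_lit 589) (nat_lit 5613) (.f (nat_lit 622) (nat_lit 653) (nat_lit 5645) (.d (nat_lit 623) (nat_lit 591) (nat_lit 4590) (nat_lit 655) (nat_lit 4622)))) (.f (nat_lit 591) (nat_lit 623) (nat_lit 4590) (.f (nat_lit 462) (nat_lit 559) (nat_lit 4558) (.d (nat_lit 461) (nat_lit 429) (nat_lit 7597) (nat_lit 493) (nat_lit 7629))))))))
noncomputable def s38225 : Cert := .r (nat_lit 4717453032125294316127427693625949108374998796335385130506726868687835905802578684957291737086975161612872578355191225769280585831318013308732534358420551646973186277376) (.p (nat_lit 590) (.a (.p (nat_lit 494) (.a (.f (nat_lit 589) (nat_lit 621) (nat_lit 5613) (.f (nat_lit 559) (nat_lit 561) (nat_lit 1581) (.d (nat_lit 557) (nat_lit 462) (nat_lit 5581) (nat_lit 588) (nat_lit 1580)))) (.a (.f (nat_lit 461) (nat_lit 493) (nat_lit 7629) (.f (nat_lit 462) (nat_lit 429) (nat_lit 7597) (.d (nat_lit 589) (nat_lit 557) (nat_lit 5581) (nat_lit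 621) (nat_lit 5613)))) (.a (.f (nat_lit 461) (nat_lit 493) (nat_lit 7629) (.f (nat_lit 462) (nat_lit 429) (nat_lit 7597) (.f (nat_lit 497) (nat_lit 495) (nat_lit 3533) (.f (nat_lit 465) (nat_lit 592) (nat_lit 6608) (.d (nat_lit 433) (nat_lit 401) (nat_lit 5520) (nat_lit 464) (nat_lit 6576)))))) (.f (nat_lit 589) (nat_lit 621) (nat_lit 5613) (.f (nat_lit 559) (nat_lit 561) (nat_lit 1581) (.d (nat_lit 588) (nat_lit 557) (nat_lit 1580) (nat_lit 587) (nat_lit 2603)))))))) (.a (.p (nat_lit 494) (.a (.f (nat_lit 589) (nat_lit 621) (nat_lit 5613) (.f (nat_lit 559) (nat_lit 561) (nat_lit 1581) (.d (nat_lit 557) (nat_lit 462) (nat_lit 5581) (nat_lit 588) (nat_lit 1580)))) (.a (.f (nat_lit 461) (nat_lit 493) (nat_lit 7629) (.f (nat_lit 462) (nat_lit 429) (nat_lit 7597) (.d (nat_lit 589) (nat_lit 557) (nat_lit 5581) (nat_lit 621) (nat_lit 5613)))) (.a (.f (nat_lit 591) (nat_lit 623) (nat_lit 4590) (.d (nat_lit 559) (nat_lit 462) (nat_lit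 4558) (nat_lit 464) (nat_lit 5583))) (.f (nat_lit 589) (nat_lit 621) (nat_lit 5613) (.f (nat_lit 559) (nat_lit 561) (nat_lit 1581) (.d (nat_lit 588) (nat_lit 557) (nat_lit 1580) (nat_lit 587) (nat_lit 2603)))))))) (.a s38214 (.a (.p (nat_lit 494) (.a (.f (nat_lit 461) (nat_lit 493) (nat_lit 7629) (.f (nat_lit 462) (nat_lit 429) (nat_lit 7597) (.d (nat_lit 589) (nat_lit 557) (nat_lit 5581) (nat_lit 621) (nat_lit 5613)))) (.a (.f (nat_lit 621) (nat_lit 589) (nat_lit 5613) (.f (nat_lit 622) (nat_lit 653) (nat_lit 5645) (.d (nat_lit 623) (nat_lit 591) (nat_lit 4590) (nat_lit 655) (nat_lit 4622)))) (.f (nat_lit 461) (nat_lit 493) (nat_lit 7629) (.f (nat_lit 462) (nat_lit 429) (nat_lit 7597) (.f (nat_lit 497) (nat_lit 495) (nat_lit 3533) (.f (nat_lit 465) (nat_lit 592) (nat_lit 6608) (.d (nat_lit 433) (nat_lit 401) (nat_lit 5520) (nat_lit 464) (nat_lit 6576))))))))) (.a (.p (nat_lit 494) (.a (.f (nat_lit 591) (nat_lit 623) (nat_lit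 4590) (.d (nat_lit 559) (nat_lit 462) (nat_lit 4558) (nat_lit 464) (nat_lit 5583))) (.a (.f (nat_lit 461) (nat_lit 493) (nat_lit 7629) (.f (nat_lit 462) (nat_lit 429) (nat_lit 7597) (.f (nat_lit 497) (nat_lit 495) (nat_lit 3533) (.f (nat_lit 465) (nat_lit 592) (nat_lit 6608) (.d (nat_lit 433) (nat_lit 401) (nat_lit 5520) (nat_lit 464) (nat_lit 6576)))))) (.f (nat_lit 621) (nat_lit 589) (nat_lit 5613) (.f (nat_lit 622) (nat_lit 653) (nat_lit 5645) (.d (nat_lit 623) (nat_lit 591) (nat_lit 4590) (nat_lit 655) (nat_lit 4622))))))) (.a (.p (nat_lit 494) (.a (.f (nat_lit 591) (nat_lit 623) (nat_lit 4590) (.d (nat_lit 559) (nat_lit 462) (nat_lit 4558) (nat_lit 464) (nat_lit 5583))) (.a (.f (nat_lit 461) (nat_lit 493) (nat_lit 7629) (.f (nat_lit 462) (nat_lit 429) (nat_lit 7597) (.f (nat_lit 497) (nat_lit 495) (nat_lit 3533) (.f (nat_lit 465) (nat_lit 592) (nat_lit 6608) (.d (nat_lit 433) (nat_lit 401) (nat_lit 5520) (nat_lit 464)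 (nat_lit 6576)))))) (.a (.f (nat_lit 591) (nat_lit 623) (nat_lit 4590) (.f (nat_lit 462) (nat_lit 559) (nat_lit 4558) (.d (nat_lit 461) (nat_lit 429) (nat_lit 7597) (nat_lit 493) (nat_lit 7629)))) (.f (nat_lit 591) (nat_lit 623) (nat_lit 4590) (.f (nat_lit 464) (nat_lit 559) (nat_lit 5583) (.f (nat_lit 465) (nat_lit 433) (nat_lit 6576) (.d (nat_lit 493) (nat_lit 461) (nat_lit 7629) (nat_lit 495) (nat_lit 2509))))))))) (.p (nat_lit 559) (.a (.f (nat_lit 589) (nat_lit 561) (nat_lit 1581) (.d (nat_lit 588) (nat_lit 557) (nat_lit 1580) (nat_lit 587) (nat_lit 2603))) (.a (.f (nat_lit 591) (nat_lit 464) (nat_lit 5583) (.d (nat_lit 589) (nat_lit 561) (nat_lit 1581) (nat_lit 588) (nat_lit 2604))) (.f (nat_lit 591) (nat_lit 464) (nat_lit 5583) (.d (nat_lit 623) (nat_lit 592) (nat_lit 5615) (nat_lit 655) (nat_lit 6671)))))))))))))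
noncomputable def s38227 : Cert := .r (nat_lit 4717453032125294316178574421874326325093954885348316367260111900657258793138255112583793827655798201532923673547783478224763190270811139418251553991950010913431444520960) (.p (nat_lit 590) (.a (.f (nat_lit 461) (nat_lit 493) (nat_lit 7629) (.f (nat_lit 462) (nat_lit 429) (nat_lit 7597) (.d (nat_lit 589) (nat_lit 557) (nat_lit 5581) (nat_lit 621) (nat_lit 5613)))) (.a (.f (nat_lit 621) (nat_lit 589) (nat_lit 5613) (.f (nat_lit 622) (nat_lit 653) (nat_lit 5645) (.d (nat_lit 623) (nat_lit 591) (nat_lit 4590) (nat_lit 655) (nat_lit 4622)))) (.f (nat_lit 461) (nat_lit 493) (nat_lit 7629) (.f (nat_lit 462) (nat_lit 429) (nat_lit 7597) (.f (nat_lit 497) (nat_lit 495) (nat_lit 3533) (.f (nat_lit 465) (nat_lit 592) (nat_lit 6608) (.d (nat_lit 433) (nat_lit 401) (nat_lit 5520) (nat_lit 464) (nat_lit 6576)))))))))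
noncomputable def s38240 : Cert := .r (nat_lit 4717453032125294316178574421874326325093954885348316367260111900657258793138255112583793827655798201532923673547783478224763190270811139418251553991950010913431444520960) (.p (nat_lit 462) (.a (.f (nat_lit 557) (nat_lit 589) (nat_lit 5581) (.f (nat_lit 430) (nat_lit 525) (nat_lit 5549) (.d (nat_lit 429) (nat_lit 397) (nat_lit 7565) (nat_lit 461) (nat_lit 7597)))) (.a (.f (nat_lit 461) (nat_lit 429) (nat_lit 7597) (.f (nat_lit 497) (nat_lit 495) (nat_lit 3533) (.f (nat_lit 465) (nat_lit 592) (nat_lit 6608) (.d (nat_lit 433) (nat_lit 401) (nat_lit 5520) (nat_lit 464) (nat_lit 6576))))) (.a (.f (nat_lit 557) (nat_lit 589) (nat_lit 5581) (.f (nat_lit 430) (nat_lit 525) (nat_lit 5549) (.f (nat_lit 399) (nat_lit 431) (nat_lit 6542) (.f (nat_lit 398) (nat_lit 367) (nat_lit 6510) (.d (nat_lit 397) (nat_lit 365) (nat_lit 7533) (nat_lit 429) (nat_lit 7565)))))) (.f (nat_lit 557) (nat_lit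 589) (nat_lit 5581) (.f (nat_lit 525) (nat_lit 430) (nat_lit 5549) (.f (nat_lit 497) (nat_lit 495) (nat_lit 1517) (.f (nat_lit 465) (nat_lit 592) (nat_lit 6608) (.d (nat_lit 433) (nat_lit 401) (nat_lit 5520) (nat_lit 464) (nat_lit 6576))))))))))
noncomputable def s38279 : Cert := .r (nat_lit 4717453032125294316127427693625949108374998796335385130506726868687835905802578684957291737086975161612872578355191225769280585831318013308732534358420551646973186277376) (.p (nat_lit 591) (.a (.f (nat_lit 559) (nat_lit 464) (nat_lit 5583) (.d (nat_lit 623) (nat_lit 592) (nat_lit 5615) (nat_lit 655) (nat_lit 6671))) (.a (.f (nat_lit 559) (nat_lit 464) (nat_lit 5583) (.f (nat_lit 623) (nat_lit 655) (nat_lit 6671) (.d (nat_lit 494) (nat_lit 462) (nat_lit 4558) (nat_lit 590) (nat_lit 4590)))) (.a (.f (nat_lit 623) (nat_lit 592) (nat_lit 5615) (.f (nat_lit 559) (nat_lit 655) (nat_lit 6671) (.d (nat_lit 494) (nat_lit 462) (nat_lit 4558)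 (nat_lit 590) (nat_lit 4590)))) (.a (.f (nat_lit 623) (nat_lit 592) (nat_lit 5615) (.f (nat_lit 590) (nat_lit 494) (nat_lit 4590) (.d (nat_lit 655) (nat_lit 622) (nat_lit 4622) (nat_lit 687) (nat_lit 7726)))) (.f (nat_lit 559) (nat_lit 464) (nat_lit 5583) (.f (nat_lit 561) (nat_lit 525) (nat_lit 3597) (.d (nat_lit 590) (nat_lit 562) (nat_lit 1582) (nat_lit 589) (nat_lit 1581)))))))))
noncomputable def s38283 : Cert := .r (nat_lit 4717453032125294316178574421874326325093954885348316367260111900657258793138255112583793827655798201532923673547783478224763190270811139418251553991950010913431444520960) (.p (nat_lit 590) (.a (.f (nat_lit 589) (nat_lit 621) (nat_lit 5613) (.f (nat_lit 559) (nat_lit 561) (nat_lit 1581) (.d (nat_lit 557) (nat_lit 462) (nat_lit 5581) (nat_lit 588) (nat_lit 1580)))) (.a (.f (nat_lit 461) (nat_lit 493) (nat_lit 7629) (.f (nat_lit 462) (nat_lit 429) (nat_lit 7597) (.d (nat_lit 589) (nat_lit 557) (nat_lit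 5581) (nat_lit 621) (nat_lit 5613)))) (.a (.f (nat_lit 589) (nat_lit 621) (nat_lit 5613) (.f (nat_lit 559) (nat_lit 561) (nat_lit 1581) (.d (nat_lit 588) (nat_lit 587) (nat_lit 2603) (nat_lit 591) (nat_lit 2604)))) (.f (nat_lit 493) (nat_lit 461) (nat_lit 7629) (.f (nat_lit 525) (nat_lit 622) (nat_lit 7661) (.f (nat_lit 559) (nat_lit 561) (nat_lit 3597) (.d (nat_lit 524) (nat_lit 523) (nat_lit 523) (nat_lit 557) (nat_lit 3596)))))))))
noncomputable def s38285 : Cert := .r (nat_lit 3773962425919908978067039048378881885645768491231275023412675293626429865204541471935760055792560469727505484597500264544337939673836815150592175795562377636060837445632) (.p (nat_lit 558) (.a (.p (nat_lit 559) (.a (.f (nat_lit 591) (nat_lit 464) (nat_lit 5583) (.d (nat_lit 623) (nat_lit 592) (nat_lit 5615) (nat_lit 655) (nat_lit 6671))) (.f (nat_lit 525) (nat_lit 561) (nat_lit 3597) (.d (nat_lit 524) (nat_lit 523) (nat_lit 523) (nat_lit 557)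 (nat_lit 3596))))) (.a (.p (nat_lit 559) (.a (.f (nat_lit 525) (nat_lit 561) (nat_lit 3597) (.d (nat_lit 524) (nat_lit 523) (nat_lit 523) (nat_lit 557) (nat_lit 3596))) (.f (nat_lit 591) (nat_lit 464) (nat_lit 5583) (.f (nat_lit 623) (nat_lit 655) (nat_lit 6671) (.d (nat_lit 494) (nat_lit 462) (nat_lit 4558) (nat_lit 590) (nat_lit 4590)))))) (.a (.p (nat_lit 494) (.a (.p (nat_lit 462) (.a (.f (nat_lit 461) (nat_lit 429) (nat_lit 7597) (.f (nat_lit 495) (nat_lit 497) (nat_lit 3533) (.d (nat_lit 460) (nat_lit 459) (nat_lit 459) (nat_lit 493) (nat_lit 3532)))) (.f (nat_lit 557) (nat_lit 589) (nat_lit 5581) (.f (nat_lit 525) (nat_lit 430) (nat_lit 5549) (.d (nat_lit 559) (nat_lit 524) (nat_lit 3596) (nat_lit 561) (nat_lit 3597)))))) (.a s38188 (.a s37896 (.a s38204 (.a s38116 (.a (.p (nat_lit 590) (.a (.f (nat_lit 589) (nat_lit 621) (nat_lit 5613) (.f (nat_lit 559) (nat_lit 561) (nat_lit 1581) (.d (nat_lit 588) (nat_lit 557)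 (nat_lit 1580) (nat_lit 587) (nat_lit 2603)))) (.f (nat_lit 493) (nat_lit 461) (nat_lit 7629) (.f (nat_lit 525) (nat_lit 622) (nat_lit 7661) (.d (nat_lit 495) (nat_lit 497) (nat_lit 1517) (nat_lit 524) (nat_lit 1516)))))) (.a (.p (nat_lit 462) (.a (.f (nat_lit 557) (nat_lit 589) (nat_lit 5581) (.f (nat_lit 525) (nat_lit 430) (nat_lit 5549) (.d (nat_lit 559) (nat_lit 524) (nat_lit 3596) (nat_lit 561) (nat_lit 3597)))) (.f (nat_lit 461) (nat_lit 429) (nat_lit 7597) (.f (nat_lit 497) (nat_lit 495) (nat_lit 3533) (.f (nat_lit 465) (nat_lit 592) (nat_lit 6608) (.d (nat_lit 433) (nat_lit 401) (nat_lit 5520) (nat_lit 464) (nat_lit 6576))))))) (.p (nat_lit 525) (.a (.f (nat_lit 495) (nat_lit 497) (nat_lit 1517) (.d (nat_lit 524) (nat_lit 493) (nat_lit 1516) (nat_lit 523) (nat_lit 2539))) (.a (.f (nat_lit 559) (nat_lit 561) (nat_lit 3597) (.d (nat_lit 524) (nat_lit 523) (nat_lit 523) (nat_lit 557) (nat_lit 3596))) (.f (nat_lit 497)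 (nat_lit 495) (nat_lit 1517) (.f (nat_lit 465) (nat_lit 592) (nat_lit 6608) (.d (nat_lit 433) (nat_lit 401) (nat_lit 5520) (nat_lit 464) (nat_lit 6576))))))))))))))) (.a s38225 (.a (.p (nat_lit 494) (.a (.p (nat_lit 462) (.a (.f (nat_lit 461) (nat_lit 429) (nat_lit 7597) (.f (nat_lit 495) (nat_lit 497) (nat_lit 3533) (.d (nat_lit 460) (nat_lit 459) (nat_lit 459) (nat_lit 493) (nat_lit 3532)))) (.f (nat_lit 557) (nat_lit 589) (nat_lit 5581) (.f (nat_lit 525) (nat_lit 430) (nat_lit 5549) (.d (nat_lit 559) (nat_lit 524) (nat_lit 3596) (nat_lit 561) (nat_lit 3597)))))) (.a s38061 (.a s37896 (.a (.p (nat_lit 590) (.a (.f (nat_lit 621) (nat_lit 589) (nat_lit 5613) (.f (nat_lit 622) (nat_lit 653) (nat_lit 5645) (.d (nat_lit 623) (nat_lit 591) (nat_lit 4590) (nat_lit 655) (nat_lit 4622)))) (.a (.f (nat_lit 493) (nat_lit 461) (nat_lit 7629) (.f (nat_lit 525) (nat_lit 622) (nat_lit 7661) (.d (nat_lit 495) (nat_lit 497) (nat_lit 1517)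 (nat_lit 524) (nat_lit 1516)))) (.f (nat_lit 591) (nat_lit 623) (nat_lit 4590) (.f (nat_lit 462) (nat_lit 559) (nat_lit 4558) (.d (nat_lit 461) (nat_lit 429) (nat_lit 7597) (nat_lit 493) (nat_lit 7629))))))) (.a (.p (nat_lit 590) (.a (.f (nat_lit 591) (nat_lit 623) (nat_lit 4590) (.f (nat_lit 462) (nat_lit 559) (nat_lit 4558) (.d (nat_lit 461) (nat_lit 429) (nat_lit 7597) (nat_lit 493) (nat_lit 7629)))) (.a (.f (nat_lit 493) (nat_lit 461) (nat_lit 7629) (.f (nat_lit 525) (nat_lit 622) (nat_lit 7661) (.d (nat_lit 495) (nat_lit 497) (nat_lit 1517) (nat_lit 524) (nat_lit 1516)))) (.f (nat_lit 591) (nat_lit 623) (nat_lit 4590) (.f (nat_lit 559) (nat_lit 462) (nat_lit 4558) (.d (nat_lit 561) (nat_lit 525) (nat_lit 3597) (nat_lit 562) (nat_lit 1582))))))) (.a (.p (nat_lit 590) (.a (.f (nat_lit 589) (nat_lit 621) (nat_lit 5613) (.f (nat_lit 559) (nat_lit 561) (nat_lit 1581) (.d (nat_lit 588) (nat_lit 557) (nat_lit 1580) (nat_lit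 587) (nat_lit 2603)))) (.f (nat_lit 493) (nat_lit 461) (nat_lit 7629) (.f (nat_lit 525) (nat_lit 622) (nat_lit 7661) (.d (nat_lit 495) (nat_lit 497) (nat_lit 1517) (nat_lit 524) (nat_lit 1516)))))) (.p (nat_lit 590) (.a (.f (nat_lit 589) (nat_lit 621) (nat_lit 5613) (.f (nat_lit 559) (nat_lit 561) (nat_lit 1581) (.d (nat_lit 557) (nat_lit 462) (nat_lit 5581) (nat_lit 588) (nat_lit 1580)))) (.a (.f (nat_lit 621) (nat_lit 589) (nat_lit 5613) (.f (nat_lit 622) (nat_lit 653) (nat_lit 5645) (.d (nat_lit 623) (nat_lit 591) (nat_lit 4590) (nat_lit 655) (nat_lit 4622)))) (.f (nat_lit 591) (nat_lit 623) (nat_lit 4590) (.f (nat_lit 559) (nat_lit 462) (nat_lit 4558) (.d (nat_lit 561) (nat_lit 525) (nat_lit 3597) (nat_lit 562) (nat_lit 1582)))))))))))))) (.a (.p (nat_lit 494) (.a s37896 (.a s38227 (.a s38204 (.a s38120 (.a (.p (nat_lit 590) (.a (.f (nat_lit 621) (nat_lit 589) (nat_lit 5613) (.f (nat_lit 622) (nat_lit 653) (nat_lit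 5645) (.d (nat_lit 623) (nat_lit 591) (nat_lit 4590) (nat_lit 655) (nat_lit 4622)))) (.a (.f (nat_lit 493) (nat_lit 461) (nat_lit 7629) (.f (nat_lit 525) (nat_lit 622) (nat_lit 7661) (.d (nat_lit 495) (nat_lit 497) (nat_lit 1517) (nat_lit 524) (nat_lit 1516)))) (.f (nat_lit 493) (nat_lit 461) (nat_lit 7629) (.f (nat_lit 591) (nat_lit 623) (nat_lit 4590) (.f (nat_lit 589) (nat_lit 621) (nat_lit 5613) (.f (nat_lit 592) (nat_lit 561) (nat_lit 2605) (.f (nat_lit 465) (nat_lit 497) (nat_lit 6608) (.d (nat_lit 464) (nat_lit 433) (nat_lit 6576) (nat_lit 495) (nat_lit 2509)))))))))) (.a s38240 (.p (nat_lit 590) (.a (.f (nat_lit 621) (nat_lit 589) (nat_lit 5613) (.f (nat_lit 622) (nat_lit 653) (nat_lit 5645) (.d (nat_lit 623) (nat_lit 591) (nat_lit 4590) (nat_lit 655) (nat_lit 4622)))) (.a (.f (nat_lit 621) (nat_lit 589) (nat_lit 5613) (.f (nat_lit 622) (nat_lit 653) (nat_lit 5645) (.f (nat_lit 525) (nat_lit 493) (nat_lit 7661)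 (.f (nat_lit 655) (nat_lit 623) (nat_lit 4622) (.d (nat_lit 654) (nat_lit 557) (nat_lit 7693) (nat_lit 687) (nat_lit 4654)))))) (.a (.f (nat_lit 623) (nat_lit 591) (nat_lit 4590) (.f (nat_lit 622) (nat_lit 655) (nat_lit 4622) (.f (nat_lit 653) (nat_lit 621) (nat_lit 5645) (.f (nat_lit 654) (nat_lit 685) (nat_lit 5677) (.f (nat_lit 525) (nat_lit 557) (nat_lit 7693) (.f (nat_lit 497) (nat_lit 495) (nat_lit 1517) (.f (nat_lit 465) (nat_lit 592) (nat_lit 6608) (.d (nat_lit 433) (nat_lit 401) (nat_lit 5520) (nat_lit 464) (nat_lit 6576))))))))) (.a (.f (nat_lit 621) (nat_lit 589) (nat_lit 5613) (.f (nat_lit 622) (nat_lit 653) (nat_lit 5645) (.f (nat_lit 525) (nat_lit 493) (nat_lit 7661) (.f (nat_lit 497) (nat_lit 495) (nat_lit 1517) (.f (nat_lit 465) (nat_lit 592) (nat_lit 6608) (.d (nat_lit 433) (nat_lit 401) (nat_lit 5520) (nat_lit 464) (nat_lit 6576))))))) (.a (.f (nat_lit 589) (nat_lit 621) (nat_lit 5613) (.f (nat_lit 591)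 (nat_lit 623) (nat_lit 4590) (.f (nat_lit 592) (nat_lit 561) (nat_lit 2605) (.d (nat_lit 557) (nat_lit 462) (nat_lit 5581) (nat_lit 556) (nat_lit 3628))))) (.f (nat_lit 623) (nat_lit 591) (nat_lit 4590) (.f (nat_lit 622) (nat_lit 655) (nat_lit 4622) (.f (nat_lit 525) (nat_lit 493) (nat_lit 7661) (.f (nat_lit 557) (nat_lit 654) (nat_lit 7693) (.d (nat_lit 462) (nat_lit 430) (nat_lit 5549) (nat_lit 589) (nat_lit 5581))))))))))))))))))) (.a s38279 (.a (.p (nat_lit 494) (.a s37896 (.a s38227 (.a s38204 (.a s38120 (.a (.p (nat_lit 590) (.a (.f (nat_lit 621) (nat_lit 589) (nat_lit 5613) (.f (nat_lit 622) (nat_lit 653) (nat_lit 5645) (.d (nat_lit 623) (nat_lit 591) (nat_lit 4590) (nat_lit 655) (nat_lit 4622)))) (.a (.f (nat_lit 493) (nat_lit 461) (nat_lit 7629) (.f (nat_lit 525) (nat_lit 622) (nat_lit 7661) (.d (nat_lit 495) (nat_lit 497) (nat_lit 1517) (nat_lit 524) (nat_lit 1516)))) (.f (nat_lit 591) (nat_lit 623) (nat_lit 4590)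 (.f (nat_lit 464) (nat_lit 559) (nat_lit 5583) (.f (nat_lit 465) (nat_lit 433) (nat_lit 6576) (.d (nat_lit 493) (nat_lit 461) (nat_lit 7629) (nat_lit 495) (nat_lit 2509)))))))) (.a s38240 (.p (nat_lit 590) (.a (.f (nat_lit 591) (nat_lit 623) (nat_lit 4590) (.d (nat_lit 559) (nat_lit 462) (nat_lit 4558) (nat_lit 464) (nat_lit 5583))) (.a (.f (nat_lit 621) (nat_lit 589) (nat_lit 5613) (.f (nat_lit 622) (nat_lit 653) (nat_lit 5645) (.f (nat_lit 525) (nat_lit 493) (nat_lit 7661) (.f (nat_lit 655) (nat_lit 623) (nat_lit 4622) (.d (nat_lit 654) (nat_lit 557) (nat_lit 7693) (nat_lit 687) (nat_lit 4654)))))) (.f (nat_lit 621) (nat_lit 589) (nat_lit 5613) (.f (nat_lit 622) (nat_lit 653) (nat_lit 5645) (.f (nat_lit 525) (nat_lit 493) (nat_lit 7661) (.f (nat_lit 497) (nat_lit 495) (nat_lit 1517) (.f (nat_lit 465) (nat_lit 592) (nat_lit 6608) (.d (nat_lit 433) (nat_lit 401) (nat_lit 5520) (nat_lit 464) (nat_lit 6576)))))))))))))))))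 (.p (nat_lit 494) (.a (.p (nat_lit 462) (.a (.f (nat_lit 461) (nat_lit 429) (nat_lit 7597) (.f (nat_lit 495) (nat_lit 497) (nat_lit 3533) (.d (nat_lit 460) (nat_lit 459) (nat_lit 459) (nat_lit 493) (nat_lit 3532)))) (.f (nat_lit 557) (nat_lit 589) (nat_lit 5581) (.f (nat_lit 525) (nat_lit 430) (nat_lit 5549) (.d (nat_lit 559) (nat_lit 524) (nat_lit 3596) (nat_lit 561) (nat_lit 3597)))))) (.a s38188 (.a s37896 (.a s38204 (.a s38283 (.a (.p (nat_lit 590) (.a (.f (nat_lit 589) (nat_lit 621) (nat_lit 5613) (.f (nat_lit 559) (nat_lit 561) (nat_lit 1581) (.d (nat_lit 588) (nat_lit 557) (nat_lit 1580) (nat_lit 587) (nat_lit 2603)))) (.f (nat_lit 493) (nat_lit 461) (nat_lit 7629) (.f (nat_lit 525) (nat_lit 622) (nat_lit 7661) (.d (nat_lit 495) (nat_lit 497) (nat_lit 1517) (nat_lit 524) (nat_lit 1516)))))) (.a (.p (nat_lit 462) (.a (.f (nat_lit 557) (nat_lit 589) (nat_lit 5581) (.f (nat_lit 525) (nat_lit 430) (nat_lit 5549) (.d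 (nat_lit 559) (nat_lit 524) (nat_lit 3596) (nat_lit 561) (nat_lit 3597)))) (.f (nat_lit 461) (nat_lit 429) (nat_lit 7597) (.f (nat_lit 497) (nat_lit 495) (nat_lit 3533) (.f (nat_lit 465) (nat_lit 592) (nat_lit 6608) (.d (nat_lit 433) (nat_lit 401) (nat_lit 5520) (nat_lit 464) (nat_lit 6576))))))) (.p (nat_lit 525) (.a (.f (nat_lit 495) (nat_lit 497) (nat_lit 1517) (.d (nat_lit 524) (nat_lit 493) (nat_lit 1516) (nat_lit 523) (nat_lit 2539))) (.a (.f (nat_lit 559) (nat_lit 561) (nat_lit 3597) (.d (nat_lit 524) (nat_lit 523) (nat_lit 523) (nat_lit 557) (nat_lit 3596))) (.f (nat_lit 497) (nat_lit 495) (nat_lit 1517) (.f (nat_lit 465) (nat_lit 592) (nat_lit 6608) (.d (nat_lit 433) (nat_lit 401) (nat_lit 5520) (nat_lit 464) (nat_lit 6576))))))))))))))))))))))))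
noncomputable def s38333 : Cert := .r (nat_lit 4052261302452797718172567620513327255209175234684690474666434726606503269996654257735046676343305527890045786642520651594229247190939606688016422129910212258618360654190363017216) (.p (nat_lit 494) (.a (.f (nat_lit 589) (nat_lit 621) (nat_lit 5613) (.f (nat_lit 557) (nat_lit 462) (nat_lit 5581) (.f (nat_lit 493) (nat_lit 461) (nat_lit 7629) (.f (nat_lit 525) (nat_lit 622) (nat_lit 4589) (.f (nat_lit 492) (nat_lit 460) (nat_lit 7628) (.f (nat_lit 491) (nat_lit 490) (nat_lit 490) (.f (nat_lit 523) (nat_lit 522) (nat_lit 1514) (.f (nat_lit 588) (nat_lit 620) (nat_lit 5612) (.f (nat_lit 587) (nat_lit 586) (nat_lit 2602) (.f (nat_lit 555) (nat_lit 554) (nat_lit 3626) (.d (nat_lit 459) (nat_lit 458) (nat_lit 3530) (nat_lit 556) (nat_lit 4555)))))))))))) (.a (.f (nat_lit 589) (nat_lit 621) (nat_lit 5613) (.f (nat_lit 462) (nat_lit 557) (nat_lit 5581) (.d (nat_lit 461) (nat_lit 429)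 (nat_lit 7597) (nat_lit 493) (nat_lit 7629)))) (.a (.f (nat_lit 493) (nat_lit 461) (nat_lit 7629) (.f (nat_lit 622) (nat_lit 525) (nat_lit 7661) (.d (nat_lit 621) (nat_lit 589) (nat_lit 5613) (nat_lit 653) (nat_lit 5645)))) (.a (.f (nat_lit 431) (nat_lit 463) (nat_lit 7599) (.f (nat_lit 432) (nat_lit 399) (nat_lit 7567) (.f (nat_lit 401) (nat_lit 433) (nat_lit 6544) (.f (nat_lit 400) (nat_lit 369) (nat_lit 6512) (.f (nat_lit 429) (nat_lit 430) (nat_lit 2445) (.d (nat_lit 461) (nat_lit 462) (nat_lit 7597) (nat_lit 493) (nat_lit 7629))))))) (.a (.f (nat_lit 431) (nat_lit 463) (nat_lit 7599) (.f (nat_lit 432) (nat_lit 399) (nat_lit 7567) (.f (nat_lit 401) (nat_lit 433) (nat_lit 6544) (.f (nat_lit 400) (nat_lit 369) (nat_lit 6512) (.f (nat_lit 429) (nat_lit 430) (nat_lit 2445) (.f (nat_lit 589) (nat_lit 621) (nat_lit 5613) (.d (nat_lit 462) (nat_lit 461) (nat_lit 7597) (nat_lit 557) (nat_lit 5581)))))))) (.f (nat_lit 621) (nat_lit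 589) (nat_lit 5613) (.f (nat_lit 622) (nat_lit 653) (nat_lit 5645) (.f (nat_lit 655) (nat_lit 623) (nat_lit 4622) (.f (nat_lit 654) (nat_lit 687) (nat_lit 4654) (.d (nat_lit 525) (nat_lit 493) (nat_lit 7661) (nat_lit 557) (nat_lit 7693))))))))))))
noncomputable def s38348 : Cert := .r (nat_lit 4052261302452797718172567620513327255209175234684690474666434726606503269996654257735046676343305527890045786642520651594229247190939606688016422129910212258618360654190363017216) (.p (nat_lit 622) (.a (.f (nat_lit 655) (nat_lit 623) (nat_lit 4622) (.f (nat_lit 654) (nat_lit 687) (nat_lit 4654) (.d (nat_lit 653) (nat_lit 621) (nat_lit 5645) (nat_lit 685) (nat_lit 5677)))) (.a (.f (nat_lit 621) (nat_lit 653) (nat_lit 5645) (.f (nat_lit 493) (nat_lit 525) (nat_lit 7661) (.d (nat_lit 494) (nat_lit 461) (nat_lit 7629) (nat_lit 589) (nat_lit 5613)))) (.f (nat_lit 431) (nat_lit 463) (nat_lit 7599) (.f (nat_lit 432) (nat_lit 399) (nat_lit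 7567) (.f (nat_lit 433) (nat_lit 401) (nat_lit 6544) (.f (nat_lit 493) (nat_lit 525) (nat_lit 7661) (.f (nat_lit 461) (nat_lit 494) (nat_lit 7629) (.f (nat_lit 430) (nat_lit 462) (nat_lit 1453) (.f (nat_lit 429) (nat_lit 460) (nat_lit 1452) (.d (nat_lit 397) (nat_lit 396) (nat_lit 3468) (nat_lit 398) (nat_lit 3469))))))))))))
noncomputable def s38377 : Cert := .r (nat_lit 4052261302452797718172567620513327255209175234684690474666434726606503269996654257735046676343305527890045786642520651594229247190939606688016422129910212258618360654190363017216) (.p (nat_lit 494) (.a (.f (nat_lit 589) (nat_lit 621) (nat_lit 5613) (.f (nat_lit 557) (nat_lit 462) (nat_lit 5581) (.f (nat_lit 493) (nat_lit 461) (nat_lit 7629) (.f (nat_lit 525) (nat_lit 622) (nat_lit 4589) (.f (nat_lit 492) (nat_lit 460) (nat_lit 7628) (.f (nat_lit 491) (nat_lit 490) (nat_lit 490) (.f (nat_lit 523) (nat_lit 522) (nat_lit 1514) (.f (nat_lit 588) (nat_lit 620)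 (nat_lit 5612) (.f (nat_lit 587) (nat_lit 586) (nat_lit 2602) (.f (nat_lit 555) (nat_lit 554) (nat_lit 3626) (.d (nat_lit 459) (nat_lit 458) (nat_lit 3530) (nat_lit 556) (nat_lit 4555)))))))))))) (.a (.f (nat_lit 589) (nat_lit 621) (nat_lit 5613) (.f (nat_lit 462) (nat_lit 557) (nat_lit 5581) (.d (nat_lit 461) (nat_lit 429) (nat_lit 7597) (nat_lit 493) (nat_lit 7629)))) (.a (.f (nat_lit 493) (nat_lit 461) (nat_lit 7629) (.f (nat_lit 622) (nat_lit 525) (nat_lit 7661) (.d (nat_lit 621) (nat_lit 589) (nat_lit 5613) (nat_lit 653) (nat_lit 5645)))) (.a (.f (nat_lit 623) (nat_lit 591) (nat_lit 4590) (.f (nat_lit 622) (nat_lit 655) (nat_lit 4622) (.d (nat_lit 493) (nat_lit 461) (nat_lit 7629) (nat_lit 525) (nat_lit 7661)))) (.f (nat_lit 623) (nat_lit 591) (nat_lit 4590) (.f (nat_lit 622) (nat_lit 655) (nat_lit 4622) (.d (nat_lit 621) (nat_lit 589) (nat_lit 5613) (nat_lit 653) (nat_lit 5645)))))))))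
noncomputable def s38404 : Cert := .r (nat_lit 4052261302452797718172567620513327255209175234684690474666434726606503269996654257735046676343305527890045786642520651594229247190939606688016422129910212258618360654190363017216) (.p (nat_lit 622) (.a (.f (nat_lit 655) (nat_lit 623) (nat_lit 4622) (.f (nat_lit 654) (nat_lit 687) (nat_lit 4654) (.d (nat_lit 653) (nat_lit 621) (nat_lit 5645) (nat_lit 685) (nat_lit 5677)))) (.a (.f (nat_lit 525) (nat_lit 493) (nat_lit 7661) (.f (nat_lit 654) (nat_lit 557) (nat_lit 7693) (.d (nat_lit 653) (nat_lit 621) (nat_lit 5645) (nat_lit 685) (nat_lit 5677)))) (.a (.f (nat_lit 623) (nat_lit 655) (nat_lit 4622) (.f (nat_lit 525) (nat_lit 493) (nat_lit 7661) (.f (nat_lit 654) (nat_lit 557) (nat_lit 7693) (.f (nat_lit 591) (nat_lit 592) (nat_lit 5615) (.f (nat_lit 686) (nat_lit 718) (nat_lit 6734) (.d (nat_lit 685) (nat_lit 653) (nat_lit 5677) (nat_lit 717) (nat_lit 5709))))))) (.a (.f (nat_lit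 623) (nat_lit 655) (nat_lit 4622) (.f (nat_lit 621) (nat_lit 653) (nat_lit 5645) (.f (nat_lit 591) (nat_lit 592) (nat_lit 5615) (.f (nat_lit 620) (nat_lit 619) (nat_lit 2635) (.f (nat_lit 588) (nat_lit 587) (nat_lit 3659) (.f (nat_lit 589) (nat_lit 624) (nat_lit 588) (.f (nat_lit 652) (nat_lit 651) (nat_lit 1643) (.d (nat_lit 525) (nat_lit 493) (nat_lit 7661) (nat_lit 557) (nat_lit 5644))))))))) (.f (nat_lit 525) (nat_lit 493) (nat_lit 7661) (.f (nat_lit 654) (nat_lit 557) (nat_lit 7693) (.d (nat_lit 655) (nat_lit 623) (nat_lit 4622) (nat_lit 687) (nat_lit 4654)))))))))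
noncomputable def s38419 : Cert := .r (nat_lit 4052261302452797718172567620513327255209175234684690474666434726606503269996654257735046676343305527890045786642520651594229247190939606688016422129910212258618360654190363017216) (.p (nat_lit 622) (.a (.f (nat_lit 655) (nat_lit 623) (nat_lit 4622) (.f (nat_lit 654) (nat_lit 687) (nat_lit 4654) (.d (nat_lit 653) (nat_lit 621) (nat_lit 5645) (nat_lit 685) (nat_lit 5677)))) (.a (.f (nat_lit 653) (nat_lit 621) (nat_lit 5645) (.f (nat_lit 654) (nat_lit 685) (nat_lit 5677) (.f (nat_lit 687) (nat_lit 655) (nat_lit 4654) (.f (nat_lit 686) (nat_lit 719) (nat_lit 4686) (.d (nat_lit 557) (nat_lit 525) (nat_lit 7693) (nat_lit 589) (nat_lit 7725)))))) (.a (.f (nat_lit 653) (nat_lit 621) (nat_lit 5645) (.f (nat_lit 654) (nat_lit 685) (nat_lit 5677) (.f (nat_lit 557) (nat_lit 525) (nat_lit 7693) (.f (nat_lit 589) (nat_lit 686) (nat_lit 7725) (.f (nat_lit 494) (nat_lit 462) (nat_lit 5581)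 (.f (nat_lit 591) (nat_lit 623) (nat_lit 4590) (.d (nat_lit 556) (nat_lit 555) (nat_lit 555) (nat_lit 592) (nat_lit 3628)))))))) (.f (nat_lit 623) (nat_lit 655) (nat_lit 4622) (.d (nat_lit 591) (nat_lit 494) (nat_lit 4590) (nat_lit 592) (nat_lit 5615)))))))
noncomputable def s38438 : Cert := .r (nat_lit 4052261302452797718172567620513327255209175234684690474666434726606503269996654257735046676343305527890045786642520651594229247190939606688016422129910212258618360654190363017216) (.p (nat_lit 461) (.a (.f (nat_lit 494) (nat_lit 493) (nat_lit 7629) (.f (nat_lit 462) (nat_lit 429) (nat_lit 7597) (.d (nat_lit 463) (nat_lit 431) (nat_lit 7599) (nat_lit 497) (nat_lit 461)))) (.a (.f (nat_lit 494) (nat_lit 493) (nat_lit 7629) (.f (nat_lit 462) (nat_lit 429) (nat_lit 7597) (.d (nat_lit 589) (nat_lit 557) (nat_lit 5581) (nat_lit 621) (nat_lit 5613)))) (.a (.f (nat_lit 463) (nat_lit 431) (nat_lit 7599) (.f (nat_lit 462) (nat_lit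 497) (nat_lit 461) (.f (nat_lit 493) (nat_lit 492) (nat_lit 1484) (.d (nat_lit 429) (nat_lit 428) (nat_lit 3500) (nat_lit 525) (nat_lit 4525))))) (.a (.f (nat_lit 493) (nat_lit 494) (nat_lit 7629) (.d (nat_lit 525) (nat_lit 429) (nat_lit 4525) (nat_lit 557) (nat_lit 4557))) (.a (.f (nat_lit 463) (nat_lit 431) (nat_lit 7599) (.f (nat_lit 462) (nat_lit 497) (nat_lit 461) (.d (nat_lit 429) (nat_lit 428) (nat_lit 3500) (nat_lit 494) (nat_lit 7597)))) (.f (nat_lit 463) (nat_lit 431) (nat_lit 7599) (.f (nat_lit 462) (nat_lit 497) (nat_lit 461) (.d (nat_lit 493) (nat_lit 492) (nat_lit 1484) (nat_lit 494) (nat_lit 7629))))))))))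
noncomputable def s38510 : Cert := .r (nat_lit 4717453032125294316127427693625949108374998796335385130506726868687835905802578684957291737086975161612872578355191225769280585831318013308732534358420551646973186277376) (.p (nat_lit 463) (.a (.f (nat_lit 431) (nat_lit 464) (nat_lit 7599) (.d (nat_lit 495) (nat_lit 399) (nat_lit 4495) (nat_lit 592) (nat_lit 7631))) (.a (.f (nat_lit 431) (nat_lit 464) (nat_lit 7599) (.f (nat_lit 494) (nat_lit 462) (nat_lit 6574) (.d (nat_lit 495) (nat_lit 399) (nat_lit 5518) (nat_lit 590) (nat_lit 6606)))) (.a (.f (nat_lit 495) (nat_lit 592) (nat_lit 7631) (.f (nat_lit 494) (nat_lit 590) (nat_lit 6606) (.d (nat_lit 431) (nat_lit 399) (nat_lit 4495) (nat_lit 462) (nat_lit 6574)))) (.a (.f (nat_lit 464) (nat_lit 431) (nat_lit 7599) (.f (nat_lit 591) (nat_lit 559) (nat_lit 5583) (.f (nat_lit 623) (nat_lit 592) (nat_lit 5615) (.f (nat_lit 590) (nat_lit 494) (nat_lit 4590) (.d (nat_lit 655) (nat_lit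 622) (nat_lit 4622) (nat_lit 687) (nat_lit 7726)))))) (.f (nat_lit 592) (nat_lit 495) (nat_lit 7631) (.f (nat_lit 591) (nat_lit 623) (nat_lit 5615) (.f (nat_lit 559) (nat_lit 464) (nat_lit 5583) (.f (nat_lit 557) (nat_lit 556) (nat_lit 556) (.f (nat_lit 589) (nat_lit 588) (nat_lit 1580) (.f (nat_lit 590) (nat_lit 561) (nat_lit 1581) (.d (nat_lit 621) (nat_lit 620) (nat_lit 1612) (nat_lit 653) (nat_lit 6669)))))))))))))
noncomputable def s38511 : Cert := .r (nat_lit 4717453032125294316178574421874326325093954885348316367260111900657258793138255112583793827655798201532923673547783478224763190270811139418251553991950010913431444520960) (.p (nat_lit 462) (.a (.f (nat_lit 463) (nat_lit 431) (nat_lit 6574) (.f (nat_lit 495) (nat_lit 592) (nat_lit 7631) (.d (nat_lit 461) (nat_lit 429) (nat_lit 7597) (nat_lit 460) (nat_lit 460)))) (.a (.f (nat_lit 431) (nat_lit 463) (nat_lit 6574) (.f (nat_lit 430) (nat_lit 399) (nat_lit 6542)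 (.d (nat_lit 429) (nat_lit 397) (nat_lit 7565) (nat_lit 461) (nat_lit 7597)))) (.a (.f (nat_lit 557) (nat_lit 589) (nat_lit 5581) (.f (nat_lit 430) (nat_lit 525) (nat_lit 5549) (.d (nat_lit 429) (nat_lit 397) (nat_lit 7565) (nat_lit 461) (nat_lit 7597)))) (.a (.f (nat_lit 557) (nat_lit 589) (nat_lit 5581) (.f (nat_lit 430) (nat_lit 525) (nat_lit 5549) (.f (nat_lit 399) (nat_lit 431) (nat_lit 6542) (.f (nat_lit 398) (nat_lit 367) (nat_lit 6510) (.d (nat_lit 397) (nat_lit 365) (nat_lit 7533) (nat_lit 429) (nat_lit 7565)))))) (.f (nat_lit 431) (nat_lit 463) (nat_lit 6574) (.f (nat_lit 430) (nat_lit 399) (nat_lit 6542) (.d (nat_lit 557) (nat_lit 525) (nat_lit 5549) (nat_lit 589) (nat_lit 5581)))))))))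
noncomputable def s38560 : Cert := .r (nat_lit 3773962425919908977862452135385373018769944135179550076399135165748738315861835761429751693517268310047301103827131254722407521915864310712516097261444540570227804471296) (.p (nat_lit 496) (.a s37826 (.a (.p (nat_lit 558) (.a (.p (nat_lit 464) (.a (.f (nat_lit 431) (nat_lit 463) (nat_lit 7599) (.f (nat_lit 432) (nat_lit 399) (nat_lit 7567) (.d (nat_lit 433) (nat_lit 401) (nat_lit 6544) (nat_lit 465) (nat_lit 6576)))) (.f (nat_lit 559) (nat_lit 591) (nat_lit 5583) (.f (nat_lit 525) (nat_lit 561) (nat_lit 3597) (.d (nat_lit 524) (nat_lit 523) (nat_lit 523) (nat_lit 557) (nat_lit 3596)))))) (.a (.p (nat_lit 494) (.a s37843 (.a s37847 (.a (.p (nat_lit 462) (.a (.f (nat_lit 461) (nat_lit 429) (nat_lit 7597) (.f (nat_lit 495) (nat_lit 497) (nat_lit 3533) (.d (nat_lit 460) (nat_lit 459) (nat_lit 459) (nat_lit 493) (nat_lit 3532)))) (.f (nat_lit 557) (nat_lit 589) (nat_lit 5581) (.f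 (nat_lit 525) (nat_lit 430) (nat_lit 5549) (.d (nat_lit 559) (nat_lit 524) (nat_lit 3596) (nat_lit 561) (nat_lit 3597)))))) (.a (.p (nat_lit 462) (.a (.f (nat_lit 557) (nat_lit 589) (nat_lit 5581) (.f (nat_lit 525) (nat_lit 430) (nat_lit 5549) (.d (nat_lit 559) (nat_lit 524) (nat_lit 3596) (nat_lit 561) (nat_lit 3597)))) (.a (.f (nat_lit 431) (nat_lit 463) (nat_lit 6574) (.f (nat_lit 430) (nat_lit 399) (nat_lit 6542) (.d (nat_lit 429) (nat_lit 397) (nat_lit 7565) (nat_lit 461) (nat_lit 7597)))) (.f (nat_lit 463) (nat_lit 431) (nat_lit 6574) (.f (nat_lit 461) (nat_lit 429) (nat_lit 7597) (.f (nat_lit 464) (nat_lit 497) (nat_lit 461) (.d (nat_lit 493) (nat_lit 465) (nat_lit 1485) (nat_lit 492) (nat_lit 1484)))))))) (.a (.p (nat_lit 590) (.a (.f (nat_lit 589) (nat_lit 621) (nat_lit 5613) (.f (nat_lit 559) (nat_lit 561) (nat_lit 1581) (.d (nat_lit 588) (nat_lit 557) (nat_lit 1580) (nat_lit 587) (nat_lit 2603)))) (.f (nat_lit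 495) (nat_lit 463) (nat_lit 6606) (.f (nat_lit 525) (nat_lit 497) (nat_lit 1517) (.d (nat_lit 493) (nat_lit 461) (nat_lit 7629) (nat_lit 524) (nat_lit 1516)))))) (.a s37870 (.a (.p (nat_lit 590) (.a (.f (nat_lit 589) (nat_lit 621) (nat_lit 5613) (.f (nat_lit 559) (nat_lit 561) (nat_lit 1581) (.d (nat_lit 557) (nat_lit 462) (nat_lit 5581) (nat_lit 588) (nat_lit 1580)))) (.f (nat_lit 495) (nat_lit 463) (nat_lit 6606) (.f (nat_lit 497) (nat_lit 525) (nat_lit 1517) (.f (nat_lit 465) (nat_lit 466) (nat_lit 2510) (.d (nat_lit 433) (nat_lit 401) (nat_lit 5520) (nat_lit 464) (nat_lit 6576))))))) (.p (nat_lit 590) (.a (.f (nat_lit 589) (nat_lit 621) (nat_lit 5613) (.f (nat_lit 559) (nat_lit 561) (nat_lit 1581) (.d (nat_lit 557) (nat_lit 462) (nat_lit 5581) (nat_lit 588) (nat_lit 1580)))) (.a (.f (nat_lit 461) (nat_lit 493) (nat_lit 7629) (.f (nat_lit 462) (nat_lit 429) (nat_lit 7597) (.d (nat_lit 463) (nat_lit 431) (nat_lit 6574)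 (nat_lit 495) (nat_lit 6606)))) (.f (nat_lit 589) (nat_lit 621) (nat_lit 5613) (.f (nat_lit 559) (nat_lit 561) (nat_lit 1581) (.d (nat_lit 588) (nat_lit 557) (nat_lit 1580) (nat_lit 587) (nat_lit 2603))))))))))))))) (.a (.p (nat_lit 494) (.a s37847 (.a (.p (nat_lit 590) (.a (.f (nat_lit 589) (nat_lit 621) (nat_lit 5613) (.f (nat_lit 559) (nat_lit 561) (nat_lit 1581) (.d (nat_lit 557) (nat_lit 462) (nat_lit 5581) (nat_lit 588) (nat_lit 1580)))) (.a (.f (nat_lit 461) (nat_lit 493) (nat_lit 7629) (.f (nat_lit 462) (nat_lit 429) (nat_lit 7597) (.d (nat_lit 463) (nat_lit 431) (nat_lit 6574) (nat_lit 495) (nat_lit 6606)))) (.f (nat_lit 589) (nat_lit 621) (nat_lit 5613) (.f (nat_lit 559) (nat_lit 561) (nat_lit 1581) (.d (nat_lit 588) (nat_lit 557) (nat_lit 1580) (nat_lit 587) (nat_lit 2603))))))) (.a s37882 (.p (nat_lit 590) (.a (.f (nat_lit 589) (nat_lit 621) (nat_lit 5613) (.f (nat_lit 559) (nat_lit 561) (nat_lit 1581) (.d (nat_lit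 588) (nat_lit 557) (nat_lit 1580) (nat_lit 587) (nat_lit 2603)))) (.a (.f (nat_lit 621) (nat_lit 589) (nat_lit 5613) (.f (nat_lit 622) (nat_lit 653) (nat_lit 5645) (.d (nat_lit 623) (nat_lit 591) (nat_lit 4590) (nat_lit 655) (nat_lit 4622)))) (.f (nat_lit 591) (nat_lit 623) (nat_lit 4590) (.f (nat_lit 464) (nat_lit 559) (nat_lit 5583) (.d (nat_lit 463) (nat_lit 431) (nat_lit 7599) (nat_lit 495) (nat_lit 6606))))))))))) (.a s37910 (.a (.p (nat_lit 494) (.a s37843 (.a s37847 (.a s37896 (.a s37914 (.a (.p (nat_lit 462) (.a (.f (nat_lit 461) (nat_lit 429) (nat_lit 7597) (.f (nat_lit 495) (nat_lit 497) (nat_lit 3533) (.d (nat_lit 460) (nat_lit 459) (nat_lit 459) (nat_lit 493) (nat_lit 3532)))) (.a (.f (nat_lit 557) (nat_lit 589) (nat_lit 5581) (.f (nat_lit 430) (nat_lit 525) (nat_lit 5549) (.d (nat_lit 429) (nat_lit 397) (nat_lit 7565) (nat_lit 461) (nat_lit 7597)))) (.f (nat_lit 557) (nat_lit 589) (nat_lit 5581) (.f (nat_lit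 525) (nat_lit 430) (nat_lit 5549) (.f (nat_lit 495) (nat_lit 497) (nat_lit 1517) (.d (nat_lit 524) (nat_lit 493) (nat_lit 1516) (nat_lit 523) (nat_lit 2539)))))))) (.a (.p (nat_lit 590) (.a (.f (nat_lit 621) (nat_lit 589) (nat_lit 5613) (.f (nat_lit 622) (nat_lit 653) (nat_lit 5645) (.d (nat_lit 623) (nat_lit 591) (nat_lit 4590) (nat_lit 655) (nat_lit 4622)))) (.f (nat_lit 495) (nat_lit 463) (nat_lit 6606) (.f (nat_lit 525) (nat_lit 497) (nat_lit 1517) (.d (nat_lit 493) (nat_lit 461) (nat_lit 7629) (nat_lit 524) (nat_lit 1516)))))) (.a s37917 (.a (.p (nat_lit 590) (.a (.f (nat_lit 621) (nat_lit 589) (nat_lit 5613) (.f (nat_lit 622) (nat_lit 653) (nat_lit 5645) (.d (nat_lit 623) (nat_lit 591) (nat_lit 4590) (nat_lit 655) (nat_lit 4622)))) (.f (nat_lit 495) (nat_lit 463) (nat_lit 6606) (.f (nat_lit 497) (nat_lit 525) (nat_lit 1517) (.f (nat_lit 465) (nat_lit 466) (nat_lit 2510) (.d (nat_lit 433) (nat_lit 401) (nat_lit 5520)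 (nat_lit 464) (nat_lit 6576))))))) (.p (nat_lit 590) (.a (.f (nat_lit 461) (nat_lit 493) (nat_lit 7629) (.f (nat_lit 462) (nat_lit 429) (nat_lit 7597) (.d (nat_lit 463) (nat_lit 431) (nat_lit 6574) (nat_lit 495) (nat_lit 6606)))) (.a (.f (nat_lit 461) (nat_lit 493) (nat_lit 7629) (.f (nat_lit 462) (nat_lit 429) (nat_lit 7597) (.d (nat_lit 589) (nat_lit 557) (nat_lit 5581) (nat_lit 621) (nat_lit 5613)))) (.f (nat_lit 621) (nat_lit 589) (nat_lit 5613) (.f (nat_lit 622) (nat_lit 653) (nat_lit 5645) (.d (nat_lit 623) (nat_lit 591) (nat_lit 4590) (nat_lit 655) (nat_lit 4622)))))))))))))))) (.a (.p (nat_lit 559) (.a (.f (nat_lit 525) (nat_lit 561) (nat_lit 3597) (.d (nat_lit 524) (nat_lit 523) (nat_lit 523) (nat_lit 557) (nat_lit 3596))) (.f (nat_lit 591) (nat_lit 464) (nat_lit 5583) (.f (nat_lit 623) (nat_lit 655) (nat_lit 6671) (.d (nat_lit 494) (nat_lit 462) (nat_lit 4558) (nat_lit 590) (nat_lit 4590)))))) (.p (nat_lit 494)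 (.a s37843 (.a s37847 (.a (.p (nat_lit 590) (.a (.f (nat_lit 461) (nat_lit 493) (nat_lit 7629) (.f (nat_lit 462) (nat_lit 429) (nat_lit 7597) (.d (nat_lit 463) (nat_lit 431) (nat_lit 6574) (nat_lit 495) (nat_lit 6606)))) (.f (nat_lit 621) (nat_lit 589) (nat_lit 5613) (.f (nat_lit 622) (nat_lit 653) (nat_lit 5645) (.d (nat_lit 623) (nat_lit 591) (nat_lit 4590) (nat_lit 655) (nat_lit 4622)))))) (.a (.p (nat_lit 590) (.a (.f (nat_lit 591) (nat_lit 623) (nat_lit 4590) (.f (nat_lit 464) (nat_lit 559) (nat_lit 5583) (.f (nat_lit 465) (nat_lit 433) (nat_lit 6576) (.d (nat_lit 493) (nat_lit 461) (nat_lit 7629) (nat_lit 495) (nat_lit 2509))))) (.a (.f (nat_lit 493) (nat_lit 461) (nat_lit 7629) (.f (nat_lit 525) (nat_lit 622) (nat_lit 7661) (.d (nat_lit 495) (nat_lit 497) (nat_lit 1517) (nat_lit 524) (nat_lit 1516)))) (.f (nat_lit 591) (nat_lit 623) (nat_lit 4590) (.f (nat_lit 559) (nat_lit 464) (nat_lit 5583) (.d (nat_lit 561) (nat_lit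 525) (nat_lit 3597) (nat_lit 562) (nat_lit 1582))))))) (.a (.p (nat_lit 590) (.a (.f (nat_lit 591) (nat_lit 623) (nat_lit 4590) (.d (nat_lit 559) (nat_lit 462) (nat_lit 4558) (nat_lit 464) (nat_lit 5583))) (.a (.f (nat_lit 493) (nat_lit 461) (nat_lit 7629) (.f (nat_lit 622) (nat_lit 525) (nat_lit 7661) (.f (nat_lit 655) (nat_lit 623) (nat_lit 4622) (.f (nat_lit 654) (nat_lit 687) (nat_lit 4654) (.d (nat_lit 653) (nat_lit 621) (nat_lit 5645) (nat_lit 685) (nat_lit 5677)))))) (.f (nat_lit 589) (nat_lit 621) (nat_lit 5613) (.f (nat_lit 559) (nat_lit 561) (nat_lit 1581) (.d (nat_lit 588) (nat_lit 587) (nat_lit 2603) (nat_lit 591) (nat_lit 2604))))))) (.p (nat_lit 590) (.a (.f (nat_lit 621) (nat_lit 589) (nat_lit 5613) (.f (nat_lit 622) (nat_lit 653) (nat_lit 5645) (.d (nat_lit 623) (nat_lit 591) (nat_lit 4590) (nat_lit 655) (nat_lit 4622)))) (.f (nat_lit 495) (nat_lit 463) (nat_lit 6606) (.f (nat_lit 497) (nat_lit 525) (nat_lit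 1517) (.f (nat_lit 465) (nat_lit 466) (nat_lit 2510) (.d (nat_lit 433) (nat_lit 401) (nat_lit 5520) (nat_lit 464) (nat_lit 6576)))))))))))))))))))) (.a s38003 (.a (.p (nat_lit 494) (.a (.p (nat_lit 558) (.a (.p (nat_lit 462) (.a (.f (nat_lit 463) (nat_lit 431) (nat_lit 6574) (.f (nat_lit 495) (nat_lit 592) (nat_lit 7631) (.d (nat_lit 461) (nat_lit 429) (nat_lit 7597) (nat_lit 460) (nat_lit 460)))) (.a (.f (nat_lit 461) (nat_lit 429) (nat_lit 7597) (.f (nat_lit 495) (nat_lit 497) (nat_lit 3533) (.d (nat_lit 460) (nat_lit 459) (nat_lit 459) (nat_lit 493) (nat_lit 3532)))) (.f (nat_lit 557) (nat_lit 589) (nat_lit 5581) (.f (nat_lit 525) (nat_lit 430) (nat_lit 5549) (.d (nat_lit 559) (nat_lit 524) (nat_lit 3596) (nat_lit 561) (nat_lit 3597))))))) (.a (.p (nat_lit 462) (.a (.f (nat_lit 461) (nat_lit 429) (nat_lit 7597) (.f (nat_lit 495) (nat_lit 497) (nat_lit 3533) (.d (nat_lit 460) (nat_lit 459) (nat_lit 459) (nat_lit 493)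 (nat_lit 3532)))) (.f (nat_lit 557) (nat_lit 589) (nat_lit 5581) (.f (nat_lit 525) (nat_lit 430) (nat_lit 5549) (.d (nat_lit 559) (nat_lit 524) (nat_lit 3596) (nat_lit 561) (nat_lit 3597)))))) (.a s38011 (.a s38014 (.a (.p (nat_lit 462) (.a (.f (nat_lit 557) (nat_lit 589) (nat_lit 5581) (.f (nat_lit 525) (nat_lit 430) (nat_lit 5549) (.d (nat_lit 559) (nat_lit 524) (nat_lit 3596) (nat_lit 561) (nat_lit 3597)))) (.a (.f (nat_lit 431) (nat_lit 463) (nat_lit 6574) (.f (nat_lit 430) (nat_lit 399) (nat_lit 6542) (.d (nat_lit 429) (nat_lit 397) (nat_lit 7565) (nat_lit 461) (nat_lit 7597)))) (.f (nat_lit 559) (nat_lit 591) (nat_lit 4558) (.f (nat_lit 557) (nat_lit 589) (nat_lit 5581) (.d (nat_lit 525) (nat_lit 524) (nat_lit 3596) (nat_lit 561) (nat_lit 3597))))))) (.p (nat_lit 525) (.a (.f (nat_lit 495) (nat_lit 497) (nat_lit 1517) (.d (nat_lit 524) (nat_lit 493) (nat_lit 1516) (nat_lit 523) (nat_lit 2539))) (.a (.f (nat_lit 559)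 (nat_lit 561) (nat_lit 3597) (.d (nat_lit 524) (nat_lit 523) (nat_lit 523) (nat_lit 557) (nat_lit 3596))) (.f (nat_lit 495) (nat_lit 497) (nat_lit 1517) (.f (nat_lit 592) (nat_lit 463) (nat_lit 7631) (.f (nat_lit 591) (nat_lit 623) (nat_lit 5615) (.f (nat_lit 559) (nat_lit 561) (nat_lit 3597) (.f (nat_lit 557) (nat_lit 556) (nat_lit 556) (.d (nat_lit 589) (nat_lit 588) (nat_lit 1580) (nat_lit 621) (nat_lit 6637)))))))))))))))) (.a (.p (nat_lit 558) (.a (.p (nat_lit 462) (.a (.f (nat_lit 461) (nat_lit 429) (nat_lit 7597) (.f (nat_lit 495) (nat_lit 497) (nat_lit 3533) (.d (nat_lit 460) (nat_lit 459) (nat_lit 459) (nat_lit 493) (nat_lit 3532)))) (.f (nat_lit 557) (nat_lit 589) (nat_lit 5581) (.f (nat_lit 525) (nat_lit 430) (nat_lit 5549) (.d (nat_lit 559) (nat_lit 524) (nat_lit 3596) (nat_lit 561) (nat_lit 3597)))))) (.a (.p (nat_lit 590) (.a (.f (nat_lit 589) (nat_lit 621) (nat_lit 5613) (.f (nat_lit 559) (nat_lit 561) (nat_lit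 1581) (.d (nat_lit 557) (nat_lit 462) (nat_lit 5581) (nat_lit 588) (nat_lit 1580)))) (.a (.f (nat_lit 461) (nat_lit 493) (nat_lit 7629) (.f (nat_lit 462) (nat_lit 429) (nat_lit 7597) (.d (nat_lit 463) (nat_lit 431) (nat_lit 6574) (nat_lit 495) (nat_lit 6606)))) (.f (nat_lit 589) (nat_lit 621) (nat_lit 5613) (.f (nat_lit 559) (nat_lit 561) (nat_lit 1581) (.d (nat_lit 588) (nat_lit 557) (nat_lit 1580) (nat_lit 587) (nat_lit 2603))))))) (.a s37896 (.a (.p (nat_lit 590) (.a (.f (nat_lit 461) (nat_lit 493) (nat_lit 7629) (.f (nat_lit 462) (nat_lit 429) (nat_lit 7597) (.d (nat_lit 463) (nat_lit 431) (nat_lit 6574) (nat_lit 495) (nat_lit 6606)))) (.f (nat_lit 621) (nat_lit 589) (nat_lit 5613) (.f (nat_lit 622) (nat_lit 653) (nat_lit 5645) (.d (nat_lit 623) (nat_lit 591) (nat_lit 4590) (nat_lit 655) (nat_lit 4622)))))) (.a s37904 (.a (.p (nat_lit 462) (.a (.f (nat_lit 557) (nat_lit 589) (nat_lit 5581) (.f (nat_lit 525) (nat_lit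 430) (nat_lit 5549) (.d (nat_lit 559) (nat_lit 524) (nat_lit 3596) (nat_lit 561) (nat_lit 3597)))) (.a (.f (nat_lit 431) (nat_lit 463) (nat_lit 6574) (.f (nat_lit 430) (nat_lit 399) (nat_lit 6542) (.d (nat_lit 429) (nat_lit 397) (nat_lit 7565) (nat_lit 461) (nat_lit 7597)))) (.f (nat_lit 559) (nat_lit 591) (nat_lit 4558) (.f (nat_lit 557) (nat_lit 589) (nat_lit 5581) (.d (nat_lit 525) (nat_lit 524) (nat_lit 3596) (nat_lit 561) (nat_lit 3597))))))) (.a (.p (nat_lit 590) (.a (.f (nat_lit 589) (nat_lit 621) (nat_lit 5613) (.f (nat_lit 559) (nat_lit 561) (nat_lit 1581) (.d (nat_lit 588) (nat_lit 557) (nat_lit 1580) (nat_lit 587) (nat_lit 2603)))) (.f (nat_lit 495) (nat_lit 463) (nat_lit 6606) (.f (nat_lit 525) (nat_lit 497) (nat_lit 1517) (.d (nat_lit 493) (nat_lit 461) (nat_lit 7629) (nat_lit 524) (nat_lit 1516)))))) (.p (nat_lit 590) (.a (.f (nat_lit 589) (nat_lit 621) (nat_lit 5613) (.f (nat_lit 559) (nat_lit 561) (nat_lit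 1581) (.d (nat_lit 557) (nat_lit 462) (nat_lit 5581) (nat_lit 588) (nat_lit 1580)))) (.a (.f (nat_lit 621) (nat_lit 589) (nat_lit 5613) (.f (nat_lit 622) (nat_lit 653) (nat_lit 5645) (.d (nat_lit 623) (nat_lit 591) (nat_lit 4590) (nat_lit 655) (nat_lit 4622)))) (.f (nat_lit 591) (nat_lit 623) (nat_lit 4590) (.f (nat_lit 462) (nat_lit 559) (nat_lit 4558) (.d (nat_lit 463) (nat_lit 431) (nat_lit 6574) (nat_lit 495) (nat_lit 6606))))))))))))))) (.a s38031 (.a (.p (nat_lit 462) (.a (.p (nat_lit 558) (.a (.f (nat_lit 463) (nat_lit 431) (nat_lit 6574) (.f (nat_lit 495) (nat_lit 592) (nat_lit 7631) (.d (nat_lit 461) (nat_lit 429) (nat_lit 7597) (nat_lit 460) (nat_lit 460)))) (.a (.f (nat_lit 461) (nat_lit 429) (nat_lit 7597) (.f (nat_lit 495) (nat_lit 497) (nat_lit 3533) (.d (nat_lit 460) (nat_lit 459) (nat_lit 459) (nat_lit 493) (nat_lit 3532)))) (.a (.f (nat_lit 431) (nat_lit 463) (nat_lit 6574) (.f (nat_lit 430) (nat_lit 399)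 (nat_lit 6542) (.d (nat_lit 429) (nat_lit 397) (nat_lit 7565) (nat_lit 461) (nat_lit 7597)))) (.f (nat_lit 463) (nat_lit 431) (nat_lit 6574) (.f (nat_lit 592) (nat_lit 495) (nat_lit 7631) (.d (nat_lit 591) (nat_lit 559) (nat_lit 4558) (nat_lit 623) (nat_lit 5615)))))))) (.a (.p (nat_lit 558) (.a (.f (nat_lit 461) (nat_lit 429) (nat_lit 7597) (.f (nat_lit 495) (nat_lit 497) (nat_lit 3533) (.d (nat_lit 460) (nat_lit 459) (nat_lit 459) (nat_lit 493) (nat_lit 3532)))) (.a (.f (nat_lit 431) (nat_lit 463) (nat_lit 6574) (.f (nat_lit 430) (nat_lit 399) (nat_lit 6542) (.d (nat_lit 429) (nat_lit 397) (nat_lit 7565) (nat_lit 461) (nat_lit 7597)))) (.f (nat_lit 463) (nat_lit 431) (nat_lit 6574) (.f (nat_lit 590) (nat_lit 495) (nat_lit 6606) (.d (nat_lit 589) (nat_lit 557) (nat_lit 5581) (nat_lit 621) (nat_lit 5613))))))) (.a (.p (nat_lit 558) (.a (.f (nat_lit 461) (nat_lit 429) (nat_lit 7597) (.f (nat_lit 495) (nat_lit 497) (nat_lit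 3533) (.d (nat_lit 460) (nat_lit 459) (nat_lit 459) (nat_lit 493) (nat_lit 3532)))) (.f (nat_lit 591) (nat_lit 559) (nat_lit 4558) (.d (nat_lit 623) (nat_lit 590) (nat_lit 4590) (nat_lit 592) (nat_lit 5615))))) (.a (.p (nat_lit 495) (.a (.f (nat_lit 461) (nat_lit 497) (nat_lit 3533) (.d (nat_lit 460) (nat_lit 459) (nat_lit 459) (nat_lit 493) (nat_lit 3532))) (.a (.f (nat_lit 497) (nat_lit 461) (nat_lit 3533) (.d (nat_lit 465) (nat_lit 466) (nat_lit 2510) (nat_lit 592) (nat_lit 6608))) (.a (.p (nat_lit 497) (.a (.d (nat_lit 463) (nat_lit 498) (nat_lit 3534) (nat_lit 592) (nat_lit 7631)) (.a (.f (nat_lit 498) (nat_lit 463) (nat_lit 3534) (.d (nat_lit 466) (nat_lit 465) (nat_lit 2510) (nat_lit 467) (nat_lit 2511))) (.d (nat_lit 465) (nat_lit 466) (nat_lit 2510) (nat_lit 592) (nat_lit 6608))))) s38056)))) (.a (.p (nat_lit 558) (.a (.f (nat_lit 431) (nat_lit 463) (nat_lit 6574) (.f (nat_lit 430) (nat_lit 399) (nat_lit 6542)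 (.d (nat_lit 429) (nat_lit 397) (nat_lit 7565) (nat_lit 461) (nat_lit 7597)))) (.f (nat_lit 591) (nat_lit 559) (nat_lit 4558) (.d (nat_lit 623) (nat_lit 590) (nat_lit 4590) (nat_lit 592) (nat_lit 5615))))) (.p (nat_lit 558) (.a (.f (nat_lit 463) (nat_lit 431) (nat_lit 6574) (.f (nat_lit 592) (nat_lit 495) (nat_lit 7631) (.d (nat_lit 591) (nat_lit 559) (nat_lit 4558) (nat_lit 623) (nat_lit 5615)))) (.a (.f (nat_lit 463) (nat_lit 431) (nat_lit 6574) (.f (nat_lit 590) (nat_lit 495) (nat_lit 6606) (.d (nat_lit 589) (nat_lit 557) (nat_lit 5581) (nat_lit 621) (nat_lit 5613)))) (.f (nat_lit 591) (nat_lit 559) (nat_lit 4558) (.d (nat_lit 623) (nat_lit 590) (nat_lit 4590) (nat_lit 592) (nat_lit 5615)))))))))))) (.a (.p (nat_lit 558) (.a (.p (nat_lit 462) (.a (.f (nat_lit 461) (nat_lit 429) (nat_lit 7597) (.f (nat_lit 495) (nat_lit 497) (nat_lit 3533) (.d (nat_lit 460) (nat_lit 459) (nat_lit 459) (nat_lit 493) (nat_lit 3532)))) (.f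 (nat_lit 557) (nat_lit 589) (nat_lit 5581) (.f (nat_lit 525) (nat_lit 430) (nat_lit 5549) (.d (nat_lit 559) (nat_lit 524) (nat_lit 3596) (nat_lit 561) (nat_lit 3597)))))) (.a s38061 (.a s37896 (.a (.p (nat_lit 590) (.a (.f (nat_lit 621) (nat_lit 589) (nat_lit 5613) (.f (nat_lit 622) (nat_lit 653) (nat_lit 5645) (.d (nat_lit 623) (nat_lit 591) (nat_lit 4590) (nat_lit 655) (nat_lit 4622)))) (.a (.f (nat_lit 493) (nat_lit 461) (nat_lit 7629) (.f (nat_lit 525) (nat_lit 622) (nat_lit 7661) (.d (nat_lit 495) (nat_lit 497) (nat_lit 1517) (nat_lit 524) (nat_lit 1516)))) (.f (nat_lit 591) (nat_lit 623) (nat_lit 4590) (.f (nat_lit 462) (nat_lit 559) (nat_lit 4558) (.d (nat_lit 461) (nat_lit 429) (nat_lit 7597) (nat_lit 493) (nat_lit 7629))))))) (.a (.p (nat_lit 590) (.a (.f (nat_lit 591) (nat_lit 623) (nat_lit 4590) (.f (nat_lit 462) (nat_lit 559) (nat_lit 4558) (.d (nat_lit 461) (nat_lit 429) (nat_lit 7597) (nat_lit 493) (nat_lit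 7629)))) (.a (.f (nat_lit 493) (nat_lit 461) (nat_lit 7629) (.f (nat_lit 525) (nat_lit 622) (nat_lit 7661) (.d (nat_lit 495) (nat_lit 497) (nat_lit 1517) (nat_lit 524) (nat_lit 1516)))) (.f (nat_lit 591) (nat_lit 623) (nat_lit 4590) (.f (nat_lit 559) (nat_lit 462) (nat_lit 4558) (.d (nat_lit 561) (nat_lit 525) (nat_lit 3597) (nat_lit 562) (nat_lit 1582))))))) (.a (.p (nat_lit 590) (.a (.f (nat_lit 589) (nat_lit 621) (nat_lit 5613) (.f (nat_lit 559) (nat_lit 561) (nat_lit 1581) (.d (nat_lit 588) (nat_lit 557) (nat_lit 1580) (nat_lit 587) (nat_lit 2603)))) (.f (nat_lit 493) (nat_lit 461) (nat_lit 7629) (.f (nat_lit 525) (nat_lit 622) (nat_lit 7661) (.d (nat_lit 495) (nat_lit 497) (nat_lit 1517) (nat_lit 524) (nat_lit 1516)))))) (.p (nat_lit 590) (.a (.f (nat_lit 589) (nat_lit 621) (nat_lit 5613) (.f (nat_lit 559) (nat_lit 561) (nat_lit 1581) (.d (nat_lit 557) (nat_lit 462) (nat_lit 5581) (nat_lit 588) (nat_lit 1580)))) (.a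 (.f (nat_lit 621) (nat_lit 589) (nat_lit 5613) (.f (nat_lit 622) (nat_lit 653) (nat_lit 5645) (.d (nat_lit 623) (nat_lit 591) (nat_lit 4590) (nat_lit 655) (nat_lit 4622)))) (.f (nat_lit 591) (nat_lit 623) (nat_lit 4590) (.f (nat_lit 559) (nat_lit 462) (nat_lit 4558) (.d (nat_lit 561) (nat_lit 525) (nat_lit 3597) (nat_lit 562) (nat_lit 1582)))))))))))))) (.a (.p (nat_lit 495) (.a (.f (nat_lit 497) (nat_lit 525) (nat_lit 1517) (.d (nat_lit 592) (nat_lit 463) (nat_lit 7631) (nat_lit 465) (nat_lit 6608))) (.a (.f (nat_lit 525) (nat_lit 497) (nat_lit 1517) (.d (nat_lit 524) (nat_lit 493) (nat_lit 1516) (nat_lit 523) (nat_lit 2539))) (.a (.p (nat_lit 497) (.a (.d (nat_lit 592) (nat_lit 463) (nat_lit 7631) (nat_lit 465) (nat_lit 6608)) (.a (.f (nat_lit 462) (nat_lit 461) (nat_lit 3533) (.f (nat_lit 498) (nat_lit 463) (nat_lit 3534) (.d (nat_lit 466) (nat_lit 465) (nat_lit 2510) (nat_lit 467) (nat_lit 2511)))) (.a (.d (nat_lit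 465) (nat_lit 466) (nat_lit 2510) (nat_lit 592) (nat_lit 6608)) (.f (nat_lit 463) (nat_lit 592) (nat_lit 7631) (.d (nat_lit 462) (nat_lit 461) (nat_lit 3533) (nat_lit 498) (nat_lit 3534))))))) (.p (nat_lit 462) (.a s38056 (.a (.p (nat_lit 525) (.a (.d (nat_lit 524) (nat_lit 493) (nat_lit 1516) (nat_lit 523) (nat_lit 2539)) (.f (nat_lit 430) (nat_lit 557) (nat_lit 5549) (.f (nat_lit 399) (nat_lit 431) (nat_lit 6542) (.f (nat_lit 398) (nat_lit 367) (nat_lit 6510) (.d (nat_lit 397) (nat_lit 365) (nat_lit 7533) (nat_lit 429) (nat_lit 7565))))))) (.a (.p (nat_lit 525) (.a (.d (nat_lit 524) (nat_lit 493) (nat_lit 1516) (nat_lit 523) (nat_lit 2539)) (.f (nat_lit 430) (nat_lit 557) (nat_lit 5549) (.f (nat_lit 463) (nat_lit 592) (nat_lit 7631) (.f (nat_lit 398) (nat_lit 366) (nat_lit 4462) (.d (nat_lit 397) (nat_lit 365) (nat_lit 7533) (nat_lit 429) (nat_lit 7565))))))) (.a (.p (nat_lit 525) (.a (.d (nat_lit 524) (nat_lit 493) (nat_lit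 1516) (nat_lit 523) (nat_lit 2539)) (.a (.f (nat_lit 463) (nat_lit 592) (nat_lit 7631) (.f (nat_lit 557) (nat_lit 430) (nat_lit 5549) (.f (nat_lit 460) (nat_lit 461) (nat_lit 460) (.f (nat_lit 524) (nat_lit 523) (nat_lit 2539) (.f (nat_lit 492) (nat_lit 428) (nat_lit 4524) (.d (nat_lit 589) (nat_lit 556) (nat_lit 4556) (nat_lit 621) (nat_lit 6637))))))) (.f (nat_lit 463) (nat_lit 592) (nat_lit 7631) (.f (nat_lit 430) (nat_lit 557) (nat_lit 5549) (.d (nat_lit 398) (nat_lit 366) (nat_lit 4462) (nat_lit 493) (nat_lit 5517))))))) (.p (nat_lit 493) (.a (.f (nat_lit 463) (nat_lit 592) (nat_lit 7631) (.f (nat_lit 460) (nat_lit 461) (nat_lit 3532) (.d (nat_lit 492) (nat_lit 459) (nat_lit 3531) (nat_lit 491) (nat_lit 2507)))) (.a (.f (nat_lit 460) (nat_lit 461) (nat_lit 3532) (.f (nat_lit 492) (nat_lit 459) (nat_lit 3531) (.f (nat_lit 491) (nat_lit 463) (nat_lit 2507) (.d (nat_lit 523) (nat_lit 522) (nat_lit 1514) (nat_lit 524)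 (nat_lit 1515))))) (.a (.f (nat_lit 460) (nat_lit 461) (nat_lit 3532) (.f (nat_lit 492) (nat_lit 459) (nat_lit 3531) (.d (nat_lit 524) (nat_lit 523) (nat_lit 1515) (nat_lit 525) (nat_lit 1516)))) (.a (.f (nat_lit 463) (nat_lit 592) (nat_lit 7631) (.f (nat_lit 492) (nat_lit 491) (nat_lit 2507) (.d (nat_lit 524) (nat_lit 523) (nat_lit 1515) (nat_lit 525) (nat_lit 1516)))) (.f (nat_lit 525) (nat_lit 524) (nat_lit 1516) (.f (nat_lit 592) (nat_lit 463) (nat_lit 7631) (.f (nat_lit 589) (nat_lit 557) (nat_lit 6605) (.f (nat_lit 591) (nat_lit 623) (nat_lit 5615) (.f (nat_lit 590) (nat_lit 561) (nat_lit 2605) (.f (nat_lit 588) (nat_lit 559) (nat_lit 2604) (.d (nat_lit 620) (nat_lit 619) (nat_lit 1611) (nat_lit 621) (nat_lit 1612)))))))))))))))))))))) (.a (.p (nat_lit 558) (.a (.p (nat_lit 462) (.a (.f (nat_lit 557) (nat_lit 589) (nat_lit 5581) (.f (nat_lit 525) (nat_lit 430) (nat_lit 5549) (.d (nat_lit 559) (nat_lit 524) (nat_lit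 3596) (nat_lit 561) (nat_lit 3597)))) (.a (.f (nat_lit 431) (nat_lit 463) (nat_lit 6574) (.f (nat_lit 430) (nat_lit 399) (nat_lit 6542) (.d (nat_lit 429) (nat_lit 397) (nat_lit 7565) (nat_lit 461) (nat_lit 7597)))) (.f (nat_lit 559) (nat_lit 591) (nat_lit 4558) (.f (nat_lit 557) (nat_lit 589) (nat_lit 5581) (.d (nat_lit 525) (nat_lit 524) (nat_lit 3596) (nat_lit 561) (nat_lit 3597))))))) (.a s38116 (.a s38061 (.a s38120 (.a (.p (nat_lit 590) (.a (.f (nat_lit 621) (nat_lit 589) (nat_lit 5613) (.f (nat_lit 622) (nat_lit 653) (nat_lit 5645) (.d (nat_lit 623) (nat_lit 591) (nat_lit 4590) (nat_lit 655) (nat_lit 4622)))) (.a (.f (nat_lit 493) (nat_lit 461) (nat_lit 7629) (.f (nat_lit 622) (nat_lit 525) (nat_lit 7661) (.f (nat_lit 655) (nat_lit 623) (nat_lit 4622) (.f (nat_lit 654) (nat_lit 687) (nat_lit 4654) (.d (nat_lit 653) (nat_lit 621) (nat_lit 5645) (nat_lit 685) (nat_lit 5677)))))) (.a (.f (nat_lit 589) (nat_lit 621) (nat_lit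 5613) (.f (nat_lit 559) (nat_lit 561) (nat_lit 1581) (.d (nat_lit 588) (nat_lit 587) (nat_lit 2603) (nat_lit 591) (nat_lit 2604)))) (.f (nat_lit 591) (nat_lit 623) (nat_lit 4590) (.f (nat_lit 462) (nat_lit 559) (nat_lit 4558) (.d (nat_lit 461) (nat_lit 429) (nat_lit 7597) (nat_lit 493) (nat_lit 7629)))))))) (.a (.p (nat_lit 590) (.a (.f (nat_lit 591) (nat_lit 623) (nat_lit 4590) (.f (nat_lit 462) (nat_lit 559) (nat_lit 4558) (.d (nat_lit 461) (nat_lit 429) (nat_lit 7597) (nat_lit 493) (nat_lit 7629)))) (.a (.f (nat_lit 493) (nat_lit 461) (nat_lit 7629) (.f (nat_lit 622) (nat_lit 525) (nat_lit 7661) (.f (nat_lit 655) (nat_lit 623) (nat_lit 4622) (.f (nat_lit 654) (nat_lit 687) (nat_lit 4654) (.d (nat_lit 653) (nat_lit 621) (nat_lit 5645) (nat_lit 685) (nat_lit 5677)))))) (.a (.f (nat_lit 493) (nat_lit 461) (nat_lit 7629) (.f (nat_lit 525) (nat_lit 622) (nat_lit 7661) (.f (nat_lit 559) (nat_lit 561) (nat_lit 3597) (.d (nat_lit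 524) (nat_lit 523) (nat_lit 523) (nat_lit 557) (nat_lit 3596))))) (.f (nat_lit 591) (nat_lit 623) (nat_lit 4590) (.f (nat_lit 559) (nat_lit 462) (nat_lit 4558) (.d (nat_lit 561) (nat_lit 525) (nat_lit 3597) (nat_lit 562) (nat_lit 1582)))))))) (.a s38123 (.p (nat_lit 590) (.a (.f (nat_lit 589) (nat_lit 621) (nat_lit 5613) (.f (nat_lit 559) (nat_lit 561) (nat_lit 1581) (.d (nat_lit 557) (nat_lit 462) (nat_lit 5581) (nat_lit 588) (nat_lit 1580)))) (.a (.f (nat_lit 621) (nat_lit 589) (nat_lit 5613) (.f (nat_lit 622) (nat_lit 653) (nat_lit 5645) (.d (nat_lit 623) (nat_lit 591) (nat_lit 4590) (nat_lit 655) (nat_lit 4622)))) (.f (nat_lit 591) (nat_lit 623) (nat_lit 4590) (.f (nat_lit 559) (nat_lit 462) (nat_lit 4558) (.d (nat_lit 561) (nat_lit 525) (nat_lit 3597) (nat_lit 562) (nat_lit 1582))))))))))))))) (.a (.p (nat_lit 558) (.a (.p (nat_lit 462) (.a (.f (nat_lit 461) (nat_lit 429) (nat_lit 7597) (.f (nat_lit 495) (nat_lit 497)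 (nat_lit 3533) (.d (nat_lit 460) (nat_lit 459) (nat_lit 459) (nat_lit 493) (nat_lit 3532)))) (.f (nat_lit 557) (nat_lit 589) (nat_lit 5581) (.f (nat_lit 525) (nat_lit 430) (nat_lit 5549) (.d (nat_lit 559) (nat_lit 524) (nat_lit 3596) (nat_lit 561) (nat_lit 3597)))))) (.a s38061 (.a (.p (nat_lit 462) (.a (.f (nat_lit 461) (nat_lit 429) (nat_lit 7597) (.f (nat_lit 495) (nat_lit 497) (nat_lit 3533) (.d (nat_lit 460) (nat_lit 459) (nat_lit 459) (nat_lit 493) (nat_lit 3532)))) (.a (.f (nat_lit 557) (nat_lit 589) (nat_lit 5581) (.f (nat_lit 430) (nat_lit 525) (nat_lit 5549) (.d (nat_lit 429) (nat_lit 397) (nat_lit 7565) (nat_lit 461) (nat_lit 7597)))) (.f (nat_lit 557) (nat_lit 589) (nat_lit 5581) (.f (nat_lit 525) (nat_lit 430) (nat_lit 5549) (.f (nat_lit 495) (nat_lit 497) (nat_lit 1517) (.d (nat_lit 524) (nat_lit 493) (nat_lit 1516) (nat_lit 523) (nat_lit 2539)))))))) (.a (.p (nat_lit 590) (.a (.f (nat_lit 621) (nat_lit 589)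 (nat_lit 5613) (.f (nat_lit 622) (nat_lit 653) (nat_lit 5645) (.d (nat_lit 623) (nat_lit 591) (nat_lit 4590) (nat_lit 655) (nat_lit 4622)))) (.f (nat_lit 495) (nat_lit 463) (nat_lit 6606) (.f (nat_lit 525) (nat_lit 497) (nat_lit 1517) (.d (nat_lit 493) (nat_lit 461) (nat_lit 7629) (nat_lit 524) (nat_lit 1516)))))) (.a (.p (nat_lit 525) (.a (.f (nat_lit 495) (nat_lit 497) (nat_lit 1517) (.d (nat_lit 524) (nat_lit 493) (nat_lit 1516) (nat_lit 523) (nat_lit 2539))) (.a (.f (nat_lit 559) (nat_lit 561) (nat_lit 3597) (.d (nat_lit 524) (nat_lit 523) (nat_lit 523) (nat_lit 557) (nat_lit 3596))) (.f (nat_lit 495) (nat_lit 497) (nat_lit 1517) (.d (nat_lit 463) (nat_lit 590) (nat_lit 6606) (nat_lit 592) (nat_lit 7631)))))) (.p (nat_lit 590) (.a (.f (nat_lit 589) (nat_lit 621) (nat_lit 5613) (.f (nat_lit 559) (nat_lit 561) (nat_lit 1581) (.d (nat_lit 557) (nat_lit 462) (nat_lit 5581) (nat_lit 588) (nat_lit 1580)))) (.a (.f (nat_lit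 621) (nat_lit 589) (nat_lit 5613) (.f (nat_lit 622) (nat_lit 653) (nat_lit 5645) (.d (nat_lit 623) (nat_lit 591) (nat_lit 4590) (nat_lit 655) (nat_lit 4622)))) (.f (nat_lit 591) (nat_lit 623) (nat_lit 4590) (.f (nat_lit 559) (nat_lit 462) (nat_lit 4558) (.d (nat_lit 561) (nat_lit 525) (nat_lit 3597) (nat_lit 562) (nat_lit 1582))))))))))))) (.a (.p (nat_lit 590) (.a (.p (nat_lit 495) (.a (.f (nat_lit 497) (nat_lit 525) (nat_lit 1517) (.d (nat_lit 465) (nat_lit 466) (nat_lit 2510) (nat_lit 592) (nat_lit 6608))) (.a (.f (nat_lit 525) (nat_lit 497) (nat_lit 1517) (.d (nat_lit 524) (nat_lit 493) (nat_lit 1516) (nat_lit 523) (nat_lit 2539))) (.f (nat_lit 592) (nat_lit 463) (nat_lit 7631) (.f (nat_lit 591) (nat_lit 623) (nat_lit 5615) (.f (nat_lit 589) (nat_lit 561) (nat_lit 2605) (.f (nat_lit 588) (nat_lit 559) (nat_lit 2604) (.d (nat_lit 620) (nat_lit 619) (nat_lit 1611) (nat_lit 621) (nat_lit 1612))))))))) (.a (.p (nat_lit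 558) (.a (.f (nat_lit 589) (nat_lit 621) (nat_lit 5613) (.f (nat_lit 559) (nat_lit 561) (nat_lit 1581) (.d (nat_lit 588) (nat_lit 557) (nat_lit 1580) (nat_lit 587) (nat_lit 2603)))) (.a (.f (nat_lit 621) (nat_lit 589) (nat_lit 5613) (.f (nat_lit 622) (nat_lit 653) (nat_lit 5645) (.d (nat_lit 623) (nat_lit 591) (nat_lit 4590) (nat_lit 655) (nat_lit 4622)))) (.f (nat_lit 495) (nat_lit 463) (nat_lit 6606) (.f (nat_lit 525) (nat_lit 497) (nat_lit 1517) (.d (nat_lit 493) (nat_lit 461) (nat_lit 7629) (nat_lit 524) (nat_lit 1516))))))) (.a (.p (nat_lit 558) (.a (.f (nat_lit 589) (nat_lit 621) (nat_lit 5613) (.f (nat_lit 559) (nat_lit 561) (nat_lit 1581) (.d (nat_lit 588) (nat_lit 557) (nat_lit 1580) (nat_lit 587) (nat_lit 2603)))) (.f (nat_lit 495) (nat_lit 463) (nat_lit 6606) (.f (nat_lit 525) (nat_lit 497) (nat_lit 1517) (.d (nat_lit 493) (nat_lit 461) (nat_lit 7629) (nat_lit 524) (nat_lit 1516)))))) (.a (.p (nat_lit 589) (.a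 (.f (nat_lit 558) (nat_lit 621) (nat_lit 5613) (.f (nat_lit 559) (nat_lit 561) (nat_lit 1581) (.d (nat_lit 588) (nat_lit 557) (nat_lit 1580) (nat_lit 587) (nat_lit 2603)))) (.a (.p (nat_lit 591) (.a (.d (nat_lit 558) (nat_lit 621) (nat_lit 5613) (nat_lit 623) (nat_lit 4590)) (.a (.d (nat_lit 592) (nat_lit 561) (nat_lit 2605) (nat_lit 623) (nat_lit 5615)) (.f (nat_lit 592) (nat_lit 561) (nat_lit 2605) (.d (nat_lit 621) (nat_lit 558) (nat_lit 5613) (nat_lit 620) (nat_lit 1612)))))) (.a (.f (nat_lit 558) (nat_lit 621) (nat_lit 5613) (.f (nat_lit 591) (nat_lit 623) (nat_lit 4590) (.f (nat_lit 588) (nat_lit 559) (nat_lit 2604) (.f (nat_lit 556) (nat_lit 555) (nat_lit 3627) (.f (nat_lit 557) (nat_lit 592) (nat_lit 3628) (.f (nat_lit 587) (nat_lit 586) (nat_lit 2602) (.d (nat_lit 619) (nat_lit 618) (nat_lit 1610) (nat_lit 620) (nat_lit 1611)))))))) (.a (.p (nat_lit 591) (.a (.d (nat_lit 592) (nat_lit 561) (nat_lit 2605) (nat_lit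 623) (nat_lit 5615)) (.a (.f (nat_lit 588) (nat_lit 559) (nat_lit 2604) (.f (nat_lit 619) (nat_lit 620) (nat_lit 1611) (.f (nat_lit 587) (nat_lit 618) (nat_lit 1610) (.d (nat_lit 623) (nat_lit 622) (nat_lit 587) (nat_lit 624) (nat_lit 588))))) (.f (nat_lit 592) (nat_lit 561) (nat_lit 2605) (.f (nat_lit 588) (nat_lit 559) (nat_lit 2604) (.d (nat_lit 620) (nat_lit 619) (nat_lit 1611) (nat_lit 621) (nat_lit 1612))))))) (.p (nat_lit 559) (.a (.f (nat_lit 591) (nat_lit 588) (nat_lit 2604) (.d (nat_lit 561) (nat_lit 562) (nat_lit 1582) (nat_lit 592) (nat_lit 2605))) (.a (.f (nat_lit 558) (nat_lit 561) (nat_lit 1581) (.d (nat_lit 588) (nat_lit 557) (nat_lit 1580) (nat_lit 591) (nat_lit 2604))) (.a (.f (nat_lit 558) (nat_lit 561) (nat_lit 1581) (.d (nat_lit 588) (nat_lit 557) (nat_lit 1580) (nat_lit 587) (nat_lit 2603))) (.a (.f (nat_lit 591) (nat_lit 588) (nat_lit 2604) (.d (nat_lit 623) (nat_lit 558) (nat_lit 4590) (nat_lit 592)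 (nat_lit 5615))) (.f (nat_lit 561) (nat_lit 558) (nat_lit 1581) (.d (nat_lit 591) (nat_lit 562) (nat_lit 1582) (nat_lit 592) (nat_lit 2605))))))))))))) (.a (.p (nat_lit 558) (.a (.f (nat_lit 621) (nat_lit 589) (nat_lit 5613) (.f (nat_lit 622) (nat_lit 653) (nat_lit 5645) (.d (nat_lit 623) (nat_lit 591) (nat_lit 4590) (nat_lit 655) (nat_lit 4622)))) (.f (nat_lit 495) (nat_lit 463) (nat_lit 6606) (.f (nat_lit 525) (nat_lit 497) (nat_lit 1517) (.d (nat_lit 493) (nat_lit 461) (nat_lit 7629) (nat_lit 524) (nat_lit 1516)))))) (.p (nat_lit 495) (.a (.d (nat_lit 463) (nat_lit 558) (nat_lit 6606) (nat_lit 592) (nat_lit 7631)) (.a (.f (nat_lit 558) (nat_lit 463) (nat_lit 6606) (.f (nat_lit 493) (nat_lit 461) (nat_lit 7629) (.d (nat_lit 525) (nat_lit 524) (nat_lit 1516) (nat_lit 622) (nat_lit 7661)))) (.f (nat_lit 497) (nat_lit 525) (nat_lit 1517) (.d (nat_lit 465) (nat_lit 466) (nat_lit 2510) (nat_lit 592) (nat_lit 6608))))))))))))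 (.p (nat_lit 495) (.a (.f (nat_lit 497) (nat_lit 525) (nat_lit 1517) (.d (nat_lit 592) (nat_lit 463) (nat_lit 7631) (nat_lit 465) (nat_lit 6608))) (.a (.f (nat_lit 525) (nat_lit 497) (nat_lit 1517) (.d (nat_lit 524) (nat_lit 493) (nat_lit 1516) (nat_lit 523) (nat_lit 2539))) (.f (nat_lit 463) (nat_lit 592) (nat_lit 7631) (.f (nat_lit 431) (nat_lit 399) (nat_lit 4495) (.d (nat_lit 558) (nat_lit 462) (nat_lit 6574) (nat_lit 590) (nat_lit 6606))))))))))))))))) (.a s38285 (.a (.p (nat_lit 464) (.a (.f (nat_lit 433) (nat_lit 465) (nat_lit 6576) (.f (nat_lit 432) (nat_lit 401) (nat_lit 6544) (.d (nat_lit 431) (nat_lit 399) (nat_lit 7567) (nat_lit 463) (nat_lit 7599)))) (.a (.f (nat_lit 465) (nat_lit 433) (nat_lit 6576) (.f (nat_lit 592) (nat_lit 497) (nat_lit 6608) (.d (nat_lit 591) (nat_lit 559) (nat_lit 5583) (nat_lit 623) (nat_lit 5615)))) (.a (.p (nat_lit 558) (.a (.f (nat_lit 559) (nat_lit 591) (nat_lit 5583) (.f (nat_lit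 525) (nat_lit 561) (nat_lit 3597) (.d (nat_lit 524) (nat_lit 523) (nat_lit 523) (nat_lit 557) (nat_lit 3596)))) (.a (.p (nat_lit 590) (.a (.p (nat_lit 494) (.a (.f (nat_lit 589) (nat_lit 621) (nat_lit 5613) (.f (nat_lit 557) (nat_lit 462) (nat_lit 5581) (.d (nat_lit 559) (nat_lit 561) (nat_lit 1581) (nat_lit 588) (nat_lit 1580)))) (.a (.f (nat_lit 589) (nat_lit 621) (nat_lit 5613) (.f (nat_lit 557) (nat_lit 462) (nat_lit 5581) (.f (nat_lit 493) (nat_lit 461) (nat_lit 7629) (.f (nat_lit 525) (nat_lit 622) (nat_lit 4589) (.f (nat_lit 492) (nat_lit 460) (nat_lit 7628) (.f (nat_lit 491) (nat_lit 490) (nat_lit 490) (.f (nat_lit 523) (nat_lit 522) (nat_lit 1514) (.f (nat_lit 588) (nat_lit 620) (nat_lit 5612) (.f (nat_lit 587) (nat_lit 586) (nat_lit 2602) (.f (nat_lit 555) (nat_lit 554) (nat_lit 3626) (.d (nat_lit 459) (nat_lit 458) (nat_lit 3530) (nat_lit 556) (nat_lit 4555)))))))))))) (.a (.f (nat_lit 493) (nat_lit 461) (nat_lit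 7629) (.f (nat_lit 622) (nat_lit 525) (nat_lit 7661) (.d (nat_lit 621) (nat_lit 589) (nat_lit 5613) (nat_lit 653) (nat_lit 5645)))) (.f (nat_lit 493) (nat_lit 461) (nat_lit 7629) (.f (nat_lit 525) (nat_lit 622) (nat_lit 7661) (.f (nat_lit 559) (nat_lit 561) (nat_lit 3597) (.d (nat_lit 524) (nat_lit 523) (nat_lit 523) (nat_lit 557) (nat_lit 3596))))))))) (.a (.p (nat_lit 494) (.a (.f (nat_lit 589) (nat_lit 621) (nat_lit 5613) (.f (nat_lit 557) (nat_lit 462) (nat_lit 5581) (.d (nat_lit 559) (nat_lit 561) (nat_lit 1581) (nat_lit 588) (nat_lit 1580)))) (.a (.f (nat_lit 589) (nat_lit 621) (nat_lit 5613) (.f (nat_lit 462) (nat_lit 557) (nat_lit 5581) (.d (nat_lit 461) (nat_lit 429) (nat_lit 7597) (nat_lit 493) (nat_lit 7629)))) (.a (.f (nat_lit 431) (nat_lit 463) (nat_lit 7599) (.f (nat_lit 432) (nat_lit 399) (nat_lit 7567) (.f (nat_lit 401) (nat_lit 433) (nat_lit 6544) (.f (nat_lit 400) (nat_lit 369) (nat_lit 6512) (.f (nat_lit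 429) (nat_lit 430) (nat_lit 2445) (.d (nat_lit 461) (nat_lit 462) (nat_lit 7597) (nat_lit 493) (nat_lit 7629))))))) (.f (nat_lit 589) (nat_lit 621) (nat_lit 5613) (.f (nat_lit 559) (nat_lit 561) (nat_lit 1581) (.d (nat_lit 588) (nat_lit 557) (nat_lit 1580) (nat_lit 587) (nat_lit 2603)))))))) (.a s38333 (.a s38348 (.a (.p (nat_lit 525) (.a (.f (nat_lit 622) (nat_lit 493) (nat_lit 7661) (.f (nat_lit 653) (nat_lit 621) (nat_lit 5645) (.f (nat_lit 654) (nat_lit 685) (nat_lit 5677) (.d (nat_lit 655) (nat_lit 623) (nat_lit 4622) (nat_lit 687) (nat_lit 4654))))) (.a (.f (nat_lit 493) (nat_lit 622) (nat_lit 7661) (.d (nat_lit 461) (nat_lit 429) (nat_lit 4525) (nat_lit 494) (nat_lit 7629))) (.f (nat_lit 559) (nat_lit 561) (nat_lit 3597) (.d (nat_lit 524) (nat_lit 523) (nat_lit 523) (nat_lit 557) (nat_lit 3596)))))) (.a (.p (nat_lit 525) (.a (.f (nat_lit 622) (nat_lit 493) (nat_lit 7661) (.f (nat_lit 653) (nat_lit 621) (nat_lit 5645)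 (.f (nat_lit 654) (nat_lit 685) (nat_lit 5677) (.d (nat_lit 655) (nat_lit 623) (nat_lit 4622) (nat_lit 687) (nat_lit 4654))))) (.f (nat_lit 559) (nat_lit 561) (nat_lit 3597) (.d (nat_lit 524) (nat_lit 523) (nat_lit 523) (nat_lit 557) (nat_lit 3596))))) (.a (.p (nat_lit 589) (.a (.f (nat_lit 621) (nat_lit 494) (nat_lit 5613) (.d (nat_lit 653) (nat_lit 622) (nat_lit 5645) (nat_lit 685) (nat_lit 6701))) (.f (nat_lit 559) (nat_lit 561) (nat_lit 1581) (.d (nat_lit 588) (nat_lit 557) (nat_lit 1580) (nat_lit 587) (nat_lit 2603))))) (.p (nat_lit 525) (.a (.f (nat_lit 493) (nat_lit 622) (nat_lit 7661) (.d (nat_lit 461) (nat_lit 429) (nat_lit 4525) (nat_lit 494) (nat_lit 7629))) (.f (nat_lit 559) (nat_lit 561) (nat_lit 3597) (.d (nat_lit 524) (nat_lit 523) (nat_lit 523) (nat_lit 557) (nat_lit 3596))))))))))))) (.a (.f (nat_lit 591) (nat_lit 559) (nat_lit 5583) (.f (nat_lit 623) (nat_lit 592) (nat_lit 5615) (.f (nat_lit 590) (nat_lit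 494) (nat_lit 4590) (.d (nat_lit 655) (nat_lit 622) (nat_lit 4622) (nat_lit 687) (nat_lit 7726))))) (.p (nat_lit 590) (.a s38333 (.a (.p (nat_lit 494) (.a (.f (nat_lit 589) (nat_lit 621) (nat_lit 5613) (.f (nat_lit 462) (nat_lit 557) (nat_lit 5581) (.d (nat_lit 461) (nat_lit 429) (nat_lit 7597) (nat_lit 493) (nat_lit 7629)))) (.a (.f (nat_lit 431) (nat_lit 463) (nat_lit 7599) (.f (nat_lit 432) (nat_lit 399) (nat_lit 7567) (.f (nat_lit 401) (nat_lit 433) (nat_lit 6544) (.f (nat_lit 400) (nat_lit 369) (nat_lit 6512) (.f (nat_lit 429) (nat_lit 430) (nat_lit 2445) (.d (nat_lit 461) (nat_lit 462) (nat_lit 7597) (nat_lit 493) (nat_lit 7629))))))) (.f (nat_lit 623) (nat_lit 591) (nat_lit 4590) (.f (nat_lit 622) (nat_lit 655) (nat_lit 4622) (.d (nat_lit 621) (nat_lit 589) (nat_lit 5613) (nat_lit 653) (nat_lit 5645))))))) (.a s38377 (.a s38348 (.a (.p (nat_lit 622) (.a (.f (nat_lit 655) (nat_lit 623) (nat_lit 4622) (.f (nat_lit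 654) (nat_lit 687) (nat_lit 4654) (.d (nat_lit 653) (nat_lit 621) (nat_lit 5645) (nat_lit 685) (nat_lit 5677)))) (.f (nat_lit 431) (nat_lit 463) (nat_lit 7599) (.f (nat_lit 432) (nat_lit 399) (nat_lit 7567) (.f (nat_lit 433) (nat_lit 401) (nat_lit 6544) (.f (nat_lit 493) (nat_lit 525) (nat_lit 7661) (.f (nat_lit 461) (nat_lit 494) (nat_lit 7629) (.f (nat_lit 430) (nat_lit 462) (nat_lit 1453) (.f (nat_lit 429) (nat_lit 460) (nat_lit 1452) (.d (nat_lit 397) (nat_lit 396) (nat_lit 3468) (nat_lit 398) (nat_lit 3469))))))))))) (.a (.p (nat_lit 494) (.a (.f (nat_lit 589) (nat_lit 621) (nat_lit 5613) (.f (nat_lit 557) (nat_lit 462) (nat_lit 5581) (.f (nat_lit 493) (nat_lit 461) (nat_lit 7629) (.f (nat_lit 525) (nat_lit 622) (nat_lit 4589) (.f (nat_lit 492) (nat_lit 460) (nat_lit 7628) (.f (nat_lit 491) (nat_lit 490) (nat_lit 490) (.f (nat_lit 523) (nat_lit 522) (nat_lit 1514) (.f (nat_lit 588) (nat_lit 620) (nat_lit 5612) (.f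 (nat_lit 587) (nat_lit 586) (nat_lit 2602) (.f (nat_lit 555) (nat_lit 554) (nat_lit 3626) (.d (nat_lit 459) (nat_lit 458) (nat_lit 3530) (nat_lit 556) (nat_lit 4555)))))))))))) (.a (.f (nat_lit 589) (nat_lit 621) (nat_lit 5613) (.f (nat_lit 462) (nat_lit 557) (nat_lit 5581) (.d (nat_lit 461) (nat_lit 429) (nat_lit 7597) (nat_lit 493) (nat_lit 7629)))) (.a (.f (nat_lit 493) (nat_lit 461) (nat_lit 7629) (.f (nat_lit 622) (nat_lit 525) (nat_lit 7661) (.d (nat_lit 621) (nat_lit 589) (nat_lit 5613) (nat_lit 653) (nat_lit 5645)))) (.a (.f (nat_lit 431) (nat_lit 463) (nat_lit 7599) (.f (nat_lit 432) (nat_lit 399) (nat_lit 7567) (.f (nat_lit 401) (nat_lit 433) (nat_lit 6544) (.f (nat_lit 400) (nat_lit 369) (nat_lit 6512) (.f (nat_lit 429) (nat_lit 430) (nat_lit 2445) (.d (nat_lit 461) (nat_lit 462) (nat_lit 7597) (nat_lit 493) (nat_lit 7629))))))) (.a (.f (nat_lit 431) (nat_lit 463) (nat_lit 7599) (.f (nat_lit 432) (nat_lit 399)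 (nat_lit 7567) (.f (nat_lit 401) (nat_lit 433) (nat_lit 6544) (.f (nat_lit 400) (nat_lit 369) (nat_lit 6512) (.f (nat_lit 429) (nat_lit 430) (nat_lit 2445) (.f (nat_lit 589) (nat_lit 621) (nat_lit 5613) (.d (nat_lit 462) (nat_lit 461) (nat_lit 7597) (nat_lit 557) (nat_lit 5581)))))))) (.f (nat_lit 431) (nat_lit 463) (nat_lit 7599) (.f (nat_lit 589) (nat_lit 621) (nat_lit 5613) (.f (nat_lit 462) (nat_lit 557) (nat_lit 5581) (.d (nat_lit 399) (nat_lit 430) (nat_lit 6542) (nat_lit 432) (nat_lit 7567))))))))))) (.a s38404 (.a s38419 (.a s38438 (.p (nat_lit 622) (.a (.f (nat_lit 431) (nat_lit 463) (nat_lit 7599) (.f (nat_lit 432) (nat_lit 399) (nat_lit 7567) (.f (nat_lit 433) (nat_lit 401) (nat_lit 6544) (.f (nat_lit 493) (nat_lit 525) (nat_lit 7661) (.f (nat_lit 461) (nat_lit 494) (nat_lit 7629) (.f (nat_lit 430) (nat_lit 462) (nat_lit 1453) (.f (nat_lit 429) (nat_lit 460) (nat_lit 1452) (.d (nat_lit 397) (nat_lit 396) (nat_lit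 3468) (nat_lit 398) (nat_lit 3469))))))))) (.a (.f (nat_lit 623) (nat_lit 655) (nat_lit 4622) (.d (nat_lit 591) (nat_lit 494) (nat_lit 4590) (nat_lit 592) (nat_lit 5615))) (.f (nat_lit 623) (nat_lit 655) (nat_lit 4622) (.f (nat_lit 525) (nat_lit 493) (nat_lit 7661) (.f (nat_lit 654) (nat_lit 557) (nat_lit 7693) (.f (nat_lit 591) (nat_lit 592) (nat_lit 5615) (.f (nat_lit 686) (nat_lit 718) (nat_lit 6734) (.d (nat_lit 685) (nat_lit 653) (nat_lit 5677) (nat_lit 717) (nat_lit 5709)))))))))))))))))))))))) (.p (nat_lit 558) (.a (.f (nat_lit 559) (nat_lit 591) (nat_lit 5583) (.f (nat_lit 525) (nat_lit 561) (nat_lit 3597) (.d (nat_lit 524) (nat_lit 523) (nat_lit 523) (nat_lit 557) (nat_lit 3596)))) (.a (.p (nat_lit 494) (.a (.p (nat_lit 590) (.a (.f (nat_lit 589) (nat_lit 621) (nat_lit 5613) (.f (nat_lit 557) (nat_lit 462) (nat_lit 5581) (.d (nat_lit 559) (nat_lit 561) (nat_lit 1581) (nat_lit 588) (nat_lit 1580)))) (.a (.f (nat_lit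 589) (nat_lit 621) (nat_lit 5613) (.f (nat_lit 557) (nat_lit 462) (nat_lit 5581) (.f (nat_lit 493) (nat_lit 461) (nat_lit 7629) (.f (nat_lit 525) (nat_lit 622) (nat_lit 4589) (.f (nat_lit 492) (nat_lit 460) (nat_lit 7628) (.f (nat_lit 491) (nat_lit 490) (nat_lit 490) (.f (nat_lit 523) (nat_lit 522) (nat_lit 1514) (.f (nat_lit 588) (nat_lit 620) (nat_lit 5612) (.f (nat_lit 587) (nat_lit 586) (nat_lit 2602) (.f (nat_lit 555) (nat_lit 554) (nat_lit 3626) (.d (nat_lit 459) (nat_lit 458) (nat_lit 3530) (nat_lit 556) (nat_lit 4555)))))))))))) (.a (.f (nat_lit 493) (nat_lit 461) (nat_lit 7629) (.f (nat_lit 622) (nat_lit 525) (nat_lit 7661) (.d (nat_lit 621) (nat_lit 589) (nat_lit 5613) (nat_lit 653) (nat_lit 5645)))) (.f (nat_lit 493) (nat_lit 461) (nat_lit 7629) (.f (nat_lit 525) (nat_lit 622) (nat_lit 7661) (.f (nat_lit 559) (nat_lit 561) (nat_lit 3597) (.d (nat_lit 524) (nat_lit 523) (nat_lit 523) (nat_lit 557) (nat_lit 3596)))))))))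 (.a (.p (nat_lit 462) (.a (.f (nat_lit 557) (nat_lit 589) (nat_lit 5581) (.f (nat_lit 525) (nat_lit 430) (nat_lit 5549) (.d (nat_lit 559) (nat_lit 524) (nat_lit 3596) (nat_lit 561) (nat_lit 3597)))) (.f (nat_lit 463) (nat_lit 431) (nat_lit 7599) (.d (nat_lit 461) (nat_lit 429) (nat_lit 7597) (nat_lit 497) (nat_lit 461))))) (.a (.f (nat_lit 431) (nat_lit 463) (nat_lit 7599) (.f (nat_lit 399) (nat_lit 432) (nat_lit 7567) (.f (nat_lit 462) (nat_lit 430) (nat_lit 6542) (.f (nat_lit 589) (nat_lit 557) (nat_lit 5581) (.f (nat_lit 590) (nat_lit 621) (nat_lit 5613) (.d (nat_lit 461) (nat_lit 429) (nat_lit 7597) (nat_lit 493) (nat_lit 7629))))))) (.a (.p (nat_lit 461) (.a (.f (nat_lit 493) (nat_lit 590) (nat_lit 7629) (.d (nat_lit 429) (nat_lit 462) (nat_lit 7597) (nat_lit 525) (nat_lit 4525))) (.a (.f (nat_lit 429) (nat_lit 462) (nat_lit 7597) (.d (nat_lit 493) (nat_lit 397) (nat_lit 4493) (nat_lit 525) (nat_lit 4525))) (.a (.f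 (nat_lit 462) (nat_lit 429) (nat_lit 7597) (.d (nat_lit 463) (nat_lit 431) (nat_lit 7599) (nat_lit 497) (nat_lit 461))) (.a (.f (nat_lit 493) (nat_lit 590) (nat_lit 7629) (.d (nat_lit 429) (nat_lit 397) (nat_lit 4493) (nat_lit 525) (nat_lit 4525))) (.f (nat_lit 463) (nat_lit 431) (nat_lit 7599) (.f (nat_lit 462) (nat_lit 497) (nat_lit 461) (.d (nat_lit 493) (nat_lit 492) (nat_lit 1484) (nat_lit 590) (nat_lit 7629))))))))) (.a (.p (nat_lit 590) (.a (.f (nat_lit 493) (nat_lit 461) (nat_lit 7629) (.f (nat_lit 622) (nat_lit 525) (nat_lit 7661) (.d (nat_lit 621) (nat_lit 589) (nat_lit 5613) (nat_lit 653) (nat_lit 5645)))) (.a (.f (nat_lit 589) (nat_lit 621) (nat_lit 5613) (.f (nat_lit 559) (nat_lit 561) (nat_lit 1581) (.d (nat_lit 588) (nat_lit 557) (nat_lit 1580) (nat_lit 587) (nat_lit 2603)))) (.f (nat_lit 493) (nat_lit 461) (nat_lit 7629) (.f (nat_lit 525) (nat_lit 622) (nat_lit 7661) (.f (nat_lit 559) (nat_lit 561) (nat_lit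 3597) (.d (nat_lit 524) (nat_lit 523) (nat_lit 523) (nat_lit 557) (nat_lit 3596)))))))) (.p (nat_lit 462) (.a (.f (nat_lit 557) (nat_lit 589) (nat_lit 5581) (.f (nat_lit 525) (nat_lit 430) (nat_lit 5549) (.d (nat_lit 559) (nat_lit 524) (nat_lit 3596) (nat_lit 561) (nat_lit 3597)))) (.f (nat_lit 463) (nat_lit 431) (nat_lit 7599) (.f (nat_lit 465) (nat_lit 493) (nat_lit 1485) (.d (nat_lit 497) (nat_lit 498) (nat_lit 462) (nat_lit 592) (nat_lit 6608)))))))))))) (.a (.f (nat_lit 591) (nat_lit 559) (nat_lit 5583) (.f (nat_lit 623) (nat_lit 592) (nat_lit 5615) (.f (nat_lit 590) (nat_lit 494) (nat_lit 4590) (.d (nat_lit 655) (nat_lit 622) (nat_lit 4622) (nat_lit 687) (nat_lit 7726))))) (.p (nat_lit 590) (.a s38377 (.a s38438 (.a (.p (nat_lit 494) (.a (.f (nat_lit 589) (nat_lit 621) (nat_lit 5613) (.f (nat_lit 462) (nat_lit 557) (nat_lit 5581) (.d (nat_lit 461) (nat_lit 429) (nat_lit 7597) (nat_lit 493) (nat_lit 7629)))) (.a (.f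 (nat_lit 623) (nat_lit 591) (nat_lit 4590) (.f (nat_lit 622) (nat_lit 655) (nat_lit 4622) (.d (nat_lit 621) (nat_lit 589) (nat_lit 5613) (nat_lit 653) (nat_lit 5645)))) (.f (nat_lit 431) (nat_lit 463) (nat_lit 7599) (.f (nat_lit 432) (nat_lit 399) (nat_lit 7567) (.f (nat_lit 461) (nat_lit 493) (nat_lit 7629) (.f (nat_lit 429) (nat_lit 462) (nat_lit 7597) (.d (nat_lit 430) (nat_lit 460) (nat_lit 1452) (nat_lit 465) (nat_lit 429))))))))) (.a (.p (nat_lit 494) (.a (.f (nat_lit 493) (nat_lit 461) (nat_lit 7629) (.f (nat_lit 622) (nat_lit 525) (nat_lit 7661) (.d (nat_lit 621) (nat_lit 589) (nat_lit 5613) (nat_lit 653) (nat_lit 5645)))) (.a (.f (nat_lit 623) (nat_lit 591) (nat_lit 4590) (.f (nat_lit 622) (nat_lit 655) (nat_lit 4622) (.d (nat_lit 621) (nat_lit 589) (nat_lit 5613) (nat_lit 653) (nat_lit 5645)))) (.a (.f (nat_lit 623) (nat_lit 591) (nat_lit 4590) (.f (nat_lit 622) (nat_lit 655) (nat_lit 4622) (.d (nat_lit 493) (nat_lit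 461) (nat_lit 7629) (nat_lit 525) (nat_lit 7661)))) (.f (nat_lit 431) (nat_lit 463) (nat_lit 7599) (.f (nat_lit 432) (nat_lit 399) (nat_lit 7567) (.f (nat_lit 461) (nat_lit 493) (nat_lit 7629) (.f (nat_lit 429) (nat_lit 462) (nat_lit 7597) (.d (nat_lit 430) (nat_lit 460) (nat_lit 1452) (nat_lit 465) (nat_lit 429)))))))))) (.a (.p (nat_lit 622) (.a (.f (nat_lit 655) (nat_lit 623) (nat_lit 4622) (.f (nat_lit 654) (nat_lit 687) (nat_lit 4654) (.d (nat_lit 653) (nat_lit 621) (nat_lit 5645) (nat_lit 685) (nat_lit 5677)))) (.a (.f (nat_lit 525) (nat_lit 493) (nat_lit 7661) (.f (nat_lit 654) (nat_lit 557) (nat_lit 7693) (.d (nat_lit 653) (nat_lit 621) (nat_lit 5645) (nat_lit 685) (nat_lit 5677)))) (.f (nat_lit 623) (nat_lit 655) (nat_lit 4622) (.d (nat_lit 591) (nat_lit 494) (nat_lit 4590) (nat_lit 592) (nat_lit 5615)))))) (.a s38404 (.a s38419 (.p (nat_lit 622) (.a (.f (nat_lit 623) (nat_lit 655) (nat_lit 4622) (.f (nat_lit 525)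 (nat_lit 493) (nat_lit 7661) (.f (nat_lit 654) (nat_lit 557) (nat_lit 7693) (.f (nat_lit 591) (nat_lit 592) (nat_lit 5615) (.f (nat_lit 686) (nat_lit 718) (nat_lit 6734) (.d (nat_lit 685) (nat_lit 653) (nat_lit 5677) (nat_lit 717) (nat_lit 5709))))))) (.a (.f (nat_lit 525) (nat_lit 493) (nat_lit 7661) (.f (nat_lit 654) (nat_lit 557) (nat_lit 7693) (.d (nat_lit 655) (nat_lit 623) (nat_lit 4622) (nat_lit 687) (nat_lit 4654)))) (.a (.f (nat_lit 623) (nat_lit 655) (nat_lit 4622) (.d (nat_lit 591) (nat_lit 494) (nat_lit 4590) (nat_lit 592) (nat_lit 5615))) (.a (.f (nat_lit 525) (nat_lit 493) (nat_lit 7661) (.f (nat_lit 654) (nat_lit 557) (nat_lit 7693) (.f (nat_lit 687) (nat_lit 655) (nat_lit 4654) (.f (nat_lit 686) (nat_lit 719) (nat_lit 4686) (.d (nat_lit 685) (nat_lit 653) (nat_lit 5677) (nat_lit 717) (nat_lit 5709)))))) (.f (nat_lit 493) (nat_lit 525) (nat_lit 7661) (.f (nat_lit 463) (nat_lit 431) (nat_lit 7599) (.f (nat_lit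 461) (nat_lit 494) (nat_lit 7629) (.d (nat_lit 462) (nat_lit 492) (nat_lit 1484) (nat_lit 497) (nat_lit 461)))))))))))))))))))))))))) (.a (.p (nat_lit 558) (.a (.p (nat_lit 494) (.a (.p (nat_lit 462) (.a (.f (nat_lit 463) (nat_lit 431) (nat_lit 6574) (.f (nat_lit 495) (nat_lit 592) (nat_lit 7631) (.d (nat_lit 461) (nat_lit 429) (nat_lit 7597) (nat_lit 460) (nat_lit 460)))) (.a (.f (nat_lit 461) (nat_lit 429) (nat_lit 7597) (.f (nat_lit 495) (nat_lit 497) (nat_lit 3533) (.d (nat_lit 460) (nat_lit 459) (nat_lit 459) (nat_lit 493) (nat_lit 3532)))) (.f (nat_lit 557) (nat_lit 589) (nat_lit 5581) (.f (nat_lit 525) (nat_lit 430) (nat_lit 5549) (.d (nat_lit 559) (nat_lit 524) (nat_lit 3596) (nat_lit 561) (nat_lit 3597))))))) (.a (.p (nat_lit 462) (.a (.f (nat_lit 461) (nat_lit 429) (nat_lit 7597) (.f (nat_lit 495) (nat_lit 497) (nat_lit 3533) (.d (nat_lit 460) (nat_lit 459) (nat_lit 459) (nat_lit 493) (nat_lit 3532)))) (.f (nat_lit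 557) (nat_lit 589) (nat_lit 5581) (.f (nat_lit 525) (nat_lit 430) (nat_lit 5549) (.d (nat_lit 559) (nat_lit 524) (nat_lit 3596) (nat_lit 561) (nat_lit 3597)))))) (.a s38011 (.a s38014 (.a (.p (nat_lit 462) (.a (.f (nat_lit 557) (nat_lit 589) (nat_lit 5581) (.f (nat_lit 525) (nat_lit 430) (nat_lit 5549) (.d (nat_lit 559) (nat_lit 524) (nat_lit 3596) (nat_lit 561) (nat_lit 3597)))) (.a (.f (nat_lit 431) (nat_lit 463) (nat_lit 6574) (.f (nat_lit 430) (nat_lit 399) (nat_lit 6542) (.d (nat_lit 429) (nat_lit 397) (nat_lit 7565) (nat_lit 461) (nat_lit 7597)))) (.f (nat_lit 559) (nat_lit 591) (nat_lit 4558) (.f (nat_lit 557) (nat_lit 589) (nat_lit 5581) (.d (nat_lit 525) (nat_lit 524) (nat_lit 3596) (nat_lit 561) (nat_lit 3597))))))) (.p (nat_lit 525) (.a (.f (nat_lit 495) (nat_lit 497) (nat_lit 1517) (.d (nat_lit 524) (nat_lit 493) (nat_lit 1516) (nat_lit 523) (nat_lit 2539))) (.a (.f (nat_lit 559) (nat_lit 561) (nat_lit 3597)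 (.d (nat_lit 524) (nat_lit 523) (nat_lit 523) (nat_lit 557) (nat_lit 3596))) (.f (nat_lit 495) (nat_lit 497) (nat_lit 1517) (.f (nat_lit 592) (nat_lit 463) (nat_lit 7631) (.f (nat_lit 591) (nat_lit 623) (nat_lit 5615) (.f (nat_lit 559) (nat_lit 561) (nat_lit 3597) (.f (nat_lit 557) (nat_lit 556) (nat_lit 556) (.d (nat_lit 589) (nat_lit 588) (nat_lit 1580) (nat_lit 621) (nat_lit 6637)))))))))))))))) (.a s37910 (.a (.p (nat_lit 494) (.a (.p (nat_lit 462) (.a (.f (nat_lit 463) (nat_lit 431) (nat_lit 6574) (.f (nat_lit 495) (nat_lit 592) (nat_lit 7631) (.d (nat_lit 461) (nat_lit 429) (nat_lit 7597) (nat_lit 460) (nat_lit 460)))) (.a (.f (nat_lit 461) (nat_lit 429) (nat_lit 7597) (.f (nat_lit 495) (nat_lit 497) (nat_lit 3533) (.d (nat_lit 460) (nat_lit 459) (nat_lit 459) (nat_lit 493) (nat_lit 3532)))) (.f (nat_lit 557) (nat_lit 589) (nat_lit 5581) (.f (nat_lit 525) (nat_lit 430) (nat_lit 5549) (.d (nat_lit 559) (nat_lit 524)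 (nat_lit 3596) (nat_lit 561) (nat_lit 3597))))))) (.a (.p (nat_lit 462) (.a (.f (nat_lit 461) (nat_lit 429) (nat_lit 7597) (.f (nat_lit 495) (nat_lit 497) (nat_lit 3533) (.d (nat_lit 460) (nat_lit 459) (nat_lit 459) (nat_lit 493) (nat_lit 3532)))) (.f (nat_lit 557) (nat_lit 589) (nat_lit 5581) (.f (nat_lit 525) (nat_lit 430) (nat_lit 5549) (.d (nat_lit 559) (nat_lit 524) (nat_lit 3596) (nat_lit 561) (nat_lit 3597)))))) (.a (.p (nat_lit 590) (.a (.f (nat_lit 589) (nat_lit 621) (nat_lit 5613) (.f (nat_lit 559) (nat_lit 561) (nat_lit 1581) (.d (nat_lit 557) (nat_lit 462) (nat_lit 5581) (nat_lit 588) (nat_lit 1580)))) (.a (.f (nat_lit 461) (nat_lit 493) (nat_lit 7629) (.f (nat_lit 462) (nat_lit 429) (nat_lit 7597) (.d (nat_lit 463) (nat_lit 431) (nat_lit 6574) (nat_lit 495) (nat_lit 6606)))) (.f (nat_lit 589) (nat_lit 621) (nat_lit 5613) (.f (nat_lit 559) (nat_lit 561) (nat_lit 1581) (.d (nat_lit 588) (nat_lit 557) (nat_lit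 1580) (nat_lit 587) (nat_lit 2603))))))) (.a s38014 (.a s38116 (.a (.p (nat_lit 525) (.a (.f (nat_lit 495) (nat_lit 497) (nat_lit 1517) (.d (nat_lit 524) (nat_lit 493) (nat_lit 1516) (nat_lit 523) (nat_lit 2539))) (.a (.f (nat_lit 559) (nat_lit 561) (nat_lit 3597) (.d (nat_lit 524) (nat_lit 523) (nat_lit 523) (nat_lit 557) (nat_lit 3596))) (.f (nat_lit 495) (nat_lit 497) (nat_lit 1517) (.d (nat_lit 463) (nat_lit 590) (nat_lit 6606) (nat_lit 592) (nat_lit 7631)))))) (.p (nat_lit 462) (.a (.f (nat_lit 463) (nat_lit 431) (nat_lit 6574) (.f (nat_lit 495) (nat_lit 592) (nat_lit 7631) (.d (nat_lit 461) (nat_lit 429) (nat_lit 7597) (nat_lit 460) (nat_lit 460)))) (.f (nat_lit 557) (nat_lit 589) (nat_lit 5581) (.f (nat_lit 525) (nat_lit 430) (nat_lit 5549) (.d (nat_lit 559) (nat_lit 524) (nat_lit 3596) (nat_lit 561) (nat_lit 3597))))))))))))) (.a s38510 (.a (.p (nat_lit 494) (.a s38014 (.a s37896 (.a (.p (nat_lit 590) (.a (.f (nat_lit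 461) (nat_lit 493) (nat_lit 7629) (.f (nat_lit 462) (nat_lit 429) (nat_lit 7597) (.d (nat_lit 463) (nat_lit 431) (nat_lit 6574) (nat_lit 495) (nat_lit 6606)))) (.a (.f (nat_lit 461) (nat_lit 493) (nat_lit 7629) (.f (nat_lit 462) (nat_lit 429) (nat_lit 7597) (.d (nat_lit 589) (nat_lit 557) (nat_lit 5581) (nat_lit 621) (nat_lit 5613)))) (.f (nat_lit 621) (nat_lit 589) (nat_lit 5613) (.f (nat_lit 622) (nat_lit 653) (nat_lit 5645) (.d (nat_lit 623) (nat_lit 591) (nat_lit 4590) (nat_lit 655) (nat_lit 4622))))))) (.a s38120 (.a (.p (nat_lit 590) (.a (.f (nat_lit 621) (nat_lit 589) (nat_lit 5613) (.f (nat_lit 622) (nat_lit 653) (nat_lit 5645) (.d (nat_lit 623) (nat_lit 591) (nat_lit 4590) (nat_lit 655) (nat_lit 4622)))) (.f (nat_lit 495) (nat_lit 463) (nat_lit 6606) (.f (nat_lit 525) (nat_lit 497) (nat_lit 1517) (.d (nat_lit 493) (nat_lit 461) (nat_lit 7629) (nat_lit 524) (nat_lit 1516)))))) (.a s38511 (.p (nat_lit 590) (.a (.f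 (nat_lit 621) (nat_lit 589) (nat_lit 5613) (.f (nat_lit 622) (nat_lit 653) (nat_lit 5645) (.d (nat_lit 623) (nat_lit 591) (nat_lit 4590) (nat_lit 655) (nat_lit 4622)))) (.f (nat_lit 463) (nat_lit 495) (nat_lit 6606) (.d (nat_lit 431) (nat_lit 462) (nat_lit 6574) (nat_lit 464) (nat_lit 7599)))))))))))) (.a (.p (nat_lit 559) (.a (.f (nat_lit 591) (nat_lit 464) (nat_lit 5583) (.d (nat_lit 623) (nat_lit 592) (nat_lit 5615) (nat_lit 655) (nat_lit 6671))) (.f (nat_lit 525) (nat_lit 561) (nat_lit 3597) (.d (nat_lit 524) (nat_lit 523) (nat_lit 523) (nat_lit 557) (nat_lit 3596))))) (.a s38279 (.p (nat_lit 464) (.a (.f (nat_lit 559) (nat_lit 591) (nat_lit 5583) (.f (nat_lit 525) (nat_lit 561) (nat_lit 3597) (.d (nat_lit 524) (nat_lit 523) (nat_lit 523) (nat_lit 557) (nat_lit 3596)))) (.a (.f (nat_lit 463) (nat_lit 431) (nat_lit 7599) (.f (nat_lit 495) (nat_lit 592) (nat_lit 7631) (.f (nat_lit 494) (nat_lit 590) (nat_lit 6606) (.f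 (nat_lit 497) (nat_lit 525) (nat_lit 1517) (.d (nat_lit 462) (nat_lit 461) (nat_lit 461) (nat_lit 498) (nat_lit 3534)))))) (.f (nat_lit 463) (nat_lit 431) (nat_lit 7599) (.f (nat_lit 495) (nat_lit 592) (nat_lit 7631) (.f (nat_lit 494) (nat_lit 590) (nat_lit 6606) (.f (nat_lit 493) (nat_lit 492) (nat_lit 2508) (.f (nat_lit 461) (nat_lit 460) (nat_lit 3532) (.d (nat_lit 462) (nat_lit 429) (nat_lit 7597) (nat_lit 497) (nat_lit 461)))))))))))))))))) (.a (.p (nat_lit 558) (.a (.p (nat_lit 559) (.a (.f (nat_lit 591) (nat_lit 464) (nat_lit 5583) (.d (nat_lit 623) (nat_lit 592) (nat_lit 5615) (nat_lit 655) (nat_lit 6671))) (.f (nat_lit 525) (nat_lit 561) (nat_lit 3597) (.d (nat_lit 524) (nat_lit 523) (nat_lit 523) (nat_lit 557) (nat_lit 3596))))) (.a (.p (nat_lit 559) (.a (.f (nat_lit 525) (nat_lit 561) (nat_lit 3597) (.d (nat_lit 524) (nat_lit 523) (nat_lit 523) (nat_lit 557) (nat_lit 3596))) (.f (nat_lit 591) (nat_lit 464) (nat_lit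 5583) (.f (nat_lit 623) (nat_lit 655) (nat_lit 6671) (.d (nat_lit 494) (nat_lit 462) (nat_lit 4558) (nat_lit 590) (nat_lit 4590)))))) (.a (.p (nat_lit 494) (.a (.p (nat_lit 462) (.a (.f (nat_lit 461) (nat_lit 429) (nat_lit 7597) (.f (nat_lit 495) (nat_lit 497) (nat_lit 3533) (.d (nat_lit 460) (nat_lit 459) (nat_lit 459) (nat_lit 493) (nat_lit 3532)))) (.f (nat_lit 557) (nat_lit 589) (nat_lit 5581) (.f (nat_lit 525) (nat_lit 430) (nat_lit 5549) (.d (nat_lit 559) (nat_lit 524) (nat_lit 3596) (nat_lit 561) (nat_lit 3597)))))) (.a s38188 (.a (.p (nat_lit 462) (.a (.f (nat_lit 461) (nat_lit 429) (nat_lit 7597) (.f (nat_lit 495) (nat_lit 497) (nat_lit 3533) (.d (nat_lit 460) (nat_lit 459) (nat_lit 459) (nat_lit 493) (nat_lit 3532)))) (.a (.f (nat_lit 557) (nat_lit 589) (nat_lit 5581) (.f (nat_lit 430) (nat_lit 525) (nat_lit 5549) (.d (nat_lit 429) (nat_lit 397) (nat_lit 7565) (nat_lit 461) (nat_lit 7597)))) (.f (nat_lit 557)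 (nat_lit 589) (nat_lit 5581) (.f (nat_lit 525) (nat_lit 430) (nat_lit 5549) (.f (nat_lit 495) (nat_lit 497) (nat_lit 1517) (.d (nat_lit 524) (nat_lit 493) (nat_lit 1516) (nat_lit 523) (nat_lit 2539)))))))) (.a s38204 (.a s38116 (.a (.p (nat_lit 525) (.a (.f (nat_lit 495) (nat_lit 497) (nat_lit 1517) (.d (nat_lit 524) (nat_lit 493) (nat_lit 1516) (nat_lit 523) (nat_lit 2539))) (.a (.f (nat_lit 559) (nat_lit 561) (nat_lit 3597) (.d (nat_lit 524) (nat_lit 523) (nat_lit 523) (nat_lit 557) (nat_lit 3596))) (.f (nat_lit 495) (nat_lit 497) (nat_lit 1517) (.d (nat_lit 463) (nat_lit 590) (nat_lit 6606) (nat_lit 592) (nat_lit 7631)))))) s37870))))))) (.a s38225 (.a (.p (nat_lit 494) (.a (.p (nat_lit 462) (.a (.f (nat_lit 461) (nat_lit 429) (nat_lit 7597) (.f (nat_lit 495) (nat_lit 497) (nat_lit 3533) (.d (nat_lit 460) (nat_lit 459) (nat_lit 459) (nat_lit 493) (nat_lit 3532)))) (.f (nat_lit 557) (nat_lit 589) (nat_lit 5581) (.f (nat_lit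 525) (nat_lit 430) (nat_lit 5549) (.d (nat_lit 559) (nat_lit 524) (nat_lit 3596) (nat_lit 561) (nat_lit 3597)))))) (.a s38061 (.a (.p (nat_lit 462) (.a (.f (nat_lit 461) (nat_lit 429) (nat_lit 7597) (.f (nat_lit 495) (nat_lit 497) (nat_lit 3533) (.d (nat_lit 460) (nat_lit 459) (nat_lit 459) (nat_lit 493) (nat_lit 3532)))) (.a (.f (nat_lit 557) (nat_lit 589) (nat_lit 5581) (.f (nat_lit 430) (nat_lit 525) (nat_lit 5549) (.d (nat_lit 429) (nat_lit 397) (nat_lit 7565) (nat_lit 461) (nat_lit 7597)))) (.f (nat_lit 557) (nat_lit 589) (nat_lit 5581) (.f (nat_lit 525) (nat_lit 430) (nat_lit 5549) (.f (nat_lit 495) (nat_lit 497) (nat_lit 1517) (.d (nat_lit 524) (nat_lit 493) (nat_lit 1516) (nat_lit 523) (nat_lit 2539)))))))) (.a (.p (nat_lit 590) (.a (.f (nat_lit 621) (nat_lit 589) (nat_lit 5613) (.f (nat_lit 622) (nat_lit 653) (nat_lit 5645) (.d (nat_lit 623) (nat_lit 591) (nat_lit 4590) (nat_lit 655) (nat_lit 4622)))) (.f (nat_lit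 495) (nat_lit 463) (nat_lit 6606) (.f (nat_lit 525) (nat_lit 497) (nat_lit 1517) (.d (nat_lit 493) (nat_lit 461) (nat_lit 7629) (nat_lit 524) (nat_lit 1516)))))) (.a (.p (nat_lit 525) (.a (.f (nat_lit 495) (nat_lit 497) (nat_lit 1517) (.d (nat_lit 524) (nat_lit 493) (nat_lit 1516) (nat_lit 523) (nat_lit 2539))) (.a (.f (nat_lit 559) (nat_lit 561) (nat_lit 3597) (.d (nat_lit 524) (nat_lit 523) (nat_lit 523) (nat_lit 557) (nat_lit 3596))) (.f (nat_lit 495) (nat_lit 497) (nat_lit 1517) (.d (nat_lit 463) (nat_lit 590) (nat_lit 6606) (nat_lit 592) (nat_lit 7631)))))) (.p (nat_lit 590) (.a (.f (nat_lit 589) (nat_lit 621) (nat_lit 5613) (.f (nat_lit 559) (nat_lit 561) (nat_lit 1581) (.d (nat_lit 557) (nat_lit 462) (nat_lit 5581) (nat_lit 588) (nat_lit 1580)))) (.a (.f (nat_lit 621) (nat_lit 589) (nat_lit 5613) (.f (nat_lit 622) (nat_lit 653) (nat_lit 5645) (.d (nat_lit 623) (nat_lit 591) (nat_lit 4590) (nat_lit 655) (nat_lit 4622))))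 (.f (nat_lit 591) (nat_lit 623) (nat_lit 4590) (.f (nat_lit 559) (nat_lit 462) (nat_lit 4558) (.d (nat_lit 561) (nat_lit 525) (nat_lit 3597) (nat_lit 562) (nat_lit 1582))))))))))))) (.a (.p (nat_lit 494) (.a (.p (nat_lit 462) (.a (.f (nat_lit 461) (nat_lit 429) (nat_lit 7597) (.f (nat_lit 495) (nat_lit 497) (nat_lit 3533) (.d (nat_lit 460) (nat_lit 459) (nat_lit 459) (nat_lit 493) (nat_lit 3532)))) (.a (.f (nat_lit 557) (nat_lit 589) (nat_lit 5581) (.f (nat_lit 430) (nat_lit 525) (nat_lit 5549) (.d (nat_lit 429) (nat_lit 397) (nat_lit 7565) (nat_lit 461) (nat_lit 7597)))) (.f (nat_lit 557) (nat_lit 589) (nat_lit 5581) (.f (nat_lit 525) (nat_lit 430) (nat_lit 5549) (.f (nat_lit 495) (nat_lit 497) (nat_lit 1517) (.d (nat_lit 524) (nat_lit 493) (nat_lit 1516) (nat_lit 523) (nat_lit 2539)))))))) (.a s38227 (.a (.p (nat_lit 590) (.a (.f (nat_lit 621) (nat_lit 589) (nat_lit 5613) (.f (nat_lit 622) (nat_lit 653) (nat_lit 5645)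 (.d (nat_lit 623) (nat_lit 591) (nat_lit 4590) (nat_lit 655) (nat_lit 4622)))) (.f (nat_lit 495) (nat_lit 463) (nat_lit 6606) (.f (nat_lit 525) (nat_lit 497) (nat_lit 1517) (.d (nat_lit 493) (nat_lit 461) (nat_lit 7629) (nat_lit 524) (nat_lit 1516)))))) (.a s38204 (.a s38120 (.a s37917 (.p (nat_lit 590) (.a (.f (nat_lit 621) (nat_lit 589) (nat_lit 5613) (.f (nat_lit 622) (nat_lit 653) (nat_lit 5645) (.d (nat_lit 623) (nat_lit 591) (nat_lit 4590) (nat_lit 655) (nat_lit 4622)))) (.f (nat_lit 495) (nat_lit 463) (nat_lit 6606) (.f (nat_lit 497) (nat_lit 525) (nat_lit 1517) (.f (nat_lit 465) (nat_lit 466) (nat_lit 2510) (.d (nat_lit 433) (nat_lit 401) (nat_lit 5520) (nat_lit 464) (nat_lit 6576)))))))))))))) (.a s38279 (.p (nat_lit 494) (.a (.p (nat_lit 462) (.a (.f (nat_lit 461) (nat_lit 429) (nat_lit 7597) (.f (nat_lit 495) (nat_lit 497) (nat_lit 3533) (.d (nat_lit 460) (nat_lit 459) (nat_lit 459) (nat_lit 493) (nat_lit 3532))))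 (.f (nat_lit 557) (nat_lit 589) (nat_lit 5581) (.f (nat_lit 525) (nat_lit 430) (nat_lit 5549) (.d (nat_lit 559) (nat_lit 524) (nat_lit 3596) (nat_lit 561) (nat_lit 3597)))))) (.a s38188 (.a (.p (nat_lit 462) (.a (.f (nat_lit 461) (nat_lit 429) (nat_lit 7597) (.f (nat_lit 495) (nat_lit 497) (nat_lit 3533) (.d (nat_lit 460) (nat_lit 459) (nat_lit 459) (nat_lit 493) (nat_lit 3532)))) (.a (.f (nat_lit 557) (nat_lit 589) (nat_lit 5581) (.f (nat_lit 430) (nat_lit 525) (nat_lit 5549) (.d (nat_lit 429) (nat_lit 397) (nat_lit 7565) (nat_lit 461) (nat_lit 7597)))) (.f (nat_lit 557) (nat_lit 589) (nat_lit 5581) (.f (nat_lit 525) (nat_lit 430) (nat_lit 5549) (.f (nat_lit 495) (nat_lit 497) (nat_lit 1517) (.d (nat_lit 524) (nat_lit 493) (nat_lit 1516) (nat_lit 523) (nat_lit 2539)))))))) (.a s38204 (.a s38283 (.a (.p (nat_lit 525) (.a (.f (nat_lit 495) (nat_lit 497) (nat_lit 1517) (.d (nat_lit 524) (nat_lit 493) (nat_lit 1516) (nat_lit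 523) (nat_lit 2539))) (.a (.f (nat_lit 559) (nat_lit 561) (nat_lit 3597) (.d (nat_lit 524) (nat_lit 523) (nat_lit 523) (nat_lit 557) (nat_lit 3596))) (.f (nat_lit 495) (nat_lit 497) (nat_lit 1517) (.d (nat_lit 463) (nat_lit 590) (nat_lit 6606) (nat_lit 592) (nat_lit 7631)))))) s37870))))))))))))))) (.p (nat_lit 558) (.a (.p (nat_lit 464) (.a (.f (nat_lit 431) (nat_lit 463) (nat_lit 7599) (.f (nat_lit 432) (nat_lit 399) (nat_lit 7567) (.d (nat_lit 433) (nat_lit 401) (nat_lit 6544) (nat_lit 465) (nat_lit 6576)))) (.f (nat_lit 559) (nat_lit 591) (nat_lit 5583) (.f (nat_lit 525) (nat_lit 561) (nat_lit 3597) (.d (nat_lit 524) (nat_lit 523) (nat_lit 523) (nat_lit 557) (nat_lit 3596)))))) (.a (.p (nat_lit 494) (.a (.p (nat_lit 462) (.a (.f (nat_lit 463) (nat_lit 431) (nat_lit 6574) (.f (nat_lit 495) (nat_lit 592) (nat_lit 7631) (.d (nat_lit 461) (nat_lit 429) (nat_lit 7597) (nat_lit 460) (nat_lit 460)))) (.f (nat_lit 557) (nat_lit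 589) (nat_lit 5581) (.f (nat_lit 525) (nat_lit 430) (nat_lit 5549) (.d (nat_lit 559) (nat_lit 524) (nat_lit 3596) (nat_lit 561) (nat_lit 3597)))))) (.a (.p (nat_lit 590) (.a (.f (nat_lit 589) (nat_lit 621) (nat_lit 5613) (.f (nat_lit 559) (nat_lit 561) (nat_lit 1581) (.d (nat_lit 557) (nat_lit 462) (nat_lit 5581) (nat_lit 588) (nat_lit 1580)))) (.a (.f (nat_lit 461) (nat_lit 493) (nat_lit 7629) (.f (nat_lit 462) (nat_lit 429) (nat_lit 7597) (.d (nat_lit 463) (nat_lit 431) (nat_lit 6574) (nat_lit 495) (nat_lit 6606)))) (.f (nat_lit 589) (nat_lit 621) (nat_lit 5613) (.f (nat_lit 559) (nat_lit 561) (nat_lit 1581) (.d (nat_lit 588) (nat_lit 557) (nat_lit 1580) (nat_lit 587) (nat_lit 2603))))))) (.a s38511 (.a s38116 (.a (.p (nat_lit 590) (.a (.f (nat_lit 461) (nat_lit 493) (nat_lit 7629) (.f (nat_lit 462) (nat_lit 429) (nat_lit 7597) (.d (nat_lit 463) (nat_lit 431) (nat_lit 6574) (nat_lit 495) (nat_lit 6606)))) (.a (.f (nat_lit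 493) (nat_lit 461) (nat_lit 7629) (.f (nat_lit 622) (nat_lit 525) (nat_lit 7661) (.f (nat_lit 655) (nat_lit 623) (nat_lit 4622) (.f (nat_lit 654) (nat_lit 687) (nat_lit 4654) (.d (nat_lit 653) (nat_lit 621) (nat_lit 5645) (nat_lit 685) (nat_lit 5677)))))) (.f (nat_lit 463) (nat_lit 495) (nat_lit 6606) (.d (nat_lit 431) (nat_lit 462) (nat_lit 6574) (nat_lit 464) (nat_lit 7599)))))) (.a (.p (nat_lit 590) (.a (.f (nat_lit 589) (nat_lit 621) (nat_lit 5613) (.f (nat_lit 559) (nat_lit 561) (nat_lit 1581) (.d (nat_lit 588) (nat_lit 557) (nat_lit 1580) (nat_lit 587) (nat_lit 2603)))) (.a (.f (nat_lit 493) (nat_lit 461) (nat_lit 7629) (.f (nat_lit 622) (nat_lit 525) (nat_lit 7661) (.f (nat_lit 655) (nat_lit 623) (nat_lit 4622) (.f (nat_lit 654) (nat_lit 687) (nat_lit 4654) (.d (nat_lit 653) (nat_lit 621) (nat_lit 5645) (nat_lit 685) (nat_lit 5677)))))) (.f (nat_lit 493) (nat_lit 461) (nat_lit 7629) (.f (nat_lit 525) (nat_lit 622)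 (nat_lit 7661) (.f (nat_lit 559) (nat_lit 561) (nat_lit 3597) (.d (nat_lit 524) (nat_lit 523) (nat_lit 523) (nat_lit 557) (nat_lit 3596)))))))) (.p (nat_lit 590) (.a (.f (nat_lit 589) (nat_lit 621) (nat_lit 5613) (.f (nat_lit 559) (nat_lit 561) (nat_lit 1581) (.d (nat_lit 557) (nat_lit 462) (nat_lit 5581) (nat_lit 588) (nat_lit 1580)))) (.a (.f (nat_lit 463) (nat_lit 495) (nat_lit 6606) (.d (nat_lit 431) (nat_lit 462) (nat_lit 6574) (nat_lit 464) (nat_lit 7599))) (.f (nat_lit 589) (nat_lit 621) (nat_lit 5613) (.f (nat_lit 559) (nat_lit 561) (nat_lit 1581) (.d (nat_lit 588) (nat_lit 557) (nat_lit 1580) (nat_lit 587) (nat_lit 2603)))))))))))))) (.a s38510 (.a (.p (nat_lit 494) (.a (.p (nat_lit 462) (.a (.f (nat_lit 463) (nat_lit 431) (nat_lit 6574) (.f (nat_lit 495) (nat_lit 592) (nat_lit 7631) (.d (nat_lit 461) (nat_lit 429) (nat_lit 7597) (nat_lit 460) (nat_lit 460)))) (.f (nat_lit 557) (nat_lit 589) (nat_lit 5581) (.f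 (nat_lit 525) (nat_lit 430) (nat_lit 5549) (.d (nat_lit 559) (nat_lit 524) (nat_lit 3596) (nat_lit 561) (nat_lit 3597)))))) (.a (.p (nat_lit 462) (.a (.f (nat_lit 557) (nat_lit 589) (nat_lit 5581) (.f (nat_lit 525) (nat_lit 430) (nat_lit 5549) (.d (nat_lit 559) (nat_lit 524) (nat_lit 3596) (nat_lit 561) (nat_lit 3597)))) (.a (.f (nat_lit 431) (nat_lit 463) (nat_lit 6574) (.f (nat_lit 430) (nat_lit 399) (nat_lit 6542) (.d (nat_lit 429) (nat_lit 397) (nat_lit 7565) (nat_lit 461) (nat_lit 7597)))) (.f (nat_lit 559) (nat_lit 591) (nat_lit 4558) (.f (nat_lit 557) (nat_lit 589) (nat_lit 5581) (.d (nat_lit 525) (nat_lit 524) (nat_lit 3596) (nat_lit 561) (nat_lit 3597))))))) (.a (.p (nat_lit 590) (.a (.f (nat_lit 589) (nat_lit 621) (nat_lit 5613) (.f (nat_lit 559) (nat_lit 561) (nat_lit 1581) (.d (nat_lit 557) (nat_lit 462) (nat_lit 5581) (nat_lit 588) (nat_lit 1580)))) (.a (.f (nat_lit 461) (nat_lit 493) (nat_lit 7629) (.f (nat_lit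 462) (nat_lit 429) (nat_lit 7597) (.d (nat_lit 463) (nat_lit 431) (nat_lit 6574) (nat_lit 495) (nat_lit 6606)))) (.f (nat_lit 589) (nat_lit 621) (nat_lit 5613) (.f (nat_lit 559) (nat_lit 561) (nat_lit 1581) (.d (nat_lit 588) (nat_lit 557) (nat_lit 1580) (nat_lit 587) (nat_lit 2603))))))) (.a s38511 (.a s38061 (.a (.p (nat_lit 462) (.a (.f (nat_lit 463) (nat_lit 431) (nat_lit 6574) (.f (nat_lit 495) (nat_lit 592) (nat_lit 7631) (.d (nat_lit 461) (nat_lit 429) (nat_lit 7597) (nat_lit 460) (nat_lit 460)))) (.a (.f (nat_lit 431) (nat_lit 463) (nat_lit 6574) (.f (nat_lit 430) (nat_lit 399) (nat_lit 6542) (.d (nat_lit 429) (nat_lit 397) (nat_lit 7565) (nat_lit 461) (nat_lit 7597)))) (.a (.f (nat_lit 559) (nat_lit 591) (nat_lit 4558) (.f (nat_lit 525) (nat_lit 561) (nat_lit 3597) (.f (nat_lit 524) (nat_lit 523) (nat_lit 523) (.f (nat_lit 493) (nat_lit 495) (nat_lit 1516) (.f (nat_lit 429) (nat_lit 461) (nat_lit 7597) (.d (nat_lit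 430) (nat_lit 397) (nat_lit 7565) (nat_lit 398) (nat_lit 5517))))))) (.f (nat_lit 463) (nat_lit 431) (nat_lit 6574) (.f (nat_lit 592) (nat_lit 495) (nat_lit 7631) (.d (nat_lit 591) (nat_lit 559) (nat_lit 4558) (nat_lit 623) (nat_lit 5615)))))))) (.a s38123 (.p (nat_lit 590) (.a (.f (nat_lit 589) (nat_lit 621) (nat_lit 5613) (.f (nat_lit 559) (nat_lit 561) (nat_lit 1581) (.d (nat_lit 557) (nat_lit 462) (nat_lit 5581) (nat_lit 588) (nat_lit 1580)))) (.a (.f (nat_lit 621) (nat_lit 589) (nat_lit 5613) (.f (nat_lit 622) (nat_lit 653) (nat_lit 5645) (.d (nat_lit 623) (nat_lit 591) (nat_lit 4590) (nat_lit 655) (nat_lit 4622)))) (.f (nat_lit 591) (nat_lit 623) (nat_lit 4590) (.f (nat_lit 462) (nat_lit 559) (nat_lit 4558) (.d (nat_lit 463) (nat_lit 431) (nat_lit 6574) (nat_lit 495) (nat_lit 6606))))))))))))))) (.a (.p (nat_lit 494) (.a s38511 (.a (.p (nat_lit 590) (.a (.f (nat_lit 461) (nat_lit 493) (nat_lit 7629) (.f (nat_lit 462)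 (nat_lit 429) (nat_lit 7597) (.d (nat_lit 463) (nat_lit 431) (nat_lit 6574) (nat_lit 495) (nat_lit 6606)))) (.a (.f (nat_lit 461) (nat_lit 493) (nat_lit 7629) (.f (nat_lit 462) (nat_lit 429) (nat_lit 7597) (.d (nat_lit 589) (nat_lit 557) (nat_lit 5581) (nat_lit 621) (nat_lit 5613)))) (.f (nat_lit 621) (nat_lit 589) (nat_lit 5613) (.f (nat_lit 622) (nat_lit 653) (nat_lit 5645) (.d (nat_lit 623) (nat_lit 591) (nat_lit 4590) (nat_lit 655) (nat_lit 4622))))))) (.a s38120 (.a (.p (nat_lit 590) (.a (.f (nat_lit 461) (nat_lit 493) (nat_lit 7629) (.f (nat_lit 462) (nat_lit 429) (nat_lit 7597) (.d (nat_lit 463) (nat_lit 431) (nat_lit 6574) (nat_lit 495) (nat_lit 6606)))) (.f (nat_lit 621) (nat_lit 589) (nat_lit 5613) (.f (nat_lit 622) (nat_lit 653) (nat_lit 5645) (.d (nat_lit 623) (nat_lit 591) (nat_lit 4590) (nat_lit 655) (nat_lit 4622)))))) (.a (.p (nat_lit 590) (.a (.f (nat_lit 461) (nat_lit 493) (nat_lit 7629) (.f (nat_lit 462)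 (nat_lit 429) (nat_lit 7597) (.d (nat_lit 463) (nat_lit 431) (nat_lit 6574) (nat_lit 495) (nat_lit 6606)))) (.a (.f (nat_lit 493) (nat_lit 461) (nat_lit 7629) (.f (nat_lit 622) (nat_lit 525) (nat_lit 7661) (.f (nat_lit 655) (nat_lit 623) (nat_lit 4622) (.f (nat_lit 654) (nat_lit 687) (nat_lit 4654) (.d (nat_lit 653) (nat_lit 621) (nat_lit 5645) (nat_lit 685) (nat_lit 5677)))))) (.f (nat_lit 463) (nat_lit 495) (nat_lit 6606) (.d (nat_lit 431) (nat_lit 462) (nat_lit 6574) (nat_lit 464) (nat_lit 7599)))))) (.a (.p (nat_lit 590) (.a (.f (nat_lit 621) (nat_lit 589) (nat_lit 5613) (.f (nat_lit 622) (nat_lit 653) (nat_lit 5645) (.d (nat_lit 623) (nat_lit 591) (nat_lit 4590) (nat_lit 655) (nat_lit 4622)))) (.a (.f (nat_lit 493) (nat_lit 461) (nat_lit 7629) (.f (nat_lit 622) (nat_lit 525) (nat_lit 7661) (.f (nat_lit 655) (nat_lit 623) (nat_lit 4622) (.f (nat_lit 654) (nat_lit 687) (nat_lit 4654) (.d (nat_lit 653) (nat_lit 621) (nat_lit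 5645) (nat_lit 685) (nat_lit 5677)))))) (.a (.f (nat_lit 493) (nat_lit 461) (nat_lit 7629) (.f (nat_lit 495) (nat_lit 463) (nat_lit 6606) (.d (nat_lit 525) (nat_lit 524) (nat_lit 1516) (nat_lit 622) (nat_lit 7661)))) (.f (nat_lit 495) (nat_lit 463) (nat_lit 6606) (.f (nat_lit 493) (nat_lit 461) (nat_lit 7629) (.f (nat_lit 524) (nat_lit 525) (nat_lit 1516) (.f (nat_lit 591) (nat_lit 623) (nat_lit 4590) (.f (nat_lit 589) (nat_lit 621) (nat_lit 5613) (.f (nat_lit 592) (nat_lit 561) (nat_lit 2605) (.f (nat_lit 556) (nat_lit 557) (nat_lit 3628) (.f (nat_lit 492) (nat_lit 523) (nat_lit 1515) (.f (nat_lit 588) (nat_lit 555) (nat_lit 3627) (.d (nat_lit 619) (nat_lit 587) (nat_lit 5611) (nat_lit 620) (nat_lit 1611))))))))))))))) (.p (nat_lit 590) (.a (.f (nat_lit 621) (nat_lit 589) (nat_lit 5613) (.f (nat_lit 622) (nat_lit 653) (nat_lit 5645) (.d (nat_lit 623) (nat_lit 591) (nat_lit 4590) (nat_lit 655) (nat_lit 4622)))) (.f (nat_lit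 463) (nat_lit 495) (nat_lit 6606) (.d (nat_lit 431) (nat_lit 462) (nat_lit 6574) (nat_lit 464) (nat_lit 7599)))))))))))) (.a (.p (nat_lit 559) (.a (.f (nat_lit 591) (nat_lit 464) (nat_lit 5583) (.d (nat_lit 623) (nat_lit 592) (nat_lit 5615) (nat_lit 655) (nat_lit 6671))) (.f (nat_lit 525) (nat_lit 561) (nat_lit 3597) (.d (nat_lit 524) (nat_lit 523) (nat_lit 523) (nat_lit 557) (nat_lit 3596))))) (.a s38279 (.p (nat_lit 464) (.a (.f (nat_lit 431) (nat_lit 463) (nat_lit 7599) (.f (nat_lit 432) (nat_lit 399) (nat_lit 7567) (.d (nat_lit 433) (nat_lit 401) (nat_lit 6544) (nat_lit 465) (nat_lit 6576)))) (.f (nat_lit 591) (nat_lit 559) (nat_lit 5583) (.f (nat_lit 623) (nat_lit 592) (nat_lit 5615) (.f (nat_lit 590) (nat_lit 494) (nat_lit 4590) (.d (nat_lit 655) (nat_lit 622) (nat_lit 4622) (nat_lit 687) (nat_lit 7726))))))))))))))))))))))))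
noncomputable def s38565 : Cert := .r (nat_lit 4717453032125294315973987508880817458218130529296591420246571772779567243795549402077785465380506041852719292777414468402832772512838634980175475457832173847598411546624) (.p (nat_lit 590) (.a (.f (nat_lit 589) (nat_lit 621) (nat_lit 5613) (.f (nat_lit 462) (nat_lit 557) (nat_lit 5581) (.d (nat_lit 463) (nat_lit 431) (nat_lit 6574) (nat_lit 495) (nat_lit 6606)))) (.a (.f (nat_lit 589) (nat_lit 621) (nat_lit 5613) (.f (nat_lit 557) (nat_lit 462) (nat_lit 5581) (.f (nat_lit 493) (nat_lit 461) (nat_lit 7629) (.f (nat_lit 525) (nat_lit 622) (nat_lit 4589) (.f (nat_lit 588) (nat_lit 620) (nat_lit 5612) (.f (nat_lit 591) (nat_lit 623) (nat_lit 4590) (.f (nat_lit 555) (nat_lit 556) (nat_lit 3627) (.d (nat_lit 587) (nat_lit 554) (nat_lit 3626) (nat_lit 586) (nat_lit 2602))))))))) (.a (.f (nat_lit 463) (nat_lit 495) (nat_lit 6606) (.f (nat_lit 462) (nat_lit 431) (nat_lit 6574) (.d (nat_lit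 461) (nat_lit 429) (nat_lit 7597) (nat_lit 493) (nat_lit 7629)))) (.f (nat_lit 621) (nat_lit 589) (nat_lit 5613) (.f (nat_lit 622) (nat_lit 653) (nat_lit 5645) (.d (nat_lit 623) (nat_lit 591) (nat_lit 4590) (nat_lit 655) (nat_lit 4622))))))))
noncomputable def s38585 : Cert := .r (nat_lit 4717453032125294315922840780632440241499174440283660183493186740810144356459872974451283374811683001932668197584822215947350168073345508870656455824302714581140153303040) (.p (nat_lit 525) (.a (.f (nat_lit 559) (nat_lit 561) (nat_lit 3597) (.d (nat_lit 524) (nat_lit 523) (nat_lit 523) (nat_lit 557) (nat_lit 3596))) (.a (.f (nat_lit 527) (nat_lit 561) (nat_lit 525) (.f (nat_lit 557) (nat_lit 556) (nat_lit 1548) (.f (nat_lit 493) (nat_lit 492) (nat_lit 3564) (.f (nat_lit 461) (nat_lit 429) (nat_lit 4525) (.f (nat_lit 462) (nat_lit 430) (nat_lit 6573) (.f (nat_lit 589) (nat_lit 494) (nat_lit 5581) (.f (nat_lit 621) (nat_lit 653) (nat_lit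 6669) (.d (nat_lit 620) (nat_lit 588) (nat_lit 5612) (nat_lit 652) (nat_lit 5644))))))))) (.a (.d (nat_lit 561) (nat_lit 527) (nat_lit 525) (nat_lit 559) (nat_lit 3597)) (.p (nat_lit 557) (.a (.f (nat_lit 527) (nat_lit 556) (nat_lit 1548) (.f (nat_lit 524) (nat_lit 559) (nat_lit 524) (.d (nat_lit 492) (nat_lit 491) (nat_lit 3563) (nat_lit 493) (nat_lit 3564)))) (.a (.f (nat_lit 559) (nat_lit 524) (nat_lit 3596) (.f (nat_lit 589) (nat_lit 588) (nat_lit 1580) (.d (nat_lit 494) (nat_lit 462) (nat_lit 5581) (nat_lit 621) (nat_lit 6637)))) (.f (nat_lit 527) (nat_lit 556) (nat_lit 1548) (.f (nat_lit 493) (nat_lit 492) (nat_lit 3564) (.f (nat_lit 461) (nat_lit 429) (nat_lit 4525) (.f (nat_lit 462) (nat_lit 430) (nat_lit 6573) (.f (nat_lit 589) (nat_lit 494) (nat_lit 5581) (.f (nat_lit 621) (nat_lit 653) (nat_lit 6669) (.d (nat_lit 620) (nat_lit 588) (nat_lit 5612) (nat_lit 652) (nat_lit 5644)))))))))))))))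
noncomputable def s38618 : Cert := .r (nat_lit 4717453032125294315973987508880817458218130529296591420246571772779567243795549402077785465380506041852719292777414468402832772512838634980175475457832173847598411546624) (.p (nat_lit 590) (.a (.f (nat_lit 495) (nat_lit 463) (nat_lit 6606) (.f (nat_lit 493) (nat_lit 461) (nat_lit 7629) (.d (nat_lit 527) (nat_lit 492) (nat_lit 492) (nat_lit 622) (nat_lit 6638)))) (.a (.f (nat_lit 463) (nat_lit 495) (nat_lit 6606) (.f (nat_lit 462) (nat_lit 431) (nat_lit 6574) (.d (nat_lit 461) (nat_lit 429) (nat_lit 7597) (nat_lit 493) (nat_lit 7629)))) (.a (.f (nat_lit 493) (nat_lit 461) (nat_lit 7629) (.f (nat_lit 525) (nat_lit 622) (nat_lit 7661) (.d (nat_lit 527) (nat_lit 492) (nat_lit 3564) (nat_lit 561) (nat_lit 525)))) (.f (nat_lit 495) (nat_lit 463) (nat_lit 6606) (.f (nat_lit 527) (nat_lit 622) (nat_lit 6638) (.f (nat_lit 525) (nat_lit 561) (nat_lit 525) (.d (nat_lit 524) (nat_lit 523)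 (nat_lit 2539) (nat_lit 559) (nat_lit 524)))))))))
noncomputable def s38619 : Cert := .r (nat_lit 4717453032125294315973987508880817458218130529296591420246571772779567243795549402077785465380506041852719292777414468402832772512838634980175475457832173847598411546624) (.p (nat_lit 590) (.a (.f (nat_lit 495) (nat_lit 463) (nat_lit 6606) (.f (nat_lit 493) (nat_lit 461) (nat_lit 7629) (.d (nat_lit 527) (nat_lit 492) (nat_lit 492) (nat_lit 622) (nat_lit 6638)))) (.a (.f (nat_lit 463) (nat_lit 495) (nat_lit 6606) (.f (nat_lit 462) (nat_lit 431) (nat_lit 6574) (.d (nat_lit 461) (nat_lit 429) (nat_lit 7597) (nat_lit 493) (nat_lit 7629)))) (.a (.f (nat_lit 493) (nat_lit 461) (nat_lit 7629) (.f (nat_lit 525) (nat_lit 622) (nat_lit 7661) (.d (nat_lit 527) (nat_lit 492) (nat_lit 3564) (nat_lit 561) (nat_lit 525)))) (.f (nat_lit 495) (nat_lit 463) (nat_lit 6606) (.f (nat_lit 622) (nat_lit 527) (nat_lit 6638) (.d (nat_lit 621) (nat_lit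 589) (nat_lit 5613) (nat_lit 653) (nat_lit 5645))))))))
noncomputable def s38622 : Cert := .r (nat_lit 4717453032125294315973987508880817458218130529296591420246571772779567243795549402077785465380506041852719292777414468402832772512838634980175475457832173847598411546624) (.p (nat_lit 590) (.a (.f (nat_lit 589) (nat_lit 621) (nat_lit 5613) (.f (nat_lit 557) (nat_lit 462) (nat_lit 5581) (.f (nat_lit 493) (nat_lit 461) (nat_lit 7629) (.f (nat_lit 525) (nat_lit 622) (nat_lit 4589) (.f (nat_lit 588) (nat_lit 620) (nat_lit 5612) (.f (nat_lit 591) (nat_lit 623) (nat_lit 4590) (.f (nat_lit 555) (nat_lit 556) (nat_lit 3627) (.d (nat_lit 587) (nat_lit 554) (nat_lit 3626) (nat_lit 586) (nat_lit 2602))))))))) (.a (.f (nat_lit 589) (nat_lit 621) (nat_lit 5613) (.f (nat_lit 462) (nat_lit 557) (nat_lit 5581) (.d (nat_lit 461) (nat_lit 429) (nat_lit 7597) (nat_lit 493) (nat_lit 7629)))) (.a (.f (nat_lit 621) (nat_lit 589) (nat_lit 5613)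 (.f (nat_lit 622) (nat_lit 653) (nat_lit 5645) (.d (nat_lit 623) (nat_lit 591) (nat_lit 4590) (nat_lit 655) (nat_lit 4622)))) (.f (nat_lit 623) (nat_lit 591) (nat_lit 4590) (.f (nat_lit 622) (nat_lit 655) (nat_lit 4622) (.d (nat_lit 493) (nat_lit 461) (nat_lit 7629) (nat_lit 525) (nat_lit 7661))))))))
noncomputable def s38632 : Cert := .r (nat_lit 4717453032125294315973987508880817458218130529296591420246571772779567243795549402077785465380506041852719292777414468402832772512838634980175475457832173847598411546624) (.p (nat_lit 590) (.a (.f (nat_lit 495) (nat_lit 463) (nat_lit 6606) (.f (nat_lit 493) (nat_lit 461) (nat_lit 7629) (.d (nat_lit 527) (nat_lit 492) (nat_lit 492) (nat_lit 622) (nat_lit 6638)))) (.a (.f (nat_lit 463) (nat_lit 495) (nat_lit 6606) (.f (nat_lit 462) (nat_lit 431) (nat_lit 6574) (.d (nat_lit 461) (nat_lit 429) (nat_lit 7597) (nat_lit 493) (nat_lit 7629)))) (.a (.f (nat_lit 493) (nat_lit 461) (nat_lit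 7629) (.f (nat_lit 525) (nat_lit 622) (nat_lit 7661) (.d (nat_lit 527) (nat_lit 492) (nat_lit 3564) (nat_lit 561) (nat_lit 525)))) (.a (.f (nat_lit 495) (nat_lit 463) (nat_lit 6606) (.f (nat_lit 527) (nat_lit 622) (nat_lit 6638) (.f (nat_lit 525) (nat_lit 561) (nat_lit 525) (.f (nat_lit 557) (nat_lit 556) (nat_lit 1548) (.f (nat_lit 524) (nat_lit 523) (nat_lit 2539) (.f (nat_lit 462) (nat_lit 430) (nat_lit 5549) (.f (nat_lit 492) (nat_lit 491) (nat_lit 3563) (.f (nat_lit 460) (nat_lit 428) (nat_lit 4524) (.d (nat_lit 461) (nat_lit 429) (nat_lit 7597) (nat_lit 459) (nat_lit 459)))))))))) (.f (nat_lit 623) (nat_lit 591) (nat_lit 4590) (.f (nat_lit 622) (nat_lit 655) (nat_lit 4622) (.f (nat_lit 653) (nat_lit 621) (nat_lit 5645) (.f (nat_lit 654) (nat_lit 685) (nat_lit 5677) (.d (nat_lit 525) (nat_lit 493) (nat_lit 7661) (nat_lit 557) (nat_lit 7693)))))))))))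
noncomputable def s38633 : Cert := .r (nat_lit 4717453032125294315973987508880817458218130529296591420246571772779567243795549402077785465380506041852719292777414468402832772512838634980175475457832173847598411546624) (.p (nat_lit 590) (.a (.f (nat_lit 495) (nat_lit 463) (nat_lit 6606) (.f (nat_lit 493) (nat_lit 461) (nat_lit 7629) (.d (nat_lit 527) (nat_lit 492) (nat_lit 492) (nat_lit 622) (nat_lit 6638)))) (.a (.f (nat_lit 623) (nat_lit 591) (nat_lit 4590) (.f (nat_lit 622) (nat_lit 655) (nat_lit 4622) (.d (nat_lit 493) (nat_lit 461) (nat_lit 7629) (nat_lit 525) (nat_lit 7661)))) (.a (.f (nat_lit 495) (nat_lit 463) (nat_lit 6606) (.f (nat_lit 527) (nat_lit 622) (nat_lit 6638) (.f (nat_lit 525) (nat_lit 561) (nat_lit 525) (.d (nat_lit 524) (nat_lit 523) (nat_lit 2539) (nat_lit 559) (nat_lit 524))))) (.f (nat_lit 493) (nat_lit 461) (nat_lit 7629) (.f (nat_lit 495) (nat_lit 463) (nat_lit 6606) (.f (nat_lit 492) (nat_lit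 527) (nat_lit 492) (.f (nat_lit 523) (nat_lit 524) (nat_lit 1515) (.f (nat_lit 491) (nat_lit 522) (nat_lit 1514) (.d (nat_lit 459) (nat_lit 458) (nat_lit 3530) (nat_lit 460) (nat_lit 3531)))))))))))
noncomputable def s38634 : Cert := .r (nat_lit 4717453032125294315973987508880817458218130529296591420246571772779567243795549402077785465380506041852719292777414468402832772512838634980175475457832173847598411546624) (.p (nat_lit 590) (.a (.f (nat_lit 591) (nat_lit 623) (nat_lit 4590) (.f (nat_lit 559) (nat_lit 462) (nat_lit 4558) (.d (nat_lit 561) (nat_lit 525) (nat_lit 3597) (nat_lit 562) (nat_lit 1582)))) (.a (.f (nat_lit 495) (nat_lit 463) (nat_lit 6606) (.f (nat_lit 527) (nat_lit 622) (nat_lit 6638) (.f (nat_lit 525) (nat_lit 561) (nat_lit 525) (.d (nat_lit 524) (nat_lit 523) (nat_lit 2539) (nat_lit 559) (nat_lit 524))))) (.a (.f (nat_lit 591) (nat_lit 623) (nat_lit 4590) (.f (nat_lit 462) (nat_lit 559) (nat_lit 4558)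 (.d (nat_lit 463) (nat_lit 431) (nat_lit 6574) (nat_lit 495) (nat_lit 6606)))) (.f (nat_lit 623) (nat_lit 591) (nat_lit 4590) (.f (nat_lit 622) (nat_lit 655) (nat_lit 4622) (.f (nat_lit 653) (nat_lit 621) (nat_lit 5645) (.f (nat_lit 654) (nat_lit 685) (nat_lit 5677) (.d (nat_lit 525) (nat_lit 493) (nat_lit 7661) (nat_lit 557) (nat_lit 7693))))))))))
noncomputable def s38642 : Cert := .r (nat_lit 4717453032125294315973987508880817458218130529296591420246571772779567243795549402077785465380506041852719292777414468402832772512838634980175475457832173847598411546624) (.p (nat_lit 590) (.a (.f (nat_lit 589) (nat_lit 621) (nat_lit 5613) (.f (nat_lit 462) (nat_lit 557) (nat_lit 5581) (.d (nat_lit 463) (nat_lit 431) (nat_lit 6574) (nat_lit 495) (nat_lit 6606)))) (.a (.f (nat_lit 589) (nat_lit 621) (nat_lit 5613) (.f (nat_lit 557) (nat_lit 462) (nat_lit 5581) (.f (nat_lit 623) (nat_lit 591) (nat_lit 4590) (.f (nat_lit 622) (nat_lit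 655) (nat_lit 4622) (.d (nat_lit 654) (nat_lit 525) (nat_lit 7693) (nat_lit 686) (nat_lit 7725)))))) (.a (.f (nat_lit 621) (nat_lit 589) (nat_lit 5613) (.f (nat_lit 622) (nat_lit 653) (nat_lit 5645) (.d (nat_lit 623) (nat_lit 591) (nat_lit 4590) (nat_lit 655) (nat_lit 4622)))) (.a (.f (nat_lit 623) (nat_lit 591) (nat_lit 4590) (.f (nat_lit 622) (nat_lit 655) (nat_lit 4622) (.f (nat_lit 653) (nat_lit 621) (nat_lit 5645) (.f (nat_lit 654) (nat_lit 685) (nat_lit 5677) (.d (nat_lit 525) (nat_lit 493) (nat_lit 7661) (nat_lit 557) (nat_lit 7693)))))) (.f (nat_lit 463) (nat_lit 495) (nat_lit 6606) (.f (nat_lit 462) (nat_lit 431) (nat_lit 6574) (.f (nat_lit 557) (nat_lit 589) (nat_lit 5581) (.f (nat_lit 525) (nat_lit 430) (nat_lit 5549) (.d (nat_lit 622) (nat_lit 493) (nat_lit 7661) (nat_lit 654) (nat_lit 7693)))))))))))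
noncomputable def s38661 : Cert := .r (nat_lit 3773962425919908978067039048378881885645768491231275023412675293626429865204541471935760055792560469727505484597500264544337939673836815150592175795562377636060837445632) (.p (nat_lit 464) (.a (.f (nat_lit 433) (nat_lit 465) (nat_lit 6576) (.f (nat_lit 432) (nat_lit 401) (nat_lit 6544) (.d (nat_lit 431) (nat_lit 399) (nat_lit 7567) (nat_lit 463) (nat_lit 7599)))) (.a (.f (nat_lit 433) (nat_lit 465) (nat_lit 6576) (.f (nat_lit 432) (nat_lit 401) (nat_lit 6544) (.f (nat_lit 527) (nat_lit 559) (nat_lit 5551) (.d (nat_lit 525) (nat_lit 497) (nat_lit 2541) (nat_lit 561) (nat_lit 525))))) (.a (.f (nat_lit 431) (nat_lit 463) (nat_lit 7599) (.f (nat_lit 432) (nat_lit 399) (nat_lit 7567) (.f (nat_lit 527) (nat_lit 559) (nat_lit 5551) (.d (nat_lit 525) (nat_lit 497) (nat_lit 2541) (nat_lit 561) (nat_lit 525))))) (.p (nat_lit 497) (.a (.f (nat_lit 527) (nat_lit 525) (nat_lit 2541) (.d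 (nat_lit 498) (nat_lit 495) (nat_lit 1518) (nat_lit 499) (nat_lit 1519))) (.a (.f (nat_lit 463) (nat_lit 431) (nat_lit 7599) (.f (nat_lit 465) (nat_lit 433) (nat_lit 6576) (.d (nat_lit 498) (nat_lit 462) (nat_lit 462) (nat_lit 499) (nat_lit 3535)))) (.f (nat_lit 525) (nat_lit 527) (nat_lit 2541) (.f (nat_lit 465) (nat_lit 433) (nat_lit 6576) (.f (nat_lit 494) (nat_lit 495) (nat_lit 1517) (.f (nat_lit 463) (nat_lit 431) (nat_lit 7599) (.d (nat_lit 462) (nat_lit 461) (nat_lit 461) (nat_lit 493) (nat_lit 1485)))))))))))))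
noncomputable def s38681 : Cert := .r (nat_lit 3773962425919908978067039048378881885645768491231275023412675293626429865204541471935760055792560469727505484597500264544337939673836815150592175795562377636060837445632) (.p (nat_lit 464) (.a (.f (nat_lit 465) (nat_lit 433) (nat_lit 6576) (.f (nat_lit 463) (nat_lit 431) (nat_lit 7599) (.d (nat_lit 592) (nat_lit 495) (nat_lit 7631) (nat_lit 497) (nat_lit 6608)))) (.a (.f (nat_lit 433) (nat_lit 465) (nat_lit 6576) (.f (nat_lit 432) (nat_lit 401) (nat_lit 6544) (.d (nat_lit 431) (nat_lit 399) (nat_lit 7567) (nat_lit 463) (nat_lit 7599)))) (.a (.f (nat_lit 433) (nat_lit 465) (nat_lit 6576) (.f (nat_lit 432) (nat_lit 401) (nat_lit 6544) (.f (nat_lit 527) (nat_lit 559) (nat_lit 5551) (.f (nat_lit 400) (nat_lit 495) (nat_lit 5519) (.d (nat_lit 399) (nat_lit 367) (nat_lit 7535) (nat_lit 431) (nat_lit 7567)))))) (.a (.f (nat_lit 431) (nat_lit 463) (nat_lit 7599) (.f (nat_lit 432) (nat_lit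 399) (nat_lit 7567) (.f (nat_lit 527) (nat_lit 559) (nat_lit 5551) (.f (nat_lit 401) (nat_lit 433) (nat_lit 6544) (.d (nat_lit 400) (nat_lit 369) (nat_lit 6512) (nat_lit 495) (nat_lit 5519)))))) (.a (.f (nat_lit 465) (nat_lit 433) (nat_lit 6576) (.f (nat_lit 592) (nat_lit 497) (nat_lit 6608) (.f (nat_lit 495) (nat_lit 463) (nat_lit 7631) (.f (nat_lit 527) (nat_lit 624) (nat_lit 7663) (.d (nat_lit 432) (nat_lit 400) (nat_lit 5519) (nat_lit 559) (nat_lit 5551)))))) (.f (nat_lit 431) (nat_lit 463) (nat_lit 7599) (.f (nat_lit 432) (nat_lit 399) (nat_lit 7567) (.f (nat_lit 527) (nat_lit 559) (nat_lit 5551) (.f (nat_lit 495) (nat_lit 400) (nat_lit 5519) (.f (nat_lit 497) (nat_lit 498) (nat_lit 1518) (.d (nat_lit 592) (nat_lit 465) (nat_lit 6608) (nat_lit 624) (nat_lit 7663)))))))))))))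
noncomputable def s38682 : Cert := .r (nat_lit 3773962425919908978169332504875636319083680669257137496919445357565275639875894327188764236930206549567607674982684769455303148552823067369630215062621296168977353932800) (.p (nat_lit 494) (.a (.f (nat_lit 497) (nat_lit 525) (nat_lit 1517) (.d (nat_lit 592) (nat_lit 463) (nat_lit 7631) (nat_lit 465) (nat_lit 6608))) (.a (.f (nat_lit 497) (nat_lit 525) (nat_lit 1517) (.f (nat_lit 462) (nat_lit 461) (nat_lit 3533) (.f (nat_lit 463) (nat_lit 498) (nat_lit 3534) (.d (nat_lit 431) (nat_lit 399) (nat_lit 4495) (nat_lit 558) (nat_lit 6574))))) (.a (.f (nat_lit 463) (nat_lit 592) (nat_lit 7631) (.f (nat_lit 431) (nat_lit 399) (nat_lit 4495) (.d (nat_lit 558) (nat_lit 462) (nat_lit 6574) (nat_lit 590) (nat_lit 6606)))) (.f (nat_lit 497) (nat_lit 525) (nat_lit 1517) (.d (nat_lit 465) (nat_lit 466) (nat_lit 2510) (nat_lit 592) (nat_lit 6608)))))))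
noncomputable def s38693 : Cert := .r (nat_lit 3773962425919908978067039048378881885645768491231275023412675293626429865204541471935760055792560469727505484597500264544337939673836815150592175795562377636060837445632) (.p (nat_lit 464) (.a (.f (nat_lit 433) (nat_lit 465) (nat_lit 6576) (.f (nat_lit 432) (nat_lit 401) (nat_lit 6544) (.d (nat_lit 431) (nat_lit 399) (nat_lit 7567) (nat_lit 463) (nat_lit 7599)))) (.a (.f (nat_lit 433) (nat_lit 465) (nat_lit 6576) (.f (nat_lit 432) (nat_lit 401) (nat_lit 6544) (.f (nat_lit 527) (nat_lit 559) (nat_lit 5551) (.d (nat_lit 525) (nat_lit 497) (nat_lit 2541) (nat_lit 561) (nat_lit 525))))) (.a (.f (nat_lit 431) (nat_lit 463) (nat_lit 7599) (.f (nat_lit 432) (nat_lit 399) (nat_lit 7567) (.f (nat_lit 527) (nat_lit 559) (nat_lit 5551) (.d (nat_lit 525) (nat_lit 497) (nat_lit 2541) (nat_lit 561) (nat_lit 525))))) (.f (nat_lit 465) (nat_lit 433) (nat_lit 6576) (.f (nat_lit 463) (nat_lit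 431) (nat_lit 7599) (.f (nat_lit 497) (nat_lit 592) (nat_lit 6608) (.d (nat_lit 462) (nat_lit 461) (nat_lit 461) (nat_lit 498) (nat_lit 462)))))))))
noncomputable def s38711 : Cert := .r (nat_lit 3773962425919908978067039048378881885645768491231275023412675293626429865204541471935760055792560469727505484597500264544337939673836815150592175795562377636060837445632) (.p (nat_lit 464) (.a (.f (nat_lit 433) (nat_lit 465) (nat_lit 6576) (.f (nat_lit 432) (nat_lit 401) (nat_lit 6544) (.d (nat_lit 431) (nat_lit 399) (nat_lit 7567) (nat_lit 463) (nat_lit 7599)))) (.a (.f (nat_lit 433) (nat_lit 465) (nat_lit 6576) (.f (nat_lit 432) (nat_lit 401) (nat_lit 6544) (.f (nat_lit 527) (nat_lit 559) (nat_lit 5551) (.f (nat_lit 400) (nat_lit 495) (nat_lit 5519) (.d (nat_lit 399) (nat_lit 367) (nat_lit 7535) (nat_lit 431) (nat_lit 7567)))))) (.a (.f (nat_lit 431) (nat_lit 463) (nat_lit 7599) (.f (nat_lit 432) (nat_lit 399) (nat_lit 7567)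 (.f (nat_lit 527) (nat_lit 559) (nat_lit 5551) (.f (nat_lit 401) (nat_lit 433) (nat_lit 6544) (.d (nat_lit 400) (nat_lit 369) (nat_lit 6512) (nat_lit 495) (nat_lit 5519)))))) (.a (.f (nat_lit 433) (nat_lit 465) (nat_lit 6576) (.f (nat_lit 432) (nat_lit 401) (nat_lit 6544) (.f (nat_lit 527) (nat_lit 559) (nat_lit 5551) (.f (nat_lit 495) (nat_lit 400) (nat_lit 5519) (.d (nat_lit 525) (nat_lit 524) (nat_lit 2540) (nat_lit 561) (nat_lit 525)))))) (.a (.f (nat_lit 431) (nat_lit 463) (nat_lit 7599) (.f (nat_lit 432) (nat_lit 399) (nat_lit 7567) (.f (nat_lit 527) (nat_lit 559) (nat_lit 5551) (.f (nat_lit 525) (nat_lit 561) (nat_lit 525) (.d (nat_lit 495) (nat_lit 400) (nat_lit 5519) (nat_lit 524) (nat_lit 2540)))))) (.f (nat_lit 463) (nat_lit 431) (nat_lit 7599) (.f (nat_lit 465) (nat_lit 433) (nat_lit 6576) (.f (nat_lit 495) (nat_lit 592) (nat_lit 7631) (.d (nat_lit 494) (nat_lit 466) (nat_lit 1486) (nat_lit 493) (nat_lit 2509)))))))))))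
noncomputable def s38757 : Cert := .r (nat_lit 4717453032125294316178574421874326325093954885348316367260111900657258793138255112583793827655798201532923673547783478224763190270811139418251553991950010913431444520960) (.p (nat_lit 590) (.a (.f (nat_lit 461) (nat_lit 493) (nat_lit 7629) (.f (nat_lit 462) (nat_lit 429) (nat_lit 7597) (.d (nat_lit 589) (nat_lit 557) (nat_lit 5581) (nat_lit 621) (nat_lit 5613)))) (.a (.f (nat_lit 621) (nat_lit 589) (nat_lit 5613) (.f (nat_lit 622) (nat_lit 653) (nat_lit 5645) (.d (nat_lit 623) (nat_lit 591) (nat_lit 4590) (nat_lit 655) (nat_lit 4622)))) (.f (nat_lit 461) (nat_lit 493) (nat_lit 7629) (.f (nat_lit 462) (nat_lit 429) (nat_lit 7597) (.f (nat_lit 495) (nat_lit 497) (nat_lit 3533) (.f (nat_lit 622) (nat_lit 527) (nat_lit 6638) (.d (nat_lit 623) (nat_lit 591) (nat_lit 4590) (nat_lit 655) (nat_lit 4622)))))))))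
noncomputable def s38770 : Cert := .r (nat_lit 4717453032125294316178574421874326325093954885348316367260111900657258793138255112583793827655798201532923673547783478224763190270811139418251553991950010913431444520960) (.p (nat_lit 590) (.a (.f (nat_lit 621) (nat_lit 589) (nat_lit 5613) (.f (nat_lit 622) (nat_lit 653) (nat_lit 5645) (.d (nat_lit 623) (nat_lit 591) (nat_lit 4590) (nat_lit 655) (nat_lit 4622)))) (.a (.f (nat_lit 495) (nat_lit 463) (nat_lit 6606) (.f (nat_lit 493) (nat_lit 461) (nat_lit 7629) (.d (nat_lit 527) (nat_lit 492) (nat_lit 492) (nat_lit 622) (nat_lit 6638)))) (.f (nat_lit 495) (nat_lit 463) (nat_lit 6606) (.f (nat_lit 493) (nat_lit 461) (nat_lit 7629) (.f (nat_lit 492) (nat_lit 527) (nat_lit 492) (.f (nat_lit 523) (nat_lit 524) (nat_lit 1515) (.f (nat_lit 491) (nat_lit 522) (nat_lit 1514) (.d (nat_lit 459) (nat_lit 458) (nat_lit 3530) (nat_lit 460) (nat_lit 3531))))))))))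
noncomputable def s38771 : Cert := .r (nat_lit 3773962425919908978118185776627259102364724580244206260166060325595852752540217899562262146361383509647556579790092516999820544113329941260111195429091836902519095689216) (.p (nat_lit 558) (.a s37847 (.a (.p (nat_lit 590) (.a (.f (nat_lit 461) (nat_lit 493) (nat_lit 7629) (.f (nat_lit 462) (nat_lit 429) (nat_lit 7597) (.d (nat_lit 463) (nat_lit 431) (nat_lit 6574) (nat_lit 495) (nat_lit 6606)))) (.a (.f (nat_lit 461) (nat_lit 493) (nat_lit 7629) (.f (nat_lit 462) (nat_lit 429) (nat_lit 7597) (.d (nat_lit 589) (nat_lit 557) (nat_lit 5581) (nat_lit 621) (nat_lit 5613)))) (.f (nat_lit 621) (nat_lit 589) (nat_lit 5613) (.f (nat_lit 622) (nat_lit 653) (nat_lit 5645) (.d (nat_lit 623) (nat_lit 591) (nat_lit 4590) (nat_lit 655) (nat_lit 4622))))))) (.a s38757 (.a (.p (nat_lit 590) (.a (.f (nat_lit 461) (nat_lit 493) (nat_lit 7629) (.f (nat_lit 462) (nat_lit 429) (nat_lit 7597) (.d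 (nat_lit 589) (nat_lit 557) (nat_lit 5581) (nat_lit 621) (nat_lit 5613)))) (.a (.f (nat_lit 621) (nat_lit 589) (nat_lit 5613) (.f (nat_lit 622) (nat_lit 653) (nat_lit 5645) (.d (nat_lit 623) (nat_lit 591) (nat_lit 4590) (nat_lit 655) (nat_lit 4622)))) (.f (nat_lit 461) (nat_lit 493) (nat_lit 7629) (.f (nat_lit 462) (nat_lit 429) (nat_lit 7597) (.f (nat_lit 463) (nat_lit 431) (nat_lit 6574) (.f (nat_lit 464) (nat_lit 497) (nat_lit 461) (.d (nat_lit 433) (nat_lit 432) (nat_lit 2477) (nat_lit 465) (nat_lit 6576))))))))) (.a s38770 (.p (nat_lit 590) (.a (.f (nat_lit 621) (nat_lit 589) (nat_lit 5613) (.f (nat_lit 622) (nat_lit 653) (nat_lit 5645) (.d (nat_lit 623) (nat_lit 591) (nat_lit 4590) (nat_lit 655) (nat_lit 4622)))) (.f (nat_lit 463) (nat_lit 495) (nat_lit 6606) (.d (nat_lit 431) (nat_lit 462) (nat_lit 6574) (nat_lit 464) (nat_lit 7599)))))))))))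
noncomputable def s38844 : Cert := .r (nat_lit 4052261302452797718172567620513327255161541132049253581487394241532755004833254017521042599944697786196543410256721005291123990491362397655426289513921952021566237001857472921600) (.p (nat_lit 622) (.a (.f (nat_lit 655) (nat_lit 623) (nat_lit 4622) (.f (nat_lit 654) (nat_lit 687) (nat_lit 4654) (.d (nat_lit 653) (nat_lit 621) (nat_lit 5645) (nat_lit 685) (nat_lit 5677)))) (.a (.f (nat_lit 653) (nat_lit 621) (nat_lit 5645) (.f (nat_lit 654) (nat_lit 685) (nat_lit 5677) (.f (nat_lit 687) (nat_lit 655) (nat_lit 4654) (.f (nat_lit 686) (nat_lit 719) (nat_lit 4686) (.f (nat_lit 559) (nat_lit 591) (nat_lit 6702) (.d (nat_lit 589) (nat_lit 557) (nat_lit 7725) (nat_lit 561) (nat_lit 1581))))))) (.a (.f (nat_lit 527) (nat_lit 495) (nat_lit 6638) (.f (nat_lit 559) (nat_lit 654) (nat_lit 6670) (.d (nat_lit 561) (nat_lit 562) (nat_lit 3598) (nat_lit 589) (nat_lit 1581)))) (.f (nat_lit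 527) (nat_lit 495) (nat_lit 6638) (.f (nat_lit 623) (nat_lit 655) (nat_lit 4622) (.f (nat_lit 559) (nat_lit 591) (nat_lit 6639) (.d (nat_lit 561) (nat_lit 562) (nat_lit 3598) (nat_lit 589) (nat_lit 1581)))))))))
noncomputable def s38895 : Cert := .r (nat_lit 12156783896979996484061728891224737732985657956668532846687302356490759702062684200359933216897978203121265215659050765405298558710583375146161643766160428784999433700713697378304) (.p (nat_lit 589) (.a (.f (nat_lit 592) (nat_lit 561) (nat_lit 2605) (.f (nat_lit 588) (nat_lit 559) (nat_lit 2604) (.d (nat_lit 620) (nat_lit 619) (nat_lit 1611) (nat_lit 621) (nat_lit 1612)))) (.a (.f (nat_lit 588) (nat_lit 559) (nat_lit 2604) (.f (nat_lit 619) (nat_lit 620) (nat_lit 1611) (.f (nat_lit 587) (nat_lit 618) (nat_lit 1610) (.d (nat_lit 555) (nat_lit 554) (nat_lit 3626) (nat_lit 556) (nat_lit 3627))))) (.a (.f (nat_lit 592) (nat_lit 561) (nat_lit 2605) (.f (nat_lit 621) (nat_lit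 620) (nat_lit 1612) (.f (nat_lit 558) (nat_lit 494) (nat_lit 5613) (.d (nat_lit 653) (nat_lit 557) (nat_lit 6669) (nat_lit 622) (nat_lit 5645))))) (.f (nat_lit 592) (nat_lit 561) (nat_lit 2605) (.f (nat_lit 588) (nat_lit 559) (nat_lit 2604) (.d (nat_lit 556) (nat_lit 555) (nat_lit 3627) (nat_lit 557) (nat_lit 3628))))))))
noncomputable def s38906 : Cert := .r (nat_lit 4052261302452797718172567620513327255161541132049253581487394241532755004833254017521042599944697786196543410256721005291123990491362397655426289513921952021566237001857472921600) (.p (nat_lit 494) (.a (.f (nat_lit 461) (nat_lit 493) (nat_lit 7629) (.f (nat_lit 462) (nat_lit 429) (nat_lit 7597) (.d (nat_lit 463) (nat_lit 431) (nat_lit 6574) (nat_lit 495) (nat_lit 6606)))) (.a (.f (nat_lit 461) (nat_lit 493) (nat_lit 7629) (.f (nat_lit 462) (nat_lit 429) (nat_lit 7597) (.d (nat_lit 589) (nat_lit 557) (nat_lit 5581) (nat_lit 621) (nat_lit 5613)))) (.a (.f (nat_lit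 495) (nat_lit 463) (nat_lit 6606) (.f (nat_lit 493) (nat_lit 461) (nat_lit 7629) (.d (nat_lit 527) (nat_lit 492) (nat_lit 492) (nat_lit 622) (nat_lit 6638)))) (.a (.f (nat_lit 589) (nat_lit 621) (nat_lit 5613) (.f (nat_lit 462) (nat_lit 557) (nat_lit 5581) (.f (nat_lit 431) (nat_lit 463) (nat_lit 6574) (.f (nat_lit 430) (nat_lit 399) (nat_lit 6542) (.d (nat_lit 429) (nat_lit 397) (nat_lit 7565) (nat_lit 461) (nat_lit 7597)))))) (.f (nat_lit 495) (nat_lit 463) (nat_lit 6606) (.f (nat_lit 527) (nat_lit 622) (nat_lit 6638) (.f (nat_lit 497) (nat_lit 498) (nat_lit 1518) (.d (nat_lit 592) (nat_lit 465) (nat_lit 6608) (nat_lit 624) (nat_lit 7663))))))))))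
noncomputable def s38907 : Cert := .r (nat_lit 4052261302452797718172567620513327255161541132049253581487394241532755004833254017521042599944697786196543410256721005291123990491362397655426289513921952021566237001857472921600) (.p (nat_lit 494) (.a (.f (nat_lit 589) (nat_lit 621) (nat_lit 5613) (.f (nat_lit 559) (nat_lit 561) (nat_lit 1581) (.d (nat_lit 557) (nat_lit 462) (nat_lit 5581) (nat_lit 588) (nat_lit 1580)))) (.a (.f (nat_lit 461) (nat_lit 493) (nat_lit 7629) (.f (nat_lit 462) (nat_lit 429) (nat_lit 7597) (.d (nat_lit 589) (nat_lit 557) (nat_lit 5581) (nat_lit 621) (nat_lit 5613)))) (.a (.f (nat_lit 461) (nat_lit 493) (nat_lit 7629) (.f (nat_lit 462) (nat_lit 429) (nat_lit 7597) (.f (nat_lit 495) (nat_lit 497) (nat_lit 3533) (.f (nat_lit 527) (nat_lit 622) (nat_lit 6638) (.d (nat_lit 430) (nat_lit 398) (nat_lit 4494) (nat_lit 559) (nat_lit 4526)))))) (.f (nat_lit 589) (nat_lit 621) (nat_lit 5613) (.f (nat_lit 559)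 (nat_lit 561) (nat_lit 1581) (.d (nat_lit 588) (nat_lit 557) (nat_lit 1580) (nat_lit 587) (nat_lit 2603))))))))
noncomputable def s38914 : Cert := .r (nat_lit 4052261302452797718172567620513327255161541132049253581487394241532755004833254017521042599944697786196543410256721005291123990491362397655426289513921952021566237001857472921600) (.p (nat_lit 494) (.a (.f (nat_lit 461) (nat_lit 493) (nat_lit 7629) (.f (nat_lit 462) (nat_lit 429) (nat_lit 7597) (.d (nat_lit 463) (nat_lit 431) (nat_lit 6574) (nat_lit 495) (nat_lit 6606)))) (.a (.f (nat_lit 461) (nat_lit 493) (nat_lit 7629) (.f (nat_lit 462) (nat_lit 429) (nat_lit 7597) (.f (nat_lit 495) (nat_lit 497) (nat_lit 3533) (.f (nat_lit 527) (nat_lit 622) (nat_lit 6638) (.d (nat_lit 430) (nat_lit 398) (nat_lit 4494) (nat_lit 559) (nat_lit 4526)))))) (.a (.f (nat_lit 589) (nat_lit 621) (nat_lit 5613) (.f (nat_lit 559) (nat_lit 561) (nat_lit 1581) (.f (nat_lit 461) (nat_lit 493)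 (nat_lit 7629) (.f (nat_lit 462) (nat_lit 429) (nat_lit 7597) (.f (nat_lit 431) (nat_lit 463) (nat_lit 6574) (.d (nat_lit 430) (nat_lit 399) (nat_lit 6542) (nat_lit 527) (nat_lit 4526))))))) (.a (.f (nat_lit 495) (nat_lit 463) (nat_lit 6606) (.f (nat_lit 493) (nat_lit 461) (nat_lit 7629) (.d (nat_lit 527) (nat_lit 492) (nat_lit 492) (nat_lit 622) (nat_lit 6638)))) (.f (nat_lit 495) (nat_lit 463) (nat_lit 6606) (.f (nat_lit 527) (nat_lit 622) (nat_lit 6638) (.f (nat_lit 497) (nat_lit 498) (nat_lit 1518) (.d (nat_lit 592) (nat_lit 465) (nat_lit 6608) (nat_lit 624) (nat_lit 7663))))))))))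
noncomputable def s39078 : Cert := .r (nat_lit 3773962425919908978067039048426515988281205384410315508486423558789830105418545548334367797486062846113305130900605521243915148706426947766580436032614501288393727541248) (.f (nat_lit 465) (nat_lit 433) (nat_lit 6576) (.p (nat_lit 466) (.a (.f (nat_lit 467) (nat_lit 495) (nat_lit 1487) (.d (nat_lit 497) (nat_lit 468) (nat_lit 1488) (nat_lit 592) (nat_lit 6608))) (.a (.f (nat_lit 467) (nat_lit 495) (nat_lit 1487) (.f (nat_lit 468) (nat_lit 497) (nat_lit 1488) (.d (nat_lit 500) (nat_lit 499) (nat_lit 464) (nat_lit 501) (nat_lit 465)))) (.a (.f (nat_lit 497) (nat_lit 592) (nat_lit 6608) (.f (nat_lit 467) (nat_lit 468) (nat_lit 1488) (.f (nat_lit 499) (nat_lit 500) (nat_lit 464) (.f (nat_lit 435) (nat_lit 436) (nat_lit 2480) (.f (nat_lit 498) (nat_lit 527) (nat_lit 1519) (.d (nat_lit 403) (nat_lit 371) (nat_lit 5490) (nat_lit 530) (nat_lit 5522))))))) (.a (.f (nat_lit 467) (nat_lit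 495) (nat_lit 1487) (.f (nat_lit 500) (nat_lit 499) (nat_lit 464) (.f (nat_lit 468) (nat_lit 501) (nat_lit 465) (.d (nat_lit 436) (nat_lit 435) (nat_lit 2480) (nat_lit 437) (nat_lit 2481))))) (.f (nat_lit 497) (nat_lit 592) (nat_lit 6608) (.f (nat_lit 495) (nat_lit 494) (nat_lit 2510) (.f (nat_lit 498) (nat_lit 527) (nat_lit 1518) (.f (nat_lit 499) (nat_lit 500) (nat_lit 3536) (.d (nat_lit 531) (nat_lit 530) (nat_lit 495) (nat_lit 532) (nat_lit 496))))))))))))
noncomputable def s39134 : Cert := .r (nat_lit 3773962425919908978067039048378881885645768491231275023412675293626429865204541471935760055792560469727505484597500264544337939673836815150592175795562377636060837445632) (.p (nat_lit 464) (.a (.f (nat_lit 465) (nat_lit 433) (nat_lit 6576) (.f (nat_lit 592) (nat_lit 497) (nat_lit 6608) (.d (nat_lit 591) (nat_lit 559) (nat_lit 5583) (nat_lit 623) (nat_lit 5615)))) (.a (.f (nat_lit 433) (nat_lit 465) (nat_lit 6576) (.f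 (nat_lit 432) (nat_lit 401) (nat_lit 6544) (.f (nat_lit 527) (nat_lit 559) (nat_lit 5551) (.f (nat_lit 400) (nat_lit 495) (nat_lit 5519) (.d (nat_lit 399) (nat_lit 367) (nat_lit 7535) (nat_lit 431) (nat_lit 7567)))))) (.a s39078 (.a (.f (nat_lit 559) (nat_lit 591) (nat_lit 5583) (.f (nat_lit 432) (nat_lit 527) (nat_lit 5551) (.f (nat_lit 401) (nat_lit 433) (nat_lit 6544) (.f (nat_lit 400) (nat_lit 369) (nat_lit 6512) (.d (nat_lit 399) (nat_lit 367) (nat_lit 7535) (nat_lit 431) (nat_lit 7567)))))) (.p (nat_lit 497) (.a (.f (nat_lit 559) (nat_lit 591) (nat_lit 5583) (.f (nat_lit 527) (nat_lit 432) (nat_lit 5551) (.d (nat_lit 498) (nat_lit 495) (nat_lit 1518) (nat_lit 499) (nat_lit 1519)))) (.a (.f (nat_lit 592) (nat_lit 465) (nat_lit 6608) (.d (nat_lit 591) (nat_lit 559) (nat_lit 5583) (nat_lit 623) (nat_lit 5615))) (.p (nat_lit 495) (.a (.f (nat_lit 465) (nat_lit 592) (nat_lit 6608) (.d (nat_lit 494) (nat_lit 466) (nat_lit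 2510) (nat_lit 493) (nat_lit 2509))) (.a (.f (nat_lit 498) (nat_lit 527) (nat_lit 1518) (.f (nat_lit 466) (nat_lit 467) (nat_lit 2511) (.f (nat_lit 465) (nat_lit 494) (nat_lit 2510) (.f (nat_lit 499) (nat_lit 500) (nat_lit 3536) (.d (nat_lit 531) (nat_lit 530) (nat_lit 495) (nat_lit 532) (nat_lit 496)))))) (.a (.f (nat_lit 498) (nat_lit 527) (nat_lit 1518) (.f (nat_lit 531) (nat_lit 530) (nat_lit 495) (.f (nat_lit 499) (nat_lit 532) (nat_lit 496) (.d (nat_lit 467) (nat_lit 466) (nat_lit 2511) (nat_lit 468) (nat_lit 2512))))) (.f (nat_lit 527) (nat_lit 498) (nat_lit 1518) (.d (nat_lit 592) (nat_lit 465) (nat_lit 6608) (nat_lit 624) (nat_lit 7663)))))))))))))))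
noncomputable def s39138 : Cert := .r (nat_lit 3773962425919908978067039048378881885645768491231275023412675293626429865204541471935760055792560469727505484597500264544337939673836815150592175795562377636060837445632) (.p (nat_lit 464) (.a (.f (nat_lit 433) (nat_lit 465) (nat_lit 6576) (.f (nat_lit 432) (nat_lit 401) (nat_lit 6544) (.d (nat_lit 431) (nat_lit 399) (nat_lit 7567) (nat_lit 463) (nat_lit 7599)))) (.a (.f (nat_lit 465) (nat_lit 433) (nat_lit 6576) (.f (nat_lit 592) (nat_lit 497) (nat_lit 6608) (.d (nat_lit 591) (nat_lit 559) (nat_lit 5583) (nat_lit 623) (nat_lit 5615)))) (.a (.f (nat_lit 559) (nat_lit 591) (nat_lit 5583) (.f (nat_lit 432) (nat_lit 527) (nat_lit 5551) (.f (nat_lit 401) (nat_lit 433) (nat_lit 6544) (.f (nat_lit 400) (nat_lit 369) (nat_lit 6512) (.d (nat_lit 399) (nat_lit 367) (nat_lit 7535) (nat_lit 431) (nat_lit 7567)))))) (.f (nat_lit 559) (nat_lit 591) (nat_lit 5583) (.f (nat_lit 432) (nat_lit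 527) (nat_lit 5551) (.d (nat_lit 431) (nat_lit 399) (nat_lit 7567) (nat_lit 463) (nat_lit 7599))))))))
noncomputable def s39147 : Cert := .r (nat_lit 3773962425919908978067039048378881885645768491231275023412675293626429865204541471935760055792560469727505484597500264544337939673836815150592175795562377636060837445632) (.p (nat_lit 464) (.a (.f (nat_lit 463) (nat_lit 431) (nat_lit 7599) (.f (nat_lit 592) (nat_lit 495) (nat_lit 7631) (.d (nat_lit 591) (nat_lit 559) (nat_lit 5583) (nat_lit 623) (nat_lit 5615)))) (.a (.f (nat_lit 431) (nat_lit 463) (nat_lit 7599) (.f (nat_lit 432) (nat_lit 399) (nat_lit 7567) (.f (nat_lit 527) (nat_lit 559) (nat_lit 5551) (.f (nat_lit 401) (nat_lit 433) (nat_lit 6544) (.d (nat_lit 400) (nat_lit 369) (nat_lit 6512) (nat_lit 495) (nat_lit 5519)))))) (.a (.p (nat_lit 432) (.a (.d (nat_lit 431) (nat_lit 399) (nat_lit 7567) (nat_lit 463) (nat_lit 7599)) (.a (.f (nat_lit 399) (nat_lit 431) (nat_lit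 7567) (.f (nat_lit 400) (nat_lit 367) (nat_lit 7535) (.d (nat_lit 401) (nat_lit 369) (nat_lit 6512) (nat_lit 433) (nat_lit 6544)))) (.f (nat_lit 401) (nat_lit 433) (nat_lit 6544) (.f (nat_lit 400) (nat_lit 369) (nat_lit 6512) (.f (nat_lit 495) (nat_lit 527) (nat_lit 5519) (.d (nat_lit 463) (nat_lit 368) (nat_lit 5487) (nat_lit 592) (nat_lit 7631)))))))) (.a (.f (nat_lit 559) (nat_lit 591) (nat_lit 5583) (.f (nat_lit 432) (nat_lit 527) (nat_lit 5551) (.f (nat_lit 401) (nat_lit 433) (nat_lit 6544) (.f (nat_lit 400) (nat_lit 369) (nat_lit 6512) (.d (nat_lit 399) (nat_lit 367) (nat_lit 7535) (nat_lit 431) (nat_lit 7567)))))) (.p (nat_lit 592) (.a (.d (nat_lit 591) (nat_lit 559) (nat_lit 5583) (nat_lit 623) (nat_lit 5615)) (.a (.f (nat_lit 495) (nat_lit 463) (nat_lit 7631) (.f (nat_lit 527) (nat_lit 624) (nat_lit 7663) (.d (nat_lit 432) (nat_lit 400) (nat_lit 5519) (nat_lit 559) (nat_lit 5551)))) (.f (nat_lit 495) (nat_lit 463)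 (nat_lit 7631) (.f (nat_lit 624) (nat_lit 527) (nat_lit 7663) (.d (nat_lit 623) (nat_lit 591) (nat_lit 5615) (nat_lit 655) (nat_lit 5647))))))))))))
noncomputable def s39194 : Cert := .r (nat_lit 4717453032125294315973987508880817458218130529296591420246571772779567243795549402077785465380506041852719292777414468402832772512838634980175475457832173847598411546624) (.p (nat_lit 496) (.a (.p (nat_lit 464) (.a (.f (nat_lit 463) (nat_lit 431) (nat_lit 7599) (.f (nat_lit 465) (nat_lit 433) (nat_lit 6576) (.d (nat_lit 495) (nat_lit 493) (nat_lit 2509) (nat_lit 592) (nat_lit 7631)))) (.a (.f (nat_lit 463) (nat_lit 431) (nat_lit 7599) (.f (nat_lit 465) (nat_lit 433) (nat_lit 6576) (.d (nat_lit 493) (nat_lit 462) (nat_lit 1485) (nat_lit 495) (nat_lit 2509)))) (.a (.f (nat_lit 465) (nat_lit 433) (nat_lit 6576) (.f (nat_lit 495) (nat_lit 493) (nat_lit 2509) (.d (nat_lit 497) (nat_lit 525) (nat_lit 1517) (nat_lit 592) (nat_lit 6608))))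 (.a (.f (nat_lit 431) (nat_lit 463) (nat_lit 7599) (.f (nat_lit 432) (nat_lit 399) (nat_lit 7567) (.d (nat_lit 433) (nat_lit 401) (nat_lit 6544) (nat_lit 465) (nat_lit 6576)))) (.f (nat_lit 463) (nat_lit 431) (nat_lit 7599) (.f (nat_lit 495) (nat_lit 592) (nat_lit 7631) (.f (nat_lit 497) (nat_lit 525) (nat_lit 1517) (.d (nat_lit 462) (nat_lit 461) (nat_lit 461) (nat_lit 498) (nat_lit 3534)))))))))) (.a s37843 (.a (.p (nat_lit 464) (.a (.f (nat_lit 463) (nat_lit 431) (nat_lit 7599) (.f (nat_lit 465) (nat_lit 433) (nat_lit 6576) (.d (nat_lit 495) (nat_lit 493) (nat_lit 2509) (nat_lit 592) (nat_lit 7631)))) (.a (.f (nat_lit 463) (nat_lit 431) (nat_lit 7599) (.f (nat_lit 465) (nat_lit 433) (nat_lit 6576) (.d (nat_lit 493) (nat_lit 462) (nat_lit 1485) (nat_lit 495) (nat_lit 2509)))) (.a (.f (nat_lit 465) (nat_lit 433) (nat_lit 6576) (.f (nat_lit 495) (nat_lit 493) (nat_lit 2509) (.d (nat_lit 497) (nat_lit 466) (nat_lit 2510)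 (nat_lit 592) (nat_lit 6608)))) (.a (.f (nat_lit 431) (nat_lit 463) (nat_lit 7599) (.f (nat_lit 432) (nat_lit 399) (nat_lit 7567) (.d (nat_lit 433) (nat_lit 401) (nat_lit 6544) (nat_lit 465) (nat_lit 6576)))) (.f (nat_lit 431) (nat_lit 463) (nat_lit 7599) (.f (nat_lit 399) (nat_lit 432) (nat_lit 7567) (.f (nat_lit 462) (nat_lit 430) (nat_lit 6542) (.f (nat_lit 461) (nat_lit 429) (nat_lit 7597) (.f (nat_lit 495) (nat_lit 497) (nat_lit 3533) (.d (nat_lit 460) (nat_lit 459) (nat_lit 459) (nat_lit 493) (nat_lit 3532)))))))))))) (.a s38014 (.a s37896 (.a s37914 (.a (.p (nat_lit 462) (.a (.f (nat_lit 461) (nat_lit 429) (nat_lit 7597) (.f (nat_lit 495) (nat_lit 497) (nat_lit 3533) (.d (nat_lit 460) (nat_lit 459) (nat_lit 459) (nat_lit 493) (nat_lit 3532)))) (.a (.f (nat_lit 557) (nat_lit 589) (nat_lit 5581) (.f (nat_lit 430) (nat_lit 525) (nat_lit 5549) (.d (nat_lit 429) (nat_lit 397) (nat_lit 7565) (nat_lit 461) (nat_lit 7597))))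 (.f (nat_lit 557) (nat_lit 589) (nat_lit 5581) (.f (nat_lit 525) (nat_lit 430) (nat_lit 5549) (.f (nat_lit 495) (nat_lit 497) (nat_lit 1517) (.d (nat_lit 524) (nat_lit 493) (nat_lit 1516) (nat_lit 523) (nat_lit 2539)))))))) (.a (.p (nat_lit 464) (.a (.f (nat_lit 463) (nat_lit 431) (nat_lit 7599) (.f (nat_lit 465) (nat_lit 433) (nat_lit 6576) (.d (nat_lit 495) (nat_lit 493) (nat_lit 2509) (nat_lit 592) (nat_lit 7631)))) (.a (.f (nat_lit 431) (nat_lit 463) (nat_lit 7599) (.f (nat_lit 432) (nat_lit 399) (nat_lit 7567) (.d (nat_lit 433) (nat_lit 401) (nat_lit 6544) (nat_lit 465) (nat_lit 6576)))) (.a (.f (nat_lit 465) (nat_lit 433) (nat_lit 6576) (.f (nat_lit 495) (nat_lit 493) (nat_lit 2509) (.d (nat_lit 497) (nat_lit 525) (nat_lit 1517) (nat_lit 592) (nat_lit 6608)))) (.f (nat_lit 463) (nat_lit 431) (nat_lit 7599) (.f (nat_lit 495) (nat_lit 592) (nat_lit 7631) (.f (nat_lit 525) (nat_lit 497) (nat_lit 1517) (.d (nat_lit 493)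 (nat_lit 492) (nat_lit 2508) (nat_lit 524) (nat_lit 1516))))))))) (.a (.p (nat_lit 464) (.a (.f (nat_lit 431) (nat_lit 463) (nat_lit 7599) (.f (nat_lit 432) (nat_lit 399) (nat_lit 7567) (.d (nat_lit 433) (nat_lit 401) (nat_lit 6544) (nat_lit 465) (nat_lit 6576)))) (.a (.f (nat_lit 465) (nat_lit 433) (nat_lit 6576) (.f (nat_lit 497) (nat_lit 592) (nat_lit 6608) (.d (nat_lit 495) (nat_lit 466) (nat_lit 2510) (nat_lit 525) (nat_lit 1517)))) (.f (nat_lit 463) (nat_lit 431) (nat_lit 7599) (.f (nat_lit 495) (nat_lit 592) (nat_lit 7631) (.f (nat_lit 497) (nat_lit 525) (nat_lit 1517) (.d (nat_lit 462) (nat_lit 461) (nat_lit 461) (nat_lit 498) (nat_lit 3534)))))))) s38511))))))))))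
noncomputable def s39209 : Cert := .r (nat_lit 4717453032125294315973987508880817458218130529296591420246571772779567243795549402077785465380506041852719292777414468402832772512838634980175475457832173847598411546624) (.p (nat_lit 463) (.a (.f (nat_lit 495) (nat_lit 590) (nat_lit 6606) (.d (nat_lit 431) (nat_lit 399) (nat_lit 5518) (nat_lit 462) (nat_lit 6574))) (.a (.f (nat_lit 431) (nat_lit 462) (nat_lit 6574) (.f (nat_lit 495) (nat_lit 399) (nat_lit 5518) (.d (nat_lit 496) (nat_lit 464) (nat_lit 7599) (nat_lit 592) (nat_lit 7631)))) (.a (.f (nat_lit 462) (nat_lit 431) (nat_lit 6574) (.f (nat_lit 461) (nat_lit 429) (nat_lit 7597) (.f (nat_lit 493) (nat_lit 590) (nat_lit 7629) (.d (nat_lit 492) (nat_lit 464) (nat_lit 1484) (nat_lit 491) (nat_lit 2507))))) (.f (nat_lit 590) (nat_lit 495) (nat_lit 6606) (.f (nat_lit 493) (nat_lit 461) (nat_lit 7629) (.f (nat_lit 622) (nat_lit 525) (nat_lit 7661) (.d (nat_lit 621) (nat_lit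 589) (nat_lit 5613) (nat_lit 653) (nat_lit 5645)))))))))
noncomputable def s39225 : Cert := .r (nat_lit 4717453032125294315973987508880817458218130529296591420246571772779567243795549402077785465380506041852719292777414468402832772512838634980175475457832173847598411546624) (.p (nat_lit 462) (.a (.f (nat_lit 431) (nat_lit 463) (nat_lit 6574) (.f (nat_lit 430) (nat_lit 399) (nat_lit 6542) (.d (nat_lit 429) (nat_lit 397) (nat_lit 7565) (nat_lit 461) (nat_lit 7597)))) (.a (.f (nat_lit 429) (nat_lit 461) (nat_lit 7597) (.f (nat_lit 430) (nat_lit 397) (nat_lit 7565) (.f (nat_lit 525) (nat_lit 557) (nat_lit 5549) (.f (nat_lit 399) (nat_lit 431) (nat_lit 6542) (.d (nat_lit 398) (nat_lit 367) (nat_lit 6510) (nat_lit 493) (nat_lit 5517)))))) (.a (.f (nat_lit 429) (nat_lit 461) (nat_lit 7597) (.f (nat_lit 430) (nat_lit 397) (nat_lit 7565) (.f (nat_lit 525) (nat_lit 557) (nat_lit 5549) (.f (nat_lit 493) (nat_lit 398) (nat_lit 5517)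 (.f (nat_lit 590) (nat_lit 622) (nat_lit 7661) (.f (nat_lit 495) (nat_lit 463) (nat_lit 6606) (.d (nat_lit 524) (nat_lit 496) (nat_lit 1516) (nat_lit 523) (nat_lit 2539)))))))) (.f (nat_lit 463) (nat_lit 431) (nat_lit 6574) (.f (nat_lit 495) (nat_lit 590) (nat_lit 6606) (.f (nat_lit 496) (nat_lit 592) (nat_lit 7631) (.d (nat_lit 497) (nat_lit 498) (nat_lit 3534) (nat_lit 525) (nat_lit 1517)))))))))
noncomputable def s39237 : Cert := .r (nat_lit 4717453032125294315973987508880817458218130529296591420246571772779567243795549402077785465380506041852719292777414468402832772512838634980175475457832173847598411546624) (.p (nat_lit 590) (.a (.f (nat_lit 493) (nat_lit 461) (nat_lit 7629) (.f (nat_lit 525) (nat_lit 622) (nat_lit 7661) (.f (nat_lit 495) (nat_lit 463) (nat_lit 6606) (.d (nat_lit 524) (nat_lit 496) (nat_lit 1516) (nat_lit 523) (nat_lit 2539))))) (.a (.f (nat_lit 621) (nat_lit 589) (nat_lit 5613) (.f (nat_lit 622) (nat_lit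 653) (nat_lit 5645) (.d (nat_lit 623) (nat_lit 591) (nat_lit 4590) (nat_lit 655) (nat_lit 4622)))) (.f (nat_lit 591) (nat_lit 623) (nat_lit 4590) (.f (nat_lit 589) (nat_lit 621) (nat_lit 5613) (.f (nat_lit 592) (nat_lit 561) (nat_lit 2605) (.f (nat_lit 556) (nat_lit 557) (nat_lit 3628) (.f (nat_lit 588) (nat_lit 555) (nat_lit 3627) (.f (nat_lit 619) (nat_lit 620) (nat_lit 1611) (.f (nat_lit 587) (nat_lit 618) (nat_lit 1610) (.f (nat_lit 495) (nat_lit 463) (nat_lit 6606) (.f (nat_lit 493) (nat_lit 461) (nat_lit 7629) (.f (nat_lit 524) (nat_lit 492) (nat_lit 5611) (.d (nat_lit 525) (nat_lit 496) (nat_lit 1516) (nat_lit 523) (nat_lit 2539)))))))))))))))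
noncomputable def s39281 : Cert := .r (nat_lit 3773962425919908978118185776639167628023583803538966381434497391886702812593718918661914081784759103744006491365868831174714846371477474414108260488354867815602318213120) (.p (nat_lit 464) (.a (.f (nat_lit 433) (nat_lit 465) (nat_lit 6576) (.f (nat_lit 432) (nat_lit 401) (nat_lit 6544) (.f (nat_lit 431) (nat_lit 399) (nat_lit 7567) (.f (nat_lit 430) (nat_lit 461) (nat_lit 1453) (.d (nat_lit 397) (nat_lit 398) (nat_lit 3469) (nat_lit 429) (nat_lit 7565)))))) (.a (.f (nat_lit 463) (nat_lit 431) (nat_lit 7599) (.f (nat_lit 461) (nat_lit 497) (nat_lit 461) (.f (nat_lit 493) (nat_lit 492) (nat_lit 1484) (.d (nat_lit 429) (nat_lit 397) (nat_lit 4493) (nat_lit 428) (nat_lit 3500))))) (.a (.f (nat_lit 465) (nat_lit 433) (nat_lit 6576) (.f (nat_lit 463) (nat_lit 493) (nat_lit 1485) (.d (nat_lit 497) (nat_lit 461) (nat_lit 461) (nat_lit 498) (nat_lit 462)))) (.f (nat_lit 431) (nat_lit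 463) (nat_lit 7599) (.d (nat_lit 399) (nat_lit 430) (nat_lit 6542) (nat_lit 432) (nat_lit 7567)))))))
noncomputable def s39303 : Cert := .r (nat_lit 3773962425919908978118185776639167628023583803538966381434497391886702812593718918661914081784759103744006491365868831174714846371477474414108260488354867815602318213120) (.p (nat_lit 558) (.a (.f (nat_lit 431) (nat_lit 463) (nat_lit 6574) (.f (nat_lit 430) (nat_lit 399) (nat_lit 6542) (.d (nat_lit 429) (nat_lit 397) (nat_lit 7565) (nat_lit 461) (nat_lit 7597)))) (.a (.f (nat_lit 557) (nat_lit 589) (nat_lit 5581) (.f (nat_lit 430) (nat_lit 525) (nat_lit 5549) (.d (nat_lit 429) (nat_lit 397) (nat_lit 7565) (nat_lit 461) (nat_lit 7597)))) (.a (.f (nat_lit 557) (nat_lit 589) (nat_lit 5581) (.f (nat_lit 430) (nat_lit 525) (nat_lit 5549) (.f (nat_lit 399) (nat_lit 431) (nat_lit 6542) (.f (nat_lit 398) (nat_lit 367) (nat_lit 6510) (.d (nat_lit 397) (nat_lit 365) (nat_lit 7533) (nat_lit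 429) (nat_lit 7565)))))) (.a (.f (nat_lit 431) (nat_lit 463) (nat_lit 6574) (.f (nat_lit 430) (nat_lit 399) (nat_lit 6542) (.d (nat_lit 557) (nat_lit 525) (nat_lit 5549) (nat_lit 589) (nat_lit 5581)))) (.f (nat_lit 463) (nat_lit 431) (nat_lit 6574) (.f (nat_lit 461) (nat_lit 429) (nat_lit 7597) (.f (nat_lit 464) (nat_lit 497) (nat_lit 461) (.d (nat_lit 433) (nat_lit 432) (nat_lit 2477) (nat_lit 465) (nat_lit 6576))))))))))
noncomputable def s39326 : Cert := .r (nat_lit 3773962425919908978118185776639167628023583803538966381434497391886702812593718918661914081784759103744006491365868831174714846371477474414108260488354867815602318213120) (.p (nat_lit 464) (.a (.f (nat_lit 465) (nat_lit 433) (nat_lit 6576) (.f (nat_lit 463) (nat_lit 493) (nat_lit 1485) (.d (nat_lit 497) (nat_lit 461) (nat_lit 461) (nat_lit 498) (nat_lit 462)))) (.a (.f (nat_lit 433) (nat_lit 465) (nat_lit 6576) (.f (nat_lit 432) (nat_lit 401) (nat_lit 6544)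 (.f (nat_lit 431) (nat_lit 399) (nat_lit 7567) (.f (nat_lit 430) (nat_lit 461) (nat_lit 1453) (.f (nat_lit 398) (nat_lit 397) (nat_lit 3469) (.d (nat_lit 525) (nat_lit 493) (nat_lit 5517) (nat_lit 557) (nat_lit 5549))))))) (.f (nat_lit 431) (nat_lit 463) (nat_lit 7599) (.d (nat_lit 399) (nat_lit 430) (nat_lit 6542) (nat_lit 432) (nat_lit 7567))))))
noncomputable def s39364 : Cert := .r (nat_lit 3773962425919908978118185776627259102364724580244206260166060325595852752540217899562262146361383509647556579790092516999820544113329941260111195429091836902519095689216) (.p (nat_lit 558) (.a s37917 (.a (.p (nat_lit 590) (.a (.f (nat_lit 495) (nat_lit 463) (nat_lit 6606) (.f (nat_lit 497) (nat_lit 525) (nat_lit 1517) (.f (nat_lit 462) (nat_lit 461) (nat_lit 3533) (.d (nat_lit 589) (nat_lit 557) (nat_lit 5581) (nat_lit 621) (nat_lit 5613))))) (.a (.f (nat_lit 463) (nat_lit 495) (nat_lit 6606) (.d (nat_lit 431) (nat_lit 462) (nat_lit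 6574) (nat_lit 464) (nat_lit 7599))) (.a (.f (nat_lit 589) (nat_lit 621) (nat_lit 5613) (.f (nat_lit 462) (nat_lit 557) (nat_lit 5581) (.f (nat_lit 461) (nat_lit 429) (nat_lit 7597) (.f (nat_lit 495) (nat_lit 497) (nat_lit 3533) (.f (nat_lit 527) (nat_lit 622) (nat_lit 6638) (.d (nat_lit 525) (nat_lit 524) (nat_lit 2540) (nat_lit 561) (nat_lit 525))))))) (.a (.f (nat_lit 589) (nat_lit 621) (nat_lit 5613) (.f (nat_lit 462) (nat_lit 557) (nat_lit 5581) (.f (nat_lit 431) (nat_lit 463) (nat_lit 6574) (.f (nat_lit 430) (nat_lit 399) (nat_lit 6542) (.d (nat_lit 429) (nat_lit 397) (nat_lit 7565) (nat_lit 461) (nat_lit 7597)))))) (.f (nat_lit 495) (nat_lit 463) (nat_lit 6606) (.f (nat_lit 497) (nat_lit 525) (nat_lit 1517) (.f (nat_lit 465) (nat_lit 466) (nat_lit 2510) (.d (nat_lit 433) (nat_lit 401) (nat_lit 5520) (nat_lit 464) (nat_lit 6576)))))))))) (.a (.p (nat_lit 462) (.a (.f (nat_lit 431) (nat_lit 463) (nat_lit 6574) (.f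 (nat_lit 430) (nat_lit 399) (nat_lit 6542) (.d (nat_lit 429) (nat_lit 397) (nat_lit 7565) (nat_lit 461) (nat_lit 7597)))) (.a (.f (nat_lit 557) (nat_lit 589) (nat_lit 5581) (.f (nat_lit 430) (nat_lit 525) (nat_lit 5549) (.d (nat_lit 429) (nat_lit 397) (nat_lit 7565) (nat_lit 461) (nat_lit 7597)))) (.a (.f (nat_lit 557) (nat_lit 589) (nat_lit 5581) (.f (nat_lit 430) (nat_lit 525) (nat_lit 5549) (.f (nat_lit 399) (nat_lit 431) (nat_lit 6542) (.f (nat_lit 398) (nat_lit 367) (nat_lit 6510) (.d (nat_lit 397) (nat_lit 365) (nat_lit 7533) (nat_lit 429) (nat_lit 7565)))))) (.a (.f (nat_lit 431) (nat_lit 463) (nat_lit 6574) (.f (nat_lit 430) (nat_lit 399) (nat_lit 6542) (.d (nat_lit 557) (nat_lit 525) (nat_lit 5549) (nat_lit 589) (nat_lit 5581)))) (.f (nat_lit 463) (nat_lit 431) (nat_lit 6574) (.f (nat_lit 461) (nat_lit 429) (nat_lit 7597) (.d (nat_lit 495) (nat_lit 460) (nat_lit 460) (nat_lit 497) (nat_lit 3533))))))))) (.a (.p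 (nat_lit 590) (.a (.f (nat_lit 621) (nat_lit 589) (nat_lit 5613) (.f (nat_lit 622) (nat_lit 653) (nat_lit 5645) (.d (nat_lit 623) (nat_lit 591) (nat_lit 4590) (nat_lit 655) (nat_lit 4622)))) (.f (nat_lit 463) (nat_lit 495) (nat_lit 6606) (.d (nat_lit 431) (nat_lit 462) (nat_lit 6574) (nat_lit 464) (nat_lit 7599))))) (.a (.p (nat_lit 590) (.a (.f (nat_lit 621) (nat_lit 589) (nat_lit 5613) (.f (nat_lit 622) (nat_lit 653) (nat_lit 5645) (.d (nat_lit 623) (nat_lit 591) (nat_lit 4590) (nat_lit 655) (nat_lit 4622)))) (.a (.f (nat_lit 589) (nat_lit 621) (nat_lit 5613) (.f (nat_lit 462) (nat_lit 557) (nat_lit 5581) (.f (nat_lit 461) (nat_lit 429) (nat_lit 7597) (.f (nat_lit 495) (nat_lit 497) (nat_lit 3533) (.f (nat_lit 527) (nat_lit 622) (nat_lit 6638) (.d (nat_lit 525) (nat_lit 524) (nat_lit 2540) (nat_lit 561) (nat_lit 525))))))) (.a (.f (nat_lit 623) (nat_lit 591) (nat_lit 4590) (.f (nat_lit 622) (nat_lit 655) (nat_lit 4622)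 (.f (nat_lit 527) (nat_lit 495) (nat_lit 6638) (.d (nat_lit 525) (nat_lit 497) (nat_lit 2541) (nat_lit 561) (nat_lit 525))))) (.f (nat_lit 589) (nat_lit 621) (nat_lit 5613) (.f (nat_lit 462) (nat_lit 557) (nat_lit 5581) (.f (nat_lit 429) (nat_lit 461) (nat_lit 7597) (.f (nat_lit 430) (nat_lit 397) (nat_lit 7565) (.f (nat_lit 399) (nat_lit 431) (nat_lit 6542) (.f (nat_lit 398) (nat_lit 367) (nat_lit 6510) (.f (nat_lit 527) (nat_lit 495) (nat_lit 4494) (.d (nat_lit 525) (nat_lit 497) (nat_lit 2541) (nat_lit 561) (nat_lit 525))))))))))))) (.a (.p (nat_lit 590) (.a (.f (nat_lit 495) (nat_lit 463) (nat_lit 6606) (.f (nat_lit 497) (nat_lit 525) (nat_lit 1517) (.f (nat_lit 465) (nat_lit 466) (nat_lit 2510) (.d (nat_lit 433) (nat_lit 401) (nat_lit 5520) (nat_lit 464) (nat_lit 6576))))) (.a (.f (nat_lit 463) (nat_lit 495) (nat_lit 6606) (.d (nat_lit 431) (nat_lit 462) (nat_lit 6574) (nat_lit 464) (nat_lit 7599))) (.a (.f (nat_lit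 623) (nat_lit 591) (nat_lit 4590) (.f (nat_lit 622) (nat_lit 655) (nat_lit 4622) (.f (nat_lit 527) (nat_lit 495) (nat_lit 6638) (.d (nat_lit 525) (nat_lit 497) (nat_lit 2541) (nat_lit 561) (nat_lit 525))))) (.f (nat_lit 623) (nat_lit 591) (nat_lit 4590) (.f (nat_lit 622) (nat_lit 655) (nat_lit 4622) (.f (nat_lit 653) (nat_lit 621) (nat_lit 5645) (.f (nat_lit 654) (nat_lit 685) (nat_lit 5677) (.f (nat_lit 525) (nat_lit 557) (nat_lit 7693) (.d (nat_lit 527) (nat_lit 497) (nat_lit 2541) (nat_lit 561) (nat_lit 525))))))))))) (.a (.p (nat_lit 462) (.a (.f (nat_lit 431) (nat_lit 463) (nat_lit 6574) (.f (nat_lit 430) (nat_lit 399) (nat_lit 6542) (.d (nat_lit 429) (nat_lit 397) (nat_lit 7565) (nat_lit 461) (nat_lit 7597)))) (.a (.f (nat_lit 557) (nat_lit 589) (nat_lit 5581) (.f (nat_lit 430) (nat_lit 525) (nat_lit 5549) (.d (nat_lit 429) (nat_lit 397) (nat_lit 7565) (nat_lit 461) (nat_lit 7597)))) (.a (.f (nat_lit 557) (nat_lit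 589) (nat_lit 5581) (.f (nat_lit 430) (nat_lit 525) (nat_lit 5549) (.f (nat_lit 399) (nat_lit 431) (nat_lit 6542) (.f (nat_lit 398) (nat_lit 367) (nat_lit 6510) (.d (nat_lit 397) (nat_lit 365) (nat_lit 7533) (nat_lit 429) (nat_lit 7565)))))) (.a (.f (nat_lit 431) (nat_lit 463) (nat_lit 6574) (.f (nat_lit 430) (nat_lit 399) (nat_lit 6542) (.d (nat_lit 557) (nat_lit 525) (nat_lit 5549) (nat_lit 589) (nat_lit 5581)))) (.f (nat_lit 463) (nat_lit 431) (nat_lit 6574) (.f (nat_lit 461) (nat_lit 429) (nat_lit 7597) (.f (nat_lit 464) (nat_lit 497) (nat_lit 461) (.d (nat_lit 433) (nat_lit 432) (nat_lit 2477) (nat_lit 465) (nat_lit 6576)))))))))) (.p (nat_lit 590) (.a (.f (nat_lit 621) (nat_lit 589) (nat_lit 5613) (.f (nat_lit 622) (nat_lit 653) (nat_lit 5645) (.d (nat_lit 623) (nat_lit 591) (nat_lit 4590) (nat_lit 655) (nat_lit 4622)))) (.f (nat_lit 495) (nat_lit 463) (nat_lit 6606) (.f (nat_lit 497) (nat_lit 525) (nat_lit 1517)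 (.f (nat_lit 465) (nat_lit 466) (nat_lit 2510) (.d (nat_lit 433) (nat_lit 401) (nat_lit 5520) (nat_lit 464) (nat_lit 6576)))))))))))))))
noncomputable def s39373 : Cert := .r (nat_lit 3773962425919908978118185776627259102364724580244206260166060325595852752540217899562262146361383509647556579790092516999820544113329941260111195429091836902519095689216) (.p (nat_lit 558) (.a (.p (nat_lit 590) (.a (.f (nat_lit 461) (nat_lit 493) (nat_lit 7629) (.f (nat_lit 462) (nat_lit 429) (nat_lit 7597) (.d (nat_lit 463) (nat_lit 431) (nat_lit 6574) (nat_lit 495) (nat_lit 6606)))) (.a (.f (nat_lit 461) (nat_lit 493) (nat_lit 7629) (.f (nat_lit 462) (nat_lit 429) (nat_lit 7597) (.d (nat_lit 589) (nat_lit 557) (nat_lit 5581) (nat_lit 621) (nat_lit 5613)))) (.f (nat_lit 621) (nat_lit 589) (nat_lit 5613) (.f (nat_lit 622) (nat_lit 653) (nat_lit 5645) (.d (nat_lit 623) (nat_lit 591) (nat_lit 4590) (nat_lit 655) (nat_lit 4622))))))) (.a (.p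 (nat_lit 590) (.a (.f (nat_lit 461) (nat_lit 493) (nat_lit 7629) (.f (nat_lit 462) (nat_lit 429) (nat_lit 7597) (.d (nat_lit 463) (nat_lit 431) (nat_lit 6574) (nat_lit 495) (nat_lit 6606)))) (.a (.f (nat_lit 493) (nat_lit 461) (nat_lit 7629) (.f (nat_lit 622) (nat_lit 525) (nat_lit 7661) (.f (nat_lit 655) (nat_lit 623) (nat_lit 4622) (.f (nat_lit 654) (nat_lit 687) (nat_lit 4654) (.d (nat_lit 653) (nat_lit 621) (nat_lit 5645) (nat_lit 685) (nat_lit 5677)))))) (.f (nat_lit 463) (nat_lit 495) (nat_lit 6606) (.d (nat_lit 431) (nat_lit 462) (nat_lit 6574) (nat_lit 464) (nat_lit 7599)))))) (.a (.p (nat_lit 462) (.a (.f (nat_lit 431) (nat_lit 463) (nat_lit 6574) (.f (nat_lit 430) (nat_lit 399) (nat_lit 6542) (.d (nat_lit 429) (nat_lit 397) (nat_lit 7565) (nat_lit 461) (nat_lit 7597)))) (.a (.f (nat_lit 557) (nat_lit 589) (nat_lit 5581) (.f (nat_lit 430) (nat_lit 525) (nat_lit 5549) (.d (nat_lit 429) (nat_lit 397) (nat_lit 7565)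 (nat_lit 461) (nat_lit 7597)))) (.a (.f (nat_lit 557) (nat_lit 589) (nat_lit 5581) (.f (nat_lit 430) (nat_lit 525) (nat_lit 5549) (.f (nat_lit 399) (nat_lit 431) (nat_lit 6542) (.f (nat_lit 398) (nat_lit 367) (nat_lit 6510) (.d (nat_lit 397) (nat_lit 365) (nat_lit 7533) (nat_lit 429) (nat_lit 7565)))))) (.a (.f (nat_lit 431) (nat_lit 463) (nat_lit 6574) (.f (nat_lit 430) (nat_lit 399) (nat_lit 6542) (.d (nat_lit 557) (nat_lit 525) (nat_lit 5549) (nat_lit 589) (nat_lit 5581)))) (.f (nat_lit 463) (nat_lit 431) (nat_lit 6574) (.f (nat_lit 461) (nat_lit 429) (nat_lit 7597) (.f (nat_lit 460) (nat_lit 495) (nat_lit 460) (.f (nat_lit 492) (nat_lit 491) (nat_lit 1483) (.f (nat_lit 493) (nat_lit 464) (nat_lit 1484) (.f (nat_lit 525) (nat_lit 527) (nat_lit 3564) (.d (nat_lit 428) (nat_lit 396) (nat_lit 4492) (nat_lit 427) (nat_lit 3499))))))))))))) (.a s38120 (.a s38770 (.p (nat_lit 590) (.a (.f (nat_lit 621) (nat_lit 589) (nat_lit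 5613) (.f (nat_lit 622) (nat_lit 653) (nat_lit 5645) (.d (nat_lit 623) (nat_lit 591) (nat_lit 4590) (nat_lit 655) (nat_lit 4622)))) (.f (nat_lit 463) (nat_lit 495) (nat_lit 6606) (.d (nat_lit 431) (nat_lit 462) (nat_lit 6574) (nat_lit 464) (nat_lit 7599)))))))))))
noncomputable def s39391 : Cert := .r (nat_lit 3773962425919908977913598863645658761147759447487241434420957264009011263251013208155905719509466944063802110595499821352784428613504969976032181954237030749769285238784) (.p (nat_lit 557) (.a (.f (nat_lit 525) (nat_lit 430) (nat_lit 5549) (.d (nat_lit 527) (nat_lit 556) (nat_lit 1548) (nat_lit 561) (nat_lit 525))) (.a (.f (nat_lit 430) (nat_lit 525) (nat_lit 5549) (.f (nat_lit 431) (nat_lit 399) (nat_lit 6542) (.d (nat_lit 558) (nat_lit 463) (nat_lit 6574) (nat_lit 589) (nat_lit 5581)))) (.a (.f (nat_lit 558) (nat_lit 589) (nat_lit 5581) (.f (nat_lit 431) (nat_lit 463) (nat_lit 6574) (.f (nat_lit 430) (nat_lit 399)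 (nat_lit 6542) (.d (nat_lit 429) (nat_lit 397) (nat_lit 7565) (nat_lit 461) (nat_lit 7597))))) (.f (nat_lit 589) (nat_lit 558) (nat_lit 5581) (.d (nat_lit 525) (nat_lit 493) (nat_lit 6605) (nat_lit 621) (nat_lit 6637)))))))
noncomputable def s39556 : Cert := .r (nat_lit 3773962425919908978118185776627259102364724580244206260166060325595852752540217899562262146361383509647556579790092516999820544113329941260111195429091836902519095689216) (.p (nat_lit 464) (.a (.f (nat_lit 465) (nat_lit 433) (nat_lit 6576) (.f (nat_lit 495) (nat_lit 493) (nat_lit 2509) (.d (nat_lit 497) (nat_lit 525) (nat_lit 1517) (nat_lit 592) (nat_lit 6608)))) (.a (.f (nat_lit 465) (nat_lit 433) (nat_lit 6576) (.f (nat_lit 495) (nat_lit 493) (nat_lit 2509) (.d (nat_lit 466) (nat_lit 463) (nat_lit 1486) (nat_lit 467) (nat_lit 1487)))) (.a (.f (nat_lit 465) (nat_lit 433) (nat_lit 6576) (.f (nat_lit 463) (nat_lit 431) (nat_lit 7599) (.f (nat_lit 462) (nat_lit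 493) (nat_lit 1485) (.d (nat_lit 497) (nat_lit 498) (nat_lit 462) (nat_lit 592) (nat_lit 6608))))) (.f (nat_lit 463) (nat_lit 431) (nat_lit 7599) (.f (nat_lit 495) (nat_lit 592) (nat_lit 7631) (.f (nat_lit 497) (nat_lit 525) (nat_lit 1517) (.d (nat_lit 462) (nat_lit 461) (nat_lit 461) (nat_lit 498) (nat_lit 3534)))))))))
noncomputable def s39565 : Cert := .r (nat_lit 3773962425919908978118185776627259102364724580244206260166060325595852752540217899562262146361383509647556579790092516999820544113329941260111195429091836902519095689216) (.p (nat_lit 464) (.a (.f (nat_lit 465) (nat_lit 433) (nat_lit 6576) (.f (nat_lit 495) (nat_lit 493) (nat_lit 2509) (.d (nat_lit 466) (nat_lit 463) (nat_lit 1486) (nat_lit 467) (nat_lit 1487)))) (.a (.f (nat_lit 465) (nat_lit 433) (nat_lit 6576) (.f (nat_lit 495) (nat_lit 493) (nat_lit 2509) (.d (nat_lit 497) (nat_lit 466) (nat_lit 2510) (nat_lit 592) (nat_lit 6608)))) (.a (.f (nat_lit 465)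 (nat_lit 433) (nat_lit 6576) (.f (nat_lit 463) (nat_lit 431) (nat_lit 7599) (.f (nat_lit 462) (nat_lit 493) (nat_lit 1485) (.d (nat_lit 497) (nat_lit 498) (nat_lit 462) (nat_lit 592) (nat_lit 6608))))) (.a (.f (nat_lit 463) (nat_lit 431) (nat_lit 7599) (.f (nat_lit 495) (nat_lit 592) (nat_lit 7631) (.f (nat_lit 493) (nat_lit 492) (nat_lit 2508) (.f (nat_lit 461) (nat_lit 460) (nat_lit 3532) (.f (nat_lit 462) (nat_lit 497) (nat_lit 461) (.d (nat_lit 429) (nat_lit 397) (nat_lit 4493) (nat_lit 428) (nat_lit 3500))))))) (.f (nat_lit 463) (nat_lit 431) (nat_lit 7599) (.f (nat_lit 465) (nat_lit 433) (nat_lit 6576) (.d (nat_lit 495) (nat_lit 466) (nat_lit 1486) (nat_lit 592) (nat_lit 7631)))))))))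
noncomputable def s39589 : Cert := .r (nat_lit 3773962425919908978118185776674893205000161473423246745239808590759252992754221975960869888054885886033356226093197773699397753145920073876099455666143960554851985784832) (.p (nat_lit 525) (.a (.p (nat_lit 430) (.a (.f (nat_lit 462) (nat_lit 557) (nat_lit 5549) (.f (nat_lit 398) (nat_lit 493) (nat_lit 5517) (.d (nat_lit 399) (nat_lit 367) (nat_lit 6510) (nat_lit 431) (nat_lit 6542)))) (.a (.f (nat_lit 433) (nat_lit 465) (nat_lit 6576) (.f (nat_lit 432) (nat_lit 401) (nat_lit 6544) (.f (nat_lit 431) (nat_lit 399) (nat_lit 7567) (.f (nat_lit 397) (nat_lit 398) (nat_lit 3469) (.d (nat_lit 462) (nat_lit 429) (nat_lit 7565) (nat_lit 461) (nat_lit 1453)))))) (.a (.f (nat_lit 462) (nat_lit 557) (nat_lit 5549) (.f (nat_lit 398) (nat_lit 493) (nat_lit 5517) (.d (nat_lit 397) (nat_lit 365) (nat_lit 7533) (nat_lit 429) (nat_lit 7565)))) (.a (.f (nat_lit 433) (nat_lit 465) (nat_lit 6576)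 (.f (nat_lit 432) (nat_lit 401) (nat_lit 6544) (.f (nat_lit 431) (nat_lit 399) (nat_lit 7567) (.f (nat_lit 397) (nat_lit 398) (nat_lit 3469) (.f (nat_lit 429) (nat_lit 396) (nat_lit 3468) (.d (nat_lit 461) (nat_lit 460) (nat_lit 1452) (nat_lit 493) (nat_lit 4493))))))) (.f (nat_lit 462) (nat_lit 557) (nat_lit 5549) (.f (nat_lit 429) (nat_lit 397) (nat_lit 7565) (.f (nat_lit 431) (nat_lit 399) (nat_lit 6542) (.d (nat_lit 465) (nat_lit 432) (nat_lit 429) (nat_lit 433) (nat_lit 6576)))))))))) (.d (nat_lit 527) (nat_lit 497) (nat_lit 2541) (nat_lit 561) (nat_lit 525))))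
noncomputable def s39600 : Cert := .r (nat_lit 3773962425919908978118185776674893205000161473423246745239808590759252992754221975960869888054885886033356226093197773699397753145920073876099455666143960554851985784832) (.p (nat_lit 525) (.a (.d (nat_lit 527) (nat_lit 497) (nat_lit 2541) (nat_lit 561) (nat_lit 525)) (.f (nat_lit 431) (nat_lit 463) (nat_lit 7599) (.f (nat_lit 432) (nat_lit 399) (nat_lit 7567) (.f (nat_lit 401) (nat_lit 433) (nat_lit 6544) (.f (nat_lit 400) (nat_lit 369) (nat_lit 6512) (.f (nat_lit 430) (nat_lit 429) (nat_lit 2445) (.f (nat_lit 462) (nat_lit 557) (nat_lit 5549) (.f (nat_lit 398) (nat_lit 493) (nat_lit 5517) (.f (nat_lit 365) (nat_lit 397) (nat_lit 7533) (.f (nat_lit 366) (nat_lit 333) (nat_lit 7501) (.d (nat_lit 367) (nat_lit 335) (nat_lit 6478) (nat_lit 368) (nat_lit 365)))))))))))))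
noncomputable def s39644 : Cert := .r (nat_lit 3773962425919908978118185776686801730659020696718006866508245657050103052807722995060521823478261480129806137668974087874292055404067607030096520725406991467935208308736) (.p (nat_lit 557) (.a (.f (nat_lit 525) (nat_lit 430) (nat_lit 5549) (.d (nat_lit 589) (nat_lit 493) (nat_lit 6605) (nat_lit 558) (nat_lit 5581))) (.a (.f (nat_lit 558) (nat_lit 589) (nat_lit 5581) (.f (nat_lit 461) (nat_lit 429) (nat_lit 7597) (.f (nat_lit 463) (nat_lit 497) (nat_lit 461) (.f (nat_lit 492) (nat_lit 493) (nat_lit 1484) (.f (nat_lit 460) (nat_lit 491) (nat_lit 1483) (.f (nat_lit 427) (nat_lit 428) (nat_lit 3499) (.f (nat_lit 459) (nat_lit 426) (nat_lit 3498) (.f (nat_lit 556) (nat_lit 524) (nat_lit 7595) (.f (nat_lit 555) (nat_lit 527) (nat_lit 2571) (.f (nat_lit 586) (nat_lit 587) (nat_lit 1578) (.f (nat_lit 554) (nat_lit 585) (nat_lit 1577) (.d (nat_lit 522) (nat_lit 521) (nat_lit 3593) (nat_lit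 523) (nat_lit 3594))))))))))))) (.a (.f (nat_lit 430) (nat_lit 525) (nat_lit 5549) (.f (nat_lit 429) (nat_lit 397) (nat_lit 7565) (.f (nat_lit 461) (nat_lit 558) (nat_lit 7597) (.d (nat_lit 463) (nat_lit 428) (nat_lit 3500) (nat_lit 497) (nat_lit 461))))) (.f (nat_lit 525) (nat_lit 430) (nat_lit 5549) (.d (nat_lit 589) (nat_lit 493) (nat_lit 6605) (nat_lit 621) (nat_lit 6637)))))))
noncomputable def s39723 : Cert := .r (nat_lit 3773962425919908978220479233124013535802636758270068733672830389534698527211570754815266327499029589487658770175277021910785752992316193479149234696150755435435612176384) (.p (nat_lit 493) (.a (.f (nat_lit 461) (nat_lit 460) (nat_lit 3532) (.f (nat_lit 465) (nat_lit 464) (nat_lit 2509) (.d (nat_lit 497) (nat_lit 462) (nat_lit 3533) (nat_lit 466) (nat_lit 2510)))) (.a (.f (nat_lit 461) (nat_lit 460) (nat_lit 3532) (.f (nat_lit 462) (nat_lit 497) (nat_lit 3533) (.d (nat_lit 558) (nat_lit 429) (nat_lit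 7597) (nat_lit 590) (nat_lit 7629)))) (.a (.f (nat_lit 492) (nat_lit 527) (nat_lit 492) (.d (nat_lit 460) (nat_lit 459) (nat_lit 3531) (nat_lit 461) (nat_lit 3532))) (.a (.f (nat_lit 492) (nat_lit 527) (nat_lit 492) (.f (nat_lit 459) (nat_lit 460) (nat_lit 3531) (.f (nat_lit 491) (nat_lit 458) (nat_lit 3530) (.d (nat_lit 523) (nat_lit 522) (nat_lit 1514) (nat_lit 524) (nat_lit 1515))))) (.f (nat_lit 527) (nat_lit 492) (nat_lit 492) (.f (nat_lit 497) (nat_lit 498) (nat_lit 1518) (.d (nat_lit 465) (nat_lit 464) (nat_lit 2509) (nat_lit 466) (nat_lit 2510)))))))))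
noncomputable def s39740 : Cert := .r (nat_lit 3773962425919908978220479233124013535802636758270068733672830389534698527211570754815266327499029589487658770175277021910785752992316193479149234696150755435435612176384) (.p (nat_lit 493) (.a (.f (nat_lit 461) (nat_lit 460) (nat_lit 3532) (.f (nat_lit 465) (nat_lit 464) (nat_lit 2509) (.d (nat_lit 497) (nat_lit 462) (nat_lit 3533) (nat_lit 466) (nat_lit 2510)))) (.a (.f (nat_lit 461) (nat_lit 460) (nat_lit 3532) (.f (nat_lit 497) (nat_lit 462) (nat_lit 3533) (.d (nat_lit 465) (nat_lit 466) (nat_lit 2510) (nat_lit 592) (nat_lit 6608)))) (.a (.f (nat_lit 461) (nat_lit 460) (nat_lit 3532) (.f (nat_lit 462) (nat_lit 497) (nat_lit 3533) (.d (nat_lit 558) (nat_lit 429) (nat_lit 7597) (nat_lit 590) (nat_lit 7629)))) (.a (.f (nat_lit 465) (nat_lit 464) (nat_lit 2509) (.d (nat_lit 497) (nat_lit 466) (nat_lit 2510) (nat_lit 592) (nat_lit 6608))) (.f (nat_lit 461) (nat_lit 460) (nat_lit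 3532) (.f (nat_lit 429) (nat_lit 397) (nat_lit 4493) (.d (nat_lit 558) (nat_lit 462) (nat_lit 7597) (nat_lit 590) (nat_lit 7629)))))))))
noncomputable def s39891 : Cert := .r (nat_lit 4717453032235131078561650628444716479362910865279368003425557175314590102810356306825399007498878516063328113253347335612837768461179149842930451575598087933485381582848) (.p (nat_lit 462) (.a (.d (nat_lit 430) (nat_lit 398) (nat_lit 5517) (nat_lit 557) (nat_lit 5549)) (.a (.f (nat_lit 461) (nat_lit 429) (nat_lit 4525) (.f (nat_lit 430) (nat_lit 398) (nat_lit 5517) (.f (nat_lit 431) (nat_lit 399) (nat_lit 6542) (.f (nat_lit 460) (nat_lit 459) (nat_lit 2475) (.f (nat_lit 496) (nat_lit 495) (nat_lit 3532) (.f (nat_lit 433) (nat_lit 432) (nat_lit 1453) (.f (nat_lit 465) (nat_lit 464) (nat_lit 6576) (.d (nat_lit 497) (nat_lit 401) (nat_lit 5520) (nat_lit 592) (nat_lit 6608))))))))) (.f (nat_lit 461) (nat_lit 429) (nat_lit 4525) (.f (nat_lit 557)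 (nat_lit 589) (nat_lit 5581) (.f (nat_lit 460) (nat_lit 428) (nat_lit 7596) (.d (nat_lit 459) (nat_lit 458) (nat_lit 458) (nat_lit 495) (nat_lit 459))))))))
noncomputable def s40122 : Cert := .r (nat_lit 4717453032125294315973987508880817458218130529296591420246571772779567243795549402077785465380506041852719292777414468402832772512838634980175475457832173847598411546624) (.p (nat_lit 495) (.a (.p (nat_lit 496) (.a (.f (nat_lit 497) (nat_lit 525) (nat_lit 1517) (.d (nat_lit 465) (nat_lit 466) (nat_lit 2510) (nat_lit 592) (nat_lit 6608))) (.a (.f (nat_lit 525) (nat_lit 497) (nat_lit 1517) (.d (nat_lit 524) (nat_lit 493) (nat_lit 1516) (nat_lit 523) (nat_lit 2539))) (.f (nat_lit 463) (nat_lit 592) (nat_lit 7631) (.d (nat_lit 431) (nat_lit 399) (nat_lit 4495) (nat_lit 464) (nat_lit 7599)))))) (.a (.p (nat_lit 462) (.a (.f (nat_lit 463) (nat_lit 431) (nat_lit 6574) (.f (nat_lit 461) (nat_lit 429) (nat_lit 7597) (.f (nat_lit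 460) (nat_lit 459) (nat_lit 459) (.f (nat_lit 492) (nat_lit 491) (nat_lit 1483) (.d (nat_lit 493) (nat_lit 464) (nat_lit 1484) (nat_lit 527) (nat_lit 492)))))) (.a (.f (nat_lit 463) (nat_lit 431) (nat_lit 6574) (.f (nat_lit 461) (nat_lit 429) (nat_lit 7597) (.f (nat_lit 460) (nat_lit 459) (nat_lit 459) (.f (nat_lit 492) (nat_lit 491) (nat_lit 1483) (.f (nat_lit 464) (nat_lit 493) (nat_lit 1484) (.f (nat_lit 465) (nat_lit 466) (nat_lit 1486) (.d (nat_lit 433) (nat_lit 432) (nat_lit 2477) (nat_lit 434) (nat_lit 2478)))))))) (.a (.f (nat_lit 431) (nat_lit 463) (nat_lit 6574) (.f (nat_lit 430) (nat_lit 399) (nat_lit 6542) (.d (nat_lit 429) (nat_lit 397) (nat_lit 7565) (nat_lit 461) (nat_lit 7597)))) (.a (.f (nat_lit 429) (nat_lit 461) (nat_lit 7597) (.f (nat_lit 430) (nat_lit 397) (nat_lit 7565) (.f (nat_lit 399) (nat_lit 431) (nat_lit 6542) (.d (nat_lit 398) (nat_lit 367) (nat_lit 6510) (nat_lit 527) (nat_lit 4494))))) (.a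 (.f (nat_lit 429) (nat_lit 461) (nat_lit 7597) (.f (nat_lit 430) (nat_lit 397) (nat_lit 7565) (.f (nat_lit 398) (nat_lit 527) (nat_lit 4494) (.f (nat_lit 366) (nat_lit 463) (nat_lit 4462) (.d (nat_lit 367) (nat_lit 335) (nat_lit 6478) (nat_lit 399) (nat_lit 6510)))))) (.a (.f (nat_lit 431) (nat_lit 463) (nat_lit 6574) (.f (nat_lit 430) (nat_lit 399) (nat_lit 6542) (.f (nat_lit 398) (nat_lit 527) (nat_lit 4494) (.d (nat_lit 397) (nat_lit 365) (nat_lit 7533) (nat_lit 429) (nat_lit 7565))))) (.f (nat_lit 431) (nat_lit 463) (nat_lit 6574) (.f (nat_lit 430) (nat_lit 399) (nat_lit 6542) (.f (nat_lit 527) (nat_lit 398) (nat_lit 4494) (.f (nat_lit 525) (nat_lit 561) (nat_lit 525) (.d (nat_lit 524) (nat_lit 496) (nat_lit 2540) (nat_lit 523) (nat_lit 2539))))))))))))) (.a (.p (nat_lit 462) (.a (.f (nat_lit 463) (nat_lit 431) (nat_lit 6574) (.f (nat_lit 461) (nat_lit 429) (nat_lit 7597) (.f (nat_lit 460) (nat_lit 459) (nat_lit 459)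 (.f (nat_lit 492) (nat_lit 491) (nat_lit 1483) (.d (nat_lit 493) (nat_lit 464) (nat_lit 1484) (nat_lit 527) (nat_lit 492)))))) (.a (.f (nat_lit 463) (nat_lit 431) (nat_lit 6574) (.f (nat_lit 461) (nat_lit 429) (nat_lit 7597) (.f (nat_lit 460) (nat_lit 459) (nat_lit 459) (.f (nat_lit 492) (nat_lit 491) (nat_lit 1483) (.f (nat_lit 464) (nat_lit 493) (nat_lit 1484) (.f (nat_lit 465) (nat_lit 466) (nat_lit 1486) (.d (nat_lit 433) (nat_lit 432) (nat_lit 2477) (nat_lit 434) (nat_lit 2478)))))))) (.a (.f (nat_lit 431) (nat_lit 463) (nat_lit 6574) (.f (nat_lit 430) (nat_lit 399) (nat_lit 6542) (.d (nat_lit 429) (nat_lit 397) (nat_lit 7565) (nat_lit 461) (nat_lit 7597)))) (.a (.f (nat_lit 429) (nat_lit 461) (nat_lit 7597) (.f (nat_lit 430) (nat_lit 397) (nat_lit 7565) (.f (nat_lit 399) (nat_lit 431) (nat_lit 6542) (.d (nat_lit 398) (nat_lit 367) (nat_lit 6510) (nat_lit 527) (nat_lit 4494))))) (.a (.f (nat_lit 429) (nat_lit 461)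 (nat_lit 7597) (.f (nat_lit 430) (nat_lit 397) (nat_lit 7565) (.f (nat_lit 398) (nat_lit 527) (nat_lit 4494) (.f (nat_lit 366) (nat_lit 463) (nat_lit 4462) (.d (nat_lit 367) (nat_lit 335) (nat_lit 6478) (nat_lit 399) (nat_lit 6510)))))) (.a (.f (nat_lit 431) (nat_lit 463) (nat_lit 6574) (.f (nat_lit 430) (nat_lit 399) (nat_lit 6542) (.f (nat_lit 398) (nat_lit 527) (nat_lit 4494) (.d (nat_lit 397) (nat_lit 365) (nat_lit 7533) (nat_lit 429) (nat_lit 7565))))) (.f (nat_lit 431) (nat_lit 463) (nat_lit 6574) (.f (nat_lit 430) (nat_lit 399) (nat_lit 6542) (.f (nat_lit 527) (nat_lit 398) (nat_lit 4494) (.f (nat_lit 492) (nat_lit 493) (nat_lit 492) (.f (nat_lit 525) (nat_lit 561) (nat_lit 525) (.d (nat_lit 524) (nat_lit 491) (nat_lit 3563) (nat_lit 523) (nat_lit 2539)))))))))))))) (.a (.p (nat_lit 462) (.a (.f (nat_lit 463) (nat_lit 431) (nat_lit 6574) (.f (nat_lit 461) (nat_lit 429) (nat_lit 7597) (.f (nat_lit 460) (nat_lit 459)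 (nat_lit 459) (.f (nat_lit 492) (nat_lit 491) (nat_lit 1483) (.d (nat_lit 493) (nat_lit 464) (nat_lit 1484) (nat_lit 527) (nat_lit 492)))))) (.a (.f (nat_lit 463) (nat_lit 431) (nat_lit 6574) (.f (nat_lit 461) (nat_lit 429) (nat_lit 7597) (.f (nat_lit 460) (nat_lit 459) (nat_lit 459) (.f (nat_lit 492) (nat_lit 491) (nat_lit 1483) (.f (nat_lit 464) (nat_lit 493) (nat_lit 1484) (.f (nat_lit 465) (nat_lit 466) (nat_lit 1486) (.d (nat_lit 433) (nat_lit 432) (nat_lit 2477) (nat_lit 434) (nat_lit 2478)))))))) (.a (.f (nat_lit 431) (nat_lit 463) (nat_lit 6574) (.f (nat_lit 430) (nat_lit 399) (nat_lit 6542) (.d (nat_lit 429) (nat_lit 397) (nat_lit 7565) (nat_lit 461) (nat_lit 7597)))) (.a (.f (nat_lit 429) (nat_lit 461) (nat_lit 7597) (.f (nat_lit 430) (nat_lit 397) (nat_lit 7565) (.f (nat_lit 399) (nat_lit 431) (nat_lit 6542) (.d (nat_lit 398) (nat_lit 367) (nat_lit 6510) (nat_lit 527) (nat_lit 4494))))) (.a (.f (nat_lit 429)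 (nat_lit 461) (nat_lit 7597) (.f (nat_lit 430) (nat_lit 397) (nat_lit 7565) (.f (nat_lit 398) (nat_lit 527) (nat_lit 4494) (.f (nat_lit 366) (nat_lit 463) (nat_lit 4462) (.d (nat_lit 367) (nat_lit 335) (nat_lit 6478) (nat_lit 399) (nat_lit 6510)))))) (.a (.f (nat_lit 431) (nat_lit 463) (nat_lit 6574) (.f (nat_lit 430) (nat_lit 399) (nat_lit 6542) (.f (nat_lit 398) (nat_lit 527) (nat_lit 4494) (.d (nat_lit 397) (nat_lit 365) (nat_lit 7533) (nat_lit 429) (nat_lit 7565))))) (.f (nat_lit 463) (nat_lit 431) (nat_lit 6574) (.f (nat_lit 496) (nat_lit 592) (nat_lit 7631) (.d (nat_lit 497) (nat_lit 461) (nat_lit 3533) (nat_lit 498) (nat_lit 3534))))))))))) (.a (.p (nat_lit 496) (.a (.f (nat_lit 497) (nat_lit 525) (nat_lit 1517) (.d (nat_lit 465) (nat_lit 466) (nat_lit 2510) (nat_lit 592) (nat_lit 6608))) (.a (.f (nat_lit 525) (nat_lit 497) (nat_lit 1517) (.d (nat_lit 524) (nat_lit 493) (nat_lit 1516) (nat_lit 523) (nat_lit 2539)))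 (.f (nat_lit 463) (nat_lit 592) (nat_lit 7631) (.d (nat_lit 431) (nat_lit 399) (nat_lit 4495) (nat_lit 462) (nat_lit 6574)))))) (.a (.p (nat_lit 525) (.a (.f (nat_lit 527) (nat_lit 561) (nat_lit 525) (.d (nat_lit 524) (nat_lit 496) (nat_lit 2540) (nat_lit 523) (nat_lit 2539))) (.a (.f (nat_lit 496) (nat_lit 497) (nat_lit 1517) (.d (nat_lit 524) (nat_lit 493) (nat_lit 1516) (nat_lit 523) (nat_lit 2539))) (.a (.f (nat_lit 527) (nat_lit 561) (nat_lit 525) (.f (nat_lit 492) (nat_lit 493) (nat_lit 492) (.d (nat_lit 524) (nat_lit 491) (nat_lit 3563) (nat_lit 523) (nat_lit 2539)))) (.f (nat_lit 527) (nat_lit 561) (nat_lit 525) (.f (nat_lit 496) (nat_lit 497) (nat_lit 1517) (.f (nat_lit 493) (nat_lit 492) (nat_lit 492) (.d (nat_lit 461) (nat_lit 429) (nat_lit 4525) (nat_lit 460) (nat_lit 3532))))))))) (.p (nat_lit 496) (.a (.f (nat_lit 497) (nat_lit 525) (nat_lit 1517) (.d (nat_lit 465) (nat_lit 466) (nat_lit 2510) (nat_lit 592)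 (nat_lit 6608))) (.a (.f (nat_lit 497) (nat_lit 525) (nat_lit 1517) (.f (nat_lit 498) (nat_lit 527) (nat_lit 1518) (.d (nat_lit 462) (nat_lit 461) (nat_lit 3533) (nat_lit 463) (nat_lit 3534)))) (.f (nat_lit 463) (nat_lit 592) (nat_lit 7631) (.d (nat_lit 431) (nat_lit 399) (nat_lit 4495) (nat_lit 464) (nat_lit 7599)))))))))))))
noncomputable def s40149 : Cert := .r (nat_lit 4052261302452797718172567620359887070416409481892385314448600531272599908924985355514013317065191514490074290496567719713347233124914584336946911185364893120977859202482698190848) (.p (nat_lit 462) (.a (.d (nat_lit 461) (nat_lit 429) (nat_lit 7597) (nat_lit 493) (nat_lit 7629)) (.a (.f (nat_lit 431) (nat_lit 463) (nat_lit 6574) (.f (nat_lit 430) (nat_lit 399) (nat_lit 6542) (.d (nat_lit 429) (nat_lit 397) (nat_lit 7565) (nat_lit 461) (nat_lit 7597)))) (.a (.f (nat_lit 431) (nat_lit 463) (nat_lit 6574) (.f (nat_lit 430) (nat_lit 399) (nat_lit 6542) (.f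 (nat_lit 397) (nat_lit 429) (nat_lit 7565) (.f (nat_lit 398) (nat_lit 365) (nat_lit 7533) (.f (nat_lit 525) (nat_lit 493) (nat_lit 5517) (.f (nat_lit 591) (nat_lit 623) (nat_lit 4590) (.f (nat_lit 589) (nat_lit 621) (nat_lit 5613) (.d (nat_lit 561) (nat_lit 527) (nat_lit 525) (nat_lit 592) (nat_lit 2605))))))))) (.f (nat_lit 431) (nat_lit 463) (nat_lit 6574) (.f (nat_lit 430) (nat_lit 399) (nat_lit 6542) (.f (nat_lit 493) (nat_lit 461) (nat_lit 7629) (.f (nat_lit 525) (nat_lit 398) (nat_lit 5517) (.d (nat_lit 527) (nat_lit 492) (nat_lit 3564) (nat_lit 561) (nat_lit 525))))))))))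
noncomputable def s40150 : Cert := .r (nat_lit 4717453032125294315973987508880817458218130529296591420246571772779567243795549402077785465380506041852719292777414468402832772512838634980175475457832173847598411546624) (.p (nat_lit 590) (.a (.f (nat_lit 493) (nat_lit 461) (nat_lit 7629) (.f (nat_lit 525) (nat_lit 622) (nat_lit 7661) (.d (nat_lit 527) (nat_lit 492) (nat_lit 3564) (nat_lit 561) (nat_lit 525)))) (.a (.f (nat_lit 621) (nat_lit 589) (nat_lit 5613) (.f (nat_lit 622) (nat_lit 653) (nat_lit 5645) (.d (nat_lit 623) (nat_lit 591) (nat_lit 4590) (nat_lit 655) (nat_lit 4622)))) s40149)))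
noncomputable def s40282 : Cert := .r (nat_lit 4052261302452797718172567620359887070416409481892385314448600531272599908924985355514013317065191514490074290496567719713347233124914584336946911185364893120977859202482698190848) (.p (nat_lit 525) (.a (.f (nat_lit 527) (nat_lit 561) (nat_lit 525) (.f (nat_lit 495) (nat_lit 463) (nat_lit 6606) (.d (nat_lit 524) (nat_lit 496) (nat_lit 2540) (nat_lit 523) (nat_lit 2539)))) (.a (.f (nat_lit 495) (nat_lit 463) (nat_lit 6606) (.f (nat_lit 524) (nat_lit 523) (nat_lit 2539) (.d (nat_lit 496) (nat_lit 493) (nat_lit 1516) (nat_lit 497) (nat_lit 1517)))) (.a (.f (nat_lit 527) (nat_lit 561) (nat_lit 525) (.f (nat_lit 495) (nat_lit 463) (nat_lit 6606) (.f (nat_lit 492) (nat_lit 493) (nat_lit 3564) (.d (nat_lit 524) (nat_lit 491) (nat_lit 3563) (nat_lit 523) (nat_lit 2539))))) (.a (.f (nat_lit 527) (nat_lit 561) (nat_lit 525) (.f (nat_lit 496) (nat_lit 497) (nat_lit 2541) (.f (nat_lit 524)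 (nat_lit 495) (nat_lit 2540) (.d (nat_lit 492) (nat_lit 491) (nat_lit 3563) (nat_lit 493) (nat_lit 3564))))) (.a (.f (nat_lit 527) (nat_lit 561) (nat_lit 525) (.f (nat_lit 556) (nat_lit 557) (nat_lit 1548) (.f (nat_lit 524) (nat_lit 555) (nat_lit 1547) (.d (nat_lit 492) (nat_lit 491) (nat_lit 3563) (nat_lit 493) (nat_lit 3564))))) (.f (nat_lit 527) (nat_lit 561) (nat_lit 525) (.f (nat_lit 463) (nat_lit 495) (nat_lit 6606) (.f (nat_lit 462) (nat_lit 431) (nat_lit 6574) (.d (nat_lit 557) (nat_lit 430) (nat_lit 5549) (nat_lit 556) (nat_lit 1548)))))))))))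
noncomputable def s40451 : Cert := .r (nat_lit 4052261301509307111967182282299498425169342259163155009344490424178548333863579314915976104043659833195659598611200625955656271899971938179465713027224534558119685191570349359104) (.p (nat_lit 558) (.a (.f (nat_lit 495) (nat_lit 463) (nat_lit 6606) (.f (nat_lit 493) (nat_lit 461) (nat_lit 7629) (.d (nat_lit 527) (nat_lit 492) (nat_lit 492) (nat_lit 622) (nat_lit 6638)))) (.a (.f (nat_lit 493) (nat_lit 461) (nat_lit 7629) (.f (nat_lit 525) (nat_lit 622) (nat_lit 7661) (.f (nat_lit 495) (nat_lit 463) (nat_lit 6606) (.d (nat_lit 524) (nat_lit 496) (nat_lit 1516) (nat_lit 523) (nat_lit 2539))))) (.a (.f (nat_lit 493) (nat_lit 461) (nat_lit 7629) (.f (nat_lit 525) (nat_lit 622) (nat_lit 7661) (.d (nat_lit 527) (nat_lit 492) (nat_lit 3564) (nat_lit 561) (nat_lit 525)))) (.a (.f (nat_lit 495) (nat_lit 463) (nat_lit 6606) (.f (nat_lit 622) (nat_lit 527) (nat_lit 6638) (.d (nat_lit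 621) (nat_lit 589) (nat_lit 5613) (nat_lit 653) (nat_lit 5645)))) (.f (nat_lit 493) (nat_lit 461) (nat_lit 7629) (.f (nat_lit 495) (nat_lit 463) (nat_lit 6606) (.f (nat_lit 492) (nat_lit 527) (nat_lit 492) (.f (nat_lit 523) (nat_lit 524) (nat_lit 1515) (.f (nat_lit 491) (nat_lit 522) (nat_lit 1514) (.d (nat_lit 459) (nat_lit 458) (nat_lit 3530) (nat_lit 460) (nat_lit 3531))))))))))))
noncomputable def s40452 : Cert := .r (nat_lit 4052261301509307111967182282299498425169342259163155009344490424178548333863579314915976104043659833195659598611200625955656271899971938179465713027224534558119685191570349359104) (.p (nat_lit 558) (.a (.f (nat_lit 495) (nat_lit 463) (nat_lit 6606) (.f (nat_lit 493) (nat_lit 461) (nat_lit 7629) (.d (nat_lit 527) (nat_lit 492) (nat_lit 492) (nat_lit 622) (nat_lit 6638)))) (.a (.f (nat_lit 493) (nat_lit 461) (nat_lit 7629) (.f (nat_lit 525) (nat_lit 622) (nat_lit 7661) (.f (nat_lit 495) (nat_lit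 463) (nat_lit 6606) (.d (nat_lit 524) (nat_lit 496) (nat_lit 1516) (nat_lit 523) (nat_lit 2539))))) (.a (.f (nat_lit 493) (nat_lit 461) (nat_lit 7629) (.f (nat_lit 525) (nat_lit 622) (nat_lit 7661) (.d (nat_lit 527) (nat_lit 492) (nat_lit 3564) (nat_lit 561) (nat_lit 525)))) (.a (.f (nat_lit 495) (nat_lit 463) (nat_lit 6606) (.f (nat_lit 527) (nat_lit 622) (nat_lit 6638) (.f (nat_lit 525) (nat_lit 561) (nat_lit 525) (.d (nat_lit 524) (nat_lit 496) (nat_lit 2540) (nat_lit 523) (nat_lit 2539))))) (.f (nat_lit 493) (nat_lit 461) (nat_lit 7629) (.f (nat_lit 495) (nat_lit 463) (nat_lit 6606) (.f (nat_lit 492) (nat_lit 527) (nat_lit 492) (.f (nat_lit 524) (nat_lit 523) (nat_lit 1515) (.f (nat_lit 525) (nat_lit 496) (nat_lit 1516) (.f (nat_lit 460) (nat_lit 459) (nat_lit 3531) (.d (nat_lit 428) (nat_lit 396) (nat_lit 4492) (nat_lit 557) (nat_lit 4524)))))))))))))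
noncomputable def s40523 : Cert := .r (nat_lit 20261306492450685856156275499843096671311710353860174149952526868282660878445251761789831763993284029633932593186594333699387330788299185475898817847982205210702426611107495936000) (.p (nat_lit 591) (.a (.f (nat_lit 589) (nat_lit 561) (nat_lit 2605) (.f (nat_lit 624) (nat_lit 625) (nat_lit 589) (.d (nat_lit 623) (nat_lit 496) (nat_lit 5615) (nat_lit 588) (nat_lit 588)))) (.a (.f (nat_lit 589) (nat_lit 561) (nat_lit 2605) (.f (nat_lit 624) (nat_lit 625) (nat_lit 589) (.d (nat_lit 623) (nat_lit 588) (nat_lit 588) (nat_lit 655) (nat_lit 5647)))) (.a (.f (nat_lit 589) (nat_lit 561) (nat_lit 2605) (.f (nat_lit 557) (nat_lit 556) (nat_lit 3628) (.d (nat_lit 621) (nat_lit 525) (nat_lit 6637) (nat_lit 620) (nat_lit 1612)))) (.f (nat_lit 623) (nat_lit 496) (nat_lit 5615) (.d (nat_lit 655) (nat_lit 624) (nat_lit 5647) (nat_lit 687) (nat_lit 6703)))))))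
noncomputable def s40524 : Cert := .r (nat_lit 4052261301509307111967182282299498425169342259163155009344490424178548333863579314915976104043659833195659598611200625955656271899971938179465713027224534558119685191570349359104) (.p (nat_lit 592) (.a (.p (nat_lit 496) (.a (.f (nat_lit 495) (nat_lit 463) (nat_lit 7631) (.f (nat_lit 527) (nat_lit 624) (nat_lit 7663) (.d (nat_lit 497) (nat_lit 465) (nat_lit 6608) (nat_lit 498) (nat_lit 1518)))) (.a (.f (nat_lit 465) (nat_lit 497) (nat_lit 6608) (.f (nat_lit 464) (nat_lit 433) (nat_lit 6576) (.d (nat_lit 495) (nat_lit 463) (nat_lit 7631) (nat_lit 493) (nat_lit 2509)))) (.a (.f (nat_lit 497) (nat_lit 465) (nat_lit 6608) (.f (nat_lit 623) (nat_lit 591) (nat_lit 5615) (.f (nat_lit 624) (nat_lit 655) (nat_lit 5647) (.f (nat_lit 625) (nat_lit 657) (nat_lit 4624) (.f (nat_lit 525) (nat_lit 527) (nat_lit 2541) (.f (nat_lit 589) (nat_lit 622) (nat_lit 3661) (.f (nat_lit 557) (nat_lit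 621) (nat_lit 6637) (.d (nat_lit 462) (nat_lit 430) (nat_lit 5549) (nat_lit 493) (nat_lit 6605))))))))) (.f (nat_lit 591) (nat_lit 623) (nat_lit 5615) (.f (nat_lit 589) (nat_lit 561) (nat_lit 2605) (.f (nat_lit 620) (nat_lit 621) (nat_lit 1612) (.f (nat_lit 588) (nat_lit 619) (nat_lit 1611) (.d (nat_lit 556) (nat_lit 555) (nat_lit 3627) (nat_lit 557) (nat_lit 3628)))))))))) (.a (.p (nat_lit 496) (.a (.f (nat_lit 465) (nat_lit 497) (nat_lit 6608) (.f (nat_lit 464) (nat_lit 433) (nat_lit 6576) (.d (nat_lit 495) (nat_lit 463) (nat_lit 7631) (nat_lit 493) (nat_lit 2509)))) (.f (nat_lit 591) (nat_lit 623) (nat_lit 5615) (.f (nat_lit 589) (nat_lit 561) (nat_lit 2605) (.f (nat_lit 620) (nat_lit 621) (nat_lit 1612) (.f (nat_lit 588) (nat_lit 619) (nat_lit 1611) (.d (nat_lit 556) (nat_lit 555) (nat_lit 3627) (nat_lit 557) (nat_lit 3628)))))))) (.a (.p (nat_lit 624) (.a (.f (nat_lit 527) (nat_lit 495) (nat_lit 7663) (.f (nat_lit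 525) (nat_lit 561) (nat_lit 525) (.f (nat_lit 557) (nat_lit 556) (nat_lit 1548) (.f (nat_lit 589) (nat_lit 621) (nat_lit 6637) (.d (nat_lit 493) (nat_lit 462) (nat_lit 6605) (nat_lit 492) (nat_lit 3564)))))) (.a (.f (nat_lit 625) (nat_lit 657) (nat_lit 4624) (.f (nat_lit 591) (nat_lit 589) (nat_lit 589) (.d (nat_lit 626) (nat_lit 623) (nat_lit 3662) (nat_lit 627) (nat_lit 3663)))) (.f (nat_lit 655) (nat_lit 623) (nat_lit 5647) (.f (nat_lit 656) (nat_lit 687) (nat_lit 5679) (.d (nat_lit 657) (nat_lit 625) (nat_lit 4624) (nat_lit 689) (nat_lit 4656))))))) (.a (.p (nat_lit 495) (.a (.f (nat_lit 527) (nat_lit 624) (nat_lit 7663) (.f (nat_lit 525) (nat_lit 561) (nat_lit 525) (.f (nat_lit 493) (nat_lit 492) (nat_lit 492) (.f (nat_lit 557) (nat_lit 556) (nat_lit 1548) (.d (nat_lit 589) (nat_lit 462) (nat_lit 6605) (nat_lit 622) (nat_lit 4589)))))) (.a (.f (nat_lit 496) (nat_lit 463) (nat_lit 7631) (.d (nat_lit 497) (nat_lit 465)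 (nat_lit 6608) (nat_lit 525) (nat_lit 1517))) (.f (nat_lit 496) (nat_lit 463) (nat_lit 7631) (.f (nat_lit 497) (nat_lit 465) (nat_lit 6608) (.d (nat_lit 527) (nat_lit 498) (nat_lit 1518) (nat_lit 624) (nat_lit 7663))))))) (.a (.p (nat_lit 495) (.a (.f (nat_lit 496) (nat_lit 463) (nat_lit 7631) (.d (nat_lit 497) (nat_lit 465) (nat_lit 6608) (nat_lit 525) (nat_lit 1517))) (.a (.f (nat_lit 527) (nat_lit 624) (nat_lit 7663) (.f (nat_lit 492) (nat_lit 493) (nat_lit 492) (.f (nat_lit 525) (nat_lit 561) (nat_lit 525) (.d (nat_lit 524) (nat_lit 491) (nat_lit 3563) (nat_lit 523) (nat_lit 2539))))) (.f (nat_lit 496) (nat_lit 463) (nat_lit 7631) (.f (nat_lit 497) (nat_lit 465) (nat_lit 6608) (.d (nat_lit 527) (nat_lit 498) (nat_lit 1518) (nat_lit 624) (nat_lit 7663))))))) (.a (.p (nat_lit 496) (.a (.f (nat_lit 495) (nat_lit 463) (nat_lit 7631) (.f (nat_lit 527) (nat_lit 624) (nat_lit 7663) (.d (nat_lit 497) (nat_lit 465) (nat_lit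 6608) (nat_lit 498) (nat_lit 1518)))) (.a (.f (nat_lit 465) (nat_lit 497) (nat_lit 6608) (.f (nat_lit 464) (nat_lit 433) (nat_lit 6576) (.d (nat_lit 495) (nat_lit 463) (nat_lit 7631) (nat_lit 493) (nat_lit 2509)))) (.a (.f (nat_lit 497) (nat_lit 465) (nat_lit 6608) (.f (nat_lit 623) (nat_lit 591) (nat_lit 5615) (.f (nat_lit 624) (nat_lit 655) (nat_lit 5647) (.f (nat_lit 625) (nat_lit 657) (nat_lit 4624) (.f (nat_lit 525) (nat_lit 527) (nat_lit 2541) (.f (nat_lit 589) (nat_lit 622) (nat_lit 3661) (.f (nat_lit 557) (nat_lit 621) (nat_lit 6637) (.d (nat_lit 462) (nat_lit 430) (nat_lit 5549) (nat_lit 493) (nat_lit 6605))))))))) (.a (.f (nat_lit 495) (nat_lit 463) (nat_lit 7631) (.f (nat_lit 527) (nat_lit 624) (nat_lit 7663) (.d (nat_lit 497) (nat_lit 498) (nat_lit 1518) (nat_lit 525) (nat_lit 1517)))) (.f (nat_lit 495) (nat_lit 463) (nat_lit 7631) (.f (nat_lit 527) (nat_lit 624) (nat_lit 7663) (.f (nat_lit 493) (nat_lit 492)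 (nat_lit 492) (.f (nat_lit 525) (nat_lit 524) (nat_lit 2540) (.f (nat_lit 557) (nat_lit 556) (nat_lit 1548) (.d (nat_lit 589) (nat_lit 462) (nat_lit 6605) (nat_lit 622) (nat_lit 4589)))))))))))) s40523)))))))
noncomputable def s40554 : Cert := .r (nat_lit 4052261301509307111967182282299498425169342259163155009344490424178548333863579314915976104043659833195659598611200625955656271899971938179465713027224534558119685191570349359104) (.p (nat_lit 558) (.a (.f (nat_lit 495) (nat_lit 463) (nat_lit 6606) (.f (nat_lit 622) (nat_lit 527) (nat_lit 6638) (.d (nat_lit 621) (nat_lit 589) (nat_lit 5613) (nat_lit 653) (nat_lit 5645)))) (.a (.f (nat_lit 621) (nat_lit 589) (nat_lit 5613) (.f (nat_lit 622) (nat_lit 653) (nat_lit 5645) (.d (nat_lit 623) (nat_lit 591) (nat_lit 4590) (nat_lit 655) (nat_lit 4622)))) (.a (.f (nat_lit 495) (nat_lit 463) (nat_lit 6606) (.f (nat_lit 527) (nat_lit 622) (nat_lit 6638) (.f (nat_lit 525) (nat_lit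 561) (nat_lit 525) (.d (nat_lit 524) (nat_lit 496) (nat_lit 2540) (nat_lit 523) (nat_lit 2539))))) (.f (nat_lit 495) (nat_lit 463) (nat_lit 6606) (.f (nat_lit 591) (nat_lit 623) (nat_lit 4590) (.f (nat_lit 589) (nat_lit 621) (nat_lit 5613) (.f (nat_lit 592) (nat_lit 561) (nat_lit 2605) (.d (nat_lit 624) (nat_lit 527) (nat_lit 7663) (nat_lit 625) (nat_lit 589))))))))))
noncomputable def s40716 : Cert := .r (nat_lit 3773962425919908977862452135385373018769944135179550076399135165748738315861835761429751693517268310047301103827131254722407521915864310712516097261444540570227804471296) (.p (nat_lit 494) (.a (.p (nat_lit 558) (.a s37633 (.a s38565 (.a (.p (nat_lit 590) (.a (.f (nat_lit 589) (nat_lit 621) (nat_lit 5613) (.f (nat_lit 462) (nat_lit 557) (nat_lit 5581) (.d (nat_lit 463) (nat_lit 431) (nat_lit 6574) (nat_lit 495) (nat_lit 6606)))) (.a (.f (nat_lit 589) (nat_lit 621) (nat_lit 5613) (.f (nat_lit 462) (nat_lit 557) (nat_lit 5581) (.d (nat_lit 461) (nat_lit 429) (nat_lit 7597) (nat_lit 493) (nat_lit 7629)))) (.f (nat_lit 493) (nat_lit 461) (nat_lit 7629) (.f (nat_lit 525) (nat_lit 622) (nat_lit 7661) (.f (nat_lit 495) (nat_lit 463) (nat_lit 6606) (.d (nat_lit 524) (nat_lit 496) (nat_lit 1516) (nat_lit 523) (nat_lit 2539)))))))) (.a s39194 (.a (.p (nat_lit 590) (.a (.f (nat_lit 589) (nat_lit 621) (nat_lit 5613) (.f (nat_lit 462) (nat_lit 557) (nat_lit 5581) (.d (nat_lit 463) (nat_lit 431) (nat_lit 6574) (nat_lit 495) (nat_lit 6606)))) (.a (.f (nat_lit 589) (nat_lit 621) (nat_lit 5613) (.f (nat_lit 462) (nat_lit 557) (nat_lit 5581) (.d (nat_lit 461) (nat_lit 429) (nat_lit 7597) (nat_lit 493) (nat_lit 7629)))) (.a (.f (nat_lit 463) (nat_lit 495) (nat_lit 6606) (.f (nat_lit 462) (nat_lit 431) (nat_lit 6574) (.d (nat_lit 461) (nat_lit 429) (nat_lit 7597) (nat_lit 493) (nat_lit 7629)))) (.f (nat_lit 621) (nat_lit 589) (nat_lit 5613) (.f (nat_lit 622) (nat_lit 653) (nat_lit 5645) (.d (nat_lit 623) (nat_lit 591) (nat_lit 4590) (nat_lit 655) (nat_lit 4622)))))))) (.a s38622 (.a s39209 (.a s39225 (.a s39237 (.a (.p (nat_lit 462) (.a (.f (nat_lit 431) (nat_lit 463) (nat_lit 6574) (.f (nat_lit 430) (nat_lit 399) (nat_lit 6542) (.d (nat_lit 429) (nat_lit 397) (nat_lit 7565) (nat_lit 461) (nat_lit 7597)))) (.a (.f (nat_lit 557) (nat_lit 589) (nat_lit 5581) (.f (nat_lit 430) (nat_lit 525) (nat_lit 5549) (.d (nat_lit 429) (nat_lit 397) (nat_lit 7565) (nat_lit 461) (nat_lit 7597)))) (.f (nat_lit 463) (nat_lit 431) (nat_lit 6574) (.f (nat_lit 495) (nat_lit 590) (nat_lit 6606) (.f (nat_lit 496) (nat_lit 592) (nat_lit 7631) (.d (nat_lit 497) (nat_lit 498) (nat_lit 3534) (nat_lit 525) (nat_lit 1517)))))))) s38642))))))))))) (.a (.p (nat_lit 496) (.a s38771 (.a (.p (nat_lit 558) (.a s37843 (.a s37847 (.a s37896 (.a s37914 (.a (.p (nat_lit 462) (.a (.f (nat_lit 461) (nat_lit 429) (nat_lit 7597) (.f (nat_lit 495) (nat_lit 497) (nat_lit 3533) (.d (nat_lit 460) (nat_lit 459) (nat_lit 459) (nat_lit 493) (nat_lit 3532)))) (.a (.f (nat_lit 557) (nat_lit 589) (nat_lit 5581) (.f (nat_lit 430) (nat_lit 525) (nat_lit 5549) (.d (nat_lit 429) (nat_lit 397) (nat_lit 7565) (nat_lit 461) (nat_lit 7597)))) (.f (nat_lit 557) (nat_lit 589) (nat_lit 5581) (.f (nat_lit 525) (nat_lit 430) (nat_lit 5549) (.f (nat_lit 495) (nat_lit 497) (nat_lit 1517) (.d (nat_lit 524) (nat_lit 493) (nat_lit 1516) (nat_lit 523) (nat_lit 2539)))))))) (.a (.p (nat_lit 590) (.a (.f (nat_lit 621) (nat_lit 589) (nat_lit 5613) (.f (nat_lit 622) (nat_lit 653) (nat_lit 5645) (.d (nat_lit 623) (nat_lit 591) (nat_lit 4590) (nat_lit 655) (nat_lit 4622)))) (.f (nat_lit 495) (nat_lit 463) (nat_lit 6606) (.f (nat_lit 525) (nat_lit 497) (nat_lit 1517) (.d (nat_lit 493) (nat_lit 461) (nat_lit 7629) (nat_lit 524) (nat_lit 1516)))))) (.a s37917 (.a (.p (nat_lit 590) (.a (.f (nat_lit 621) (nat_lit 589) (nat_lit 5613) (.f (nat_lit 622) (nat_lit 653) (nat_lit 5645) (.d (nat_lit 623) (nat_lit 591) (nat_lit 4590) (nat_lit 655) (nat_lit 4622)))) (.f (nat_lit 495) (nat_lit 463) (nat_lit 6606) (.f (nat_lit 497) (nat_lit 525) (nat_lit 1517) (.f (nat_lit 465) (nat_lit 466) (nat_lit 2510) (.d (nat_lit 433) (nat_lit 401) (nat_lit 5520) (nat_lit 464) (nat_lit 6576))))))) (.p (nat_lit 590) (.a (.f (nat_lit 461) (nat_lit 493) (nat_lit 7629) (.f (nat_lit 462) (nat_lit 429) (nat_lit 7597) (.d (nat_lit 463) (nat_lit 431) (nat_lit 6574) (nat_lit 495) (nat_lit 6606)))) (.a (.f (nat_lit 461) (nat_lit 493) (nat_lit 7629) (.f (nat_lit 462) (nat_lit 429) (nat_lit 7597) (.d (nat_lit 589) (nat_lit 557) (nat_lit 5581) (nat_lit 621) (nat_lit 5613)))) (.f (nat_lit 621) (nat_lit 589) (nat_lit 5613) (.f (nat_lit 622) (nat_lit 653) (nat_lit 5645) (.d (nat_lit 623) (nat_lit 591) (nat_lit 4590) (nat_lit 655) (nat_lit 4622)))))))))))))))) (.a (.p (nat_lit 525) (.a (.f (nat_lit 495) (nat_lit 497) (nat_lit 1517) (.d (nat_lit 524) (nat_lit 493) (nat_lit 1516) (nat_lit 523) (nat_lit 2539))) (.a (.d (nat_lit 527) (nat_lit 497) (nat_lit 2541) (nat_lit 561) (nat_lit 525)) (.f (nat_lit 527) (nat_lit 561) (nat_lit 525) (.f (nat_lit 495) (nat_lit 524) (nat_lit 2540) (.f (nat_lit 493) (nat_lit 492) (nat_lit 3564) (.f (nat_lit 461) (nat_lit 460) (nat_lit 3532) (.d (nat_lit 429) (nat_lit 397) (nat_lit 4493) (nat_lit 558) (nat_lit 4525))))))))) (.a (.p (nat_lit 525) (.a (.f (nat_lit 495) (nat_lit 497) (nat_lit 1517) (.d (nat_lit 524) (nat_lit 493) (nat_lit 1516) (nat_lit 523) (nat_lit 2539))) (.a (.d (nat_lit 527) (nat_lit 497) (nat_lit 2541) (nat_lit 561) (nat_lit 525)) (.f (nat_lit 527) (nat_lit 561) (nat_lit 525) (.f (nat_lit 493) (nat_lit 492) (nat_lit 3564) (.f (nat_lit 557) (nat_lit 556) (nat_lit 1548) (.d (nat_lit 462) (nat_lit 430) (nat_lit 5549) (nat_lit 589) (nat_lit 6605)))))))) (.a (.p (nat_lit 462) (.a (.p (nat_lit 430) (.a (.f (nat_lit 429) (nat_lit 397) (nat_lit 7565) (.f (nat_lit 431) (nat_lit 399) (nat_lit 6542) (.f (nat_lit 461) (nat_lit 558) (nat_lit 7597) (.d (nat_lit 460) (nat_lit 432) (nat_lit 1452) (nat_lit 459) (nat_lit 2475))))) (.a (.f (nat_lit 525) (nat_lit 557) (nat_lit 5549) (.f (nat_lit 398) (nat_lit 493) (nat_lit 5517) (.d (nat_lit 399) (nat_lit 367) (nat_lit 6510) (nat_lit 431) (nat_lit 6542)))) (.f (nat_lit 525) (nat_lit 557) (nat_lit 5549) (.f (nat_lit 398) (nat_lit 493) (nat_lit 5517) (.d (nat_lit 397) (nat_lit 365) (nat_lit 7533) (nat_lit 429) (nat_lit 7565))))))) (.a s39281 (.a (.p (nat_lit 558) (.a (.f (nat_lit 557) (nat_lit 589) (nat_lit 5581) (.f (nat_lit 430) (nat_lit 525) (nat_lit 5549) (.d (nat_lit 429) (nat_lit 397) (nat_lit 7565) (nat_lit 461) (nat_lit 7597)))) (.a (.f (nat_lit 589) (nat_lit 557) (nat_lit 5581) (.f (nat_lit 590) (nat_lit 621) (nat_lit 5613) (.d (nat_lit 461) (nat_lit 429) (nat_lit 7597) (nat_lit 493) (nat_lit 7629)))) (.a (.f (nat_lit 461) (nat_lit 429) (nat_lit 7597) (.f (nat_lit 590) (nat_lit 493) (nat_lit 7629) (.f (nat_lit 621) (nat_lit 589) (nat_lit 5613) (.f (nat_lit 622) (nat_lit 653) (nat_lit 5645) (.d (nat_lit 623) (nat_lit 591) (nat_lit 4590) (nat_lit 655) (nat_lit 4622)))))) (.a (.f (nat_lit 461) (nat_lit 429) (nat_lit 7597) (.f (nat_lit 590) (nat_lit 493) (nat_lit 7629) (.f (nat_lit 623) (nat_lit 591) (nat_lit 4590) (.f (nat_lit 622) (nat_lit 655) (nat_lit 4622) (.f (nat_lit 653) (nat_lit 621) (nat_lit 5645) (.f (nat_lit 654) (nat_lit 685) (nat_lit 5677) (.f (nat_lit 525) (nat_lit 557) (nat_lit 7693) (.d (nat_lit 527) (nat_lit 497) (nat_lit 2541) (nat_lit 561) (nat_lit 525))))))))) (.f (nat_lit 557) (nat_lit 589) (nat_lit 5581) (.f (nat_lit 525) (nat_lit 430) (nat_lit 5549) (.d (nat_lit 527) (nat_lit 497) (nat_lit 2541) (nat_lit 561) (nat_lit 525))))))))) (.a s39303 (.a (.p (nat_lit 464) (.a (.f (nat_lit 431) (nat_lit 463) (nat_lit 7599) (.d (nat_lit 399) (nat_lit 430) (nat_lit 6542) (nat_lit 432) (nat_lit 7567))) (.a (.f (nat_lit 433) (nat_lit 465) (nat_lit 6576) (.f (nat_lit 432) (nat_lit 401) (nat_lit 6544) (.f (nat_lit 399) (nat_lit 431) (nat_lit 7567) (.f (nat_lit 400) (nat_lit 367) (nat_lit 7535) (.f (nat_lit 397) (nat_lit 398) (nat_lit 397) (.f (nat_lit 430) (nat_lit 429) (nat_lit 7565) (.f (nat_lit 525) (nat_lit 557) (nat_lit 5549) (.d (nat_lit 527) (nat_lit 497) (nat_lit 2541) (nat_lit 561) (nat_lit 525))))))))) (.a (.f (nat_lit 465) (nat_lit 433) (nat_lit 6576) (.f (nat_lit 463) (nat_lit 493) (nat_lit 1485) (.f (nat_lit 497) (nat_lit 498) (nat_lit 462) (.f (nat_lit 430) (nat_lit 429) (nat_lit 3501) (.d (nat_lit 525) (nat_lit 527) (nat_lit 2541) (nat_lit 557) (nat_lit 5549)))))) (.f (nat_lit 463) (nat_lit 431) (nat_lit 7599) (.d (nat_lit 465) (nat_lit 433) (nat_lit 6576) (nat_lit 493) (nat_lit 1485))))))) (.a s39326 (.p (nat_lit 558) (.a (.f (nat_lit 463) (nat_lit 431) (nat_lit 6574) (.f (nat_lit 461) (nat_lit 429) (nat_lit 7597) (.f (nat_lit 464) (nat_lit 497) (nat_lit 461) (.d (nat_lit 493) (nat_lit 465) (nat_lit 1485) (nat_lit 492) (nat_lit 1484))))) (.a (.f (nat_lit 589) (nat_lit 557) (nat_lit 5581) (.f (nat_lit 590) (nat_lit 621) (nat_lit 5613) (.d (nat_lit 461) (nat_lit 429) (nat_lit 7597) (nat_lit 493) (nat_lit 7629)))) (.a (.f (nat_lit 463) (nat_lit 431) (nat_lit 6574) (.f (nat_lit 461) (nat_lit 429) (nat_lit 7597) (.f (nat_lit 464) (nat_lit 497) (nat_lit 461) (.d (nat_lit 433) (nat_lit 432) (nat_lit 2477) (nat_lit 465) (nat_lit 6576))))) (.f (nat_lit 589) (nat_lit 557) (nat_lit 5581) (.f (nat_lit 590) (nat_lit 621) (nat_lit 5613) (.f (nat_lit 623) (nat_lit 591) (nat_lit 4590) (.f (nat_lit 622) (nat_lit 655) (nat_lit 4622) (.f (nat_lit 525) (nat_lit 493) (nat_lit 7661) (.d (nat_lit 527) (nat_lit 497) (nat_lit 2541) (nat_lit 561) (nat_lit 525)))))))))))))))))) (.a s39364 s39373))))))) (.a (.p (nat_lit 462) (.a (.p (nat_lit 558) (.a (.f (nat_lit 557) (nat_lit 589) (nat_lit 5581) (.f (nat_lit 525) (nat_lit 430) (nat_lit 5549) (.d (nat_lit 527) (nat_lit 556) (nat_lit 1548) (nat_lit 561) (nat_lit 525)))) (.a (.f (nat_lit 431) (nat_lit 463) (nat_lit 6574) (.f (nat_lit 430) (nat_lit 399) (nat_lit 6542) (.d (nat_lit 429) (nat_lit 397) (nat_lit 7565) (nat_lit 461) (nat_lit 7597)))) (.f (nat_lit 463) (nat_lit 431) (nat_lit 6574) (.f (nat_lit 590) (nat_lit 495) (nat_lit 6606) (.d (nat_lit 589) (nat_lit 557) (nat_lit 5581) (nat_lit 621) (nat_lit 5613))))))) (.a (.p (nat_lit 558) (.a (.f (nat_lit 431) (nat_lit 463) (nat_lit 6574) (.f (nat_lit 430) (nat_lit 399) (nat_lit 6542) (.d (nat_lit 429) (nat_lit 397) (nat_lit 7565) (nat_lit 461) (nat_lit 7597)))) (.a (.f (nat_lit 429) (nat_lit 461) (nat_lit 7597) (.f (nat_lit 430) (nat_lit 397) (nat_lit 7565) (.f (nat_lit 525) (nat_lit 557) (nat_lit 5549) (.f (nat_lit 399) (nat_lit 431) (nat_lit 6542) (.d (nat_lit 398) (nat_lit 367) (nat_lit 6510) (nat_lit 493) (nat_lit 5517)))))) (.a (.f (nat_lit 557) (nat_lit 589) (nat_lit 5581) (.f (nat_lit 430) (nat_lit 525) (nat_lit 5549) (.d (nat_lit 429) (nat_lit 397) (nat_lit 7565) (nat_lit 461) (nat_lit 7597)))) (.f (nat_lit 463) (nat_lit 431) (nat_lit 6574) (.f (nat_lit 590) (nat_lit 495) (nat_lit 6606) (.d (nat_lit 589) (nat_lit 557) (nat_lit 5581) (nat_lit 621) (nat_lit 5613)))))))) (.a s39391 (.a (.p (nat_lit 558) (.a (.f (nat_lit 431) (nat_lit 463) (nat_lit 6574) (.f (nat_lit 430) (nat_lit 399) (nat_lit 6542) (.d (nat_lit 429) (nat_lit 397) (nat_lit 7565) (nat_lit 461) (nat_lit 7597)))) (.a (.f (nat_lit 461) (nat_lit 429) (nat_lit 7597) (.f (nat_lit 590) (nat_lit 493) (nat_lit 7629) (.d (nat_lit 589) (nat_lit 557) (nat_lit 5581) (nat_lit 621) (nat_lit 5613)))) (.f (nat_lit 463) (nat_lit 431) (nat_lit 6574) (.f (nat_lit 590) (nat_lit 495) (nat_lit 6606) (.d (nat_lit 589) (nat_lit 557) (nat_lit 5581) (nat_lit 621) (nat_lit 5613))))))) (.a (.p (nat_lit 558) (.a (.f (nat_lit 557) (nat_lit 589) (nat_lit 5581) (.f (nat_lit 525) (nat_lit 430) (nat_lit 5549) (.d (nat_lit 527) (nat_lit 556) (nat_lit 1548) (nat_lit 561) (nat_lit 525)))) (.a (.f (nat_lit 429) (nat_lit 461) (nat_lit 7597) (.f (nat_lit 430) (nat_lit 397) (nat_lit 7565) (.f (nat_lit 525) (nat_lit 557) (nat_lit 5549) (.f (nat_lit 399) (nat_lit 431) (nat_lit 6542) (.d (nat_lit 398) (nat_lit 367) (nat_lit 6510) (nat_lit 493) (nat_lit 5517)))))) (.a (.f (nat_lit 461) (nat_lit 429) (nat_lit 7597) (.f (nat_lit 590) (nat_lit 493) (nat_lit 7629) (.d (nat_lit 589) (nat_lit 557) (nat_lit 5581) (nat_lit 621) (nat_lit 5613)))) (.f (nat_lit 461) (nat_lit 429) (nat_lit 7597) (.f (nat_lit 590) (nat_lit 493) (nat_lit 7629) (.f (nat_lit 623) (nat_lit 591) (nat_lit 4590) (.f (nat_lit 622) (nat_lit 655) (nat_lit 4622) (.d (nat_lit 621) (nat_lit 589) (nat_lit 5613) (nat_lit 653) (nat_lit 5645)))))))))) (.a (.p (nat_lit 558) (.a (.f (nat_lit 431) (nat_lit 463) (nat_lit 6574) (.f (nat_lit 430) (nat_lit 399) (nat_lit 6542) (.d (nat_lit 429) (nat_lit 397) (nat_lit 7565) (nat_lit 461) (nat_lit 7597)))) (.a (.f (nat_lit 461) (nat_lit 429) (nat_lit 7597) (.f (nat_lit 590) (nat_lit 493) (nat_lit 7629) (.f (nat_lit 623) (nat_lit 591) (nat_lit 4590) (.f (nat_lit 622) (nat_lit 655) (nat_lit 4622) (.d (nat_lit 621) (nat_lit 589) (nat_lit 5613) (nat_lit 653) (nat_lit 5645)))))) (.f (nat_lit 463) (nat_lit 431) (nat_lit 6574) (.f (nat_lit 590) (nat_lit 495) (nat_lit 6606) (.f (nat_lit 623) (nat_lit 591) (nat_lit 4590) (.f (nat_lit 622) (nat_lit 655) (nat_lit 4622) (.d (nat_lit 621) (nat_lit 589) (nat_lit 5613) (nat_lit 653) (nat_lit 5645))))))))) (.a (.p (nat_lit 558) (.a (.f (nat_lit 431) (nat_lit 463) (nat_lit 6574) (.f (nat_lit 430) (nat_lit 399) (nat_lit 6542) (.d (nat_lit 429) (nat_lit 397) (nat_lit 7565) (nat_lit 461) (nat_lit 7597)))) (.a (.f (nat_lit 429) (nat_lit 461) (nat_lit 7597) (.f (nat_lit 430) (nat_lit 397) (nat_lit 7565) (.f (nat_lit 525) (nat_lit 557) (nat_lit 5549) (.f (nat_lit 399) (nat_lit 431) (nat_lit 6542) (.d (nat_lit 398) (nat_lit 367) (nat_lit 6510) (nat_lit 493) (nat_lit 5517)))))) (.a (.f (nat_lit 461) (nat_lit 429) (nat_lit 7597) (.f (nat_lit 590) (nat_lit 493) (nat_lit 7629) (.f (nat_lit 495) (nat_lit 463) (nat_lit 6606) (.f (nat_lit 527) (nat_lit 622) (nat_lit 6638) (.f (nat_lit 525) (nat_lit 561) (nat_lit 525) (.d (nat_lit 430) (nat_lit 398) (nat_lit 4494) (nat_lit 557) (nat_lit 5549))))))) (.a (.f (nat_lit 463) (nat_lit 431) (nat_lit 6574) (.f (nat_lit 590) (nat_lit 495) (nat_lit 6606) (.f (nat_lit 623) (nat_lit 591) (nat_lit 4590) (.f (nat_lit 622) (nat_lit 655) (nat_lit 4622) (.f (nat_lit 525) (nat_lit 493) (nat_lit 7661) (.d (nat_lit 557) (nat_lit 430) (nat_lit 5549) (nat_lit 654) (nat_lit 7693))))))) (.f (nat_lit 463) (nat_lit 431) (nat_lit 6574) (.f (nat_lit 461) (nat_lit 429) (nat_lit 7597) (.d (nat_lit 590) (nat_lit 493) (nat_lit 7629) (nat_lit 495) (nat_lit 6606))))))))) (.a (.p (nat_lit 525) (.a (.f (nat_lit 527) (nat_lit 561) (nat_lit 525) (.d (nat_lit 557) (nat_lit 430) (nat_lit 5549) (nat_lit 556) (nat_lit 1548))) (.a (.f (nat_lit 430) (nat_lit 557) (nat_lit 5549) (.f (nat_lit 398) (nat_lit 493) (nat_lit 5517) (.d (nat_lit 399) (nat_lit 367) (nat_lit 6510) (nat_lit 431) (nat_lit 6542)))) (.a (.f (nat_lit 527) (nat_lit 561) (nat_lit 525) (.f (nat_lit 493) (nat_lit 492) (nat_lit 3564) (.f (nat_lit 430) (nat_lit 398) (nat_lit 5517) (.f (nat_lit 429) (nat_lit 397) (nat_lit 7565) (.f (nat_lit 431) (nat_lit 399) (nat_lit 6542) (.f (nat_lit 463) (nat_lit 495) (nat_lit 4527) (.d (nat_lit 428) (nat_lit 427) (nat_lit 427) (nat_lit 464) (nat_lit 428)))))))) (.f (nat_lit 527) (nat_lit 561) (nat_lit 525) (.f (nat_lit 493) (nat_lit 492) (nat_lit 3564) (.d (nat_lit 557) (nat_lit 556) (nat_lit 1548) (nat_lit 589) (nat_lit 6605)))))))) (.a (.p (nat_lit 558) (.a (.f (nat_lit 557) (nat_lit 589) (nat_lit 5581) (.f (nat_lit 525) (nat_lit 430) (nat_lit 5549) (.d (nat_lit 527) (nat_lit 556) (nat_lit 1548) (nat_lit 561) (nat_lit 525)))) (.a (.f (nat_lit 557) (nat_lit 589) (nat_lit 5581) (.f (nat_lit 430) (nat_lit 525) (nat_lit 5549) (.d (nat_lit 429) (nat_lit 397) (nat_lit 7565) (nat_lit 461) (nat_lit 7597)))) (.a (.f (nat_lit 461) (nat_lit 429) (nat_lit 7597) (.f (nat_lit 590) (nat_lit 493) (nat_lit 7629) (.d (nat_lit 589) (nat_lit 557) (nat_lit 5581) (nat_lit 621) (nat_lit 5613)))) (.a (.f (nat_lit 461) (nat_lit 429) (nat_lit 7597) (.f (nat_lit 590) (nat_lit 493) (nat_lit 7629) (.f (nat_lit 623) (nat_lit 591) (nat_lit 4590) (.f (nat_lit 622) (nat_lit 655) (nat_lit 4622) (.d (nat_lit 621) (nat_lit 589) (nat_lit 5613) (nat_lit 653) (nat_lit 5645)))))) (.f (nat_lit 461) (nat_lit 429) (nat_lit 7597) (.f (nat_lit 590) (nat_lit 493) (nat_lit 7629) (.f (nat_lit 495) (nat_lit 463) (nat_lit 6606) (.f (nat_lit 527) (nat_lit 622) (nat_lit 6638) (.f (nat_lit 525) (nat_lit 561) (nat_lit 525) (.d (nat_lit 430) (nat_lit 398) (nat_lit 4494) (nat_lit 557) (nat_lit 5549)))))))))))) (.a (.p (nat_lit 558) (.a (.f (nat_lit 557) (nat_lit 589) (nat_lit 5581) (.f (nat_lit 525) (nat_lit 430) (nat_lit 5549) (.d (nat_lit 527) (nat_lit 556) (nat_lit 1548) (nat_lit 561) (nat_lit 525)))) (.a (.f (nat_lit 463) (nat_lit 431) (nat_lit 6574) (.f (nat_lit 590) (nat_lit 495) (nat_lit 6606) (.d (nat_lit 589) (nat_lit 557) (nat_lit 5581) (nat_lit 621) (nat_lit 5613)))) (.a (.f (nat_lit 463) (nat_lit 431) (nat_lit 6574) (.f (nat_lit 590) (nat_lit 495) (nat_lit 6606) (.f (nat_lit 623) (nat_lit 591) (nat_lit 4590) (.f (nat_lit 622) (nat_lit 655) (nat_lit 4622) (.d (nat_lit 621) (nat_lit 589) (nat_lit 5613) (nat_lit 653) (nat_lit 5645)))))) (.f (nat_lit 463) (nat_lit 431) (nat_lit 6574) (.f (nat_lit 590) (nat_lit 495) (nat_lit 6606) (.f (nat_lit 623) (nat_lit 591) (nat_lit 4590) (.f (nat_lit 622) (nat_lit 655) (nat_lit 4622) (.f (nat_lit 525) (nat_lit 493) (nat_lit 7661) (.d (nat_lit 557) (nat_lit 430) (nat_lit 5549) (nat_lit 654) (nat_lit 7693))))))))))) (.p (nat_lit 492) (.a (.p (nat_lit 558) (.a (.f (nat_lit 463) (nat_lit 431) (nat_lit 6574) (.f (nat_lit 493) (nat_lit 491) (nat_lit 2507) (.d (nat_lit 590) (nat_lit 461) (nat_lit 7629) (nat_lit 495) (nat_lit 6606)))) (.a (.f (nat_lit 463) (nat_lit 431) (nat_lit 6574) (.f (nat_lit 493) (nat_lit 491) (nat_lit 2507) (.d (nat_lit 527) (nat_lit 495) (nat_lit 492) (nat_lit 525) (nat_lit 3564)))) (.a (.f (nat_lit 461) (nat_lit 429) (nat_lit 7597) (.f (nat_lit 493) (nat_lit 590) (nat_lit 7629) (.d (nat_lit 527) (nat_lit 491) (nat_lit 491) (nat_lit 525) (nat_lit 3564)))) (.f (nat_lit 463) (nat_lit 431) (nat_lit 6574) (.f (nat_lit 590) (nat_lit 495) (nat_lit 6606) (.d (nat_lit 589) (nat_lit 557) (nat_lit 5581) (nat_lit 621) (nat_lit 5613)))))))) (.a (.p (nat_lit 558) (.a (.f (nat_lit 463) (nat_lit 431) (nat_lit 6574) (.f (nat_lit 493) (nat_lit 491) (nat_lit 2507) (.d (nat_lit 590) (nat_lit 461) (nat_lit 7629) (nat_lit 495) (nat_lit 6606)))) (.a (.f (nat_lit 463) (nat_lit 431) (nat_lit 6574) (.f (nat_lit 493) (nat_lit 491) (nat_lit 2507) (.d (nat_lit 464) (nat_lit 461) (nat_lit 1484) (nat_lit 465) (nat_lit 1485)))) (.a (.f (nat_lit 461) (nat_lit 429) (nat_lit 7597) (.f (nat_lit 493) (nat_lit 590) (nat_lit 7629) (.f (nat_lit 491) (nat_lit 490) (nat_lit 2506) (.f (nat_lit 459) (nat_lit 458) (nat_lit 3530) (.f (nat_lit 460) (nat_lit 495) (nat_lit 459) (.f (nat_lit 523) (nat_lit 522) (nat_lit 1514) (.d (nat_lit 428) (nat_lit 396) (nat_lit 5515) (nat_lit 555) (nat_lit 6571)))))))) (.f (nat_lit 463) (nat_lit 431) (nat_lit 6574) (.f (nat_lit 590) (nat_lit 495) (nat_lit 6606) (.d (nat_lit 589) (nat_lit 557) (nat_lit 5581) (nat_lit 621) (nat_lit 5613)))))))) (.a (.p (nat_lit 493) (.a (.d (nat_lit 527) (nat_lit 491) (nat_lit 491) (nat_lit 495) (nat_lit 492)) (.a (.f (nat_lit 491) (nat_lit 463) (nat_lit 2507) (.d (nat_lit 490) (nat_lit 461) (nat_lit 2506) (nat_lit 525) (nat_lit 490))) (.d (nat_lit 527) (nat_lit 495) (nat_lit 492) (nat_lit 525) (nat_lit 3564))))) (.a (.p (nat_lit 527) (.a (.d (nat_lit 493) (nat_lit 491) (nat_lit 491) (nat_lit 495) (nat_lit 492)) (.a (.d (nat_lit 493) (nat_lit 491) (nat_lit 491) (nat_lit 525) (nat_lit 3564)) (.a (.f (nat_lit 525) (nat_lit 561) (nat_lit 525) (.f (nat_lit 524) (nat_lit 491) (nat_lit 3563) (.d (nat_lit 556) (nat_lit 555) (nat_lit 1547) (nat_lit 557) (nat_lit 1548)))) (.d (nat_lit 525) (nat_lit 493) (nat_lit 3564) (nat_lit 561) (nat_lit 525)))))) (.a (.p (nat_lit 558) (.a (.f (nat_lit 461) (nat_lit 429) (nat_lit 7597) (.f (nat_lit 493) (nat_lit 590) (nat_lit 7629) (.d (nat_lit 527) (nat_lit 491) (nat_lit 491) (nat_lit 525) (nat_lit 3564)))) (.a (.f (nat_lit 463) (nat_lit 431) (nat_lit 6574) (.f (nat_lit 493) (nat_lit 491) (nat_lit 2507) (.d (nat_lit 464) (nat_lit 461) (nat_lit 1484) (nat_lit 465) (nat_lit 1485)))) (.a (.f (nat_lit 557) (nat_lit 589) (nat_lit 5581) (.f (nat_lit 461) (nat_lit 429) (nat_lit 7597) (.f (nat_lit 463) (nat_lit 431) (nat_lit 6574) (.f (nat_lit 460) (nat_lit 491) (nat_lit 1483) (.f (nat_lit 428) (nat_lit 427) (nat_lit 3499) (.f (nat_lit 525) (nat_lit 524) (nat_lit 4524) (.d (nat_lit 527) (nat_lit 556) (nat_lit 1548) (nat_lit 561) (nat_lit 525)))))))) (.a (.f (nat_lit 589) (nat_lit 557) (nat_lit 5581) (.f (nat_lit 590) (nat_lit 621) (nat_lit 5613) (.f (nat_lit 463) (nat_lit 431) (nat_lit 6574) (.f (nat_lit 493) (nat_lit 491) (nat_lit 2507) (.d (nat_lit 525) (nat_lit 527) (nat_lit 3564) (nat_lit 622) (nat_lit 7661)))))) (.f (nat_lit 461) (nat_lit 429) (nat_lit 7597) (.f (nat_lit 493) (nat_lit 590) (nat_lit 7629) (.d (nat_lit 463) (nat_lit 431) (nat_lit 6574) (nat_lit 464) (nat_lit 1484))))))))) (.a (.p (nat_lit 558) (.a (.f (nat_lit 463) (nat_lit 431) (nat_lit 6574) (.f (nat_lit 590) (nat_lit 495) (nat_lit 6606) (.d (nat_lit 589) (nat_lit 557) (nat_lit 5581) (nat_lit 621) (nat_lit 5613)))) (.a (.f (nat_lit 557) (nat_lit 589) (nat_lit 5581) (.f (nat_lit 461) (nat_lit 429) (nat_lit 7597) (.f (nat_lit 463) (nat_lit 431) (nat_lit 6574) (.f (nat_lit 460) (nat_lit 491) (nat_lit 1483) (.f (nat_lit 428) (nat_lit 427) (nat_lit 3499) (.f (nat_lit 525) (nat_lit 524) (nat_lit 4524) (.d (nat_lit 527) (nat_lit 556) (nat_lit 1548) (nat_lit 561) (nat_lit 525)))))))) (.a (.f (nat_lit 589) (nat_lit 557) (nat_lit 5581) (.f (nat_lit 590) (nat_lit 621) (nat_lit 5613) (.f (nat_lit 623) (nat_lit 591) (nat_lit 4590) (.f (nat_lit 622) (nat_lit 655) (nat_lit 4622) (.f (nat_lit 527) (nat_lit 495) (nat_lit 6638) (.f (nat_lit 525) (nat_lit 561) (nat_lit 525) (.f (nat_lit 524) (nat_lit 491) (nat_lit 3563) (.f (nat_lit 555) (nat_lit 556) (nat_lit 1547) (.f (nat_lit 523) (nat_lit 554) (nat_lit 1546) (.d (nat_lit 587) (nat_lit 588) (nat_lit 587) (nat_lit 619) (nat_lit 6635))))))))))) (.a (.f (nat_lit 463) (nat_lit 431) (nat_lit 6574) (.f (nat_lit 590) (nat_lit 495) (nat_lit 6606) (.f (nat_lit 623) (nat_lit 591) (nat_lit 4590) (.f (nat_lit 622) (nat_lit 655) (nat_lit 4622) (.d (nat_lit 621) (nat_lit 589) (nat_lit 5613) (nat_lit 653) (nat_lit 5645)))))) (.f (nat_lit 463) (nat_lit 431) (nat_lit 6574) (.f (nat_lit 461) (nat_lit 429) (nat_lit 7597) (.f (nat_lit 460) (nat_lit 491) (nat_lit 1483) (.d (nat_lit 495) (nat_lit 459) (nat_lit 459) (nat_lit 590) (nat_lit 6606)))))))))) (.p (nat_lit 558) (.a (.f (nat_lit 463) (nat_lit 431) (nat_lit 6574) (.f (nat_lit 590) (nat_lit 495) (nat_lit 6606) (.d (nat_lit 589) (nat_lit 557) (nat_lit 5581) (nat_lit 621) (nat_lit 5613)))) (.a (.f (nat_lit 463) (nat_lit 431) (nat_lit 6574) (.f (nat_lit 461) (nat_lit 429) (nat_lit 7597) (.f (nat_lit 493) (nat_lit 464) (nat_lit 1484) (.d (nat_lit 527) (nat_lit 495) (nat_lit 492) (nat_lit 525) (nat_lit 3564))))) (.a (.f (nat_lit 461) (nat_lit 429) (nat_lit 7597) (.f (nat_lit 493) (nat_lit 590) (nat_lit 7629) (.d (nat_lit 527) (nat_lit 495) (nat_lit 492) (nat_lit 525) (nat_lit 3564)))) (.f (nat_lit 461) (nat_lit 429) (nat_lit 7597) (.f (nat_lit 493) (nat_lit 590) (nat_lit 7629) (.d (nat_lit 463) (nat_lit 431) (nat_lit 6574) (nat_lit 464) (nat_lit 1484)))))))))))))))))))))))))) (.a (.p (nat_lit 558) (.a (.p (nat_lit 590) (.a (.f (nat_lit 495) (nat_lit 463) (nat_lit 6606) (.f (nat_lit 493) (nat_lit 461) (nat_lit 7629) (.d (nat_lit 527) (nat_lit 492) (nat_lit 492) (nat_lit 622) (nat_lit 6638)))) (.a (.f (nat_lit 589) (nat_lit 621) (nat_lit 5613) (.f (nat_lit 462) (nat_lit 557) (nat_lit 5581) (.d (nat_lit 463) (nat_lit 431) (nat_lit 6574) (nat_lit 495) (nat_lit 6606)))) (.f (nat_lit 493) (nat_lit 461) (nat_lit 7629) (.f (nat_lit 525) (nat_lit 622) (nat_lit 7661) (.d (nat_lit 527) (nat_lit 492) (nat_lit 3564) (nat_lit 561) (nat_lit 525))))))) (.a (.p (nat_lit 590) (.a (.f (nat_lit 589) (nat_lit 621) (nat_lit 5613) (.f (nat_lit 462) (nat_lit 557) (nat_lit 5581) (.d (nat_lit 463) (nat_lit 431) (nat_lit 6574) (nat_lit 495) (nat_lit 6606)))) (.a (.f (nat_lit 589) (nat_lit 621) (nat_lit 5613) (.f (nat_lit 462) (nat_lit 557) (nat_lit 5581) (.d (nat_lit 461) (nat_lit 429) (nat_lit 7597) (nat_lit 493) (nat_lit 7629)))) (.f (nat_lit 493) (nat_lit 461) (nat_lit 7629) (.f (nat_lit 525) (nat_lit 622) (nat_lit 7661) (.f (nat_lit 495) (nat_lit 463) (nat_lit 6606) (.d (nat_lit 524) (nat_lit 496) (nat_lit 1516) (nat_lit 523) (nat_lit 2539)))))))) (.a s39194 (.a (.p (nat_lit 590) (.a (.f (nat_lit 495) (nat_lit 463) (nat_lit 6606) (.f (nat_lit 493) (nat_lit 461) (nat_lit 7629) (.d (nat_lit 527) (nat_lit 492) (nat_lit 492) (nat_lit 622) (nat_lit 6638)))) (.a (.f (nat_lit 589) (nat_lit 621) (nat_lit 5613) (.f (nat_lit 462) (nat_lit 557) (nat_lit 5581) (.d (nat_lit 463) (nat_lit 431) (nat_lit 6574) (nat_lit 495) (nat_lit 6606)))) (.f (nat_lit 589) (nat_lit 621) (nat_lit 5613) (.f (nat_lit 462) (nat_lit 557) (nat_lit 5581) (.d (nat_lit 461) (nat_lit 429) (nat_lit 7597) (nat_lit 493) (nat_lit 7629))))))) (.a (.p (nat_lit 590) (.a (.f (nat_lit 493) (nat_lit 461) (nat_lit 7629) (.f (nat_lit 525) (nat_lit 622) (nat_lit 7661) (.d (nat_lit 527) (nat_lit 492) (nat_lit 3564) (nat_lit 561) (nat_lit 525)))) (.a (.f (nat_lit 589) (nat_lit 621) (nat_lit 5613) (.f (nat_lit 462) (nat_lit 557) (nat_lit 5581) (.d (nat_lit 461) (nat_lit 429) (nat_lit 7597) (nat_lit 493) (nat_lit 7629)))) (.f (nat_lit 621) (nat_lit 589) (nat_lit 5613) (.f (nat_lit 622) (nat_lit 653) (nat_lit 5645) (.f (nat_lit 655) (nat_lit 623) (nat_lit 4622) (.f (nat_lit 654) (nat_lit 687) (nat_lit 4654) (.f (nat_lit 527) (nat_lit 495) (nat_lit 6638) (.d (nat_lit 525) (nat_lit 557) (nat_lit 7693) (nat_lit 561) (nat_lit 525)))))))))) (.a s37753 (.a s37776 (.a (.p (nat_lit 590) (.a (.f (nat_lit 493) (nat_lit 461) (nat_lit 7629) (.f (nat_lit 525) (nat_lit 622) (nat_lit 7661) (.d (nat_lit 527) (nat_lit 492) (nat_lit 3564) (nat_lit 561) (nat_lit 525)))) (.a (.f (nat_lit 589) (nat_lit 621) (nat_lit 5613) (.f (nat_lit 462) (nat_lit 557) (nat_lit 5581) (.d (nat_lit 461) (nat_lit 429) (nat_lit 7597) (nat_lit 493) (nat_lit 7629)))) (.a (.f (nat_lit 589) (nat_lit 621) (nat_lit 5613) (.f (nat_lit 462) (nat_lit 557) (nat_lit 5581) (.f (nat_lit 431) (nat_lit 463) (nat_lit 6574) (.f (nat_lit 430) (nat_lit 399) (nat_lit 6542) (.d (nat_lit 429) (nat_lit 397) (nat_lit 7565) (nat_lit 461) (nat_lit 7597)))))) (.f (nat_lit 621) (nat_lit 589) (nat_lit 5613) (.f (nat_lit 622) (nat_lit 653) (nat_lit 5645) (.f (nat_lit 525) (nat_lit 493) (nat_lit 7661) (.f (nat_lit 527) (nat_lit 561) (nat_lit 525) (.d (nat_lit 557) (nat_lit 556) (nat_lit 1548) (nat_lit 654) (nat_lit 7693)))))))))) (.a (.p (nat_lit 590) (.a (.f (nat_lit 495) (nat_lit 463) (nat_lit 6606) (.f (nat_lit 493) (nat_lit 461) (nat_lit 7629) (.d (nat_lit 527) (nat_lit 492) (nat_lit 492) (nat_lit 622) (nat_lit 6638)))) (.a (.f (nat_lit 493) (nat_lit 461) (nat_lit 7629) (.f (nat_lit 525) (nat_lit 622) (nat_lit 7661) (.f (nat_lit 495) (nat_lit 463) (nat_lit 6606) (.d (nat_lit 524) (nat_lit 496) (nat_lit 1516) (nat_lit 523) (nat_lit 2539))))) (.a (.f (nat_lit 493) (nat_lit 461) (nat_lit 7629) (.f (nat_lit 525) (nat_lit 622) (nat_lit 7661) (.d (nat_lit 527) (nat_lit 492) (nat_lit 3564) (nat_lit 561) (nat_lit 525)))) (.a (.f (nat_lit 495) (nat_lit 463) (nat_lit 6606) (.f (nat_lit 622) (nat_lit 527) (nat_lit 6638) (.d (nat_lit 621) (nat_lit 589) (nat_lit 5613) (nat_lit 653) (nat_lit 5645)))) (.f (nat_lit 493) (nat_lit 461) (nat_lit 7629) (.f (nat_lit 495) (nat_lit 463) (nat_lit 6606) (.f (nat_lit 492) (nat_lit 527) (nat_lit 492) (.f (nat_lit 524) (nat_lit 523) (nat_lit 1515) (.f (nat_lit 525) (nat_lit 496) (nat_lit 1516) (.f (nat_lit 460) (nat_lit 459) (nat_lit 3531) (.d (nat_lit 428) (nat_lit 396) (nat_lit 4492) (nat_lit 557) (nat_lit 4524))))))))))))) (.a (.p (nat_lit 462) (.a (.f (nat_lit 431) (nat_lit 463) (nat_lit 6574) (.f (nat_lit 430) (nat_lit 399) (nat_lit 6542) (.d (nat_lit 429) (nat_lit 397) (nat_lit 7565) (nat_lit 461) (nat_lit 7597)))) (.a (.f (nat_lit 557) (nat_lit 589) (nat_lit 5581) (.f (nat_lit 430) (nat_lit 525) (nat_lit 5549) (.d (nat_lit 429) (nat_lit 397) (nat_lit 7565) (nat_lit 461) (nat_lit 7597)))) (.f (nat_lit 463) (nat_lit 431) (nat_lit 6574) (.f (nat_lit 495) (nat_lit 590) (nat_lit 6606) (.f (nat_lit 496) (nat_lit 592) (nat_lit 7631) (.d (nat_lit 497) (nat_lit 498) (nat_lit 3534) (nat_lit 525) (nat_lit 1517)))))))) (.p (nat_lit 590) (.a (.f (nat_lit 589) (nat_lit 621) (nat_lit 5613) (.f (nat_lit 462) (nat_lit 557) (nat_lit 5581) (.d (nat_lit 463) (nat_lit 431) (nat_lit 6574) (nat_lit 495) (nat_lit 6606)))) (.a (.f (nat_lit 621) (nat_lit 589) (nat_lit 5613) (.f (nat_lit 622) (nat_lit 653) (nat_lit 5645) (.f (nat_lit 525) (nat_lit 493) (nat_lit 7661) (.f (nat_lit 527) (nat_lit 561) (nat_lit 525) (.d (nat_lit 557) (nat_lit 556) (nat_lit 1548) (nat_lit 654) (nat_lit 7693)))))) (.a (.f (nat_lit 495) (nat_lit 463) (nat_lit 6606) (.f (nat_lit 622) (nat_lit 527) (nat_lit 6638) (.d (nat_lit 621) (nat_lit 589) (nat_lit 5613) (nat_lit 653) (nat_lit 5645)))) (.f (nat_lit 495) (nat_lit 463) (nat_lit 6606) (.f (nat_lit 527) (nat_lit 622) (nat_lit 6638) (.f (nat_lit 525) (nat_lit 561) (nat_lit 525) (.d (nat_lit 524) (nat_lit 496) (nat_lit 2540) (nat_lit 523) (nat_lit 2539)))))))))))))))))))) (.a (.p (nat_lit 496) (.a s39556 (.a (.p (nat_lit 525) (.a (.f (nat_lit 495) (nat_lit 497) (nat_lit 1517) (.d (nat_lit 524) (nat_lit 493) (nat_lit 1516) (nat_lit 523) (nat_lit 2539))) (.a (.d (nat_lit 527) (nat_lit 497) (nat_lit 2541) (nat_lit 561) (nat_lit 525)) (.f (nat_lit 527) (nat_lit 561) (nat_lit 525) (.f (nat_lit 495) (nat_lit 524) (nat_lit 2540) (.f (nat_lit 493) (nat_lit 492) (nat_lit 3564) (.f (nat_lit 461) (nat_lit 460) (nat_lit 3532) (.d (nat_lit 429) (nat_lit 397) (nat_lit 4493) (nat_lit 558) (nat_lit 4525))))))))) (.a s39565 (.a (.p (nat_lit 464) (.a (.f (nat_lit 465) (nat_lit 433) (nat_lit 6576) (.f (nat_lit 463) (nat_lit 431) (nat_lit 7599) (.f (nat_lit 462) (nat_lit 493) (nat_lit 1485) (.d (nat_lit 497) (nat_lit 498) (nat_lit 462) (nat_lit 592) (nat_lit 6608))))) (.a (.f (nat_lit 431) (nat_lit 463) (nat_lit 7599) (.f (nat_lit 432) (nat_lit 399) (nat_lit 7567) (.d (nat_lit 433) (nat_lit 401) (nat_lit 6544) (nat_lit 465) (nat_lit 6576)))) (.a s39589 (.a s39600 (.a (.p (nat_lit 462) (.a (.f (nat_lit 465) (nat_lit 433) (nat_lit 6576) (.f (nat_lit 463) (nat_lit 493) (nat_lit 1485) (.d (nat_lit 497) (nat_lit 498) (nat_lit 462) (nat_lit 592) (nat_lit 6608)))) (.a (.f (nat_lit 465) (nat_lit 433) (nat_lit 6576) (.f (nat_lit 463) (nat_lit 493) (nat_lit 1485) (.d (nat_lit 497) (nat_lit 461) (nat_lit 461) (nat_lit 498) (nat_lit 462)))) (.a (.p (nat_lit 430) (.a (.f (nat_lit 525) (nat_lit 557) (nat_lit 5549) (.f (nat_lit 398) (nat_lit 493) (nat_lit 5517) (.d (nat_lit 397) (nat_lit 365) (nat_lit 7533) (nat_lit 429) (nat_lit 7565)))) (.a (.f (nat_lit 397) (nat_lit 429) (nat_lit 7565) (.f (nat_lit 398) (nat_lit 365) (nat_lit 7533) (.f (nat_lit 399) (nat_lit 367) (nat_lit 6510) (.f (nat_lit 433) (nat_lit 465) (nat_lit 6576) (.d (nat_lit 432) (nat_lit 400) (nat_lit 397) (nat_lit 401) (nat_lit 6544)))))) (.a (.f (nat_lit 525) (nat_lit 557) (nat_lit 5549) (.f (nat_lit 398) (nat_lit 493) (nat_lit 5517) (.f (nat_lit 367) (nat_lit 399) (nat_lit 6510) (.f (nat_lit 366) (nat_lit 335) (nat_lit 6478) (.d (nat_lit 365) (nat_lit 333) (nat_lit 7501) (nat_lit 397) (nat_lit 7533)))))) (.a (.f (nat_lit 557) (nat_lit 525) (nat_lit 5549) (.f (nat_lit 558) (nat_lit 589) (nat_lit 5581) (.d (nat_lit 429) (nat_lit 397) (nat_lit 7565) (nat_lit 461) (nat_lit 7597)))) (.f (nat_lit 525) (nat_lit 557) (nat_lit 5549) (.f (nat_lit 398) (nat_lit 493) (nat_lit 5517) (.f (nat_lit 433) (nat_lit 465) (nat_lit 6576) (.f (nat_lit 399) (nat_lit 367) (nat_lit 6510) (.f (nat_lit 401) (nat_lit 432) (nat_lit 6544) (.d (nat_lit 400) (nat_lit 429) (nat_lit 1421) (nat_lit 434) (nat_lit 398)))))))))))) (.a s39644 (.f (nat_lit 465) (nat_lit 433) (nat_lit 6576) (.f (nat_lit 497) (nat_lit 592) (nat_lit 6608) (.d (nat_lit 463) (nat_lit 461) (nat_lit 461) (nat_lit 498) (nat_lit 462))))))))) (.p (nat_lit 462) (.a (.f (nat_lit 463) (nat_lit 431) (nat_lit 7599) (.f (nat_lit 461) (nat_lit 497) (nat_lit 461) (.f (nat_lit 493) (nat_lit 492) (nat_lit 1484) (.d (nat_lit 429) (nat_lit 397) (nat_lit 4493) (nat_lit 428) (nat_lit 3500))))) (.a (.p (nat_lit 430) (.a (.f (nat_lit 399) (nat_lit 431) (nat_lit 6542) (.f (nat_lit 398) (nat_lit 367) (nat_lit 6510) (.d (nat_lit 525) (nat_lit 493) (nat_lit 5517) (nat_lit 557) (nat_lit 5549)))) (.a (.f (nat_lit 399) (nat_lit 431) (nat_lit 6542) (.f (nat_lit 398) (nat_lit 367) (nat_lit 6510) (.d (nat_lit 397) (nat_lit 365) (nat_lit 7533) (nat_lit 429) (nat_lit 7565)))) (.a (.f (nat_lit 525) (nat_lit 557) (nat_lit 5549) (.f (nat_lit 398) (nat_lit 493) (nat_lit 5517) (.d (nat_lit 397) (nat_lit 365) (nat_lit 7533) (nat_lit 429) (nat_lit 7565)))) (.f (nat_lit 429) (nat_lit 397) (nat_lit 7565) (.f (nat_lit 431) (nat_lit 399) (nat_lit 6542) (.f (nat_lit 461) (nat_lit 558) (nat_lit 7597) (.d (nat_lit 460) (nat_lit 432) (nat_lit 1452) (nat_lit 459) (nat_lit 2475))))))))) (.a s39644 (.a (.f (nat_lit 463) (nat_lit 431) (nat_lit 7599) (.f (nat_lit 461) (nat_lit 497) (nat_lit 461) (.d (nat_lit 429) (nat_lit 428) (nat_lit 3500) (nat_lit 558) (nat_lit 7597)))) (.f (nat_lit 431) (nat_lit 463) (nat_lit 7599) (.d (nat_lit 399) (nat_lit 430) (nat_lit 6542) (nat_lit 432) (nat_lit 7567)))))))))))))) (.a (.p (nat_lit 464) (.a (.f (nat_lit 463) (nat_lit 431) (nat_lit 7599) (.f (nat_lit 495) (nat_lit 592) (nat_lit 7631) (.f (nat_lit 497) (nat_lit 525) (nat_lit 1517) (.d (nat_lit 462) (nat_lit 461) (nat_lit 461) (nat_lit 498) (nat_lit 3534))))) (.a (.f (nat_lit 431) (nat_lit 463) (nat_lit 7599) (.f (nat_lit 432) (nat_lit 399) (nat_lit 7567) (.d (nat_lit 433) (nat_lit 401) (nat_lit 6544) (nat_lit 465) (nat_lit 6576)))) (.f (nat_lit 465) (nat_lit 433) (nat_lit 6576) (.f (nat_lit 497) (nat_lit 592) (nat_lit 6608) (.d (nat_lit 495) (nat_lit 466) (nat_lit 2510) (nat_lit 525) (nat_lit 1517))))))) (.a (.p (nat_lit 525) (.a (.f (nat_lit 495) (nat_lit 497) (nat_lit 1517) (.d (nat_lit 524) (nat_lit 493) (nat_lit 1516) (nat_lit 523) (nat_lit 2539))) (.a (.d (nat_lit 527) (nat_lit 497) (nat_lit 2541) (nat_lit 561) (nat_lit 525)) (.f (nat_lit 527) (nat_lit 561) (nat_lit 525) (.f (nat_lit 493) (nat_lit 492) (nat_lit 3564) (.f (nat_lit 557) (nat_lit 556) (nat_lit 1548) (.d (nat_lit 462) (nat_lit 430) (nat_lit 5549) (nat_lit 589) (nat_lit 6605)))))))) (.p (nat_lit 464) (.a (.f (nat_lit 465) (nat_lit 433) (nat_lit 6576) (.f (nat_lit 495) (nat_lit 493) (nat_lit 2509) (.d (nat_lit 466) (nat_lit 463) (nat_lit 1486) (nat_lit 467) (nat_lit 1487)))) (.a (.f (nat_lit 433) (nat_lit 465) (nat_lit 6576) (.f (nat_lit 432) (nat_lit 401) (nat_lit 6544) (.f (nat_lit 399) (nat_lit 431) (nat_lit 7567) (.f (nat_lit 400) (nat_lit 367) (nat_lit 7535) (.f (nat_lit 527) (nat_lit 495) (nat_lit 5519) (.f (nat_lit 525) (nat_lit 561) (nat_lit 525) (.f (nat_lit 557) (nat_lit 556) (nat_lit 1548) (.f (nat_lit 493) (nat_lit 492) (nat_lit 3564) (.d (nat_lit 462) (nat_lit 430) (nat_lit 5549) (nat_lit 589) (nat_lit 6605)))))))))) (.a (.f (nat_lit 431) (nat_lit 463) (nat_lit 7599) (.f (nat_lit 432) (nat_lit 399) (nat_lit 7567) (.d (nat_lit 433) (nat_lit 401) (nat_lit 6544) (nat_lit 465) (nat_lit 6576)))) (.f (nat_lit 463) (nat_lit 431) (nat_lit 7599) (.f (nat_lit 495) (nat_lit 592) (nat_lit 7631) (.f (nat_lit 493) (nat_lit 492) (nat_lit 2508) (.f (nat_lit 525) (nat_lit 524) (nat_lit 1516) (.f (nat_lit 461) (nat_lit 460) (nat_lit 3532) (.d (nat_lit 429) (nat_lit 397) (nat_lit 4493) (nat_lit 558) (nat_lit 4525)))))))))))))))))) (.a (.p (nat_lit 495) (.a (.p (nat_lit 592) (.a (.f (nat_lit 463) (nat_lit 496) (nat_lit 7631) (.d (nat_lit 527) (nat_lit 431) (nat_lit 4527) (nat_lit 624) (nat_lit 7663))) (.a (.f (nat_lit 496) (nat_lit 463) (nat_lit 7631) (.f (nat_lit 465) (nat_lit 497) (nat_lit 6608) (.d (nat_lit 464) (nat_lit 433) (nat_lit 6576) (nat_lit 493) (nat_lit 2509)))) (.f (nat_lit 624) (nat_lit 527) (nat_lit 7663) (.f (nat_lit 655) (nat_lit 623) (nat_lit 5647) (.f (nat_lit 656) (nat_lit 687) (nat_lit 5679) (.d (nat_lit 657) (nat_lit 625) (nat_lit 4624) (nat_lit 689) (nat_lit 4656)))))))) (.a (.p (nat_lit 496) (.a (.p (nat_lit 464) (.a (.d (nat_lit 465) (nat_lit 433) (nat_lit 6576) (nat_lit 493) (nat_lit 2509)) (.a (.f (nat_lit 463) (nat_lit 431) (nat_lit 7599) (.f (nat_lit 493) (nat_lit 492) (nat_lit 2508) (.f (nat_lit 461) (nat_lit 460) (nat_lit 3532) (.f (nat_lit 462) (nat_lit 497) (nat_lit 461) (.d (nat_lit 429) (nat_lit 397) (nat_lit 4493) (nat_lit 428) (nat_lit 3500)))))) (.f (nat_lit 463) (nat_lit 431) (nat_lit 7599) (.d (nat_lit 465) (nat_lit 433) (nat_lit 6576) (nat_lit 466) (nat_lit 1486)))))) (.a (.p (nat_lit 493) (.a (.f (nat_lit 461) (nat_lit 460) (nat_lit 3532) (.f (nat_lit 462) (nat_lit 497) (nat_lit 3533) (.d (nat_lit 558) (nat_lit 429) (nat_lit 7597) (nat_lit 590) (nat_lit 7629)))) (.a (.f (nat_lit 527) (nat_lit 492) (nat_lit 492) (.f (nat_lit 497) (nat_lit 498) (nat_lit 1518) (.d (nat_lit 461) (nat_lit 460) (nat_lit 3532) (nat_lit 462) (nat_lit 3533)))) (.a (.f (nat_lit 492) (nat_lit 527) (nat_lit 492) (.d (nat_lit 460) (nat_lit 459) (nat_lit 3531) (nat_lit 461) (nat_lit 3532))) (.a (.f (nat_lit 492) (nat_lit 527) (nat_lit 492) (.f (nat_lit 459) (nat_lit 460) (nat_lit 3531) (.f (nat_lit 491) (nat_lit 458) (nat_lit 3530) (.d (nat_lit 523) (nat_lit 522) (nat_lit 1514) (nat_lit 524) (nat_lit 1515))))) (.f (nat_lit 527) (nat_lit 492) (nat_lit 492) (.f (nat_lit 431) (nat_lit 463) (nat_lit 4527) (.f (nat_lit 497) (nat_lit 498) (nat_lit 1518) (.f (nat_lit 462) (nat_lit 461) (nat_lit 3533) (.d (nat_lit 430) (nat_lit 398) (nat_lit 4494) (nat_lit 399) (nat_lit 6542))))))))))) (.a s39723 (.a (.p (nat_lit 464) (.a (.d (nat_lit 465) (nat_lit 433) (nat_lit 6576) (nat_lit 493) (nat_lit 2509)) (.a (.f (nat_lit 431) (nat_lit 463) (nat_lit 7599) (.f (nat_lit 432) (nat_lit 399) (nat_lit 7567) (.f (nat_lit 401) (nat_lit 433) (nat_lit 6544) (.d (nat_lit 400) (nat_lit 369) (nat_lit 6512) (nat_lit 527) (nat_lit 5519))))) (.f (nat_lit 463) (nat_lit 431) (nat_lit 7599) (.d (nat_lit 465) (nat_lit 466) (nat_lit 1486) (nat_lit 493) (nat_lit 2509)))))) (.p (nat_lit 464) (.a (.f (nat_lit 463) (nat_lit 431) (nat_lit 7599) (.d (nat_lit 465) (nat_lit 433) (nat_lit 6576) (nat_lit 466) (nat_lit 1486))) (.a (.f (nat_lit 465) (nat_lit 433) (nat_lit 6576) (.d (nat_lit 466) (nat_lit 467) (nat_lit 1487) (nat_lit 497) (nat_lit 2510))) (.a (.f (nat_lit 431) (nat_lit 463) (nat_lit 7599) (.f (nat_lit 432) (nat_lit 399) (nat_lit 7567) (.f (nat_lit 401) (nat_lit 433) (nat_lit 6544) (.d (nat_lit 400) (nat_lit 369) (nat_lit 6512) (nat_lit 527) (nat_lit 5519))))) (.f (nat_lit 431) (nat_lit 463) (nat_lit 7599) (.f (nat_lit 432) (nat_lit 399) (nat_lit 7567) (.f (nat_lit 527) (nat_lit 400) (nat_lit 5519) (.f (nat_lit 497) (nat_lit 498) (nat_lit 1518) (.f (nat_lit 465) (nat_lit 466) (nat_lit 2510) (.f (nat_lit 462) (nat_lit 461) (nat_lit 3533) (.d (nat_lit 430) (nat_lit 398) (nat_lit 4494) (nat_lit 429) (nat_lit 429))))))))))))))))) (.a (.p (nat_lit 496) (.a (.f (nat_lit 463) (nat_lit 592) (nat_lit 7631) (.d (nat_lit 431) (nat_lit 399) (nat_lit 4495) (nat_lit 464) (nat_lit 7599))) (.a (.p (nat_lit 464) (.a (.d (nat_lit 465) (nat_lit 433) (nat_lit 6576) (nat_lit 493) (nat_lit 2509)) (.a (.f (nat_lit 463) (nat_lit 431) (nat_lit 7599) (.f (nat_lit 493) (nat_lit 492) (nat_lit 2508) (.f (nat_lit 461) (nat_lit 460) (nat_lit 3532) (.f (nat_lit 462) (nat_lit 497) (nat_lit 461) (.d (nat_lit 429) (nat_lit 397) (nat_lit 4493) (nat_lit 428) (nat_lit 3500)))))) (.f (nat_lit 463) (nat_lit 431) (nat_lit 7599) (.d (nat_lit 465) (nat_lit 433) (nat_lit 6576) (nat_lit 466) (nat_lit 1486)))))) (.a (.f (nat_lit 463) (nat_lit 592) (nat_lit 7631) (.f (nat_lit 431) (nat_lit 399) (nat_lit 4495) (.d (nat_lit 558) (nat_lit 462) (nat_lit 6574) (nat_lit 590) (nat_lit 6606)))) s39740)))) (.a (.p (nat_lit 462) (.a (.p (nat_lit 558) (.a (.d (nat_lit 463) (nat_lit 431) (nat_lit 6574) (nat_lit 590) (nat_lit 6606)) (.a (.f (nat_lit 463) (nat_lit 431) (nat_lit 6574) (.f (nat_lit 461) (nat_lit 429) (nat_lit 7597) (.f (nat_lit 460) (nat_lit 459) (nat_lit 459) (.f (nat_lit 492) (nat_lit 491) (nat_lit 1483) (.d (nat_lit 493) (nat_lit 464) (nat_lit 1484) (nat_lit 527) (nat_lit 492)))))) (.f (nat_lit 461) (nat_lit 429) (nat_lit 7597) (.f (nat_lit 590) (nat_lit 493) (nat_lit 7629) (.d (nat_lit 589) (nat_lit 557) (nat_lit 5581) (nat_lit 621) (nat_lit 5613))))))) (.a (.p (nat_lit 558) (.a (.d (nat_lit 463) (nat_lit 431) (nat_lit 6574) (nat_lit 590) (nat_lit 6606)) (.a (.f (nat_lit 463) (nat_lit 431) (nat_lit 6574) (.f (nat_lit 461) (nat_lit 429) (nat_lit 7597) (.f (nat_lit 460) (nat_lit 459) (nat_lit 459) (.f (nat_lit 492) (nat_lit 491) (nat_lit 1483) (.f (nat_lit 464) (nat_lit 493) (nat_lit 1484) (.f (nat_lit 465) (nat_lit 466) (nat_lit 1486) (.d (nat_lit 433) (nat_lit 432) (nat_lit 2477) (nat_lit 434) (nat_lit 2478)))))))) (.f (nat_lit 461) (nat_lit 429) (nat_lit 7597) (.f (nat_lit 590) (nat_lit 493) (nat_lit 7629) (.d (nat_lit 589) (nat_lit 557) (nat_lit 5581) (nat_lit 621) (nat_lit 5613))))))) (.a (.p (nat_lit 430) (.a (.f (nat_lit 431) (nat_lit 399) (nat_lit 6542) (.d (nat_lit 463) (nat_lit 527) (nat_lit 4527) (nat_lit 558) (nat_lit 6574))) (.a (.f (nat_lit 431) (nat_lit 399) (nat_lit 6542) (.f (nat_lit 429) (nat_lit 397) (nat_lit 7565) (.d (nat_lit 558) (nat_lit 461) (nat_lit 7597) (nat_lit 463) (nat_lit 6574)))) (.a (.f (nat_lit 398) (nat_lit 527) (nat_lit 4494) (.d (nat_lit 399) (nat_lit 367) (nat_lit 6510) (nat_lit 431) (nat_lit 6542))) (.f (nat_lit 398) (nat_lit 527) (nat_lit 4494) (.d (nat_lit 397) (nat_lit 365) (nat_lit 7533) (nat_lit 429) (nat_lit 7565))))))) (.a (.p (nat_lit 558) (.a (.f (nat_lit 461) (nat_lit 429) (nat_lit 7597) (.f (nat_lit 590) (nat_lit 493) (nat_lit 7629) (.d (nat_lit 589) (nat_lit 557) (nat_lit 5581) (nat_lit 621) (nat_lit 5613)))) (.a (.f (nat_lit 429) (nat_lit 461) (nat_lit 7597) (.f (nat_lit 430) (nat_lit 397) (nat_lit 7565) (.f (nat_lit 399) (nat_lit 431) (nat_lit 6542) (.d (nat_lit 398) (nat_lit 367) (nat_lit 6510) (nat_lit 527) (nat_lit 4494))))) (.f (nat_lit 589) (nat_lit 557) (nat_lit 5581) (.f (nat_lit 590) (nat_lit 621) (nat_lit 5613) (.f (nat_lit 527) (nat_lit 622) (nat_lit 6638) (.f (nat_lit 591) (nat_lit 623) (nat_lit 4590) (.d (nat_lit 592) (nat_lit 561) (nat_lit 2605) (nat_lit 624) (nat_lit 7663))))))))) (.a (.p (nat_lit 430) (.a (.f (nat_lit 398) (nat_lit 527) (nat_lit 4494) (.d (nat_lit 399) (nat_lit 367) (nat_lit 6510) (nat_lit 431) (nat_lit 6542))) (.a (.f (nat_lit 399) (nat_lit 431) (nat_lit 6542) (.f (nat_lit 398) (nat_lit 367) (nat_lit 6510) (.d (nat_lit 397) (nat_lit 365) (nat_lit 7533) (nat_lit 429) (nat_lit 7565)))) (.a (.f (nat_lit 398) (nat_lit 527) (nat_lit 4494) (.d (nat_lit 397) (nat_lit 365) (nat_lit 7533) (nat_lit 429) (nat_lit 7565))) (.f (nat_lit 431) (nat_lit 399) (nat_lit 6542) (.f (nat_lit 429) (nat_lit 397) (nat_lit 7565) (.f (nat_lit 463) (nat_lit 527) (nat_lit 4527) (.d (nat_lit 428) (nat_lit 427) (nat_lit 427) (nat_lit 464) (nat_lit 428))))))))) (.a (.p (nat_lit 558) (.a (.f (nat_lit 461) (nat_lit 429) (nat_lit 7597) (.f (nat_lit 590) (nat_lit 493) (nat_lit 7629) (.d (nat_lit 589) (nat_lit 557) (nat_lit 5581) (nat_lit 621) (nat_lit 5613)))) (.a (.f (nat_lit 429) (nat_lit 461) (nat_lit 7597) (.f (nat_lit 430) (nat_lit 397) (nat_lit 7565) (.f (nat_lit 398) (nat_lit 527) (nat_lit 4494) (.f (nat_lit 366) (nat_lit 463) (nat_lit 4462) (.d (nat_lit 367) (nat_lit 335) (nat_lit 6478) (nat_lit 399) (nat_lit 6510)))))) (.f (nat_lit 589) (nat_lit 557) (nat_lit 5581) (.f (nat_lit 590) (nat_lit 621) (nat_lit 5613) (.f (nat_lit 527) (nat_lit 622) (nat_lit 6638) (.f (nat_lit 591) (nat_lit 623) (nat_lit 4590) (.d (nat_lit 592) (nat_lit 561) (nat_lit 2605) (nat_lit 624) (nat_lit 7663))))))))) (.p (nat_lit 430) (.a (.f (nat_lit 431) (nat_lit 399) (nat_lit 6542) (.d (nat_lit 463) (nat_lit 527) (nat_lit 4527) (nat_lit 558) (nat_lit 6574))) (.a (.f (nat_lit 399) (nat_lit 431) (nat_lit 6542) (.f (nat_lit 398) (nat_lit 367) (nat_lit 6510) (.f (nat_lit 366) (nat_lit 463) (nat_lit 4462) (.d (nat_lit 365) (nat_lit 333) (nat_lit 7501) (nat_lit 397) (nat_lit 7533))))) (.a (.f (nat_lit 398) (nat_lit 527) (nat_lit 4494) (.d (nat_lit 399) (nat_lit 367) (nat_lit 6510) (nat_lit 431) (nat_lit 6542))) (.a (.f (nat_lit 398) (nat_lit 527) (nat_lit 4494) (.f (nat_lit 366) (nat_lit 463) (nat_lit 4462) (.d (nat_lit 367) (nat_lit 335) (nat_lit 6478) (nat_lit 399) (nat_lit 6510)))) (.f (nat_lit 398) (nat_lit 527) (nat_lit 4494) (.f (nat_lit 366) (nat_lit 463) (nat_lit 4462) (.d (nat_lit 365) (nat_lit 333) (nat_lit 7501) (nat_lit 397) (nat_lit 7533)))))))))))))))) (.a (.p (nat_lit 592) (.a (.f (nat_lit 463) (nat_lit 496) (nat_lit 7631) (.d (nat_lit 527) (nat_lit 431) (nat_lit 4527) (nat_lit 624) (nat_lit 7663))) (.a (.f (nat_lit 496) (nat_lit 463) (nat_lit 7631) (.f (nat_lit 497) (nat_lit 465) (nat_lit 6608) (.f (nat_lit 461) (nat_lit 462) (nat_lit 3533) (.f (nat_lit 493) (nat_lit 460) (nat_lit 3532) (.f (nat_lit 591) (nat_lit 623) (nat_lit 5615) (.f (nat_lit 590) (nat_lit 558) (nat_lit 7629) (.f (nat_lit 589) (nat_lit 561) (nat_lit 2605) (.f (nat_lit 620) (nat_lit 621) (nat_lit 1612) (.f (nat_lit 588) (nat_lit 619) (nat_lit 1611) (.d (nat_lit 556) (nat_lit 555) (nat_lit 3627) (nat_lit 557) (nat_lit 3628))))))))))) (.f (nat_lit 624) (nat_lit 527) (nat_lit 7663) (.f (nat_lit 655) (nat_lit 623) (nat_lit 5647) (.f (nat_lit 656) (nat_lit 687) (nat_lit 5679) (.d (nat_lit 657) (nat_lit 625) (nat_lit 4624) (nat_lit 689) (nat_lit 4656)))))))) (.a (.p (nat_lit 496) (.a s39740 (.a s39723 (.a (.p (nat_lit 493) (.a (.f (nat_lit 461) (nat_lit 460) (nat_lit 3532) (.f (nat_lit 497) (nat_lit 462) (nat_lit 3533) (.d (nat_lit 465) (nat_lit 466) (nat_lit 2510) (nat_lit 592) (nat_lit 6608)))) (.a (.f (nat_lit 527) (nat_lit 492) (nat_lit 492) (.f (nat_lit 497) (nat_lit 498) (nat_lit 1518) (.d (nat_lit 461) (nat_lit 460) (nat_lit 3532) (nat_lit 462) (nat_lit 3533)))) (.a (.f (nat_lit 492) (nat_lit 527) (nat_lit 492) (.d (nat_lit 460) (nat_lit 459) (nat_lit 3531) (nat_lit 461) (nat_lit 3532))) (.a (.f (nat_lit 492) (nat_lit 527) (nat_lit 492) (.f (nat_lit 459) (nat_lit 460) (nat_lit 3531) (.f (nat_lit 491) (nat_lit 458) (nat_lit 3530) (.d (nat_lit 523) (nat_lit 522) (nat_lit 1514) (nat_lit 524) (nat_lit 1515))))) (.f (nat_lit 527) (nat_lit 492) (nat_lit 492) (.f (nat_lit 497) (nat_lit 498) (nat_lit 1518) (.d (nat_lit 592) (nat_lit 465) (nat_lit 6608) (nat_lit 624) (nat_lit 7663))))))))) (.a (.p (nat_lit 493) (.a (.f (nat_lit 461) (nat_lit 460) (nat_lit 3532) (.f (nat_lit 462) (nat_lit 497) (nat_lit 3533) (.d (nat_lit 558) (nat_lit 429) (nat_lit 7597) (nat_lit 590) (nat_lit 7629)))) (.a (.f (nat_lit 527) (nat_lit 492) (nat_lit 492) (.f (nat_lit 497) (nat_lit 498) (nat_lit 1518) (.d (nat_lit 461) (nat_lit 460) (nat_lit 3532) (nat_lit 462) (nat_lit 3533)))) (.a (.f (nat_lit 492) (nat_lit 527) (nat_lit 492) (.d (nat_lit 460) (nat_lit 459) (nat_lit 3531) (nat_lit 461) (nat_lit 3532))) (.a (.f (nat_lit 492) (nat_lit 527) (nat_lit 492) (.f (nat_lit 459) (nat_lit 460) (nat_lit 3531) (.f (nat_lit 491) (nat_lit 458) (nat_lit 3530) (.d (nat_lit 523) (nat_lit 522) (nat_lit 1514) (nat_lit 524) (nat_lit 1515))))) (.f (nat_lit 527) (nat_lit 492) (nat_lit 492) (.f (nat_lit 497) (nat_lit 498) (nat_lit 1518) (.f (nat_lit 461) (nat_lit 462) (nat_lit 3533) (.f (nat_lit 592) (nat_lit 624) (nat_lit 7663) (.f (nat_lit 590) (nat_lit 558) (nat_lit 7629) (.f (nat_lit 591) (nat_lit 623) (nat_lit 5615) (.f (nat_lit 589) (nat_lit 561) (nat_lit 2605) (.f (nat_lit 620) (nat_lit 621) (nat_lit 1612) (.f (nat_lit 588) (nat_lit 619) (nat_lit 1611) (.d (nat_lit 556) (nat_lit 555) (nat_lit 3627) (nat_lit 557) (nat_lit 3628)))))))))))))))) (.a (.p (nat_lit 592) (.a (.f (nat_lit 465) (nat_lit 497) (nat_lit 6608) (.d (nat_lit 464) (nat_lit 433) (nat_lit 6576) (nat_lit 493) (nat_lit 2509))) (.a (.f (nat_lit 497) (nat_lit 465) (nat_lit 6608) (.d (nat_lit 527) (nat_lit 498) (nat_lit 1518) (nat_lit 624) (nat_lit 7663))) (.f (nat_lit 624) (nat_lit 527) (nat_lit 7663) (.f (nat_lit 655) (nat_lit 623) (nat_lit 5647) (.f (nat_lit 656) (nat_lit 687) (nat_lit 5679) (.d (nat_lit 657) (nat_lit 625) (nat_lit 4624) (nat_lit 689) (nat_lit 4656)))))))) (.a (.p (nat_lit 497) (.a (.d (nat_lit 465) (nat_lit 466) (nat_lit 2510) (nat_lit 592) (nat_lit 6608)) (.a (.f (nat_lit 498) (nat_lit 527) (nat_lit 1518) (.d (nat_lit 466) (nat_lit 465) (nat_lit 2510) (nat_lit 467) (nat_lit 2511))) (.a (.f (nat_lit 498) (nat_lit 527) (nat_lit 1518) (.f (nat_lit 531) (nat_lit 530) (nat_lit 495) (.f (nat_lit 499) (nat_lit 532) (nat_lit 496) (.d (nat_lit 467) (nat_lit 466) (nat_lit 2511) (nat_lit 468) (nat_lit 2512))))) (.f (nat_lit 527) (nat_lit 498) (nat_lit 1518) (.d (nat_lit 592) (nat_lit 465) (nat_lit 6608) (nat_lit 624) (nat_lit 7663))))))) (.p (nat_lit 493) (.a (.f (nat_lit 461) (nat_lit 460) (nat_lit 3532) (.f (nat_lit 429) (nat_lit 397) (nat_lit 4493) (.d (nat_lit 558) (nat_lit 462) (nat_lit 7597) (nat_lit 590) (nat_lit 7629)))) (.a (.f (nat_lit 492) (nat_lit 527) (nat_lit 492) (.d (nat_lit 460) (nat_lit 459) (nat_lit 3531) (nat_lit 461) (nat_lit 3532))) (.a (.f (nat_lit 492) (nat_lit 527) (nat_lit 492) (.f (nat_lit 459) (nat_lit 460) (nat_lit 3531) (.f (nat_lit 491) (nat_lit 458) (nat_lit 3530) (.d (nat_lit 523) (nat_lit 522) (nat_lit 1514) (nat_lit 524) (nat_lit 1515))))) (.p (nat_lit 590) (.a (.f (nat_lit 527) (nat_lit 492) (nat_lit 492) (.d (nat_lit 558) (nat_lit 461) (nat_lit 7629) (nat_lit 622) (nat_lit 6638))) (.a (.f (nat_lit 558) (nat_lit 461) (nat_lit 7629) (.f (nat_lit 623) (nat_lit 591) (nat_lit 4590) (.f (nat_lit 622) (nat_lit 655) (nat_lit 4622) (.d (nat_lit 621) (nat_lit 589) (nat_lit 5613) (nat_lit 653) (nat_lit 5645))))) (.f (nat_lit 527) (nat_lit 492) (nat_lit 492) (.f (nat_lit 592) (nat_lit 624) (nat_lit 7663) (.f (nat_lit 591) (nat_lit 623) (nat_lit 5615) (.f (nat_lit 589) (nat_lit 561) (nat_lit 2605) (.f (nat_lit 620) (nat_lit 621) (nat_lit 1612) (.f (nat_lit 588) (nat_lit 619) (nat_lit 1611) (.d (nat_lit 556) (nat_lit 555) (nat_lit 3627) (nat_lit 557) (nat_lit 3628)))))))))))))))))))))) (.p (nat_lit 592) (.a (.f (nat_lit 463) (nat_lit 496) (nat_lit 7631) (.d (nat_lit 527) (nat_lit 431) (nat_lit 4527) (nat_lit 624) (nat_lit 7663))) (.a (.f (nat_lit 463) (nat_lit 496) (nat_lit 7631) (.f (nat_lit 558) (nat_lit 590) (nat_lit 6606) (.d (nat_lit 431) (nat_lit 399) (nat_lit 5518) (nat_lit 462) (nat_lit 6574)))) (.f (nat_lit 624) (nat_lit 527) (nat_lit 7663) (.f (nat_lit 655) (nat_lit 623) (nat_lit 5647) (.f (nat_lit 656) (nat_lit 687) (nat_lit 5679) (.d (nat_lit 657) (nat_lit 625) (nat_lit 4624) (nat_lit 689) (nat_lit 4656))))))))))))))) (.a (.p (nat_lit 558) (.a (.p (nat_lit 590) (.a (.f (nat_lit 495) (nat_lit 463) (nat_lit 6606) (.f (nat_lit 493) (nat_lit 461) (nat_lit 7629) (.d (nat_lit 527) (nat_lit 492) (nat_lit 492) (nat_lit 622) (nat_lit 6638)))) (.a (.f (nat_lit 589) (nat_lit 621) (nat_lit 5613) (.f (nat_lit 462) (nat_lit 557) (nat_lit 5581) (.d (nat_lit 463) (nat_lit 431) (nat_lit 6574) (nat_lit 495) (nat_lit 6606)))) (.f (nat_lit 493) (nat_lit 461) (nat_lit 7629) (.f (nat_lit 525) (nat_lit 622) (nat_lit 7661) (.d (nat_lit 527) (nat_lit 492) (nat_lit 3564) (nat_lit 561) (nat_lit 525))))))) (.a s37633 (.a (.p (nat_lit 462) (.a (.f (nat_lit 557) (nat_lit 589) (nat_lit 5581) (.f (nat_lit 525) (nat_lit 430) (nat_lit 5549) (.d (nat_lit 527) (nat_lit 556) (nat_lit 1548) (nat_lit 561) (nat_lit 525)))) (.a (.f (nat_lit 431) (nat_lit 463) (nat_lit 6574) (.f (nat_lit 430) (nat_lit 399) (nat_lit 6542) (.d (nat_lit 429) (nat_lit 397) (nat_lit 7565) (nat_lit 461) (nat_lit 7597)))) (.p (nat_lit 495) (.a (.f (nat_lit 463) (nat_lit 431) (nat_lit 6574) (.f (nat_lit 496) (nat_lit 592) (nat_lit 7631) (.d (nat_lit 461) (nat_lit 429) (nat_lit 7597) (nat_lit 460) (nat_lit 460)))) (.a (.f (nat_lit 463) (nat_lit 431) (nat_lit 6574) (.f (nat_lit 461) (nat_lit 429) (nat_lit 7597) (.d (nat_lit 460) (nat_lit 459) (nat_lit 459) (nat_lit 496) (nat_lit 460)))) (.a (.f (nat_lit 463) (nat_lit 431) (nat_lit 6574) (.f (nat_lit 461) (nat_lit 429) (nat_lit 7597) (.f (nat_lit 460) (nat_lit 459) (nat_lit 459) (.f (nat_lit 492) (nat_lit 491) (nat_lit 1483) (.f (nat_lit 493) (nat_lit 527) (nat_lit 492) (.f (nat_lit 428) (nat_lit 427) (nat_lit 3499) (.d (nat_lit 396) (nat_lit 364) (nat_lit 4460) (nat_lit 525) (nat_lit 4492)))))))) (.a (.f (nat_lit 461) (nat_lit 429) (nat_lit 7597) (.f (nat_lit 496) (nat_lit 497) (nat_lit 3533) (.d (nat_lit 460) (nat_lit 459) (nat_lit 459) (nat_lit 493) (nat_lit 3532)))) (.f (nat_lit 463) (nat_lit 431) (nat_lit 6574) (.f (nat_lit 496) (nat_lit 592) (nat_lit 7631) (.d (nat_lit 497) (nat_lit 498) (nat_lit 3534) (nat_lit 525) (nat_lit 1517)))))))))))) (.a (.p (nat_lit 590) (.a (.f (nat_lit 495) (nat_lit 463) (nat_lit 6606) (.f (nat_lit 493) (nat_lit 461) (nat_lit 7629) (.d (nat_lit 527) (nat_lit 492) (nat_lit 492) (nat_lit 622) (nat_lit 6638)))) (.a (.f (nat_lit 589) (nat_lit 621) (nat_lit 5613) (.f (nat_lit 462) (nat_lit 557) (nat_lit 5581) (.d (nat_lit 463) (nat_lit 431) (nat_lit 6574) (nat_lit 495) (nat_lit 6606)))) (.f (nat_lit 589) (nat_lit 621) (nat_lit 5613) (.f (nat_lit 462) (nat_lit 557) (nat_lit 5581) (.d (nat_lit 461) (nat_lit 429) (nat_lit 7597) (nat_lit 493) (nat_lit 7629))))))) (.a s37782 (.a s37753 (.a s37776 (.a s39237 s37803))))))))) (.a (.p (nat_lit 525) (.a (.f (nat_lit 527) (nat_lit 561) (nat_lit 525) (.f (nat_lit 493) (nat_lit 492) (nat_lit 3564) (.f (nat_lit 557) (nat_lit 556) (nat_lit 1548) (.d (nat_lit 462) (nat_lit 430) (nat_lit 5549) (nat_lit 589) (nat_lit 6605))))) (.a (.p (nat_lit 493) (.a (.p (nat_lit 558) (.a (.d (nat_lit 461) (nat_lit 429) (nat_lit 4525) (nat_lit 590) (nat_lit 7629)) (.a s39891 (.f (nat_lit 590) (nat_lit 622) (nat_lit 7661) (.f (nat_lit 589) (nat_lit 621) (nat_lit 5613) (.f (nat_lit 557) (nat_lit 462) (nat_lit 5581) (.f (nat_lit 591) (nat_lit 623) (nat_lit 4590) (.d (nat_lit 556) (nat_lit 555) (nat_lit 555) (nat_lit 592) (nat_lit 3628))))))))) (.a (.p (nat_lit 558) (.a (.d (nat_lit 461) (nat_lit 429) (nat_lit 4525) (nat_lit 590) (nat_lit 7629)) (.a (.p (nat_lit 462) (.a (.d (nat_lit 430) (nat_lit 398) (nat_lit 5517) (nat_lit 557) (nat_lit 5549)) (.a (.f (nat_lit 429) (nat_lit 461) (nat_lit 4525) (.d (nat_lit 430) (nat_lit 397) (nat_lit 7565) (nat_lit 398) (nat_lit 5517))) (.f (nat_lit 461) (nat_lit 429) (nat_lit 4525) (.f (nat_lit 557) (nat_lit 589) (nat_lit 5581) (.f (nat_lit 460) (nat_lit 428) (nat_lit 7596) (.d (nat_lit 459) (nat_lit 458) (nat_lit 458) (nat_lit 495) (nat_lit 459)))))))) (.f (nat_lit 590) (nat_lit 622) (nat_lit 7661) (.f (nat_lit 589) (nat_lit 621) (nat_lit 5613) (.f (nat_lit 557) (nat_lit 462) (nat_lit 5581) (.f (nat_lit 588) (nat_lit 620) (nat_lit 5612) (.f (nat_lit 492) (nat_lit 460) (nat_lit 7628) (.f (nat_lit 491) (nat_lit 490) (nat_lit 490) (.f (nat_lit 523) (nat_lit 522) (nat_lit 1514) (.f (nat_lit 524) (nat_lit 495) (nat_lit 2539) (.d (nat_lit 459) (nat_lit 458) (nat_lit 3530) (nat_lit 556) (nat_lit 7627))))))))))))) (.a (.p (nat_lit 462) (.a (.f (nat_lit 430) (nat_lit 398) (nat_lit 5517) (.f (nat_lit 429) (nat_lit 397) (nat_lit 7565) (.f (nat_lit 461) (nat_lit 558) (nat_lit 4525) (.f (nat_lit 431) (nat_lit 399) (nat_lit 6542) (.d (nat_lit 460) (nat_lit 432) (nat_lit 1452) (nat_lit 459) (nat_lit 2475)))))) (.a (.d (nat_lit 430) (nat_lit 398) (nat_lit 5517) (nat_lit 557) (nat_lit 5549)) (.p (nat_lit 461) (.a (.d (nat_lit 429) (nat_lit 397) (nat_lit 4493) (nat_lit 558) (nat_lit 4525)) (.a (.f (nat_lit 429) (nat_lit 397) (nat_lit 4493) (.f (nat_lit 524) (nat_lit 556) (nat_lit 5548) (.d (nat_lit 495) (nat_lit 496) (nat_lit 1516) (nat_lit 523) (nat_lit 2539)))) (.f (nat_lit 557) (nat_lit 589) (nat_lit 6605) (.f (nat_lit 460) (nat_lit 428) (nat_lit 7596) (.d (nat_lit 459) (nat_lit 458) (nat_lit 458) (nat_lit 495) (nat_lit 459)))))))))) (.a (.p (nat_lit 495) (.a (.d (nat_lit 496) (nat_lit 497) (nat_lit 1517) (nat_lit 524) (nat_lit 1516)) (.a (.p (nat_lit 492) (.a (.f (nat_lit 524) (nat_lit 523) (nat_lit 2539) (.f (nat_lit 460) (nat_lit 459) (nat_lit 3531) (.f (nat_lit 428) (nat_lit 396) (nat_lit 4492) (.f (nat_lit 429) (nat_lit 397) (nat_lit 6540) (.d (nat_lit 461) (nat_lit 556) (nat_lit 5548) (nat_lit 558) (nat_lit 4525)))))) (.a (.f (nat_lit 491) (nat_lit 490) (nat_lit 490) (.d (nat_lit 459) (nat_lit 458) (nat_lit 3530) (nat_lit 460) (nat_lit 3531))) (.f (nat_lit 523) (nat_lit 524) (nat_lit 1515) (.d (nat_lit 491) (nat_lit 490) (nat_lit 490) (nat_lit 522) (nat_lit 1514)))))) (.f (nat_lit 496) (nat_lit 497) (nat_lit 1517) (.f (nat_lit 461) (nat_lit 460) (nat_lit 3532) (.d (nat_lit 429) (nat_lit 397) (nat_lit 4493) (nat_lit 558) (nat_lit 4525))))))) (.a (.p (nat_lit 462) (.a (.d (nat_lit 430) (nat_lit 398) (nat_lit 5517) (nat_lit 557) (nat_lit 5549)) (.a (.p (nat_lit 495) (.a (.d (nat_lit 496) (nat_lit 497) (nat_lit 1517) (nat_lit 524) (nat_lit 1516)) (.a (.f (nat_lit 430) (nat_lit 398) (nat_lit 5517) (.f (nat_lit 524) (nat_lit 523) (nat_lit 2539) (.f (nat_lit 429) (nat_lit 397) (nat_lit 7565) (.f (nat_lit 461) (nat_lit 556) (nat_lit 5548) (.f (nat_lit 460) (nat_lit 459) (nat_lit 459) (.d (nat_lit 431) (nat_lit 399) (nat_lit 6542) (nat_lit 432) (nat_lit 1452))))))) (.f (nat_lit 496) (nat_lit 497) (nat_lit 1517) (.f (nat_lit 430) (nat_lit 398) (nat_lit 5517) (.f (nat_lit 460) (nat_lit 461) (nat_lit 3532) (.f (nat_lit 431) (nat_lit 399) (nat_lit 6542) (.f (nat_lit 429) (nat_lit 397) (nat_lit 7565) (.d (nat_lit 459) (nat_lit 428) (nat_lit 1451) (nat_lit 492) (nat_lit 3531)))))))))) (.p (nat_lit 461) (.a (.f (nat_lit 429) (nat_lit 397) (nat_lit 4493) (.f (nat_lit 524) (nat_lit 556) (nat_lit 5548) (.d (nat_lit 495) (nat_lit 496) (nat_lit 1516) (nat_lit 523) (nat_lit 2539)))) (.a (.f (nat_lit 557) (nat_lit 589) (nat_lit 6605) (.f (nat_lit 460) (nat_lit 428) (nat_lit 7596) (.d (nat_lit 459) (nat_lit 458) (nat_lit 458) (nat_lit 495) (nat_lit 459)))) (.f (nat_lit 557) (nat_lit 589) (nat_lit 6605) (.f (nat_lit 429) (nat_lit 397) (nat_lit 4493) (.d (nat_lit 428) (nat_lit 396) (nat_lit 7564) (nat_lit 460) (nat_lit 7596)))))))))) (.a (.p (nat_lit 558) (.a (.d (nat_lit 461) (nat_lit 429) (nat_lit 4525) (nat_lit 590) (nat_lit 7629)) (.a (.p (nat_lit 462) (.a (.d (nat_lit 430) (nat_lit 398) (nat_lit 5517) (nat_lit 557) (nat_lit 5549)) (.a (.f (nat_lit 429) (nat_lit 461) (nat_lit 4525) (.d (nat_lit 430) (nat_lit 397) (nat_lit 7565) (nat_lit 398) (nat_lit 5517))) (.f (nat_lit 461) (nat_lit 429) (nat_lit 4525) (.f (nat_lit 557) (nat_lit 589) (nat_lit 6605) (.f (nat_lit 556) (nat_lit 588) (nat_lit 5580) (.f (nat_lit 555) (nat_lit 554) (nat_lit 2570) (.f (nat_lit 523) (nat_lit 522) (nat_lit 3594) (.f (nat_lit 460) (nat_lit 428) (nat_lit 7596) (.f (nat_lit 587) (nat_lit 586) (nat_lit 1578) (.d (nat_lit 492) (nat_lit 491) (nat_lit 6603) (nat_lit 524) (nat_lit 5579)))))))))))) (.f (nat_lit 590) (nat_lit 622) (nat_lit 7661) (.f (nat_lit 589) (nat_lit 621) (nat_lit 5613) (.f (nat_lit 557) (nat_lit 462) (nat_lit 5581) (.f (nat_lit 591) (nat_lit 623) (nat_lit 4590) (.d (nat_lit 556) (nat_lit 555) (nat_lit 555) (nat_lit 592) (nat_lit 3628))))))))) (.a (.p (nat_lit 492) (.a (.f (nat_lit 491) (nat_lit 490) (nat_lit 490) (.f (nat_lit 523) (nat_lit 522) (nat_lit 1514) (.f (nat_lit 524) (nat_lit 495) (nat_lit 1515) (.f (nat_lit 555) (nat_lit 554) (nat_lit 1546) (.d (nat_lit 460) (nat_lit 428) (nat_lit 5547) (nat_lit 587) (nat_lit 6603)))))) (.a (.p (nat_lit 460) (.a (.f (nat_lit 557) (nat_lit 589) (nat_lit 7628) (.d (nat_lit 428) (nat_lit 396) (nat_lit 4492) (nat_lit 524) (nat_lit 4524))) (.a (.f (nat_lit 491) (nat_lit 490) (nat_lit 490) (.f (nat_lit 523) (nat_lit 522) (nat_lit 1514) (.f (nat_lit 428) (nat_lit 396) (nat_lit 4492) (.d (nat_lit 555) (nat_lit 524) (nat_lit 5547) (nat_lit 587) (nat_lit 6603))))) (.a (.f (nat_lit 491) (nat_lit 490) (nat_lit 490) (.f (nat_lit 523) (nat_lit 522) (nat_lit 1514) (.f (nat_lit 428) (nat_lit 396) (nat_lit 4492) (.d (nat_lit 555) (nat_lit 459) (nat_lit 6571) (nat_lit 587) (nat_lit 6603))))) (.f (nat_lit 491) (nat_lit 490) (nat_lit 490) (.f (nat_lit 523) (nat_lit 522) (nat_lit 1514) (.f (nat_lit 459) (nat_lit 458) (nat_lit 3530) (.f (nat_lit 555) (nat_lit 587) (nat_lit 6603) (.d (nat_lit 554) (nat_lit 524) (nat_lit 1546) (nat_lit 586) (nat_lit 5578)))))))))) (.a (.f (nat_lit 491) (nat_lit 490) (nat_lit 490) (.f (nat_lit 459) (nat_lit 458) (nat_lit 3530) (.f (nat_lit 460) (nat_lit 495) (nat_lit 3531) (.f (nat_lit 523) (nat_lit 522) (nat_lit 1514) (.d (nat_lit 428) (nat_lit 396) (nat_lit 4492) (nat_lit 555) (nat_lit 6571)))))) (.a (.f (nat_lit 491) (nat_lit 490) (nat_lit 490) (.f (nat_lit 523) (nat_lit 522) (nat_lit 1514) (.f (nat_lit 495) (nat_lit 524) (nat_lit 1515) (.d (nat_lit 459) (nat_lit 458) (nat_lit 3530) (nat_lit 460) (nat_lit 3531))))) (.a (.p (nat_lit 460) (.a (.f (nat_lit 557) (nat_lit 589) (nat_lit 7628) (.d (nat_lit 428) (nat_lit 396) (nat_lit 4492) (nat_lit 524) (nat_lit 4524))) (.a (.f (nat_lit 495) (nat_lit 459) (nat_lit 3531) (.d (nat_lit 524) (nat_lit 496) (nat_lit 1516) (nat_lit 523) (nat_lit 2539))) (.f (nat_lit 557) (nat_lit 589) (nat_lit 7628) (.f (nat_lit 459) (nat_lit 495) (nat_lit 3531) (.f (nat_lit 430) (nat_lit 462) (nat_lit 5549) (.f (nat_lit 428) (nat_lit 396) (nat_lit 4492) (.f (nat_lit 429) (nat_lit 431) (nat_lit 1451) (.d (nat_lit 458) (nat_lit 427) (nat_lit 1450) (nat_lit 457) (nat_lit 457)))))))))) (.a (.f (nat_lit 491) (nat_lit 490) (nat_lit 490) (.f (nat_lit 523) (nat_lit 522) (nat_lit 1514) (.f (nat_lit 524) (nat_lit 495) (nat_lit 1515) (.f (nat_lit 459) (nat_lit 458) (nat_lit 3530) (.d (nat_lit 427) (nat_lit 395) (nat_lit 4491) (nat_lit 556) (nat_lit 4523)))))) (.f (nat_lit 491) (nat_lit 490) (nat_lit 490) (.f (nat_lit 459) (nat_lit 458) (nat_lit 3530) (.f (nat_lit 460) (nat_lit 495) (nat_lit 3531) (.f (nat_lit 557) (nat_lit 589) (nat_lit 7628) (.d (nat_lit 428) (nat_lit 396) (nat_lit 4492) (nat_lit 524) (nat_lit 4524))))))))))))) (.a (.p (nat_lit 557) (.a (.d (nat_lit 462) (nat_lit 430) (nat_lit 5549) (nat_lit 589) (nat_lit 6605)) (.a (.p (nat_lit 461) (.a (.f (nat_lit 462) (nat_lit 430) (nat_lit 5549) (.f (nat_lit 460) (nat_lit 428) (nat_lit 7596) (.d (nat_lit 459) (nat_lit 458) (nat_lit 458) (nat_lit 495) (nat_lit 459)))) (.a (.f (nat_lit 558) (nat_lit 590) (nat_lit 7629) (.f (nat_lit 462) (nat_lit 430) (nat_lit 5549) (.f (nat_lit 460) (nat_lit 428) (nat_lit 7596) (.f (nat_lit 459) (nat_lit 458) (nat_lit 458) (.f (nat_lit 491) (nat_lit 490) (nat_lit 1482) (.f (nat_lit 556) (nat_lit 588) (nat_lit 5580) (.f (nat_lit 555) (nat_lit 554) (nat_lit 2570) (.f (nat_lit 523) (nat_lit 522) (nat_lit 3594) (.d (nat_lit 427) (nat_lit 426) (nat_lit 3498) (nat_lit 524) (nat_lit 4523)))))))))) (.a (.f (nat_lit 460) (nat_lit 428) (nat_lit 7596) (.f (nat_lit 495) (nat_lit 496) (nat_lit 3532) (.d (nat_lit 459) (nat_lit 458) (nat_lit 458) (nat_lit 492) (nat_lit 3531)))) (.f (nat_lit 558) (nat_lit 590) (nat_lit 4557) (.f (nat_lit 556) (nat_lit 588) (nat_lit 5580) (.f (nat_lit 555) (nat_lit 554) (nat_lit 2570) (.f (nat_lit 523) (nat_lit 522) (nat_lit 3594) (.f (nat_lit 524) (nat_lit 495) (nat_lit 2539) (.f (nat_lit 587) (nat_lit 586) (nat_lit 1578) (.d (nat_lit 619) (nat_lit 492) (nat_lit 6635) (nat_lit 651) (nat_lit 6667)))))))))))) (.f (nat_lit 589) (nat_lit 621) (nat_lit 6637) (.f (nat_lit 590) (nat_lit 622) (nat_lit 4589) (.f (nat_lit 461) (nat_lit 558) (nat_lit 4557) (.d (nat_lit 460) (nat_lit 428) (nat_lit 7596) (nat_lit 492) (nat_lit 7628)))))))) (.a (.p (nat_lit 558) (.a (.d (nat_lit 461) (nat_lit 429) (nat_lit 4525) (nat_lit 590) (nat_lit 7629)) (.a s39891 (.f (nat_lit 590) (nat_lit 622) (nat_lit 7661) (.f (nat_lit 589) (nat_lit 621) (nat_lit 5613) (.f (nat_lit 557) (nat_lit 462) (nat_lit 5581) (.f (nat_lit 492) (nat_lit 460) (nat_lit 7628) (.f (nat_lit 491) (nat_lit 490) (nat_lit 490) (.f (nat_lit 523) (nat_lit 522) (nat_lit 1514) (.f (nat_lit 524) (nat_lit 495) (nat_lit 2539) (.f (nat_lit 588) (nat_lit 620) (nat_lit 5612) (.f (nat_lit 587) (nat_lit 586) (nat_lit 2602) (.d (nat_lit 619) (nat_lit 555) (nat_lit 6635) (nat_lit 618) (nat_lit 1610)))))))))))))) (.p (nat_lit 558) (.a (.d (nat_lit 461) (nat_lit 429) (nat_lit 4525) (nat_lit 590) (nat_lit 7629)) (.a (.p (nat_lit 462) (.a (.d (nat_lit 430) (nat_lit 398) (nat_lit 5517) (nat_lit 557) (nat_lit 5549)) (.a (.f (nat_lit 429) (nat_lit 461) (nat_lit 4525) (.d (nat_lit 430) (nat_lit 397) (nat_lit 7565) (nat_lit 398) (nat_lit 5517))) (.f (nat_lit 461) (nat_lit 429) (nat_lit 4525) (.f (nat_lit 557) (nat_lit 589) (nat_lit 6605) (.f (nat_lit 556) (nat_lit 588) (nat_lit 5580) (.f (nat_lit 555) (nat_lit 554) (nat_lit 2570) (.f (nat_lit 523) (nat_lit 522) (nat_lit 3594) (.f (nat_lit 524) (nat_lit 495) (nat_lit 2539) (.f (nat_lit 587) (nat_lit 586) (nat_lit 1578) (.d (nat_lit 619) (nat_lit 492) (nat_lit 6635) (nat_lit 651) (nat_lit 6667)))))))))))) (.f (nat_lit 590) (nat_lit 622) (nat_lit 7661) (.f (nat_lit 589) (nat_lit 621) (nat_lit 5613) (.f (nat_lit 557) (nat_lit 462) (nat_lit 5581) (.f (nat_lit 591) (nat_lit 623) (nat_lit 4590) (.d (nat_lit 556) (nat_lit 555) (nat_lit 555) (nat_lit 592) (nat_lit 3628))))))))))))))))))) (.a (.f (nat_lit 527) (nat_lit 561) (nat_lit 525) (.f (nat_lit 493) (nat_lit 492) (nat_lit 3564) (.f (nat_lit 496) (nat_lit 497) (nat_lit 2541) (.f (nat_lit 495) (nat_lit 524) (nat_lit 2540) (.f (nat_lit 461) (nat_lit 460) (nat_lit 3532) (.d (nat_lit 429) (nat_lit 397) (nat_lit 4493) (nat_lit 558) (nat_lit 4525))))))) (.f (nat_lit 527) (nat_lit 561) (nat_lit 525) (.f (nat_lit 496) (nat_lit 497) (nat_lit 2541) (.f (nat_lit 524) (nat_lit 495) (nat_lit 2540) (.d (nat_lit 556) (nat_lit 555) (nat_lit 1547) (nat_lit 557) (nat_lit 1548))))))))) (.a (.p (nat_lit 558) (.a s37753 (.a s39209 (.a s38619 (.a s40122 (.a (.p (nat_lit 590) (.a (.f (nat_lit 495) (nat_lit 463) (nat_lit 6606) (.f (nat_lit 493) (nat_lit 461) (nat_lit 7629) (.d (nat_lit 527) (nat_lit 492) (nat_lit 492) (nat_lit 622) (nat_lit 6638)))) (.a (.f (nat_lit 463) (nat_lit 495) (nat_lit 6606) (.f (nat_lit 462) (nat_lit 431) (nat_lit 6574) (.d (nat_lit 461) (nat_lit 429) (nat_lit 7597) (nat_lit 493) (nat_lit 7629)))) (.f (nat_lit 621) (nat_lit 589) (nat_lit 5613) (.f (nat_lit 622) (nat_lit 653) (nat_lit 5645) (.d (nat_lit 623) (nat_lit 591) (nat_lit 4590) (nat_lit 655) (nat_lit 4622))))))) (.a (.p (nat_lit 590) (.a (.f (nat_lit 493) (nat_lit 461) (nat_lit 7629) (.f (nat_lit 525) (nat_lit 622) (nat_lit 7661) (.d (nat_lit 527) (nat_lit 492) (nat_lit 3564) (nat_lit 561) (nat_lit 525)))) (.a (.f (nat_lit 621) (nat_lit 589) (nat_lit 5613) (.f (nat_lit 622) (nat_lit 653) (nat_lit 5645) (.d (nat_lit 623) (nat_lit 591) (nat_lit 4590) (nat_lit 655) (nat_lit 4622)))) (.f (nat_lit 493) (nat_lit 461) (nat_lit 7629) (.f (nat_lit 591) (nat_lit 623) (nat_lit 4590) (.f (nat_lit 589) (nat_lit 621) (nat_lit 5613) (.f (nat_lit 592) (nat_lit 561) (nat_lit 2605) (.f (nat_lit 624) (nat_lit 625) (nat_lit 589) (.f (nat_lit 527) (nat_lit 495) (nat_lit 7663) (.d (nat_lit 492) (nat_lit 491) (nat_lit 491) (nat_lit 525) (nat_lit 3564))))))))))) (.a s40150 (.p (nat_lit 590) (.a (.f (nat_lit 495) (nat_lit 463) (nat_lit 6606) (.f (nat_lit 622) (nat_lit 527) (nat_lit 6638) (.d (nat_lit 621) (nat_lit 589) (nat_lit 5613) (nat_lit 653) (nat_lit 5645)))) (.a (.f (nat_lit 621) (nat_lit 589) (nat_lit 5613) (.f (nat_lit 622) (nat_lit 653) (nat_lit 5645) (.d (nat_lit 623) (nat_lit 591) (nat_lit 4590) (nat_lit 655) (nat_lit 4622)))) (.a (.f (nat_lit 495) (nat_lit 463) (nat_lit 6606) (.f (nat_lit 527) (nat_lit 622) (nat_lit 6638) (.f (nat_lit 525) (nat_lit 561) (nat_lit 525) (.d (nat_lit 524) (nat_lit 496) (nat_lit 2540) (nat_lit 523) (nat_lit 2539))))) (.f (nat_lit 495) (nat_lit 463) (nat_lit 6606) (.f (nat_lit 591) (nat_lit 623) (nat_lit 4590) (.f (nat_lit 589) (nat_lit 621) (nat_lit 5613) (.f (nat_lit 592) (nat_lit 561) (nat_lit 2605) (.d (nat_lit 624) (nat_lit 527) (nat_lit 7663) (nat_lit 625) (nat_lit 589)))))))))))))))))) (.a (.p (nat_lit 496) (.a s39556 (.a s38771 (.a s38031 (.a (.p (nat_lit 497) (.a (.d (nat_lit 525) (nat_lit 495) (nat_lit 1517) (nat_lit 527) (nat_lit 2541)) (.a (.f (nat_lit 495) (nat_lit 525) (nat_lit 1517) (.d (nat_lit 465) (nat_lit 466) (nat_lit 2510) (nat_lit 592) (nat_lit 6608))) (.f (nat_lit 465) (nat_lit 592) (nat_lit 6608) (.d (nat_lit 433) (nat_lit 401) (nat_lit 5520) (nat_lit 464) (nat_lit 6576)))))) (.a (.p (nat_lit 462) (.a (.p (nat_lit 430) (.a (.f (nat_lit 429) (nat_lit 397) (nat_lit 7565) (.f (nat_lit 431) (nat_lit 399) (nat_lit 6542) (.f (nat_lit 461) (nat_lit 558) (nat_lit 7597) (.d (nat_lit 460) (nat_lit 432) (nat_lit 1452) (nat_lit 459) (nat_lit 2475))))) (.a (.f (nat_lit 525) (nat_lit 557) (nat_lit 5549) (.f (nat_lit 398) (nat_lit 493) (nat_lit 5517) (.d (nat_lit 399) (nat_lit 367) (nat_lit 6510) (nat_lit 431) (nat_lit 6542)))) (.f (nat_lit 525) (nat_lit 557) (nat_lit 5549) (.f (nat_lit 398) (nat_lit 493) (nat_lit 5517) (.d (nat_lit 397) (nat_lit 365) (nat_lit 7533) (nat_lit 429) (nat_lit 7565))))))) (.a s39281 (.a (.p (nat_lit 558) (.a (.f (nat_lit 557) (nat_lit 589) (nat_lit 5581) (.f (nat_lit 430) (nat_lit 525) (nat_lit 5549) (.d (nat_lit 429) (nat_lit 397) (nat_lit 7565) (nat_lit 461) (nat_lit 7597)))) (.a (.f (nat_lit 589) (nat_lit 557) (nat_lit 5581) (.f (nat_lit 590) (nat_lit 621) (nat_lit 5613) (.d (nat_lit 461) (nat_lit 429) (nat_lit 7597) (nat_lit 493) (nat_lit 7629)))) (.a (.f (nat_lit 461) (nat_lit 429) (nat_lit 7597) (.f (nat_lit 590) (nat_lit 493) (nat_lit 7629) (.f (nat_lit 621) (nat_lit 589) (nat_lit 5613) (.f (nat_lit 622) (nat_lit 653) (nat_lit 5645) (.d (nat_lit 623) (nat_lit 591) (nat_lit 4590) (nat_lit 655) (nat_lit 4622)))))) (.a (.f (nat_lit 461) (nat_lit 429) (nat_lit 7597) (.f (nat_lit 590) (nat_lit 493) (nat_lit 7629) (.f (nat_lit 623) (nat_lit 591) (nat_lit 4590) (.f (nat_lit 622) (nat_lit 655) (nat_lit 4622) (.f (nat_lit 653) (nat_lit 621) (nat_lit 5645) (.f (nat_lit 654) (nat_lit 685) (nat_lit 5677) (.f (nat_lit 525) (nat_lit 557) (nat_lit 7693) (.f (nat_lit 497) (nat_lit 527) (nat_lit 2541) (.f (nat_lit 465) (nat_lit 592) (nat_lit 6608) (.d (nat_lit 464) (nat_lit 433) (nat_lit 6576) (nat_lit 463) (nat_lit 461))))))))))) (.f (nat_lit 557) (nat_lit 589) (nat_lit 5581) (.f (nat_lit 525) (nat_lit 430) (nat_lit 5549) (.d (nat_lit 527) (nat_lit 497) (nat_lit 2541) (nat_lit 556) (nat_lit 1548))))))))) (.a s39303 (.a (.p (nat_lit 558) (.a (.f (nat_lit 557) (nat_lit 589) (nat_lit 5581) (.f (nat_lit 430) (nat_lit 525) (nat_lit 5549) (.f (nat_lit 399) (nat_lit 431) (nat_lit 6542) (.f (nat_lit 398) (nat_lit 367) (nat_lit 6510) (.d (nat_lit 397) (nat_lit 365) (nat_lit 7533) (nat_lit 429) (nat_lit 7565)))))) (.a (.f (nat_lit 431) (nat_lit 463) (nat_lit 6574) (.f (nat_lit 430) (nat_lit 399) (nat_lit 6542) (.f (nat_lit 397) (nat_lit 429) (nat_lit 7565) (.f (nat_lit 398) (nat_lit 365) (nat_lit 7533) (.f (nat_lit 433) (nat_lit 432) (nat_lit 3469) (.f (nat_lit 465) (nat_lit 464) (nat_lit 6576) (.d (nat_lit 497) (nat_lit 401) (nat_lit 5520) (nat_lit 592) (nat_lit 6608)))))))) (.a (.f (nat_lit 557) (nat_lit 589) (nat_lit 5581) (.f (nat_lit 525) (nat_lit 430) (nat_lit 5549) (.d (nat_lit 527) (nat_lit 497) (nat_lit 2541) (nat_lit 556) (nat_lit 1548)))) (.f (nat_lit 589) (nat_lit 557) (nat_lit 5581) (.f (nat_lit 590) (nat_lit 621) (nat_lit 5613) (.f (nat_lit 623) (nat_lit 591) (nat_lit 4590) (.f (nat_lit 622) (nat_lit 655) (nat_lit 4622) (.f (nat_lit 463) (nat_lit 431) (nat_lit 6574) (.f (nat_lit 525) (nat_lit 493) (nat_lit 7661) (.f (nat_lit 497) (nat_lit 527) (nat_lit 2541) (.f (nat_lit 465) (nat_lit 592) (nat_lit 6608) (.d (nat_lit 464) (nat_lit 433) (nat_lit 6576) (nat_lit 498) (nat_lit 462)))))))))))))) (.a s39326 (.p (nat_lit 558) (.a (.f (nat_lit 463) (nat_lit 431) (nat_lit 6574) (.f (nat_lit 461) (nat_lit 429) (nat_lit 7597) (.f (nat_lit 464) (nat_lit 497) (nat_lit 461) (.d (nat_lit 493) (nat_lit 465) (nat_lit 1485) (nat_lit 492) (nat_lit 1484))))) (.a (.f (nat_lit 589) (nat_lit 557) (nat_lit 5581) (.f (nat_lit 590) (nat_lit 621) (nat_lit 5613) (.d (nat_lit 461) (nat_lit 429) (nat_lit 7597) (nat_lit 493) (nat_lit 7629)))) (.a (.f (nat_lit 463) (nat_lit 431) (nat_lit 6574) (.f (nat_lit 461) (nat_lit 429) (nat_lit 7597) (.f (nat_lit 464) (nat_lit 497) (nat_lit 461) (.d (nat_lit 433) (nat_lit 432) (nat_lit 2477) (nat_lit 465) (nat_lit 6576))))) (.f (nat_lit 589) (nat_lit 557) (nat_lit 5581) (.f (nat_lit 590) (nat_lit 621) (nat_lit 5613) (.f (nat_lit 623) (nat_lit 591) (nat_lit 4590) (.f (nat_lit 622) (nat_lit 655) (nat_lit 4622) (.f (nat_lit 463) (nat_lit 431) (nat_lit 6574) (.f (nat_lit 525) (nat_lit 493) (nat_lit 7661) (.f (nat_lit 497) (nat_lit 527) (nat_lit 2541) (.f (nat_lit 465) (nat_lit 592) (nat_lit 6608) (.d (nat_lit 464) (nat_lit 433) (nat_lit 6576) (nat_lit 498) (nat_lit 462))))))))))))))))))))) (.a (.p (nat_lit 495) (.a (.f (nat_lit 463) (nat_lit 592) (nat_lit 7631) (.d (nat_lit 431) (nat_lit 399) (nat_lit 4495) (nat_lit 464) (nat_lit 7599))) (.a (.f (nat_lit 497) (nat_lit 525) (nat_lit 1517) (.f (nat_lit 462) (nat_lit 461) (nat_lit 3533) (.f (nat_lit 463) (nat_lit 498) (nat_lit 3534) (.d (nat_lit 431) (nat_lit 399) (nat_lit 4495) (nat_lit 558) (nat_lit 6574))))) (.f (nat_lit 525) (nat_lit 497) (nat_lit 1517) (.d (nat_lit 524) (nat_lit 493) (nat_lit 1516) (nat_lit 523) (nat_lit 2539)))))) s39373))))))) (.a (.p (nat_lit 558) (.a s37776 (.a s39225 (.a s38632 (.a s40122 (.a (.p (nat_lit 463) (.a (.f (nat_lit 495) (nat_lit 590) (nat_lit 6606) (.d (nat_lit 431) (nat_lit 399) (nat_lit 5518) (nat_lit 462) (nat_lit 6574))) (.a (.f (nat_lit 431) (nat_lit 462) (nat_lit 6574) (.f (nat_lit 495) (nat_lit 399) (nat_lit 5518) (.d (nat_lit 496) (nat_lit 464) (nat_lit 7599) (nat_lit 592) (nat_lit 7631)))) (.a (.f (nat_lit 462) (nat_lit 431) (nat_lit 6574) (.f (nat_lit 461) (nat_lit 429) (nat_lit 7597) (.f (nat_lit 493) (nat_lit 590) (nat_lit 7629) (.d (nat_lit 492) (nat_lit 464) (nat_lit 1484) (nat_lit 491) (nat_lit 2507))))) (.f (nat_lit 495) (nat_lit 590) (nat_lit 6606) (.f (nat_lit 592) (nat_lit 496) (nat_lit 7631) (.f (nat_lit 624) (nat_lit 527) (nat_lit 7663) (.f (nat_lit 655) (nat_lit 623) (nat_lit 5647) (.f (nat_lit 656) (nat_lit 687) (nat_lit 5679) (.d (nat_lit 657) (nat_lit 625) (nat_lit 4624) (nat_lit 689) (nat_lit 4656))))))))))) (.a (.p (nat_lit 525) (.a (.f (nat_lit 527) (nat_lit 561) (nat_lit 525) (.f (nat_lit 493) (nat_lit 492) (nat_lit 3564) (.f (nat_lit 496) (nat_lit 497) (nat_lit 2541) (.f (nat_lit 495) (nat_lit 524) (nat_lit 2540) (.d (nat_lit 461) (nat_lit 429) (nat_lit 4525) (nat_lit 460) (nat_lit 3532)))))) (.a (.p (nat_lit 462) (.a (.f (nat_lit 429) (nat_lit 461) (nat_lit 7597) (.f (nat_lit 430) (nat_lit 397) (nat_lit 7565) (.f (nat_lit 399) (nat_lit 431) (nat_lit 6542) (.d (nat_lit 398) (nat_lit 367) (nat_lit 6510) (nat_lit 493) (nat_lit 5517))))) (.a (.f (nat_lit 461) (nat_lit 429) (nat_lit 7597) (.f (nat_lit 493) (nat_lit 590) (nat_lit 7629) (.d (nat_lit 430) (nat_lit 398) (nat_lit 5517) (nat_lit 557) (nat_lit 5549)))) (.a (.f (nat_lit 430) (nat_lit 557) (nat_lit 5549) (.d (nat_lit 429) (nat_lit 397) (nat_lit 7565) (nat_lit 461) (nat_lit 7597))) (.a (.f (nat_lit 430) (nat_lit 557) (nat_lit 5549) (.f (nat_lit 398) (nat_lit 493) (nat_lit 5517) (.d (nat_lit 399) (nat_lit 367) (nat_lit 6510) (nat_lit 431) (nat_lit 6542)))) (.f (nat_lit 461) (nat_lit 429) (nat_lit 7597) (.f (nat_lit 590) (nat_lit 493) (nat_lit 7629) (.f (nat_lit 623) (nat_lit 591) (nat_lit 4590) (.f (nat_lit 622) (nat_lit 655) (nat_lit 4622) (.f (nat_lit 653) (nat_lit 621) (nat_lit 5645) (.d (nat_lit 654) (nat_lit 557) (nat_lit 7693) (nat_lit 685) (nat_lit 5677)))))))))))) (.f (nat_lit 527) (nat_lit 561) (nat_lit 525) (.f (nat_lit 496) (nat_lit 497) (nat_lit 2541) (.f (nat_lit 524) (nat_lit 495) (nat_lit 2540) (.d (nat_lit 556) (nat_lit 555) (nat_lit 1547) (nat_lit 557) (nat_lit 1548)))))))) (.a (.p (nat_lit 462) (.a (.f (nat_lit 431) (nat_lit 463) (nat_lit 6574) (.f (nat_lit 430) (nat_lit 399) (nat_lit 6542) (.d (nat_lit 429) (nat_lit 397) (nat_lit 7565) (nat_lit 461) (nat_lit 7597)))) (.a (.f (nat_lit 429) (nat_lit 461) (nat_lit 7597) (.f (nat_lit 430) (nat_lit 397) (nat_lit 7565) (.f (nat_lit 525) (nat_lit 557) (nat_lit 5549) (.f (nat_lit 399) (nat_lit 431) (nat_lit 6542) (.d (nat_lit 398) (nat_lit 367) (nat_lit 6510) (nat_lit 493) (nat_lit 5517)))))) (.a (.f (nat_lit 429) (nat_lit 461) (nat_lit 7597) (.f (nat_lit 430) (nat_lit 397) (nat_lit 7565) (.f (nat_lit 525) (nat_lit 557) (nat_lit 5549) (.f (nat_lit 493) (nat_lit 398) (nat_lit 5517) (.d (nat_lit 527) (nat_lit 492) (nat_lit 3564) (nat_lit 561) (nat_lit 525)))))) (.a (.f (nat_lit 431) (nat_lit 463) (nat_lit 6574) (.f (nat_lit 430) (nat_lit 399) (nat_lit 6542) (.f (nat_lit 525) (nat_lit 557) (nat_lit 5549) (.f (nat_lit 527) (nat_lit 561) (nat_lit 525) (.d (nat_lit 493) (nat_lit 398) (nat_lit 5517) (nat_lit 492) (nat_lit 3564)))))) (.f (nat_lit 461) (nat_lit 429) (nat_lit 7597) (.f (nat_lit 463) (nat_lit 431) (nat_lit 6574) (.f (nat_lit 493) (nat_lit 590) (nat_lit 7629) (.d (nat_lit 492) (nat_lit 464) (nat_lit 1484) (nat_lit 491) (nat_lit 2507)))))))))) (.a (.p (nat_lit 590) (.a (.f (nat_lit 495) (nat_lit 463) (nat_lit 6606) (.f (nat_lit 493) (nat_lit 461) (nat_lit 7629) (.d (nat_lit 527) (nat_lit 492) (nat_lit 492) (nat_lit 622) (nat_lit 6638)))) (.a (.f (nat_lit 493) (nat_lit 461) (nat_lit 7629) (.f (nat_lit 525) (nat_lit 622) (nat_lit 7661) (.f (nat_lit 495) (nat_lit 463) (nat_lit 6606) (.d (nat_lit 524) (nat_lit 496) (nat_lit 1516) (nat_lit 523) (nat_lit 2539))))) (.a (.f (nat_lit 493) (nat_lit 461) (nat_lit 7629) (.f (nat_lit 525) (nat_lit 622) (nat_lit 7661) (.d (nat_lit 527) (nat_lit 492) (nat_lit 3564) (nat_lit 561) (nat_lit 525)))) (.a (.f (nat_lit 495) (nat_lit 463) (nat_lit 6606) (.f (nat_lit 527) (nat_lit 622) (nat_lit 6638) (.f (nat_lit 525) (nat_lit 561) (nat_lit 525) (.d (nat_lit 524) (nat_lit 496) (nat_lit 2540) (nat_lit 523) (nat_lit 2539))))) (.f (nat_lit 493) (nat_lit 461) (nat_lit 7629) (.f (nat_lit 495) (nat_lit 463) (nat_lit 6606) (.f (nat_lit 492) (nat_lit 527) (nat_lit 492) (.f (nat_lit 524) (nat_lit 523) (nat_lit 1515) (.f (nat_lit 525) (nat_lit 496) (nat_lit 1516) (.f (nat_lit 460) (nat_lit 459) (nat_lit 3531) (.d (nat_lit 428) (nat_lit 396) (nat_lit 4492) (nat_lit 557) (nat_lit 4524))))))))))))) (.a (.p (nat_lit 462) (.a (.f (nat_lit 431) (nat_lit 463) (nat_lit 6574) (.f (nat_lit 430) (nat_lit 399) (nat_lit 6542) (.d (nat_lit 429) (nat_lit 397) (nat_lit 7565) (nat_lit 461) (nat_lit 7597)))) (.a (.f (nat_lit 429) (nat_lit 461) (nat_lit 7597) (.f (nat_lit 430) (nat_lit 397) (nat_lit 7565) (.f (nat_lit 399) (nat_lit 431) (nat_lit 6542) (.f (nat_lit 398) (nat_lit 367) (nat_lit 6510) (.f (nat_lit 527) (nat_lit 495) (nat_lit 4494) (.d (nat_lit 525) (nat_lit 557) (nat_lit 5549) (nat_lit 561) (nat_lit 525))))))) (.a (.f (nat_lit 429) (nat_lit 461) (nat_lit 7597) (.f (nat_lit 430) (nat_lit 397) (nat_lit 7565) (.f (nat_lit 525) (nat_lit 557) (nat_lit 5549) (.f (nat_lit 527) (nat_lit 561) (nat_lit 525) (.f (nat_lit 495) (nat_lit 398) (nat_lit 4494) (.d (nat_lit 496) (nat_lit 497) (nat_lit 2541) (nat_lit 524) (nat_lit 2540))))))) (.f (nat_lit 463) (nat_lit 431) (nat_lit 6574) (.f (nat_lit 495) (nat_lit 590) (nat_lit 6606) (.f (nat_lit 496) (nat_lit 592) (nat_lit 7631) (.d (nat_lit 497) (nat_lit 498) (nat_lit 3534) (nat_lit 525) (nat_lit 1517))))))))) (.p (nat_lit 590) (.a (.f (nat_lit 495) (nat_lit 463) (nat_lit 6606) (.f (nat_lit 527) (nat_lit 622) (nat_lit 6638) (.f (nat_lit 525) (nat_lit 561) (nat_lit 525) (.d (nat_lit 524) (nat_lit 496) (nat_lit 2540) (nat_lit 523) (nat_lit 2539))))) (.a (.f (nat_lit 623) (nat_lit 591) (nat_lit 4590) (.f (nat_lit 622) (nat_lit 655) (nat_lit 4622) (.f (nat_lit 653) (nat_lit 621) (nat_lit 5645) (.f (nat_lit 654) (nat_lit 685) (nat_lit 5677) (.d (nat_lit 525) (nat_lit 493) (nat_lit 7661) (nat_lit 557) (nat_lit 7693)))))) (.a (.f (nat_lit 495) (nat_lit 463) (nat_lit 6606) (.f (nat_lit 622) (nat_lit 527) (nat_lit 6638) (.d (nat_lit 623) (nat_lit 591) (nat_lit 4590) (nat_lit 655) (nat_lit 4622)))) s40282)))))))))))))) (.a (.p (nat_lit 496) (.a s39556 (.a (.p (nat_lit 525) (.a (.f (nat_lit 495) (nat_lit 497) (nat_lit 1517) (.d (nat_lit 524) (nat_lit 493) (nat_lit 1516) (nat_lit 523) (nat_lit 2539))) (.a (.d (nat_lit 527) (nat_lit 497) (nat_lit 2541) (nat_lit 561) (nat_lit 525)) (.f (nat_lit 527) (nat_lit 561) (nat_lit 525) (.f (nat_lit 493) (nat_lit 492) (nat_lit 3564) (.f (nat_lit 557) (nat_lit 556) (nat_lit 1548) (.d (nat_lit 462) (nat_lit 430) (nat_lit 5549) (nat_lit 589) (nat_lit 6605)))))))) (.a s39565 (.a (.p (nat_lit 464) (.a (.f (nat_lit 465) (nat_lit 433) (nat_lit 6576) (.f (nat_lit 463) (nat_lit 431) (nat_lit 7599) (.f (nat_lit 462) (nat_lit 493) (nat_lit 1485) (.d (nat_lit 497) (nat_lit 498) (nat_lit 462) (nat_lit 592) (nat_lit 6608))))) (.a (.f (nat_lit 431) (nat_lit 463) (nat_lit 7599) (.f (nat_lit 432) (nat_lit 399) (nat_lit 7567) (.d (nat_lit 433) (nat_lit 401) (nat_lit 6544) (nat_lit 465) (nat_lit 6576)))) (.a s39589 (.a s39600 (.a (.p (nat_lit 462) (.a (.f (nat_lit 465) (nat_lit 433) (nat_lit 6576) (.f (nat_lit 463) (nat_lit 493) (nat_lit 1485) (.d (nat_lit 497) (nat_lit 498) (nat_lit 462) (nat_lit 592) (nat_lit 6608)))) (.a (.f (nat_lit 465) (nat_lit 433) (nat_lit 6576) (.f (nat_lit 463) (nat_lit 493) (nat_lit 1485) (.d (nat_lit 497) (nat_lit 461) (nat_lit 461) (nat_lit 498) (nat_lit 462)))) (.a (.f (nat_lit 465) (nat_lit 433) (nat_lit 6576) (.f (nat_lit 497) (nat_lit 592) (nat_lit 6608) (.f (nat_lit 525) (nat_lit 527) (nat_lit 2541) (.f (nat_lit 430) (nat_lit 557) (nat_lit 5549) (.f (nat_lit 398) (nat_lit 493) (nat_lit 5517) (.d (nat_lit 397) (nat_lit 365) (nat_lit 7533) (nat_lit 429) (nat_lit 7565))))))) (.a (.p (nat_lit 525) (.a (.d (nat_lit 527) (nat_lit 497) (nat_lit 2541) (nat_lit 561) (nat_lit 525)) (.f (nat_lit 430) (nat_lit 557) (nat_lit 5549) (.f (nat_lit 398) (nat_lit 493) (nat_lit 5517) (.d (nat_lit 397) (nat_lit 365) (nat_lit 7533) (nat_lit 429) (nat_lit 7565)))))) (.a (.f (nat_lit 465) (nat_lit 433) (nat_lit 6576) (.f (nat_lit 497) (nat_lit 592) (nat_lit 6608) (.d (nat_lit 463) (nat_lit 461) (nat_lit 461) (nat_lit 498) (nat_lit 462)))) (.p (nat_lit 525) (.a (.f (nat_lit 430) (nat_lit 557) (nat_lit 5549) (.f (nat_lit 398) (nat_lit 493) (nat_lit 5517) (.d (nat_lit 397) (nat_lit 365) (nat_lit 7533) (nat_lit 429) (nat_lit 7565)))) (.a (.f (nat_lit 527) (nat_lit 561) (nat_lit 525) (.f (nat_lit 493) (nat_lit 492) (nat_lit 3564) (.d (nat_lit 465) (nat_lit 433) (nat_lit 6576) (nat_lit 463) (nat_lit 1485)))) (.f (nat_lit 557) (nat_lit 430) (nat_lit 5549) (.d (nat_lit 527) (nat_lit 556) (nat_lit 1548) (nat_lit 561) (nat_lit 525)))))))))))) (.p (nat_lit 462) (.a (.f (nat_lit 463) (nat_lit 431) (nat_lit 7599) (.f (nat_lit 461) (nat_lit 497) (nat_lit 461) (.f (nat_lit 493) (nat_lit 492) (nat_lit 1484) (.d (nat_lit 429) (nat_lit 397) (nat_lit 4493) (nat_lit 428) (nat_lit 3500))))) (.a (.p (nat_lit 525) (.a (.d (nat_lit 527) (nat_lit 497) (nat_lit 2541) (nat_lit 561) (nat_lit 525)) (.f (nat_lit 430) (nat_lit 557) (nat_lit 5549) (.f (nat_lit 398) (nat_lit 493) (nat_lit 5517) (.d (nat_lit 397) (nat_lit 365) (nat_lit 7533) (nat_lit 429) (nat_lit 7565)))))) (.f (nat_lit 431) (nat_lit 463) (nat_lit 7599) (.d (nat_lit 399) (nat_lit 430) (nat_lit 6542) (nat_lit 432) (nat_lit 7567)))))))))))) (.a (.p (nat_lit 497) (.a (.d (nat_lit 525) (nat_lit 495) (nat_lit 1517) (nat_lit 527) (nat_lit 2541)) (.a (.f (nat_lit 495) (nat_lit 525) (nat_lit 1517) (.d (nat_lit 465) (nat_lit 466) (nat_lit 2510) (nat_lit 592) (nat_lit 6608))) (.f (nat_lit 465) (nat_lit 592) (nat_lit 6608) (.d (nat_lit 433) (nat_lit 401) (nat_lit 5520) (nat_lit 464) (nat_lit 6576)))))) (.p (nat_lit 464) (.a (.f (nat_lit 465) (nat_lit 433) (nat_lit 6576) (.f (nat_lit 495) (nat_lit 493) (nat_lit 2509) (.d (nat_lit 466) (nat_lit 463) (nat_lit 1486) (nat_lit 467) (nat_lit 1487)))) (.a (.f (nat_lit 433) (nat_lit 465) (nat_lit 6576) (.f (nat_lit 432) (nat_lit 401) (nat_lit 6544) (.f (nat_lit 399) (nat_lit 431) (nat_lit 7567) (.f (nat_lit 400) (nat_lit 367) (nat_lit 7535) (.f (nat_lit 527) (nat_lit 495) (nat_lit 5519) (.f (nat_lit 525) (nat_lit 561) (nat_lit 525) (.f (nat_lit 557) (nat_lit 556) (nat_lit 1548) (.f (nat_lit 493) (nat_lit 492) (nat_lit 3564) (.d (nat_lit 462) (nat_lit 430) (nat_lit 5549) (nat_lit 589) (nat_lit 6605)))))))))) (.a (.f (nat_lit 431) (nat_lit 463) (nat_lit 7599) (.f (nat_lit 432) (nat_lit 399) (nat_lit 7567) (.d (nat_lit 433) (nat_lit 401) (nat_lit 6544) (nat_lit 465) (nat_lit 6576)))) (.f (nat_lit 463) (nat_lit 431) (nat_lit 7599) (.f (nat_lit 495) (nat_lit 592) (nat_lit 7631) (.f (nat_lit 493) (nat_lit 492) (nat_lit 2508) (.f (nat_lit 525) (nat_lit 524) (nat_lit 1516) (.f (nat_lit 461) (nat_lit 460) (nat_lit 3532) (.f (nat_lit 429) (nat_lit 397) (nat_lit 4493) (.d (nat_lit 428) (nat_lit 396) (nat_lit 7564) (nat_lit 462) (nat_lit 3500)))))))))))))))))) (.a (.p (nat_lit 462) (.a s39391 (.a (.p (nat_lit 558) (.a (.f (nat_lit 429) (nat_lit 461) (nat_lit 7597) (.f (nat_lit 430) (nat_lit 397) (nat_lit 7565) (.f (nat_lit 525) (nat_lit 557) (nat_lit 5549) (.f (nat_lit 399) (nat_lit 431) (nat_lit 6542) (.d (nat_lit 398) (nat_lit 367) (nat_lit 6510) (nat_lit 493) (nat_lit 5517)))))) (.a (.f (nat_lit 461) (nat_lit 429) (nat_lit 7597) (.f (nat_lit 590) (nat_lit 493) (nat_lit 7629) (.d (nat_lit 589) (nat_lit 557) (nat_lit 5581) (nat_lit 621) (nat_lit 5613)))) (.a (.f (nat_lit 461) (nat_lit 429) (nat_lit 7597) (.f (nat_lit 590) (nat_lit 493) (nat_lit 7629) (.f (nat_lit 623) (nat_lit 591) (nat_lit 4590) (.f (nat_lit 622) (nat_lit 655) (nat_lit 4622) (.d (nat_lit 621) (nat_lit 589) (nat_lit 5613) (nat_lit 653) (nat_lit 5645)))))) (.a (.f (nat_lit 557) (nat_lit 589) (nat_lit 5581) (.f (nat_lit 430) (nat_lit 525) (nat_lit 5549) (.d (nat_lit 429) (nat_lit 397) (nat_lit 7565) (nat_lit 461) (nat_lit 7597)))) (.a (.f (nat_lit 557) (nat_lit 589) (nat_lit 5581) (.f (nat_lit 430) (nat_lit 525) (nat_lit 5549) (.f (nat_lit 399) (nat_lit 431) (nat_lit 6542) (.f (nat_lit 398) (nat_lit 367) (nat_lit 6510) (.d (nat_lit 397) (nat_lit 365) (nat_lit 7533) (nat_lit 429) (nat_lit 7565)))))) (.f (nat_lit 589) (nat_lit 557) (nat_lit 5581) (.f (nat_lit 590) (nat_lit 621) (nat_lit 5613) (.f (nat_lit 623) (nat_lit 591) (nat_lit 4590) (.f (nat_lit 622) (nat_lit 655) (nat_lit 4622) (.d (nat_lit 493) (nat_lit 461) (nat_lit 7629) (nat_lit 525) (nat_lit 7661)))))))))))) (.a (.p (nat_lit 431) (.a (.f (nat_lit 463) (nat_lit 558) (nat_lit 6574) (.d (nat_lit 399) (nat_lit 367) (nat_lit 5486) (nat_lit 430) (nat_lit 6542))) (.a (.f (nat_lit 430) (nat_lit 399) (nat_lit 6542) (.f (nat_lit 429) (nat_lit 397) (nat_lit 7565) (.f (nat_lit 461) (nat_lit 558) (nat_lit 7597) (.d (nat_lit 460) (nat_lit 432) (nat_lit 1452) (nat_lit 459) (nat_lit 2475))))) (.a (.f (nat_lit 399) (nat_lit 430) (nat_lit 6542) (.f (nat_lit 463) (nat_lit 367) (nat_lit 5486) (.f (nat_lit 464) (nat_lit 496) (nat_lit 7599) (.f (nat_lit 465) (nat_lit 493) (nat_lit 1485) (.f (nat_lit 433) (nat_lit 434) (nat_lit 2478) (.f (nat_lit 432) (nat_lit 461) (nat_lit 2477) (.f (nat_lit 466) (nat_lit 467) (nat_lit 3503) (.d (nat_lit 498) (nat_lit 497) (nat_lit 462) (nat_lit 499) (nat_lit 463))))))))) (.f (nat_lit 463) (nat_lit 558) (nat_lit 6574) (.f (nat_lit 464) (nat_lit 496) (nat_lit 7599) (.f (nat_lit 465) (nat_lit 493) (nat_lit 1485) (.f (nat_lit 433) (nat_lit 434) (nat_lit 2478) (.f (nat_lit 432) (nat_lit 461) (nat_lit 2477) (.f (nat_lit 466) (nat_lit 467) (nat_lit 3503) (.d (nat_lit 498) (nat_lit 497) (nat_lit 462) (nat_lit 499) (nat_lit 463)))))))))))) (.a (.p (nat_lit 525) (.a (.f (nat_lit 527) (nat_lit 561) (nat_lit 525) (.d (nat_lit 557) (nat_lit 430) (nat_lit 5549) (nat_lit 556) (nat_lit 1548))) (.a (.f (nat_lit 430) (nat_lit 557) (nat_lit 5549) (.f (nat_lit 398) (nat_lit 493) (nat_lit 5517) (.d (nat_lit 399) (nat_lit 367) (nat_lit 6510) (nat_lit 431) (nat_lit 6542)))) (.a (.f (nat_lit 527) (nat_lit 561) (nat_lit 525) (.f (nat_lit 493) (nat_lit 492) (nat_lit 3564) (.f (nat_lit 430) (nat_lit 398) (nat_lit 5517) (.f (nat_lit 429) (nat_lit 397) (nat_lit 7565) (.f (nat_lit 431) (nat_lit 399) (nat_lit 6542) (.f (nat_lit 496) (nat_lit 497) (nat_lit 2541) (.f (nat_lit 464) (nat_lit 463) (nat_lit 7599) (.d (nat_lit 465) (nat_lit 432) (nat_lit 429) (nat_lit 433) (nat_lit 6576))))))))) (.f (nat_lit 527) (nat_lit 561) (nat_lit 525) (.f (nat_lit 493) (nat_lit 492) (nat_lit 3564) (.d (nat_lit 557) (nat_lit 556) (nat_lit 1548) (nat_lit 589) (nat_lit 6605)))))))) (.a (.p (nat_lit 558) (.a (.f (nat_lit 557) (nat_lit 589) (nat_lit 5581) (.f (nat_lit 525) (nat_lit 430) (nat_lit 5549) (.d (nat_lit 527) (nat_lit 556) (nat_lit 1548) (nat_lit 561) (nat_lit 525)))) (.a (.f (nat_lit 557) (nat_lit 589) (nat_lit 5581) (.f (nat_lit 430) (nat_lit 525) (nat_lit 5549) (.d (nat_lit 429) (nat_lit 397) (nat_lit 7565) (nat_lit 461) (nat_lit 7597)))) (.a (.f (nat_lit 461) (nat_lit 429) (nat_lit 7597) (.f (nat_lit 590) (nat_lit 493) (nat_lit 7629) (.d (nat_lit 589) (nat_lit 557) (nat_lit 5581) (nat_lit 621) (nat_lit 5613)))) (.a (.f (nat_lit 461) (nat_lit 429) (nat_lit 7597) (.f (nat_lit 590) (nat_lit 493) (nat_lit 7629) (.f (nat_lit 623) (nat_lit 591) (nat_lit 4590) (.f (nat_lit 622) (nat_lit 655) (nat_lit 4622) (.d (nat_lit 621) (nat_lit 589) (nat_lit 5613) (nat_lit 653) (nat_lit 5645)))))) (.f (nat_lit 429) (nat_lit 461) (nat_lit 7597) (.f (nat_lit 430) (nat_lit 397) (nat_lit 7565) (.f (nat_lit 525) (nat_lit 557) (nat_lit 5549) (.f (nat_lit 493) (nat_lit 398) (nat_lit 5517) (.d (nat_lit 527) (nat_lit 492) (nat_lit 3564) (nat_lit 561) (nat_lit 525))))))))))) (.a (.p (nat_lit 557) (.a (.f (nat_lit 525) (nat_lit 430) (nat_lit 5549) (.d (nat_lit 527) (nat_lit 556) (nat_lit 1548) (nat_lit 561) (nat_lit 525))) (.a (.f (nat_lit 430) (nat_lit 525) (nat_lit 5549) (.f (nat_lit 431) (nat_lit 399) (nat_lit 6542) (.d (nat_lit 558) (nat_lit 463) (nat_lit 6574) (nat_lit 589) (nat_lit 5581)))) (.a (.f (nat_lit 558) (nat_lit 589) (nat_lit 5581) (.f (nat_lit 431) (nat_lit 463) (nat_lit 6574) (.f (nat_lit 430) (nat_lit 399) (nat_lit 6542) (.d (nat_lit 429) (nat_lit 397) (nat_lit 7565) (nat_lit 461) (nat_lit 7597))))) (.f (nat_lit 589) (nat_lit 558) (nat_lit 5581) (.f (nat_lit 525) (nat_lit 621) (nat_lit 6637) (.d (nat_lit 527) (nat_lit 556) (nat_lit 1548) (nat_lit 561) (nat_lit 525)))))))) (.a (.p (nat_lit 525) (.a (.f (nat_lit 527) (nat_lit 561) (nat_lit 525) (.d (nat_lit 557) (nat_lit 430) (nat_lit 5549) (nat_lit 556) (nat_lit 1548))) (.a (.f (nat_lit 430) (nat_lit 557) (nat_lit 5549) (.f (nat_lit 398) (nat_lit 493) (nat_lit 5517) (.d (nat_lit 399) (nat_lit 367) (nat_lit 6510) (nat_lit 431) (nat_lit 6542)))) (.a (.f (nat_lit 527) (nat_lit 561) (nat_lit 525) (.f (nat_lit 493) (nat_lit 492) (nat_lit 3564) (.f (nat_lit 430) (nat_lit 398) (nat_lit 5517) (.f (nat_lit 431) (nat_lit 399) (nat_lit 6542) (.f (nat_lit 463) (nat_lit 558) (nat_lit 6574) (.d (nat_lit 496) (nat_lit 464) (nat_lit 7599) (nat_lit 497) (nat_lit 2541))))))) (.f (nat_lit 527) (nat_lit 561) (nat_lit 525) (.f (nat_lit 493) (nat_lit 492) (nat_lit 3564) (.d (nat_lit 557) (nat_lit 556) (nat_lit 1548) (nat_lit 589) (nat_lit 6605)))))))) (.p (nat_lit 463) (.a (.f (nat_lit 558) (nat_lit 431) (nat_lit 6574) (.f (nat_lit 461) (nat_lit 429) (nat_lit 7597) (.f (nat_lit 493) (nat_lit 590) (nat_lit 7629) (.d (nat_lit 492) (nat_lit 464) (nat_lit 1484) (nat_lit 491) (nat_lit 2507))))) (.a (.f (nat_lit 431) (nat_lit 558) (nat_lit 6574) (.f (nat_lit 464) (nat_lit 496) (nat_lit 7599) (.f (nat_lit 493) (nat_lit 465) (nat_lit 1485) (.d (nat_lit 492) (nat_lit 461) (nat_lit 1484) (nat_lit 491) (nat_lit 2507))))) (.a (.f (nat_lit 558) (nat_lit 431) (nat_lit 6574) (.f (nat_lit 461) (nat_lit 429) (nat_lit 7597) (.f (nat_lit 590) (nat_lit 493) (nat_lit 7629) (.d (nat_lit 589) (nat_lit 557) (nat_lit 5581) (nat_lit 621) (nat_lit 5613))))) (.a (.p (nat_lit 464) (.a (.f (nat_lit 493) (nat_lit 465) (nat_lit 1485) (.d (nat_lit 492) (nat_lit 461) (nat_lit 1484) (nat_lit 491) (nat_lit 2507))) (.a (.f (nat_lit 496) (nat_lit 431) (nat_lit 7599) (.f (nat_lit 461) (nat_lit 497) (nat_lit 461) (.f (nat_lit 493) (nat_lit 492) (nat_lit 1484) (.d (nat_lit 429) (nat_lit 397) (nat_lit 4493) (nat_lit 428) (nat_lit 3500))))) (.a (.f (nat_lit 496) (nat_lit 431) (nat_lit 7599) (.f (nat_lit 497) (nat_lit 461) (nat_lit 461) (.d (nat_lit 465) (nat_lit 433) (nat_lit 6576) (nat_lit 498) (nat_lit 462)))) (.f (nat_lit 465) (nat_lit 493) (nat_lit 1485) (.d (nat_lit 496) (nat_lit 431) (nat_lit 7599) (nat_lit 433) (nat_lit 6576))))))) (.a (.p (nat_lit 461) (.a (.f (nat_lit 429) (nat_lit 558) (nat_lit 7597) (.d (nat_lit 397) (nat_lit 365) (nat_lit 4461) (nat_lit 493) (nat_lit 4493))) (.a (.p (nat_lit 464) (.a (.d (nat_lit 493) (nat_lit 465) (nat_lit 1485) (nat_lit 492) (nat_lit 1484)) (.a (.f (nat_lit 493) (nat_lit 492) (nat_lit 1484) (.d (nat_lit 429) (nat_lit 397) (nat_lit 4493) (nat_lit 428) (nat_lit 3500))) (.f (nat_lit 496) (nat_lit 497) (nat_lit 461) (.d (nat_lit 433) (nat_lit 432) (nat_lit 2477) (nat_lit 465) (nat_lit 6576)))))) (.a (.f (nat_lit 429) (nat_lit 558) (nat_lit 7597) (.f (nat_lit 464) (nat_lit 428) (nat_lit 3500) (.f (nat_lit 433) (nat_lit 432) (nat_lit 2477) (.d (nat_lit 496) (nat_lit 465) (nat_lit 6576) (nat_lit 497) (nat_lit 461))))) (.p (nat_lit 460) (.a (.f (nat_lit 492) (nat_lit 491) (nat_lit 1483) (.f (nat_lit 493) (nat_lit 464) (nat_lit 1484) (.f (nat_lit 525) (nat_lit 527) (nat_lit 3564) (.d (nat_lit 428) (nat_lit 396) (nat_lit 4492) (nat_lit 427) (nat_lit 3499))))) (.a (.f (nat_lit 492) (nat_lit 491) (nat_lit 1483) (.f (nat_lit 493) (nat_lit 464) (nat_lit 1484) (.f (nat_lit 428) (nat_lit 427) (nat_lit 3499) (.d (nat_lit 396) (nat_lit 364) (nat_lit 4460) (nat_lit 525) (nat_lit 4492))))) (.a (.f (nat_lit 492) (nat_lit 491) (nat_lit 1483) (.f (nat_lit 464) (nat_lit 493) (nat_lit 1484) (.f (nat_lit 433) (nat_lit 432) (nat_lit 2477) (.d (nat_lit 496) (nat_lit 465) (nat_lit 6576) (nat_lit 497) (nat_lit 461))))) (.a (.f (nat_lit 491) (nat_lit 492) (nat_lit 1483) (.f (nat_lit 459) (nat_lit 490) (nat_lit 1482) (.d (nat_lit 427) (nat_lit 426) (nat_lit 3498) (nat_lit 428) (nat_lit 3499)))) (.a (.f (nat_lit 427) (nat_lit 428) (nat_lit 3499) (.f (nat_lit 459) (nat_lit 426) (nat_lit 3498) (.f (nat_lit 490) (nat_lit 491) (nat_lit 1482) (.d (nat_lit 458) (nat_lit 489) (nat_lit 1481) (nat_lit 493) (nat_lit 458))))) (.f (nat_lit 427) (nat_lit 428) (nat_lit 3499) (.f (nat_lit 459) (nat_lit 426) (nat_lit 3498) (.f (nat_lit 493) (nat_lit 458) (nat_lit 458) (.d (nat_lit 464) (nat_lit 465) (nat_lit 1485) (nat_lit 492) (nat_lit 1484))))))))))))))) (.a (.p (nat_lit 464) (.a (.d (nat_lit 431) (nat_lit 496) (nat_lit 7599) (nat_lit 558) (nat_lit 6574)) (.a (.f (nat_lit 558) (nat_lit 431) (nat_lit 6574) (.f (nat_lit 461) (nat_lit 429) (nat_lit 7597) (.f (nat_lit 589) (nat_lit 557) (nat_lit 5581) (.f (nat_lit 590) (nat_lit 621) (nat_lit 5613) (.f (nat_lit 591) (nat_lit 623) (nat_lit 4590) (.f (nat_lit 561) (nat_lit 592) (nat_lit 2605) (.f (nat_lit 433) (nat_lit 432) (nat_lit 2477) (.f (nat_lit 465) (nat_lit 434) (nat_lit 2478) (.f (nat_lit 498) (nat_lit 497) (nat_lit 462) (.f (nat_lit 466) (nat_lit 499) (nat_lit 463) (.f (nat_lit 562) (nat_lit 530) (nat_lit 7601) (.d (nat_lit 527) (nat_lit 525) (nat_lit 525) (nat_lit 563) (nat_lit 3599))))))))))))) (.a (.f (nat_lit 496) (nat_lit 431) (nat_lit 7599) (.f (nat_lit 497) (nat_lit 461) (nat_lit 461) (.d (nat_lit 465) (nat_lit 433) (nat_lit 6576) (nat_lit 498) (nat_lit 462)))) (.p (nat_lit 496) (.a (.f (nat_lit 461) (nat_lit 497) (nat_lit 461) (.d (nat_lit 429) (nat_lit 428) (nat_lit 3500) (nat_lit 558) (nat_lit 7597))) (.a (.f (nat_lit 497) (nat_lit 461) (nat_lit 461) (.d (nat_lit 465) (nat_lit 433) (nat_lit 6576) (nat_lit 498) (nat_lit 462))) (.a (.f (nat_lit 465) (nat_lit 433) (nat_lit 6576) (.d (nat_lit 497) (nat_lit 498) (nat_lit 462) (nat_lit 592) (nat_lit 6608))) (.f (nat_lit 433) (nat_lit 465) (nat_lit 6576) (.d (nat_lit 432) (nat_lit 401) (nat_lit 6544) (nat_lit 461) (nat_lit 2477))))))))))) (.f (nat_lit 431) (nat_lit 558) (nat_lit 6574) (.f (nat_lit 464) (nat_lit 496) (nat_lit 7599) (.f (nat_lit 465) (nat_lit 493) (nat_lit 1485) (.f (nat_lit 434) (nat_lit 433) (nat_lit 2478) (.f (nat_lit 466) (nat_lit 435) (nat_lit 2479) (.d (nat_lit 498) (nat_lit 497) (nat_lit 462) (nat_lit 499) (nat_lit 463)))))))))))))))))))))) (.a (.p (nat_lit 590) (.a (.p (nat_lit 558) (.a (.f (nat_lit 493) (nat_lit 461) (nat_lit 7629) (.f (nat_lit 525) (nat_lit 622) (nat_lit 7661) (.d (nat_lit 527) (nat_lit 492) (nat_lit 3564) (nat_lit 561) (nat_lit 525)))) (.a (.f (nat_lit 589) (nat_lit 621) (nat_lit 5613) (.f (nat_lit 557) (nat_lit 462) (nat_lit 5581) (.f (nat_lit 493) (nat_lit 461) (nat_lit 7629) (.f (nat_lit 525) (nat_lit 622) (nat_lit 4589) (.f (nat_lit 588) (nat_lit 620) (nat_lit 5612) (.f (nat_lit 591) (nat_lit 623) (nat_lit 4590) (.f (nat_lit 555) (nat_lit 556) (nat_lit 3627) (.d (nat_lit 587) (nat_lit 554) (nat_lit 3626) (nat_lit 586) (nat_lit 2602))))))))) (.a (.f (nat_lit 589) (nat_lit 621) (nat_lit 5613) (.f (nat_lit 462) (nat_lit 557) (nat_lit 5581) (.d (nat_lit 461) (nat_lit 429) (nat_lit 7597) (nat_lit 493) (nat_lit 7629)))) (.f (nat_lit 589) (nat_lit 621) (nat_lit 5613) (.f (nat_lit 557) (nat_lit 462) (nat_lit 5581) (.f (nat_lit 623) (nat_lit 591) (nat_lit 4590) (.f (nat_lit 622) (nat_lit 655) (nat_lit 4622) (.d (nat_lit 654) (nat_lit 525) (nat_lit 7693) (nat_lit 686) (nat_lit 7725)))))))))) (.a (.p (nat_lit 558) (.a (.f (nat_lit 589) (nat_lit 621) (nat_lit 5613) (.f (nat_lit 557) (nat_lit 462) (nat_lit 5581) (.f (nat_lit 493) (nat_lit 461) (nat_lit 7629) (.f (nat_lit 525) (nat_lit 622) (nat_lit 4589) (.f (nat_lit 588) (nat_lit 620) (nat_lit 5612) (.f (nat_lit 591) (nat_lit 623) (nat_lit 4590) (.f (nat_lit 555) (nat_lit 556) (nat_lit 3627) (.d (nat_lit 587) (nat_lit 554) (nat_lit 3626) (nat_lit 586) (nat_lit 2602))))))))) (.a (.f (nat_lit 589) (nat_lit 621) (nat_lit 5613) (.f (nat_lit 462) (nat_lit 557) (nat_lit 5581) (.d (nat_lit 461) (nat_lit 429) (nat_lit 7597) (nat_lit 493) (nat_lit 7629)))) (.a (.f (nat_lit 621) (nat_lit 589) (nat_lit 5613) (.f (nat_lit 622) (nat_lit 653) (nat_lit 5645) (.d (nat_lit 623) (nat_lit 591) (nat_lit 4590) (nat_lit 655) (nat_lit 4622)))) (.f (nat_lit 623) (nat_lit 591) (nat_lit 4590) (.f (nat_lit 622) (nat_lit 655) (nat_lit 4622) (.d (nat_lit 493) (nat_lit 461) (nat_lit 7629) (nat_lit 525) (nat_lit 7661)))))))) (.a (.p (nat_lit 558) (.a (.f (nat_lit 493) (nat_lit 461) (nat_lit 7629) (.f (nat_lit 525) (nat_lit 622) (nat_lit 7661) (.d (nat_lit 527) (nat_lit 492) (nat_lit 3564) (nat_lit 561) (nat_lit 525)))) (.a (.f (nat_lit 589) (nat_lit 621) (nat_lit 5613) (.f (nat_lit 462) (nat_lit 557) (nat_lit 5581) (.d (nat_lit 461) (nat_lit 429) (nat_lit 7597) (nat_lit 493) (nat_lit 7629)))) (.f (nat_lit 621) (nat_lit 589) (nat_lit 5613) (.f (nat_lit 622) (nat_lit 653) (nat_lit 5645) (.f (nat_lit 655) (nat_lit 623) (nat_lit 4622) (.f (nat_lit 654) (nat_lit 687) (nat_lit 4654) (.f (nat_lit 527) (nat_lit 495) (nat_lit 6638) (.d (nat_lit 525) (nat_lit 557) (nat_lit 7693) (nat_lit 561) (nat_lit 525)))))))))) (.a (.p (nat_lit 558) (.a (.f (nat_lit 495) (nat_lit 463) (nat_lit 6606) (.f (nat_lit 493) (nat_lit 461) (nat_lit 7629) (.d (nat_lit 527) (nat_lit 492) (nat_lit 492) (nat_lit 622) (nat_lit 6638)))) (.a (.f (nat_lit 589) (nat_lit 621) (nat_lit 5613) (.f (nat_lit 462) (nat_lit 557) (nat_lit 5581) (.d (nat_lit 461) (nat_lit 429) (nat_lit 7597) (nat_lit 493) (nat_lit 7629)))) (.f (nat_lit 495) (nat_lit 463) (nat_lit 6606) (.f (nat_lit 622) (nat_lit 527) (nat_lit 6638) (.d (nat_lit 621) (nat_lit 589) (nat_lit 5613) (nat_lit 653) (nat_lit 5645))))))) (.a s40451 (.a s40452 (.a s40524 (.a (.p (nat_lit 558) (.a (.f (nat_lit 589) (nat_lit 621) (nat_lit 5613) (.f (nat_lit 557) (nat_lit 462) (nat_lit 5581) (.f (nat_lit 623) (nat_lit 591) (nat_lit 4590) (.f (nat_lit 622) (nat_lit 655) (nat_lit 4622) (.d (nat_lit 654) (nat_lit 525) (nat_lit 7693) (nat_lit 686) (nat_lit 7725)))))) (.a (.f (nat_lit 495) (nat_lit 463) (nat_lit 6606) (.f (nat_lit 622) (nat_lit 527) (nat_lit 6638) (.d (nat_lit 621) (nat_lit 589) (nat_lit 5613) (nat_lit 653) (nat_lit 5645)))) (.a (.f (nat_lit 495) (nat_lit 463) (nat_lit 6606) (.f (nat_lit 527) (nat_lit 622) (nat_lit 6638) (.f (nat_lit 525) (nat_lit 561) (nat_lit 525) (.d (nat_lit 524) (nat_lit 496) (nat_lit 2540) (nat_lit 523) (nat_lit 2539))))) (.f (nat_lit 495) (nat_lit 463) (nat_lit 6606) (.f (nat_lit 591) (nat_lit 623) (nat_lit 4590) (.f (nat_lit 589) (nat_lit 621) (nat_lit 5613) (.f (nat_lit 592) (nat_lit 561) (nat_lit 2605) (.d (nat_lit 624) (nat_lit 527) (nat_lit 7663) (nat_lit 625) (nat_lit 589)))))))))) (.p (nat_lit 558) (.a (.f (nat_lit 589) (nat_lit 621) (nat_lit 5613) (.f (nat_lit 462) (nat_lit 557) (nat_lit 5581) (.d (nat_lit 461) (nat_lit 429) (nat_lit 7597) (nat_lit 493) (nat_lit 7629)))) (.a (.f (nat_lit 493) (nat_lit 461) (nat_lit 7629) (.f (nat_lit 495) (nat_lit 463) (nat_lit 6606) (.f (nat_lit 492) (nat_lit 527) (nat_lit 492) (.f (nat_lit 523) (nat_lit 524) (nat_lit 1515) (.f (nat_lit 491) (nat_lit 522) (nat_lit 1514) (.d (nat_lit 459) (nat_lit 458) (nat_lit 3530) (nat_lit 460) (nat_lit 3531))))))) (.f (nat_lit 495) (nat_lit 463) (nat_lit 6606) (.f (nat_lit 591) (nat_lit 623) (nat_lit 4590) (.f (nat_lit 589) (nat_lit 621) (nat_lit 5613) (.f (nat_lit 592) (nat_lit 561) (nat_lit 2605) (.d (nat_lit 624) (nat_lit 527) (nat_lit 7663) (nat_lit 625) (nat_lit 589)))))))))))))))))) (.a (.p (nat_lit 590) (.a s40451 (.a (.p (nat_lit 558) (.a (.f (nat_lit 493) (nat_lit 461) (nat_lit 7629) (.f (nat_lit 525) (nat_lit 622) (nat_lit 7661) (.f (nat_lit 495) (nat_lit 463) (nat_lit 6606) (.d (nat_lit 524) (nat_lit 496) (nat_lit 1516) (nat_lit 523) (nat_lit 2539))))) (.a (.f (nat_lit 621) (nat_lit 589) (nat_lit 5613) (.f (nat_lit 622) (nat_lit 653) (nat_lit 5645) (.d (nat_lit 623) (nat_lit 591) (nat_lit 4590) (nat_lit 655) (nat_lit 4622)))) (.f (nat_lit 591) (nat_lit 623) (nat_lit 4590) (.f (nat_lit 589) (nat_lit 621) (nat_lit 5613) (.f (nat_lit 592) (nat_lit 561) (nat_lit 2605) (.f (nat_lit 556) (nat_lit 557) (nat_lit 3628) (.f (nat_lit 588) (nat_lit 555) (nat_lit 3627) (.f (nat_lit 619) (nat_lit 620) (nat_lit 1611) (.f (nat_lit 587) (nat_lit 618) (nat_lit 1610) (.f (nat_lit 495) (nat_lit 463) (nat_lit 6606) (.f (nat_lit 493) (nat_lit 461) (nat_lit 7629) (.f (nat_lit 524) (nat_lit 492) (nat_lit 5611) (.d (nat_lit 525) (nat_lit 496) (nat_lit 1516) (nat_lit 523) (nat_lit 2539))))))))))))))) (.a (.p (nat_lit 558) (.a (.f (nat_lit 495) (nat_lit 463) (nat_lit 6606) (.f (nat_lit 493) (nat_lit 461) (nat_lit 7629) (.d (nat_lit 527) (nat_lit 492) (nat_lit 492) (nat_lit 622) (nat_lit 6638)))) (.a (.f (nat_lit 621) (nat_lit 589) (nat_lit 5613) (.f (nat_lit 622) (nat_lit 653) (nat_lit 5645) (.d (nat_lit 623) (nat_lit 591) (nat_lit 4590) (nat_lit 655) (nat_lit 4622)))) (.f (nat_lit 493) (nat_lit 461) (nat_lit 7629) (.f (nat_lit 495) (nat_lit 463) (nat_lit 6606) (.f (nat_lit 492) (nat_lit 527) (nat_lit 492) (.f (nat_lit 523) (nat_lit 524) (nat_lit 1515) (.f (nat_lit 491) (nat_lit 522) (nat_lit 1514) (.d (nat_lit 459) (nat_lit 458) (nat_lit 3530) (nat_lit 460) (nat_lit 3531)))))))))) (.a (.p (nat_lit 558) (.a (.f (nat_lit 493) (nat_lit 461) (nat_lit 7629) (.f (nat_lit 525) (nat_lit 622) (nat_lit 7661) (.d (nat_lit 527) (nat_lit 492) (nat_lit 3564) (nat_lit 561) (nat_lit 525)))) (.a (.f (nat_lit 621) (nat_lit 589) (nat_lit 5613) (.f (nat_lit 622) (nat_lit 653) (nat_lit 5645) (.d (nat_lit 623) (nat_lit 591) (nat_lit 4590) (nat_lit 655) (nat_lit 4622)))) (.f (nat_lit 493) (nat_lit 461) (nat_lit 7629) (.f (nat_lit 591) (nat_lit 623) (nat_lit 4590) (.f (nat_lit 589) (nat_lit 621) (nat_lit 5613) (.f (nat_lit 592) (nat_lit 561) (nat_lit 2605) (.f (nat_lit 624) (nat_lit 625) (nat_lit 589) (.f (nat_lit 527) (nat_lit 495) (nat_lit 7663) (.d (nat_lit 492) (nat_lit 491) (nat_lit 491) (nat_lit 525) (nat_lit 3564))))))))))) (.a s40452 (.a (.p (nat_lit 592) (.a (.p (nat_lit 496) (.a (.f (nat_lit 465) (nat_lit 497) (nat_lit 6608) (.f (nat_lit 464) (nat_lit 433) (nat_lit 6576) (.d (nat_lit 495) (nat_lit 463) (nat_lit 7631) (nat_lit 493) (nat_lit 2509)))) (.f (nat_lit 591) (nat_lit 623) (nat_lit 5615) (.f (nat_lit 589) (nat_lit 561) (nat_lit 2605) (.f (nat_lit 620) (nat_lit 621) (nat_lit 1612) (.f (nat_lit 588) (nat_lit 619) (nat_lit 1611) (.d (nat_lit 556) (nat_lit 555) (nat_lit 3627) (nat_lit 557) (nat_lit 3628)))))))) (.a (.p (nat_lit 624) (.a (.f (nat_lit 625) (nat_lit 657) (nat_lit 4624) (.f (nat_lit 591) (nat_lit 589) (nat_lit 589) (.d (nat_lit 626) (nat_lit 623) (nat_lit 3662) (nat_lit 627) (nat_lit 3663)))) (.a (.f (nat_lit 655) (nat_lit 623) (nat_lit 5647) (.f (nat_lit 656) (nat_lit 687) (nat_lit 5679) (.d (nat_lit 657) (nat_lit 625) (nat_lit 4624) (nat_lit 689) (nat_lit 4656)))) (.f (nat_lit 527) (nat_lit 495) (nat_lit 7663) (.f (nat_lit 525) (nat_lit 561) (nat_lit 525) (.f (nat_lit 493) (nat_lit 492) (nat_lit 3564) (.f (nat_lit 557) (nat_lit 556) (nat_lit 1548) (.d (nat_lit 589) (nat_lit 621) (nat_lit 6637) (nat_lit 622) (nat_lit 4589))))))))) (.a (.p (nat_lit 495) (.a (.f (nat_lit 496) (nat_lit 463) (nat_lit 7631) (.d (nat_lit 497) (nat_lit 465) (nat_lit 6608) (nat_lit 525) (nat_lit 1517))) (.a (.f (nat_lit 527) (nat_lit 624) (nat_lit 7663) (.f (nat_lit 492) (nat_lit 493) (nat_lit 492) (.f (nat_lit 525) (nat_lit 561) (nat_lit 525) (.d (nat_lit 524) (nat_lit 491) (nat_lit 3563) (nat_lit 523) (nat_lit 2539))))) (.f (nat_lit 496) (nat_lit 463) (nat_lit 7631) (.f (nat_lit 497) (nat_lit 465) (nat_lit 6608) (.d (nat_lit 527) (nat_lit 498) (nat_lit 1518) (nat_lit 624) (nat_lit 7663))))))) (.a (.p (nat_lit 495) (.a (.f (nat_lit 496) (nat_lit 463) (nat_lit 7631) (.d (nat_lit 497) (nat_lit 465) (nat_lit 6608) (nat_lit 525) (nat_lit 1517))) (.f (nat_lit 624) (nat_lit 527) (nat_lit 7663) (.f (nat_lit 625) (nat_lit 657) (nat_lit 4624) (.f (nat_lit 623) (nat_lit 655) (nat_lit 5647) (.d (nat_lit 591) (nat_lit 589) (nat_lit 589) (nat_lit 626) (nat_lit 3662))))))) s40523))))) (.a (.p (nat_lit 558) (.a (.f (nat_lit 493) (nat_lit 461) (nat_lit 7629) (.f (nat_lit 525) (nat_lit 622) (nat_lit 7661) (.d (nat_lit 527) (nat_lit 492) (nat_lit 3564) (nat_lit 561) (nat_lit 525)))) (.a (.f (nat_lit 621) (nat_lit 589) (nat_lit 5613) (.f (nat_lit 622) (nat_lit 653) (nat_lit 5645) (.d (nat_lit 623) (nat_lit 591) (nat_lit 4590) (nat_lit 655) (nat_lit 4622)))) (.f (nat_lit 493) (nat_lit 461) (nat_lit 7629) (.f (nat_lit 591) (nat_lit 623) (nat_lit 4590) (.f (nat_lit 589) (nat_lit 621) (nat_lit 5613) (.f (nat_lit 592) (nat_lit 561) (nat_lit 2605) (.f (nat_lit 556) (nat_lit 557) (nat_lit 3628) (.f (nat_lit 588) (nat_lit 555) (nat_lit 3627) (.f (nat_lit 620) (nat_lit 619) (nat_lit 1611) (.f (nat_lit 524) (nat_lit 525) (nat_lit 6636) (.f (nat_lit 491) (nat_lit 523) (nat_lit 7659) (.d (nat_lit 492) (nat_lit 459) (nat_lit 7627) (nat_lit 527) (nat_lit 491)))))))))))))) (.a s40554 (.p (nat_lit 558) (.a (.f (nat_lit 493) (nat_lit 461) (nat_lit 7629) (.f (nat_lit 495) (nat_lit 463) (nat_lit 6606) (.f (nat_lit 492) (nat_lit 527) (nat_lit 492) (.f (nat_lit 524) (nat_lit 523) (nat_lit 1515) (.f (nat_lit 525) (nat_lit 496) (nat_lit 1516) (.f (nat_lit 460) (nat_lit 459) (nat_lit 3531) (.d (nat_lit 428) (nat_lit 396) (nat_lit 4492) (nat_lit 557) (nat_lit 4524)))))))) (.a (.f (nat_lit 591) (nat_lit 623) (nat_lit 4590) (.f (nat_lit 589) (nat_lit 621) (nat_lit 5613) (.f (nat_lit 592) (nat_lit 561) (nat_lit 2605) (.f (nat_lit 556) (nat_lit 557) (nat_lit 3628) (.f (nat_lit 588) (nat_lit 555) (nat_lit 3627) (.f (nat_lit 619) (nat_lit 620) (nat_lit 1611) (.f (nat_lit 587) (nat_lit 618) (nat_lit 1610) (.f (nat_lit 495) (nat_lit 463) (nat_lit 6606) (.f (nat_lit 493) (nat_lit 461) (nat_lit 7629) (.f (nat_lit 524) (nat_lit 492) (nat_lit 5611) (.d (nat_lit 525) (nat_lit 496) (nat_lit 1516) (nat_lit 523) (nat_lit 2539)))))))))))) (.a (.f (nat_lit 493) (nat_lit 461) (nat_lit 7629) (.f (nat_lit 495) (nat_lit 463) (nat_lit 6606) (.f (nat_lit 492) (nat_lit 527) (nat_lit 492) (.f (nat_lit 523) (nat_lit 524) (nat_lit 1515) (.f (nat_lit 491) (nat_lit 522) (nat_lit 1514) (.d (nat_lit 459) (nat_lit 458) (nat_lit 3530) (nat_lit 460) (nat_lit 3531))))))) (.a (.f (nat_lit 493) (nat_lit 461) (nat_lit 7629) (.f (nat_lit 591) (nat_lit 623) (nat_lit 4590) (.f (nat_lit 589) (nat_lit 621) (nat_lit 5613) (.f (nat_lit 592) (nat_lit 561) (nat_lit 2605) (.f (nat_lit 624) (nat_lit 625) (nat_lit 589) (.f (nat_lit 527) (nat_lit 495) (nat_lit 7663) (.d (nat_lit 492) (nat_lit 491) (nat_lit 491) (nat_lit 525) (nat_lit 3564)))))))) (.a (.f (nat_lit 493) (nat_lit 461) (nat_lit 7629) (.f (nat_lit 591) (nat_lit 623) (nat_lit 4590) (.f (nat_lit 589) (nat_lit 621) (nat_lit 5613) (.f (nat_lit 592) (nat_lit 561) (nat_lit 2605) (.f (nat_lit 556) (nat_lit 557) (nat_lit 3628) (.f (nat_lit 588) (nat_lit 555) (nat_lit 3627) (.f (nat_lit 620) (nat_lit 619) (nat_lit 1611) (.f (nat_lit 524) (nat_lit 525) (nat_lit 6636) (.f (nat_lit 491) (nat_lit 523) (nat_lit 7659) (.d (nat_lit 492) (nat_lit 459) (nat_lit 7627) (nat_lit 527) (nat_lit 491))))))))))) (.f (nat_lit 495) (nat_lit 463) (nat_lit 6606) (.f (nat_lit 591) (nat_lit 623) (nat_lit 4590) (.f (nat_lit 589) (nat_lit 621) (nat_lit 5613) (.f (nat_lit 592) (nat_lit 561) (nat_lit 2605) (.d (nat_lit 624) (nat_lit 527) (nat_lit 7663) (nat_lit 625) (nat_lit 589))))))))))))))))))))) (.a (.p (nat_lit 496) (.a s38031 (.a s39364 (.a (.p (nat_lit 464) (.a (.f (nat_lit 463) (nat_lit 431) (nat_lit 7599) (.f (nat_lit 495) (nat_lit 592) (nat_lit 7631) (.f (nat_lit 497) (nat_lit 525) (nat_lit 1517) (.d (nat_lit 462) (nat_lit 461) (nat_lit 461) (nat_lit 498) (nat_lit 3534))))) (.a (.f (nat_lit 431) (nat_lit 463) (nat_lit 7599) (.f (nat_lit 432) (nat_lit 399) (nat_lit 7567) (.d (nat_lit 433) (nat_lit 401) (nat_lit 6544) (nat_lit 465) (nat_lit 6576)))) (.f (nat_lit 465) (nat_lit 433) (nat_lit 6576) (.f (nat_lit 497) (nat_lit 592) (nat_lit 6608) (.d (nat_lit 495) (nat_lit 466) (nat_lit 2510) (nat_lit 525) (nat_lit 1517))))))) (.a (.p (nat_lit 465) (.a (.f (nat_lit 497) (nat_lit 592) (nat_lit 6608) (.d (nat_lit 433) (nat_lit 401) (nat_lit 5520) (nat_lit 464) (nat_lit 6576))) (.a (.f (nat_lit 464) (nat_lit 433) (nat_lit 6576) (.f (nat_lit 463) (nat_lit 431) (nat_lit 7599) (.f (nat_lit 466) (nat_lit 495) (nat_lit 1486) (.f (nat_lit 498) (nat_lit 499) (nat_lit 463) (.f (nat_lit 462) (nat_lit 497) (nat_lit 462) (.f (nat_lit 429) (nat_lit 430) (nat_lit 3501) (.d (nat_lit 461) (nat_lit 428) (nat_lit 3500) (nat_lit 558) (nat_lit 7597)))))))) (.a (.f (nat_lit 497) (nat_lit 592) (nat_lit 6608) (.f (nat_lit 495) (nat_lit 466) (nat_lit 2510) (.f (nat_lit 498) (nat_lit 527) (nat_lit 1518) (.d (nat_lit 462) (nat_lit 461) (nat_lit 3533) (nat_lit 463) (nat_lit 3534))))) (.f (nat_lit 464) (nat_lit 433) (nat_lit 6576) (.f (nat_lit 463) (nat_lit 431) (nat_lit 7599) (.d (nat_lit 495) (nat_lit 466) (nat_lit 1486) (nat_lit 592) (nat_lit 7631)))))))) (.a (.p (nat_lit 497) (.a (.d (nat_lit 525) (nat_lit 495) (nat_lit 1517) (nat_lit 527) (nat_lit 2541)) (.a (.f (nat_lit 495) (nat_lit 525) (nat_lit 1517) (.d (nat_lit 465) (nat_lit 466) (nat_lit 2510) (nat_lit 592) (nat_lit 6608))) (.f (nat_lit 465) (nat_lit 592) (nat_lit 6608) (.d (nat_lit 433) (nat_lit 401) (nat_lit 5520) (nat_lit 464) (nat_lit 6576)))))) (.a (.p (nat_lit 464) (.a (.f (nat_lit 431) (nat_lit 463) (nat_lit 7599) (.f (nat_lit 432) (nat_lit 399) (nat_lit 7567) (.d (nat_lit 433) (nat_lit 401) (nat_lit 6544) (nat_lit 465) (nat_lit 6576)))) (.a (.p (nat_lit 462) (.a (.f (nat_lit 433) (nat_lit 465) (nat_lit 6576) (.f (nat_lit 432) (nat_lit 401) (nat_lit 6544) (.f (nat_lit 431) (nat_lit 399) (nat_lit 7567) (.f (nat_lit 430) (nat_lit 461) (nat_lit 1453) (.d (nat_lit 397) (nat_lit 398) (nat_lit 3469) (nat_lit 429) (nat_lit 7565)))))) (.a (.p (nat_lit 525) (.a (.f (nat_lit 430) (nat_lit 557) (nat_lit 5549) (.f (nat_lit 399) (nat_lit 431) (nat_lit 6542) (.f (nat_lit 398) (nat_lit 367) (nat_lit 6510) (.d (nat_lit 397) (nat_lit 365) (nat_lit 7533) (nat_lit 429) (nat_lit 7565))))) (.d (nat_lit 527) (nat_lit 497) (nat_lit 2541) (nat_lit 561) (nat_lit 525)))) (.a (.f (nat_lit 465) (nat_lit 433) (nat_lit 6576) (.f (nat_lit 497) (nat_lit 592) (nat_lit 6608) (.f (nat_lit 525) (nat_lit 527) (nat_lit 2541) (.f (nat_lit 557) (nat_lit 430) (nat_lit 5549) (.d (nat_lit 589) (nat_lit 558) (nat_lit 5581) (nat_lit 621) (nat_lit 6637)))))) (.p (nat_lit 589) (.a (.f (nat_lit 558) (nat_lit 557) (nat_lit 5581) (.f (nat_lit 590) (nat_lit 621) (nat_lit 5613) (.f (nat_lit 591) (nat_lit 623) (nat_lit 4590) (.f (nat_lit 592) (nat_lit 561) (nat_lit 2605) (.d (nat_lit 465) (nat_lit 433) (nat_lit 6576) (nat_lit 497) (nat_lit 6608)))))) (.a (.f (nat_lit 557) (nat_lit 558) (nat_lit 5581) (.f (nat_lit 525) (nat_lit 621) (nat_lit 6637) (.d (nat_lit 527) (nat_lit 497) (nat_lit 2541) (nat_lit 561) (nat_lit 525)))) (.a (.f (nat_lit 465) (nat_lit 433) (nat_lit 6576) (.f (nat_lit 592) (nat_lit 497) (nat_lit 6608) (.f (nat_lit 591) (nat_lit 623) (nat_lit 5615) (.f (nat_lit 590) (nat_lit 561) (nat_lit 2605) (.d (nat_lit 621) (nat_lit 558) (nat_lit 5613) (nat_lit 620) (nat_lit 1612)))))) (.a (.f (nat_lit 558) (nat_lit 557) (nat_lit 5581) (.f (nat_lit 590) (nat_lit 621) (nat_lit 5613) (.f (nat_lit 623) (nat_lit 591) (nat_lit 4590) (.f (nat_lit 465) (nat_lit 433) (nat_lit 6576) (.f (nat_lit 655) (nat_lit 622) (nat_lit 4622) (.d (nat_lit 592) (nat_lit 497) (nat_lit 6608) (nat_lit 624) (nat_lit 5647))))))) (.a (.f (nat_lit 465) (nat_lit 433) (nat_lit 6576) (.f (nat_lit 592) (nat_lit 497) (nat_lit 6608) (.f (nat_lit 591) (nat_lit 623) (nat_lit 5615) (.f (nat_lit 590) (nat_lit 561) (nat_lit 2605) (.f (nat_lit 557) (nat_lit 556) (nat_lit 3628) (.d (nat_lit 621) (nat_lit 525) (nat_lit 6637) (nat_lit 620) (nat_lit 1612))))))) (.a (.f (nat_lit 465) (nat_lit 433) (nat_lit 6576) (.f (nat_lit 592) (nat_lit 497) (nat_lit 6608) (.f (nat_lit 591) (nat_lit 623) (nat_lit 5615) (.f (nat_lit 590) (nat_lit 561) (nat_lit 2605) (.d (nat_lit 557) (nat_lit 556) (nat_lit 3628) (nat_lit 558) (nat_lit 5581)))))) (.f (nat_lit 557) (nat_lit 558) (nat_lit 5581) (.f (nat_lit 525) (nat_lit 621) (nat_lit 6637) (.d (nat_lit 527) (nat_lit 556) (nat_lit 1548) (nat_lit 561) (nat_lit 525))))))))))))))) (.a (.p (nat_lit 462) (.a (.f (nat_lit 463) (nat_lit 431) (nat_lit 7599) (.f (nat_lit 461) (nat_lit 497) (nat_lit 461) (.d (nat_lit 429) (nat_lit 428) (nat_lit 3500) (nat_lit 558) (nat_lit 7597)))) (.a (.p (nat_lit 525) (.a (.f (nat_lit 430) (nat_lit 557) (nat_lit 5549) (.f (nat_lit 399) (nat_lit 431) (nat_lit 6542) (.f (nat_lit 398) (nat_lit 367) (nat_lit 6510) (.d (nat_lit 397) (nat_lit 365) (nat_lit 7533) (nat_lit 429) (nat_lit 7565))))) (.d (nat_lit 527) (nat_lit 497) (nat_lit 2541) (nat_lit 561) (nat_lit 525)))) (.a (.p (nat_lit 525) (.a (.f (nat_lit 557) (nat_lit 430) (nat_lit 5549) (.d (nat_lit 589) (nat_lit 558) (nat_lit 5581) (nat_lit 621) (nat_lit 6637))) (.d (nat_lit 527) (nat_lit 497) (nat_lit 2541) (nat_lit 561) (nat_lit 525)))) (.f (nat_lit 431) (nat_lit 463) (nat_lit 7599) (.d (nat_lit 399) (nat_lit 430) (nat_lit 6542) (nat_lit 432) (nat_lit 7567))))))) (.a (.p (nat_lit 462) (.a (.f (nat_lit 465) (nat_lit 433) (nat_lit 6576) (.f (nat_lit 497) (nat_lit 592) (nat_lit 6608) (.d (nat_lit 463) (nat_lit 461) (nat_lit 461) (nat_lit 498) (nat_lit 462)))) (.a (.f (nat_lit 433) (nat_lit 465) (nat_lit 6576) (.f (nat_lit 432) (nat_lit 401) (nat_lit 6544) (.f (nat_lit 461) (nat_lit 463) (nat_lit 2477) (.f (nat_lit 429) (nat_lit 558) (nat_lit 7597) (.d (nat_lit 397) (nat_lit 365) (nat_lit 4461) (nat_lit 430) (nat_lit 7565)))))) (.a (.f (nat_lit 465) (nat_lit 433) (nat_lit 6576) (.f (nat_lit 497) (nat_lit 592) (nat_lit 6608) (.f (nat_lit 525) (nat_lit 527) (nat_lit 2541) (.f (nat_lit 557) (nat_lit 430) (nat_lit 5549) (.d (nat_lit 589) (nat_lit 558) (nat_lit 5581) (nat_lit 621) (nat_lit 6637)))))) (.p (nat_lit 525) (.a (.f (nat_lit 557) (nat_lit 430) (nat_lit 5549) (.d (nat_lit 589) (nat_lit 558) (nat_lit 5581) (nat_lit 621) (nat_lit 6637))) (.d (nat_lit 527) (nat_lit 497) (nat_lit 2541) (nat_lit 561) (nat_lit 525)))))))) (.f (nat_lit 465) (nat_lit 433) (nat_lit 6576) (.f (nat_lit 463) (nat_lit 431) (nat_lit 7599) (.f (nat_lit 497) (nat_lit 592) (nat_lit 6608) (.d (nat_lit 462) (nat_lit 461) (nat_lit 461) (nat_lit 498) (nat_lit 462)))))))))) (.a (.p (nat_lit 525) (.a (.d (nat_lit 527) (nat_lit 497) (nat_lit 2541) (nat_lit 561) (nat_lit 525)) (.a (.f (nat_lit 495) (nat_lit 497) (nat_lit 1517) (.f (nat_lit 463) (nat_lit 592) (nat_lit 7631) (.d (nat_lit 431) (nat_lit 399) (nat_lit 4495) (nat_lit 464) (nat_lit 7599)))) (.f (nat_lit 527) (nat_lit 561) (nat_lit 525) (.f (nat_lit 495) (nat_lit 524) (nat_lit 2540) (.d (nat_lit 592) (nat_lit 463) (nat_lit 7631) (nat_lit 624) (nat_lit 7663))))))) (.p (nat_lit 462) (.a (.p (nat_lit 558) (.a (.f (nat_lit 463) (nat_lit 431) (nat_lit 6574) (.f (nat_lit 495) (nat_lit 592) (nat_lit 7631) (.d (nat_lit 461) (nat_lit 429) (nat_lit 7597) (nat_lit 460) (nat_lit 460)))) (.a (.f (nat_lit 431) (nat_lit 463) (nat_lit 6574) (.f (nat_lit 430) (nat_lit 399) (nat_lit 6542) (.d (nat_lit 429) (nat_lit 397) (nat_lit 7565) (nat_lit 461) (nat_lit 7597)))) (.a (.f (nat_lit 557) (nat_lit 589) (nat_lit 5581) (.f (nat_lit 430) (nat_lit 525) (nat_lit 5549) (.d (nat_lit 429) (nat_lit 397) (nat_lit 7565) (nat_lit 461) (nat_lit 7597)))) (.a (.f (nat_lit 557) (nat_lit 589) (nat_lit 5581) (.f (nat_lit 430) (nat_lit 525) (nat_lit 5549) (.f (nat_lit 399) (nat_lit 431) (nat_lit 6542) (.f (nat_lit 398) (nat_lit 367) (nat_lit 6510) (.d (nat_lit 397) (nat_lit 365) (nat_lit 7533) (nat_lit 429) (nat_lit 7565)))))) (.f (nat_lit 431) (nat_lit 463) (nat_lit 6574) (.f (nat_lit 430) (nat_lit 399) (nat_lit 6542) (.d (nat_lit 557) (nat_lit 525) (nat_lit 5549) (nat_lit 589) (nat_lit 5581))))))))) (.a (.p (nat_lit 558) (.a (.f (nat_lit 431) (nat_lit 463) (nat_lit 6574) (.f (nat_lit 430) (nat_lit 399) (nat_lit 6542) (.d (nat_lit 429) (nat_lit 397) (nat_lit 7565) (nat_lit 461) (nat_lit 7597)))) (.a (.f (nat_lit 557) (nat_lit 589) (nat_lit 5581) (.f (nat_lit 430) (nat_lit 525) (nat_lit 5549) (.d (nat_lit 429) (nat_lit 397) (nat_lit 7565) (nat_lit 461) (nat_lit 7597)))) (.a (.f (nat_lit 557) (nat_lit 589) (nat_lit 5581) (.f (nat_lit 430) (nat_lit 525) (nat_lit 5549) (.f (nat_lit 399) (nat_lit 431) (nat_lit 6542) (.f (nat_lit 398) (nat_lit 367) (nat_lit 6510) (.d (nat_lit 397) (nat_lit 365) (nat_lit 7533) (nat_lit 429) (nat_lit 7565)))))) (.a (.f (nat_lit 431) (nat_lit 463) (nat_lit 6574) (.f (nat_lit 430) (nat_lit 399) (nat_lit 6542) (.d (nat_lit 557) (nat_lit 525) (nat_lit 5549) (nat_lit 589) (nat_lit 5581)))) (.f (nat_lit 463) (nat_lit 431) (nat_lit 6574) (.f (nat_lit 590) (nat_lit 495) (nat_lit 6606) (.d (nat_lit 589) (nat_lit 557) (nat_lit 5581) (nat_lit 621) (nat_lit 5613))))))))) (.a (.p (nat_lit 464) (.a (.f (nat_lit 433) (nat_lit 465) (nat_lit 6576) (.f (nat_lit 432) (nat_lit 401) (nat_lit 6544) (.f (nat_lit 431) (nat_lit 399) (nat_lit 7567) (.f (nat_lit 430) (nat_lit 461) (nat_lit 1453) (.d (nat_lit 397) (nat_lit 398) (nat_lit 3469) (nat_lit 429) (nat_lit 7565)))))) (.a (.f (nat_lit 431) (nat_lit 463) (nat_lit 7599) (.d (nat_lit 399) (nat_lit 430) (nat_lit 6542) (nat_lit 432) (nat_lit 7567))) (.a (.f (nat_lit 433) (nat_lit 465) (nat_lit 6576) (.f (nat_lit 432) (nat_lit 401) (nat_lit 6544) (.f (nat_lit 461) (nat_lit 463) (nat_lit 2477) (.f (nat_lit 429) (nat_lit 558) (nat_lit 7597) (.d (nat_lit 397) (nat_lit 365) (nat_lit 4461) (nat_lit 430) (nat_lit 7565)))))) (.f (nat_lit 463) (nat_lit 431) (nat_lit 7599) (.f (nat_lit 495) (nat_lit 592) (nat_lit 7631) (.d (nat_lit 465) (nat_lit 433) (nat_lit 6576) (nat_lit 466) (nat_lit 1486)))))))) (.a (.p (nat_lit 525) (.a (.f (nat_lit 557) (nat_lit 430) (nat_lit 5549) (.d (nat_lit 589) (nat_lit 558) (nat_lit 5581) (nat_lit 621) (nat_lit 6637))) (.a (.f (nat_lit 527) (nat_lit 561) (nat_lit 525) (.f (nat_lit 495) (nat_lit 524) (nat_lit 2540) (.f (nat_lit 430) (nat_lit 398) (nat_lit 4494) (.f (nat_lit 429) (nat_lit 397) (nat_lit 7565) (.f (nat_lit 431) (nat_lit 399) (nat_lit 6542) (.f (nat_lit 461) (nat_lit 558) (nat_lit 7597) (.d (nat_lit 460) (nat_lit 432) (nat_lit 1452) (nat_lit 459) (nat_lit 2475)))))))) (.a (.f (nat_lit 430) (nat_lit 557) (nat_lit 5549) (.f (nat_lit 399) (nat_lit 431) (nat_lit 6542) (.f (nat_lit 398) (nat_lit 367) (nat_lit 6510) (.d (nat_lit 397) (nat_lit 365) (nat_lit 7533) (nat_lit 429) (nat_lit 7565))))) (.f (nat_lit 527) (nat_lit 561) (nat_lit 525) (.f (nat_lit 524) (nat_lit 495) (nat_lit 2540) (.d (nat_lit 556) (nat_lit 555) (nat_lit 1547) (nat_lit 557) (nat_lit 1548)))))))) (.a (.p (nat_lit 464) (.a (.f (nat_lit 433) (nat_lit 465) (nat_lit 6576) (.f (nat_lit 432) (nat_lit 401) (nat_lit 6544) (.f (nat_lit 431) (nat_lit 399) (nat_lit 7567) (.f (nat_lit 430) (nat_lit 461) (nat_lit 1453) (.d (nat_lit 397) (nat_lit 398) (nat_lit 3469) (nat_lit 429) (nat_lit 7565)))))) (.a (.f (nat_lit 431) (nat_lit 463) (nat_lit 7599) (.d (nat_lit 399) (nat_lit 430) (nat_lit 6542) (nat_lit 432) (nat_lit 7567))) (.a (.f (nat_lit 433) (nat_lit 465) (nat_lit 6576) (.f (nat_lit 432) (nat_lit 401) (nat_lit 6544) (.f (nat_lit 463) (nat_lit 461) (nat_lit 2477) (.f (nat_lit 495) (nat_lit 592) (nat_lit 7631) (.d (nat_lit 400) (nat_lit 368) (nat_lit 5487) (nat_lit 527) (nat_lit 5519)))))) (.f (nat_lit 463) (nat_lit 431) (nat_lit 7599) (.f (nat_lit 495) (nat_lit 592) (nat_lit 7631) (.d (nat_lit 465) (nat_lit 433) (nat_lit 6576) (nat_lit 466) (nat_lit 1486)))))))) (.a (.p (nat_lit 464) (.a (.f (nat_lit 433) (nat_lit 465) (nat_lit 6576) (.f (nat_lit 432) (nat_lit 401) (nat_lit 6544) (.f (nat_lit 431) (nat_lit 399) (nat_lit 7567) (.f (nat_lit 430) (nat_lit 461) (nat_lit 1453) (.d (nat_lit 397) (nat_lit 398) (nat_lit 3469) (nat_lit 429) (nat_lit 7565)))))) (.a (.f (nat_lit 431) (nat_lit 463) (nat_lit 7599) (.d (nat_lit 399) (nat_lit 430) (nat_lit 6542) (nat_lit 432) (nat_lit 7567))) (.a (.f (nat_lit 433) (nat_lit 465) (nat_lit 6576) (.f (nat_lit 432) (nat_lit 401) (nat_lit 6544) (.f (nat_lit 461) (nat_lit 463) (nat_lit 2477) (.f (nat_lit 429) (nat_lit 558) (nat_lit 7597) (.d (nat_lit 397) (nat_lit 365) (nat_lit 4461) (nat_lit 430) (nat_lit 7565)))))) (.a (.f (nat_lit 463) (nat_lit 431) (nat_lit 7599) (.f (nat_lit 433) (nat_lit 465) (nat_lit 6576) (.d (nat_lit 432) (nat_lit 401) (nat_lit 6544) (nat_lit 461) (nat_lit 2477)))) (.f (nat_lit 463) (nat_lit 431) (nat_lit 7599) (.f (nat_lit 465) (nat_lit 433) (nat_lit 6576) (.f (nat_lit 429) (nat_lit 430) (nat_lit 3501) (.d (nat_lit 461) (nat_lit 428) (nat_lit 3500) (nat_lit 558) (nat_lit 7597)))))))))) (.a (.p (nat_lit 525) (.a (.f (nat_lit 557) (nat_lit 430) (nat_lit 5549) (.d (nat_lit 589) (nat_lit 558) (nat_lit 5581) (nat_lit 621) (nat_lit 6637))) (.f (nat_lit 527) (nat_lit 561) (nat_lit 525) (.f (nat_lit 495) (nat_lit 524) (nat_lit 2540) (.d (nat_lit 592) (nat_lit 463) (nat_lit 7631) (nat_lit 624) (nat_lit 7663)))))) (.p (nat_lit 464) (.a (.f (nat_lit 463) (nat_lit 431) (nat_lit 7599) (.f (nat_lit 495) (nat_lit 592) (nat_lit 7631) (.d (nat_lit 465) (nat_lit 433) (nat_lit 6576) (nat_lit 466) (nat_lit 1486)))) (.a (.f (nat_lit 463) (nat_lit 431) (nat_lit 7599) (.f (nat_lit 433) (nat_lit 465) (nat_lit 6576) (.d (nat_lit 432) (nat_lit 401) (nat_lit 6544) (nat_lit 461) (nat_lit 2477)))) (.a (.f (nat_lit 433) (nat_lit 465) (nat_lit 6576) (.f (nat_lit 432) (nat_lit 401) (nat_lit 6544) (.f (nat_lit 399) (nat_lit 431) (nat_lit 7567) (.f (nat_lit 400) (nat_lit 367) (nat_lit 7535) (.f (nat_lit 527) (nat_lit 495) (nat_lit 5519) (.f (nat_lit 525) (nat_lit 561) (nat_lit 525) (.f (nat_lit 557) (nat_lit 556) (nat_lit 1548) (.d (nat_lit 589) (nat_lit 558) (nat_lit 5581) (nat_lit 621) (nat_lit 6637))))))))) (.a (.f (nat_lit 463) (nat_lit 431) (nat_lit 7599) (.f (nat_lit 495) (nat_lit 592) (nat_lit 7631) (.f (nat_lit 461) (nat_lit 460) (nat_lit 460) (.d (nat_lit 558) (nat_lit 429) (nat_lit 7597) (nat_lit 590) (nat_lit 6606))))) (.f (nat_lit 433) (nat_lit 465) (nat_lit 6576) (.f (nat_lit 432) (nat_lit 401) (nat_lit 6544) (.f (nat_lit 463) (nat_lit 461) (nat_lit 2477) (.f (nat_lit 495) (nat_lit 592) (nat_lit 7631) (.d (nat_lit 400) (nat_lit 368) (nat_lit 5487) (nat_lit 527) (nat_lit 5519))))))))))))))))))))))))))) (.p (nat_lit 590) (.a s40524 (.a (.p (nat_lit 558) (.a (.f (nat_lit 589) (nat_lit 621) (nat_lit 5613) (.f (nat_lit 462) (nat_lit 557) (nat_lit 5581) (.d (nat_lit 463) (nat_lit 431) (nat_lit 6574) (nat_lit 495) (nat_lit 6606)))) (.a (.f (nat_lit 589) (nat_lit 621) (nat_lit 5613) (.f (nat_lit 557) (nat_lit 462) (nat_lit 5581) (.f (nat_lit 623) (nat_lit 591) (nat_lit 4590) (.f (nat_lit 622) (nat_lit 655) (nat_lit 4622) (.d (nat_lit 654) (nat_lit 525) (nat_lit 7693) (nat_lit 686) (nat_lit 7725)))))) (.a (.f (nat_lit 495) (nat_lit 463) (nat_lit 6606) (.f (nat_lit 622) (nat_lit 527) (nat_lit 6638) (.d (nat_lit 621) (nat_lit 589) (nat_lit 5613) (nat_lit 653) (nat_lit 5645)))) (.f (nat_lit 495) (nat_lit 463) (nat_lit 6606) (.f (nat_lit 527) (nat_lit 622) (nat_lit 6638) (.f (nat_lit 525) (nat_lit 561) (nat_lit 525) (.d (nat_lit 524) (nat_lit 496) (nat_lit 2540) (nat_lit 523) (nat_lit 2539))))))))) (.a (.p (nat_lit 558) (.a (.f (nat_lit 589) (nat_lit 621) (nat_lit 5613) (.f (nat_lit 462) (nat_lit 557) (nat_lit 5581) (.d (nat_lit 463) (nat_lit 431) (nat_lit 6574) (nat_lit 495) (nat_lit 6606)))) (.a (.f (nat_lit 589) (nat_lit 621) (nat_lit 5613) (.f (nat_lit 557) (nat_lit 462) (nat_lit 5581) (.f (nat_lit 623) (nat_lit 591) (nat_lit 4590) (.f (nat_lit 622) (nat_lit 655) (nat_lit 4622) (.d (nat_lit 654) (nat_lit 525) (nat_lit 7693) (nat_lit 686) (nat_lit 7725)))))) (.a (.f (nat_lit 621) (nat_lit 589) (nat_lit 5613) (.f (nat_lit 622) (nat_lit 653) (nat_lit 5645) (.d (nat_lit 623) (nat_lit 591) (nat_lit 4590) (nat_lit 655) (nat_lit 4622)))) (.a (.f (nat_lit 623) (nat_lit 591) (nat_lit 4590) (.f (nat_lit 622) (nat_lit 655) (nat_lit 4622) (.f (nat_lit 653) (nat_lit 621) (nat_lit 5645) (.f (nat_lit 654) (nat_lit 685) (nat_lit 5677) (.d (nat_lit 525) (nat_lit 493) (nat_lit 7661) (nat_lit 557) (nat_lit 7693)))))) (.f (nat_lit 463) (nat_lit 495) (nat_lit 6606) (.f (nat_lit 462) (nat_lit 431) (nat_lit 6574) (.f (nat_lit 557) (nat_lit 589) (nat_lit 5581) (.f (nat_lit 525) (nat_lit 430) (nat_lit 5549) (.d (nat_lit 622) (nat_lit 493) (nat_lit 7661) (nat_lit 654) (nat_lit 7693))))))))))) (.a (.p (nat_lit 558) (.a (.f (nat_lit 589) (nat_lit 621) (nat_lit 5613) (.f (nat_lit 462) (nat_lit 557) (nat_lit 5581) (.d (nat_lit 463) (nat_lit 431) (nat_lit 6574) (nat_lit 495) (nat_lit 6606)))) (.a (.f (nat_lit 621) (nat_lit 589) (nat_lit 5613) (.f (nat_lit 622) (nat_lit 653) (nat_lit 5645) (.f (nat_lit 525) (nat_lit 493) (nat_lit 7661) (.f (nat_lit 527) (nat_lit 561) (nat_lit 525) (.d (nat_lit 557) (nat_lit 556) (nat_lit 1548) (nat_lit 654) (nat_lit 7693)))))) (.a (.f (nat_lit 495) (nat_lit 463) (nat_lit 6606) (.f (nat_lit 622) (nat_lit 527) (nat_lit 6638) (.d (nat_lit 621) (nat_lit 589) (nat_lit 5613) (nat_lit 653) (nat_lit 5645)))) (.f (nat_lit 495) (nat_lit 463) (nat_lit 6606) (.f (nat_lit 527) (nat_lit 622) (nat_lit 6638) (.f (nat_lit 525) (nat_lit 561) (nat_lit 525) (.d (nat_lit 524) (nat_lit 496) (nat_lit 2540) (nat_lit 523) (nat_lit 2539))))))))) (.a (.p (nat_lit 558) (.a (.f (nat_lit 589) (nat_lit 621) (nat_lit 5613) (.f (nat_lit 462) (nat_lit 557) (nat_lit 5581) (.d (nat_lit 463) (nat_lit 431) (nat_lit 6574) (nat_lit 495) (nat_lit 6606)))) (.a (.f (nat_lit 621) (nat_lit 589) (nat_lit 5613) (.f (nat_lit 622) (nat_lit 653) (nat_lit 5645) (.d (nat_lit 623) (nat_lit 591) (nat_lit 4590) (nat_lit 655) (nat_lit 4622)))) (.f (nat_lit 495) (nat_lit 463) (nat_lit 6606) (.f (nat_lit 622) (nat_lit 527) (nat_lit 6638) (.d (nat_lit 623) (nat_lit 591) (nat_lit 4590) (nat_lit 655) (nat_lit 4622))))))) (.a (.p (nat_lit 558) (.a (.f (nat_lit 589) (nat_lit 621) (nat_lit 5613) (.f (nat_lit 557) (nat_lit 462) (nat_lit 5581) (.f (nat_lit 623) (nat_lit 591) (nat_lit 4590) (.f (nat_lit 622) (nat_lit 655) (nat_lit 4622) (.d (nat_lit 654) (nat_lit 525) (nat_lit 7693) (nat_lit 686) (nat_lit 7725)))))) (.a (.f (nat_lit 621) (nat_lit 589) (nat_lit 5613) (.f (nat_lit 622) (nat_lit 653) (nat_lit 5645) (.f (nat_lit 525) (nat_lit 493) (nat_lit 7661) (.f (nat_lit 527) (nat_lit 561) (nat_lit 525) (.d (nat_lit 557) (nat_lit 556) (nat_lit 1548) (nat_lit 654) (nat_lit 7693)))))) (.a (.f (nat_lit 621) (nat_lit 589) (nat_lit 5613) (.f (nat_lit 622) (nat_lit 653) (nat_lit 5645) (.d (nat_lit 623) (nat_lit 591) (nat_lit 4590) (nat_lit 655) (nat_lit 4622)))) (.a (.f (nat_lit 623) (nat_lit 591) (nat_lit 4590) (.f (nat_lit 622) (nat_lit 655) (nat_lit 4622) (.f (nat_lit 653) (nat_lit 621) (nat_lit 5645) (.f (nat_lit 654) (nat_lit 685) (nat_lit 5677) (.d (nat_lit 525) (nat_lit 493) (nat_lit 7661) (nat_lit 557) (nat_lit 7693)))))) (.a (.f (nat_lit 589) (nat_lit 621) (nat_lit 5613) (.f (nat_lit 591) (nat_lit 623) (nat_lit 4590) (.f (nat_lit 557) (nat_lit 462) (nat_lit 5581) (.d (nat_lit 592) (nat_lit 556) (nat_lit 3628) (nat_lit 561) (nat_lit 2605))))) (.f (nat_lit 623) (nat_lit 591) (nat_lit 4590) (.f (nat_lit 622) (nat_lit 655) (nat_lit 4622) (.f (nat_lit 525) (nat_lit 493) (nat_lit 7661) (.d (nat_lit 527) (nat_lit 495) (nat_lit 6638) (nat_lit 561) (nat_lit 525))))))))))) (.a s40554 (.a (.p (nat_lit 558) (.a (.f (nat_lit 495) (nat_lit 463) (nat_lit 6606) (.f (nat_lit 527) (nat_lit 622) (nat_lit 6638) (.f (nat_lit 525) (nat_lit 561) (nat_lit 525) (.d (nat_lit 524) (nat_lit 496) (nat_lit 2540) (nat_lit 523) (nat_lit 2539))))) (.a (.f (nat_lit 623) (nat_lit 591) (nat_lit 4590) (.f (nat_lit 622) (nat_lit 655) (nat_lit 4622) (.f (nat_lit 653) (nat_lit 621) (nat_lit 5645) (.f (nat_lit 654) (nat_lit 685) (nat_lit 5677) (.d (nat_lit 525) (nat_lit 493) (nat_lit 7661) (nat_lit 557) (nat_lit 7693)))))) (.a (.f (nat_lit 495) (nat_lit 463) (nat_lit 6606) (.f (nat_lit 622) (nat_lit 527) (nat_lit 6638) (.d (nat_lit 623) (nat_lit 591) (nat_lit 4590) (nat_lit 655) (nat_lit 4622)))) s40282)))) (.a (.p (nat_lit 558) (.a (.f (nat_lit 589) (nat_lit 621) (nat_lit 5613) (.f (nat_lit 557) (nat_lit 462) (nat_lit 5581) (.f (nat_lit 623) (nat_lit 591) (nat_lit 4590) (.f (nat_lit 622) (nat_lit 655) (nat_lit 4622) (.d (nat_lit 654) (nat_lit 525) (nat_lit 7693) (nat_lit 686) (nat_lit 7725)))))) (.a (.f (nat_lit 621) (nat_lit 589) (nat_lit 5613) (.f (nat_lit 622) (nat_lit 653) (nat_lit 5645) (.f (nat_lit 525) (nat_lit 493) (nat_lit 7661) (.f (nat_lit 527) (nat_lit 561) (nat_lit 525) (.d (nat_lit 557) (nat_lit 556) (nat_lit 1548) (nat_lit 654) (nat_lit 7693)))))) (.a (.f (nat_lit 621) (nat_lit 589) (nat_lit 5613) (.f (nat_lit 622) (nat_lit 653) (nat_lit 5645) (.d (nat_lit 623) (nat_lit 591) (nat_lit 4590) (nat_lit 655) (nat_lit 4622)))) (.a (.f (nat_lit 623) (nat_lit 591) (nat_lit 4590) (.f (nat_lit 622) (nat_lit 655) (nat_lit 4622) (.f (nat_lit 653) (nat_lit 621) (nat_lit 5645) (.f (nat_lit 654) (nat_lit 685) (nat_lit 5677) (.d (nat_lit 525) (nat_lit 493) (nat_lit 7661) (nat_lit 557) (nat_lit 7693)))))) (.a (.f (nat_lit 589) (nat_lit 621) (nat_lit 5613) (.f (nat_lit 591) (nat_lit 623) (nat_lit 4590) (.f (nat_lit 557) (nat_lit 462) (nat_lit 5581) (.d (nat_lit 592) (nat_lit 556) (nat_lit 3628) (nat_lit 561) (nat_lit 2605))))) (.f (nat_lit 623) (nat_lit 591) (nat_lit 4590) (.f (nat_lit 622) (nat_lit 655) (nat_lit 4622) (.f (nat_lit 525) (nat_lit 493) (nat_lit 7661) (.f (nat_lit 557) (nat_lit 654) (nat_lit 7693) (.d (nat_lit 527) (nat_lit 556) (nat_lit 1548) (nat_lit 561) (nat_lit 525)))))))))))) (.a (.p (nat_lit 558) (.a (.f (nat_lit 589) (nat_lit 621) (nat_lit 5613) (.f (nat_lit 462) (nat_lit 557) (nat_lit 5581) (.d (nat_lit 463) (nat_lit 431) (nat_lit 6574) (nat_lit 495) (nat_lit 6606)))) (.a (.f (nat_lit 589) (nat_lit 621) (nat_lit 5613) (.f (nat_lit 591) (nat_lit 623) (nat_lit 4590) (.f (nat_lit 557) (nat_lit 462) (nat_lit 5581) (.d (nat_lit 592) (nat_lit 556) (nat_lit 3628) (nat_lit 561) (nat_lit 2605))))) (.a (.f (nat_lit 495) (nat_lit 463) (nat_lit 6606) (.f (nat_lit 591) (nat_lit 623) (nat_lit 4590) (.f (nat_lit 589) (nat_lit 621) (nat_lit 5613) (.f (nat_lit 592) (nat_lit 561) (nat_lit 2605) (.d (nat_lit 624) (nat_lit 527) (nat_lit 7663) (nat_lit 625) (nat_lit 589)))))) s40282)))) (.p (nat_lit 558) (.a (.f (nat_lit 495) (nat_lit 463) (nat_lit 6606) (.f (nat_lit 527) (nat_lit 622) (nat_lit 6638) (.f (nat_lit 525) (nat_lit 561) (nat_lit 525) (.d (nat_lit 524) (nat_lit 496) (nat_lit 2540) (nat_lit 523) (nat_lit 2539))))) (.a (.f (nat_lit 463) (nat_lit 495) (nat_lit 6606) (.f (nat_lit 462) (nat_lit 431) (nat_lit 6574) (.f (nat_lit 557) (nat_lit 589) (nat_lit 5581) (.f (nat_lit 525) (nat_lit 430) (nat_lit 5549) (.d (nat_lit 622) (nat_lit 493) (nat_lit 7661) (nat_lit 654) (nat_lit 7693)))))) (.a (.f (nat_lit 495) (nat_lit 463) (nat_lit 6606) (.f (nat_lit 622) (nat_lit 527) (nat_lit 6638) (.d (nat_lit 623) (nat_lit 591) (nat_lit 4590) (nat_lit 655) (nat_lit 4622)))) (.a (.f (nat_lit 623) (nat_lit 591) (nat_lit 4590) (.f (nat_lit 622) (nat_lit 655) (nat_lit 4622) (.f (nat_lit 525) (nat_lit 493) (nat_lit 7661) (.d (nat_lit 527) (nat_lit 495) (nat_lit 6638) (nat_lit 561) (nat_lit 525))))) (.a (.f (nat_lit 623) (nat_lit 591) (nat_lit 4590) (.f (nat_lit 622) (nat_lit 655) (nat_lit 4622) (.f (nat_lit 525) (nat_lit 493) (nat_lit 7661) (.f (nat_lit 557) (nat_lit 654) (nat_lit 7693) (.d (nat_lit 527) (nat_lit 556) (nat_lit 1548) (nat_lit 561) (nat_lit 525)))))) (.f (nat_lit 463) (nat_lit 495) (nat_lit 6606) (.f (nat_lit 462) (nat_lit 431) (nat_lit 6574) (.f (nat_lit 557) (nat_lit 589) (nat_lit 5581) (.f (nat_lit 525) (nat_lit 430) (nat_lit 5549) (.d (nat_lit 527) (nat_lit 556) (nat_lit 1548) (nat_lit 561) (nat_lit 525))))))))))))))))))))))))))))))))))))))))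
noncomputable def s40736 : Cert := .r (nat_lit 3773962425919908978067039048378881885645768491231275023412675293626429865204541471935760055792560469727505484597500264544337939673836815150592175795562377636060837445632) (.p (nat_lit 527) (.a (.d (nat_lit 525) (nat_lit 497) (nat_lit 2541) (nat_lit 561) (nat_lit 525)) (.a (.p (nat_lit 592) (.a (.f (nat_lit 624) (nat_lit 495) (nat_lit 7663) (.d (nat_lit 623) (nat_lit 591) (nat_lit 5615) (nat_lit 655) (nat_lit 5647))) (.a (.f (nat_lit 624) (nat_lit 495) (nat_lit 7663) (.f (nat_lit 656) (nat_lit 559) (nat_lit 7695) (.d (nat_lit 655) (nat_lit 623) (nat_lit 5647) (nat_lit 687) (nat_lit 5679)))) (.a (.f (nat_lit 497) (nat_lit 465) (nat_lit 6608) (.d (nat_lit 498) (nat_lit 495) (nat_lit 1518) (nat_lit 499) (nat_lit 1519))) (.f (nat_lit 623) (nat_lit 591) (nat_lit 5615) (.f (nat_lit 624) (nat_lit 655) (nat_lit 5647) (.f (nat_lit 657) (nat_lit 625) (nat_lit 4624) (.d (nat_lit 656) (nat_lit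 559) (nat_lit 7695) (nat_lit 689) (nat_lit 4656))))))))) (.f (nat_lit 525) (nat_lit 561) (nat_lit 525) (.d (nat_lit 524) (nat_lit 495) (nat_lit 2540) (nat_lit 559) (nat_lit 524))))))
noncomputable def s40777 : Cert := .r (nat_lit 4717453032125294315973987508880817458218130529296591420246571772779567243795549402077785465380506041852719292777414468402832772512838634980175475457832173847598411546624) (.p (nat_lit 590) (.a (.f (nat_lit 591) (nat_lit 623) (nat_lit 4590) (.f (nat_lit 559) (nat_lit 462) (nat_lit 4558) (.d (nat_lit 561) (nat_lit 525) (nat_lit 3597) (nat_lit 589) (nat_lit 1581)))) (.a (.f (nat_lit 493) (nat_lit 461) (nat_lit 7629) (.f (nat_lit 622) (nat_lit 525) (nat_lit 7661) (.d (nat_lit 621) (nat_lit 589) (nat_lit 5613) (nat_lit 653) (nat_lit 5645)))) (.a (.f (nat_lit 591) (nat_lit 623) (nat_lit 4590) (.f (nat_lit 559) (nat_lit 462) (nat_lit 4558) (.d (nat_lit 589) (nat_lit 588) (nat_lit 2604) (nat_lit 621) (nat_lit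 5613)))) (.f (nat_lit 591) (nat_lit 623) (nat_lit 4590) (.f (nat_lit 559) (nat_lit 462) (nat_lit 4558) (.d (nat_lit 561) (nat_lit 525) (nat_lit 3597) (nat_lit 562) (nat_lit 1582))))))))
noncomputable def s40785 : Cert := .r (nat_lit 4052261302452797718172567620308740342168032265173429225435669294519214876955562468178336889438689423921251250576516624520754980669431979897453785075845873487448399936024439947264) (.p (nat_lit 494) (.a (.f (nat_lit 589) (nat_lit 621) (nat_lit 5613) (.f (nat_lit 559) (nat_lit 561) (nat_lit 1581) (.d (nat_lit 557) (nat_lit 462) (nat_lit 5581) (nat_lit 588) (nat_lit 1580)))) (.a (.f (nat_lit 589) (nat_lit 621) (nat_lit 5613) (.f (nat_lit 462) (nat_lit 557) (nat_lit 5581) (.d (nat_lit 461) (nat_lit 429) (nat_lit 7597) (nat_lit 493) (nat_lit 7629)))) (.a (.f (nat_lit 591) (nat_lit 623) (nat_lit 4590) (.f (nat_lit 559) (nat_lit 462) (nat_lit 4558) (.d (nat_lit 589) (nat_lit 588) (nat_lit 2604) (nat_lit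 621) (nat_lit 5613)))) (.a (.f (nat_lit 591) (nat_lit 623) (nat_lit 4590) (.f (nat_lit 462) (nat_lit 559) (nat_lit 4558) (.d (nat_lit 461) (nat_lit 429) (nat_lit 7597) (nat_lit 493) (nat_lit 7629)))) (.f (nat_lit 589) (nat_lit 621) (nat_lit 5613) (.f (nat_lit 559) (nat_lit 561) (nat_lit 1581) (.d (nat_lit 588) (nat_lit 557) (nat_lit 1580) (nat_lit 587) (nat_lit 2603)))))))))
noncomputable def s40806 : Cert := .r (nat_lit 4052261302452797718172567620308740342168032265173429225435669294519214876955562468178336889438689423921251250576516624520754980669431979897453785075845873487448399936024439947264) (.p (nat_lit 623) (.a (.f (nat_lit 591) (nat_lit 494) (nat_lit 4590) (.d (nat_lit 655) (nat_lit 622) (nat_lit 4622) (nat_lit 687) (nat_lit 7726))) (.a (.f (nat_lit 622) (nat_lit 655) (nat_lit 4622) (.f (nat_lit 621) (nat_lit 653) (nat_lit 5645) (.f (nat_lit 589) (nat_lit 494) (nat_lit 5613) (.d (nat_lit 624) (nat_lit 588) (nat_lit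 3660) (nat_lit 625) (nat_lit 3661))))) (.a (.f (nat_lit 494) (nat_lit 591) (nat_lit 4590) (.f (nat_lit 589) (nat_lit 621) (nat_lit 5613) (.f (nat_lit 462) (nat_lit 557) (nat_lit 5581) (.d (nat_lit 461) (nat_lit 429) (nat_lit 7597) (nat_lit 493) (nat_lit 7629))))) (.f (nat_lit 655) (nat_lit 622) (nat_lit 4622) (.f (nat_lit 591) (nat_lit 687) (nat_lit 7726) (.d (nat_lit 592) (nat_lit 496) (nat_lit 5615) (nat_lit 624) (nat_lit 5647))))))))
noncomputable def s40840 : Cert := .r (nat_lit 4052261302452797718172567620308740342168032265173429225435669294519214876955562468178336889438689423921251250576516624520754980669431979897453785075845873487448399936024439947264) (.p (nat_lit 622) (.a (.f (nat_lit 623) (nat_lit 655) (nat_lit 4622) (.f (nat_lit 591) (nat_lit 494) (nat_lit 4590) (.f (nat_lit 621) (nat_lit 653) (nat_lit 5645) (.d (nat_lit 592) (nat_lit 496) (nat_lit 5615) (nat_lit 620) (nat_lit 2636))))) (.a (.f (nat_lit 623)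 (nat_lit 655) (nat_lit 4622) (.f (nat_lit 591) (nat_lit 494) (nat_lit 4590) (.f (nat_lit 653) (nat_lit 621) (nat_lit 5645) (.f (nat_lit 654) (nat_lit 685) (nat_lit 5677) (.d (nat_lit 559) (nat_lit 527) (nat_lit 5646) (nat_lit 686) (nat_lit 6702)))))) (.a (.f (nat_lit 655) (nat_lit 623) (nat_lit 4622) (.f (nat_lit 654) (nat_lit 687) (nat_lit 4654) (.d (nat_lit 653) (nat_lit 621) (nat_lit 5645) (nat_lit 685) (nat_lit 5677)))) (.a (.f (nat_lit 653) (nat_lit 621) (nat_lit 5645) (.f (nat_lit 654) (nat_lit 685) (nat_lit 5677) (.f (nat_lit 559) (nat_lit 527) (nat_lit 6670) (.f (nat_lit 687) (nat_lit 655) (nat_lit 4654) (.d (nat_lit 686) (nat_lit 591) (nat_lit 6702) (nat_lit 719) (nat_lit 4686)))))) (.a (.f (nat_lit 653) (nat_lit 621) (nat_lit 5645) (.f (nat_lit 654) (nat_lit 685) (nat_lit 5677) (.f (nat_lit 559) (nat_lit 527) (nat_lit 6670) (.f (nat_lit 591) (nat_lit 686) (nat_lit 6702) (.d (nat_lit 494) (nat_lit 462) (nat_lit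 4558) (nat_lit 623) (nat_lit 4590)))))) (.f (nat_lit 623) (nat_lit 655) (nat_lit 4622) (.f (nat_lit 591) (nat_lit 494) (nat_lit 4590) (.f (nat_lit 496) (nat_lit 592) (nat_lit 5615) (.d (nat_lit 559) (nat_lit 464) (nat_lit 5583) (nat_lit 527) (nat_lit 6639)))))))))))
noncomputable def s40890 : Cert := .r (nat_lit 4052261302452797718172567620308740342168032265173429225435669294519214876955562468178336889438689423921251250576516624520754980669431979897453785075845873487448399936024439947264) (.p (nat_lit 622) (.a (.f (nat_lit 623) (nat_lit 655) (nat_lit 4622) (.f (nat_lit 621) (nat_lit 653) (nat_lit 5645) (.d (nat_lit 494) (nat_lit 589) (nat_lit 5613) (nat_lit 591) (nat_lit 4590)))) (.a (.f (nat_lit 621) (nat_lit 653) (nat_lit 5645) (.f (nat_lit 623) (nat_lit 655) (nat_lit 4622) (.f (nat_lit 589) (nat_lit 494) (nat_lit 5613) (.d (nat_lit 624) (nat_lit 588) (nat_lit 3660) (nat_lit 625) (nat_lit 3661))))) (.a (.f (nat_lit 623)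 (nat_lit 655) (nat_lit 4622) (.f (nat_lit 591) (nat_lit 494) (nat_lit 4590) (.f (nat_lit 621) (nat_lit 653) (nat_lit 5645) (.d (nat_lit 592) (nat_lit 496) (nat_lit 5615) (nat_lit 620) (nat_lit 2636))))) (.a (.f (nat_lit 621) (nat_lit 653) (nat_lit 5645) (.f (nat_lit 493) (nat_lit 525) (nat_lit 7661) (.d (nat_lit 494) (nat_lit 461) (nat_lit 7629) (nat_lit 589) (nat_lit 5613)))) (.a (.f (nat_lit 655) (nat_lit 623) (nat_lit 4622) (.f (nat_lit 654) (nat_lit 687) (nat_lit 4654) (.d (nat_lit 653) (nat_lit 621) (nat_lit 5645) (nat_lit 685) (nat_lit 5677)))) (.f (nat_lit 623) (nat_lit 655) (nat_lit 4622) (.f (nat_lit 591) (nat_lit 494) (nat_lit 4590) (.f (nat_lit 592) (nat_lit 496) (nat_lit 5615) (.f (nat_lit 589) (nat_lit 561) (nat_lit 2605) (.d (nat_lit 588) (nat_lit 587) (nat_lit 587) (nat_lit 624) (nat_lit 588))))))))))))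
noncomputable def s40920 : Cert := .r (nat_lit 4052261302452797718172567620308740342168032265173429225435669294519214876955562468178336889438689423921251250576516624520754980669431979897453785075845873487448399936024439947264) (.p (nat_lit 622) (.a (.f (nat_lit 623) (nat_lit 655) (nat_lit 4622) (.f (nat_lit 621) (nat_lit 653) (nat_lit 5645) (.d (nat_lit 494) (nat_lit 589) (nat_lit 5613) (nat_lit 591) (nat_lit 4590)))) (.a (.f (nat_lit 621) (nat_lit 653) (nat_lit 5645) (.f (nat_lit 623) (nat_lit 655) (nat_lit 4622) (.f (nat_lit 589) (nat_lit 494) (nat_lit 5613) (.d (nat_lit 624) (nat_lit 588) (nat_lit 3660) (nat_lit 625) (nat_lit 3661))))) (.a (.f (nat_lit 623) (nat_lit 655) (nat_lit 4622) (.f (nat_lit 591) (nat_lit 494) (nat_lit 4590) (.f (nat_lit 621) (nat_lit 653) (nat_lit 5645) (.d (nat_lit 592) (nat_lit 496) (nat_lit 5615) (nat_lit 620) (nat_lit 2636))))) (.a (.f (nat_lit 653) (nat_lit 621) (nat_lit 5645) (.f (nat_lit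 654) (nat_lit 685) (nat_lit 5677) (.f (nat_lit 687) (nat_lit 655) (nat_lit 4654) (.f (nat_lit 686) (nat_lit 719) (nat_lit 4686) (.d (nat_lit 557) (nat_lit 525) (nat_lit 7693) (nat_lit 589) (nat_lit 7725)))))) (.a (.f (nat_lit 653) (nat_lit 621) (nat_lit 5645) (.f (nat_lit 654) (nat_lit 685) (nat_lit 5677) (.f (nat_lit 557) (nat_lit 525) (nat_lit 7693) (.f (nat_lit 589) (nat_lit 686) (nat_lit 7725) (.f (nat_lit 494) (nat_lit 462) (nat_lit 5581) (.f (nat_lit 591) (nat_lit 623) (nat_lit 4590) (.d (nat_lit 556) (nat_lit 555) (nat_lit 555) (nat_lit 592) (nat_lit 3628)))))))) (.f (nat_lit 623) (nat_lit 655) (nat_lit 4622) (.f (nat_lit 591) (nat_lit 494) (nat_lit 4590) (.f (nat_lit 592) (nat_lit 496) (nat_lit 5615) (.f (nat_lit 589) (nat_lit 561) (nat_lit 2605) (.d (nat_lit 588) (nat_lit 587) (nat_lit 587) (nat_lit 624) (nat_lit 588))))))))))))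
noncomputable def s40930 : Cert := .r (nat_lit 4052261302452797718172567620308740342168032265173429225435669294519214876955562468178336889438689423921251250576516624520754980669431979897453785075845873487448399936024439947264) (.p (nat_lit 525) (.a (.f (nat_lit 527) (nat_lit 561) (nat_lit 525) (.d (nat_lit 493) (nat_lit 492) (nat_lit 3564) (nat_lit 622) (nat_lit 7661))) (.a (.f (nat_lit 493) (nat_lit 622) (nat_lit 7661) (.d (nat_lit 461) (nat_lit 429) (nat_lit 4525) (nat_lit 494) (nat_lit 7629))) (.a (.f (nat_lit 527) (nat_lit 561) (nat_lit 525) (.f (nat_lit 557) (nat_lit 556) (nat_lit 1548) (.f (nat_lit 622) (nat_lit 654) (nat_lit 7693) (.f (nat_lit 623) (nat_lit 655) (nat_lit 4622) (.f (nat_lit 496) (nat_lit 497) (nat_lit 2541) (.d (nat_lit 591) (nat_lit 494) (nat_lit 4590) (nat_lit 592) (nat_lit 5615))))))) (.f (nat_lit 527) (nat_lit 561) (nat_lit 525) (.f (nat_lit 557) (nat_lit 556) (nat_lit 1548) (.d (nat_lit 493)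 (nat_lit 461) (nat_lit 4557) (nat_lit 492) (nat_lit 3564))))))))
noncomputable def s41021 : Cert := .r (nat_lit 4052261302452797718172567620308740342168032265173429225435669294519214876955562468178336889438689423921251250576516624520754980669431979897453785075845873487448399936024439947264) (.p (nat_lit 525) (.a (.f (nat_lit 622) (nat_lit 493) (nat_lit 7661) (.f (nat_lit 559) (nat_lit 561) (nat_lit 3597) (.d (nat_lit 557) (nat_lit 524) (nat_lit 3596) (nat_lit 654) (nat_lit 7693)))) (.a (.f (nat_lit 622) (nat_lit 493) (nat_lit 7661) (.f (nat_lit 654) (nat_lit 557) (nat_lit 7693) (.d (nat_lit 653) (nat_lit 621) (nat_lit 5645) (nat_lit 685) (nat_lit 5677)))) (.a (.f (nat_lit 622) (nat_lit 493) (nat_lit 7661) (.f (nat_lit 655) (nat_lit 623) (nat_lit 4622) (.f (nat_lit 654) (nat_lit 687) (nat_lit 4654) (.d (nat_lit 653) (nat_lit 621) (nat_lit 5645) (nat_lit 685) (nat_lit 5677))))) (.f (nat_lit 559) (nat_lit 561) (nat_lit 3597)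 (.d (nat_lit 524) (nat_lit 523) (nat_lit 523) (nat_lit 557) (nat_lit 3596)))))))
noncomputable def s41028 : Cert := .r (nat_lit 4052261302452797718172567620308740342168032265173429225435669294519214876955562468178336889438689423921251250576516624520754980669431979897453785075845873487448399936024439947264) (.p (nat_lit 494) (.a (.f (nat_lit 495) (nat_lit 463) (nat_lit 6606) (.f (nat_lit 493) (nat_lit 461) (nat_lit 7629) (.d (nat_lit 527) (nat_lit 492) (nat_lit 492) (nat_lit 622) (nat_lit 6638)))) (.a (.f (nat_lit 493) (nat_lit 461) (nat_lit 7629) (.f (nat_lit 525) (nat_lit 622) (nat_lit 7661) (.f (nat_lit 495) (nat_lit 463) (nat_lit 6606) (.d (nat_lit 524) (nat_lit 496) (nat_lit 1516) (nat_lit 523) (nat_lit 2539))))) (.a (.f (nat_lit 493) (nat_lit 461) (nat_lit 7629) (.f (nat_lit 525) (nat_lit 622) (nat_lit 7661) (.d (nat_lit 527) (nat_lit 492) (nat_lit 3564) (nat_lit 561) (nat_lit 525)))) (.a (.f (nat_lit 495) (nat_lit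 463) (nat_lit 6606) (.f (nat_lit 527) (nat_lit 622) (nat_lit 6638) (.f (nat_lit 525) (nat_lit 561) (nat_lit 525) (.d (nat_lit 524) (nat_lit 523) (nat_lit 2539) (nat_lit 559) (nat_lit 524))))) (.f (nat_lit 493) (nat_lit 461) (nat_lit 7629) (.f (nat_lit 495) (nat_lit 463) (nat_lit 6606) (.f (nat_lit 492) (nat_lit 527) (nat_lit 492) (.f (nat_lit 523) (nat_lit 524) (nat_lit 1515) (.f (nat_lit 491) (nat_lit 522) (nat_lit 1514) (.d (nat_lit 459) (nat_lit 458) (nat_lit 3530) (nat_lit 460) (nat_lit 3531))))))))))))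
noncomputable def s41029 : Cert := .r (nat_lit 4052261302452797718172567620308740342168032265173429225435669294519214876955562468178336889438689423921251250576516624520754980669431979897453785075845873487448399936024439947264) (.p (nat_lit 494) (.a (.f (nat_lit 495) (nat_lit 463) (nat_lit 6606) (.f (nat_lit 493) (nat_lit 461) (nat_lit 7629) (.d (nat_lit 527) (nat_lit 492) (nat_lit 492) (nat_lit 622) (nat_lit 6638)))) (.a (.f (nat_lit 493) (nat_lit 461) (nat_lit 7629) (.f (nat_lit 525) (nat_lit 622) (nat_lit 7661) (.f (nat_lit 495) (nat_lit 463) (nat_lit 6606) (.d (nat_lit 524) (nat_lit 496) (nat_lit 1516) (nat_lit 523) (nat_lit 2539))))) (.a (.f (nat_lit 493) (nat_lit 461) (nat_lit 7629) (.f (nat_lit 525) (nat_lit 622) (nat_lit 7661) (.f (nat_lit 527) (nat_lit 492) (nat_lit 3564) (.f (nat_lit 557) (nat_lit 556) (nat_lit 1548) (.d (nat_lit 589) (nat_lit 462) (nat_lit 6605) (nat_lit 621) (nat_lit 5613)))))) (.a (.f (nat_lit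 495) (nat_lit 463) (nat_lit 6606) (.f (nat_lit 622) (nat_lit 527) (nat_lit 6638) (.d (nat_lit 621) (nat_lit 589) (nat_lit 5613) (nat_lit 653) (nat_lit 5645)))) (.f (nat_lit 589) (nat_lit 621) (nat_lit 5613) (.f (nat_lit 462) (nat_lit 557) (nat_lit 5581) (.d (nat_lit 461) (nat_lit 429) (nat_lit 7597) (nat_lit 493) (nat_lit 7629)))))))))
noncomputable def s41030 : Cert := .r (nat_lit 4052261302452797718172567620308740342168032265173429225435669294519214876955562468178336889438689423921251250576516624520754980669431979897453785075845873487448399936024439947264) (.p (nat_lit 494) (.a (.f (nat_lit 589) (nat_lit 621) (nat_lit 5613) (.f (nat_lit 559) (nat_lit 561) (nat_lit 1581) (.d (nat_lit 557) (nat_lit 462) (nat_lit 5581) (nat_lit 588) (nat_lit 1580)))) (.a (.f (nat_lit 589) (nat_lit 621) (nat_lit 5613) (.f (nat_lit 462) (nat_lit 557) (nat_lit 5581) (.d (nat_lit 461) (nat_lit 429) (nat_lit 7597) (nat_lit 493) (nat_lit 7629))))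 (.f (nat_lit 493) (nat_lit 461) (nat_lit 7629) (.f (nat_lit 495) (nat_lit 463) (nat_lit 6606) (.f (nat_lit 492) (nat_lit 527) (nat_lit 492) (.f (nat_lit 523) (nat_lit 524) (nat_lit 1515) (.f (nat_lit 491) (nat_lit 522) (nat_lit 1514) (.d (nat_lit 459) (nat_lit 458) (nat_lit 3530) (nat_lit 460) (nat_lit 3531))))))))))
noncomputable def s41174 : Cert := .r (nat_lit 3773962425919908978067039048378881885645768491231275023412675293626429865204541471935760055792560469727505484597500264544337939673836815150592175795562377636060837445632) (.p (nat_lit 464) (.a (.f (nat_lit 559) (nat_lit 591) (nat_lit 5583) (.f (nat_lit 527) (nat_lit 432) (nat_lit 5551) (.d (nat_lit 525) (nat_lit 524) (nat_lit 524) (nat_lit 561) (nat_lit 525)))) (.a (.f (nat_lit 433) (nat_lit 465) (nat_lit 6576) (.f (nat_lit 432) (nat_lit 401) (nat_lit 6544) (.d (nat_lit 431) (nat_lit 399) (nat_lit 7567) (nat_lit 463) (nat_lit 7599)))) (.p (nat_lit 525) (.a (.d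 (nat_lit 527) (nat_lit 497) (nat_lit 2541) (nat_lit 561) (nat_lit 525)) (.a (.f (nat_lit 559) (nat_lit 591) (nat_lit 5583) (.f (nat_lit 558) (nat_lit 561) (nat_lit 3597) (.d (nat_lit 524) (nat_lit 523) (nat_lit 523) (nat_lit 557) (nat_lit 3596)))) (.f (nat_lit 527) (nat_lit 497) (nat_lit 2541) (.d (nat_lit 524) (nat_lit 495) (nat_lit 2540) (nat_lit 559) (nat_lit 524)))))))))
noncomputable def s41231 : Cert := .r (nat_lit 3773962425700235452738272624505952193199339552226928146794549392648115485167898379561026699849346401546134558067857772757880134458676407096525164659442171664912122642432) (.p (nat_lit 526) (.a (.p (nat_lit 592) (.a (.p (nat_lit 496) (.a (.f (nat_lit 495) (nat_lit 463) (nat_lit 7631) (.f (nat_lit 527) (nat_lit 624) (nat_lit 7663) (.d (nat_lit 497) (nat_lit 465) (nat_lit 6608) (nat_lit 525) (nat_lit 2541)))) (.a (.f (nat_lit 591) (nat_lit 623) (nat_lit 5615) (.f (nat_lit 464) (nat_lit 559) (nat_lit 5583) (.d (nat_lit 465) (nat_lit 433) (nat_lit 6576) (nat_lit 497) (nat_lit 6608)))) (.a (.f (nat_lit 495) (nat_lit 463) (nat_lit 7631) (.f (nat_lit 527) (nat_lit 624) (nat_lit 7663) (.d (nat_lit 525) (nat_lit 497) (nat_lit 2541) (nat_lit 561) (nat_lit 525)))) (.f (nat_lit 591) (nat_lit 623) (nat_lit 5615) (.f (nat_lit 559) (nat_lit 464) (nat_lit 5583) (.f (nat_lit 495) (nat_lit 463) (nat_lit 7631) (.f (nat_lit 527) (nat_lit 624) (nat_lit 4591) (.d (nat_lit 525) (nat_lit 524) (nat_lit 524) (nat_lit 561) (nat_lit 525)))))))))) (.a s37491 (.a (.p (nat_lit 624) (.a (.f (nat_lit 527) (nat_lit 495) (nat_lit 7663) (.f (nat_lit 559) (nat_lit 656) (nat_lit 7695) (.d (nat_lit 561) (nat_lit 525) (nat_lit 525) (nat_lit 562) (nat_lit 3598)))) (.a (.f (nat_lit 655) (nat_lit 623) (nat_lit 5647) (.f (nat_lit 656) (nat_lit 687) (nat_lit 5679) (.d (nat_lit 657) (nat_lit 625) (nat_lit 4624) (nat_lit 689) (nat_lit 4656)))) (.f (nat_lit 527) (nat_lit 495) (nat_lit 7663) (.f (nat_lit 525) (nat_lit 561) (nat_lit 525) (.f (nat_lit 524) (nat_lit 559) (nat_lit 524) (.d (nat_lit 556) (nat_lit 555) (nat_lit 1547) (nat_lit 557) (nat_lit 1548)))))))) (.a s37506 (.a (.p (nat_lit 495) (.a (.f (nat_lit 527) (nat_lit 624) (nat_lit 7663) (.d (nat_lit 463) (nat_lit 431) (nat_lit 4527) (nat_lit 496) (nat_lit 7631))) (.a (.f (nat_lit 496) (nat_lit 463) (nat_lit 7631) (.f (nat_lit 497) (nat_lit 465) (nat_lit 6608) (.f (nat_lit 494) (nat_lit 525) (nat_lit 1517) (.f (nat_lit 461) (nat_lit 462) (nat_lit 3533) (.f (nat_lit 493) (nat_lit 460) (nat_lit 3532) (.f (nat_lit 591) (nat_lit 623) (nat_lit 5615) (.f (nat_lit 590) (nat_lit 558) (nat_lit 7629) (.f (nat_lit 589) (nat_lit 561) (nat_lit 2605) (.f (nat_lit 620) (nat_lit 621) (nat_lit 1612) (.f (nat_lit 588) (nat_lit 619) (nat_lit 1611) (.d (nat_lit 556) (nat_lit 555) (nat_lit 3627) (nat_lit 557) (nat_lit 3628)))))))))))) (.f (nat_lit 527) (nat_lit 624) (nat_lit 7663) (.f (nat_lit 525) (nat_lit 561) (nat_lit 525) (.f (nat_lit 492) (nat_lit 493) (nat_lit 3564) (.f (nat_lit 524) (nat_lit 491) (nat_lit 3563) (.d (nat_lit 556) (nat_lit 555) (nat_lit 1547) (nat_lit 557) (nat_lit 1548))))))))) (.a (.p (nat_lit 624) (.a (.f (nat_lit 655) (nat_lit 623) (nat_lit 5647) (.f (nat_lit 656) (nat_lit 687) (nat_lit 5679) (.d (nat_lit 657) (nat_lit 625) (nat_lit 4624) (nat_lit 689) (nat_lit 4656)))) (.a (.f (nat_lit 657) (nat_lit 625) (nat_lit 4624) (.f (nat_lit 656) (nat_lit 689) (nat_lit 4656) (.f (nat_lit 527) (nat_lit 559) (nat_lit 7695) (.f (nat_lit 525) (nat_lit 561) (nat_lit 525) (.f (nat_lit 492) (nat_lit 493) (nat_lit 3564) (.f (nat_lit 524) (nat_lit 491) (nat_lit 3563) (.d (nat_lit 556) (nat_lit 555) (nat_lit 1547) (nat_lit 557) (nat_lit 1548)))))))) (.f (nat_lit 623) (nat_lit 655) (nat_lit 5647) (.f (nat_lit 496) (nat_lit 591) (nat_lit 5615) (.f (nat_lit 465) (nat_lit 497) (nat_lit 6608) (.f (nat_lit 464) (nat_lit 433) (nat_lit 6576) (.f (nat_lit 431) (nat_lit 463) (nat_lit 7599) (.f (nat_lit 432) (nat_lit 399) (nat_lit 7567) (.f (nat_lit 527) (nat_lit 559) (nat_lit 5551) (.f (nat_lit 525) (nat_lit 561) (nat_lit 525) (.f (nat_lit 556) (nat_lit 557) (nat_lit 1548) (.f (nat_lit 524) (nat_lit 555) (nat_lit 1547) (.d (nat_lit 492) (nat_lit 491) (nat_lit 3563) (nat_lit 493) (nat_lit 3564))))))))))))))) (.p (nat_lit 496) (.a (.f (nat_lit 495) (nat_lit 463) (nat_lit 7631) (.f (nat_lit 527) (nat_lit 624) (nat_lit 7663) (.d (nat_lit 497) (nat_lit 465) (nat_lit 6608) (nat_lit 525) (nat_lit 2541)))) (.a (.f (nat_lit 463) (nat_lit 495) (nat_lit 7631) (.f (nat_lit 464) (nat_lit 431) (nat_lit 7599) (.d (nat_lit 465) (nat_lit 433) (nat_lit 6576) (nat_lit 497) (nat_lit 6608)))) (.a (.f (nat_lit 497) (nat_lit 465) (nat_lit 6608) (.f (nat_lit 527) (nat_lit 525) (nat_lit 2541) (.d (nat_lit 498) (nat_lit 495) (nat_lit 1518) (nat_lit 499) (nat_lit 1519)))) (.a (.f (nat_lit 465) (nat_lit 497) (nat_lit 6608) (.f (nat_lit 464) (nat_lit 433) (nat_lit 6576) (.f (nat_lit 431) (nat_lit 463) (nat_lit 7599) (.f (nat_lit 432) (nat_lit 399) (nat_lit 7567) (.f (nat_lit 527) (nat_lit 559) (nat_lit 5551) (.f (nat_lit 525) (nat_lit 561) (nat_lit 525) (.f (nat_lit 556) (nat_lit 557) (nat_lit 1548) (.f (nat_lit 524) (nat_lit 555) (nat_lit 1547) (.d (nat_lit 492) (nat_lit 491) (nat_lit 3563) (nat_lit 493) (nat_lit 3564)))))))))) (.a (.f (nat_lit 495) (nat_lit 463) (nat_lit 7631) (.f (nat_lit 527) (nat_lit 624) (nat_lit 7663) (.d (nat_lit 525) (nat_lit 497) (nat_lit 2541) (nat_lit 561) (nat_lit 525)))) (.f (nat_lit 495) (nat_lit 463) (nat_lit 7631) (.f (nat_lit 527) (nat_lit 624) (nat_lit 7663) (.d (nat_lit 525) (nat_lit 524) (nat_lit 2540) (nat_lit 561) (nat_lit 525))))))))))))))))) (.a (.p (nat_lit 558) (.a s37608 (.a (.p (nat_lit 494) (.a s37580 (.a (.p (nat_lit 590) (.a (.f (nat_lit 589) (nat_lit 621) (nat_lit 5613) (.f (nat_lit 559) (nat_lit 561) (nat_lit 1581) (.d (nat_lit 557) (nat_lit 462) (nat_lit 5581) (nat_lit 588) (nat_lit 1580)))) (.a (.f (nat_lit 589) (nat_lit 621) (nat_lit 5613) (.f (nat_lit 462) (nat_lit 557) (nat_lit 5581) (.d (nat_lit 463) (nat_lit 431) (nat_lit 6574) (nat_lit 495) (nat_lit 6606)))) (.f (nat_lit 493) (nat_lit 461) (nat_lit 7629) (.f (nat_lit 525) (nat_lit 622) (nat_lit 7661) (.f (nat_lit 495) (nat_lit 463) (nat_lit 6606) (.d (nat_lit 524) (nat_lit 496) (nat_lit 1516) (nat_lit 523) (nat_lit 2539)))))))) (.a (.p (nat_lit 462) (.a (.f (nat_lit 559) (nat_lit 591) (nat_lit 4558) (.f (nat_lit 525) (nat_lit 561) (nat_lit 3597) (.d (nat_lit 557) (nat_lit 524) (nat_lit 3596) (nat_lit 589) (nat_lit 5581)))) (.a (.f (nat_lit 557) (nat_lit 589) (nat_lit 5581) (.f (nat_lit 525) (nat_lit 430) (nat_lit 5549) (.d (nat_lit 559) (nat_lit 524) (nat_lit 3596) (nat_lit 561) (nat_lit 3597)))) (.f (nat_lit 431) (nat_lit 463) (nat_lit 6574) (.f (nat_lit 430) (nat_lit 399) (nat_lit 6542) (.d (nat_lit 429) (nat_lit 397) (nat_lit 7565) (nat_lit 461) (nat_lit 7597))))))) (.a s37624 (.a s37633 (.a s37634 (.a (.p (nat_lit 590) (.a (.f (nat_lit 591) (nat_lit 623) (nat_lit 4590) (.f (nat_lit 559) (nat_lit 462) (nat_lit 4558) (.d (nat_lit 561) (nat_lit 525) (nat_lit 3597) (nat_lit 589) (nat_lit 1581)))) (.a (.f (nat_lit 493) (nat_lit 461) (nat_lit 7629) (.f (nat_lit 525) (nat_lit 622) (nat_lit 7661) (.f (nat_lit 495) (nat_lit 463) (nat_lit 6606) (.d (nat_lit 524) (nat_lit 496) (nat_lit 1516) (nat_lit 523) (nat_lit 2539))))) (.f (nat_lit 591) (nat_lit 623) (nat_lit 4590) (.f (nat_lit 559) (nat_lit 462) (nat_lit 4558) (.d (nat_lit 589) (nat_lit 588) (nat_lit 2604) (nat_lit 621) (nat_lit 5613))))))) (.a (.p (nat_lit 590) (.a (.f (nat_lit 591) (nat_lit 623) (nat_lit 4590) (.f (nat_lit 559) (nat_lit 462) (nat_lit 4558) (.d (nat_lit 561) (nat_lit 525) (nat_lit 3597) (nat_lit 562) (nat_lit 1582)))) (.a (.f (nat_lit 493) (nat_lit 461) (nat_lit 7629) (.f (nat_lit 525) (nat_lit 622) (nat_lit 7661) (.f (nat_lit 495) (nat_lit 463) (nat_lit 6606) (.d (nat_lit 524) (nat_lit 496) (nat_lit 1516) (nat_lit 523) (nat_lit 2539))))) (.f (nat_lit 591) (nat_lit 623) (nat_lit 4590) (.f (nat_lit 462) (nat_lit 559) (nat_lit 4558) (.d (nat_lit 463) (nat_lit 431) (nat_lit 6574) (nat_lit 495) (nat_lit 6606))))))) (.p (nat_lit 590) (.a (.f (nat_lit 589) (nat_lit 621) (nat_lit 5613) (.f (nat_lit 559) (nat_lit 561) (nat_lit 1581) (.d (nat_lit 588) (nat_lit 557) (nat_lit 1580) (nat_lit 587) (nat_lit 2603)))) (.f (nat_lit 493) (nat_lit 461) (nat_lit 7629) (.f (nat_lit 525) (nat_lit 622) (nat_lit 7661) (.f (nat_lit 495) (nat_lit 463) (nat_lit 6606) (.d (nat_lit 524) (nat_lit 496) (nat_lit 1516) (nat_lit 523) (nat_lit 2539)))))))))))))))) (.a (.p (nat_lit 590) (.a (.p (nat_lit 494) (.a (.f (nat_lit 589) (nat_lit 621) (nat_lit 5613) (.f (nat_lit 559) (nat_lit 561) (nat_lit 1581) (.d (nat_lit 557) (nat_lit 462) (nat_lit 5581) (nat_lit 588) (nat_lit 1580)))) (.f (nat_lit 495) (nat_lit 463) (nat_lit 6606) (.f (nat_lit 493) (nat_lit 461) (nat_lit 7629) (.d (nat_lit 527) (nat_lit 492) (nat_lit 492) (nat_lit 622) (nat_lit 6638)))))) (.a (.p (nat_lit 494) (.a (.f (nat_lit 589) (nat_lit 621) (nat_lit 5613) (.f (nat_lit 559) (nat_lit 561) (nat_lit 1581) (.d (nat_lit 557) (nat_lit 462) (nat_lit 5581) (nat_lit 588) (nat_lit 1580)))) (.a (.f (nat_lit 589) (nat_lit 621) (nat_lit 5613) (.f (nat_lit 462) (nat_lit 557) (nat_lit 5581) (.d (nat_lit 463) (nat_lit 431) (nat_lit 6574) (nat_lit 495) (nat_lit 6606)))) (.f (nat_lit 493) (nat_lit 461) (nat_lit 7629) (.f (nat_lit 525) (nat_lit 622) (nat_lit 7661) (.f (nat_lit 495) (nat_lit 463) (nat_lit 6606) (.d (nat_lit 524) (nat_lit 496) (nat_lit 1516) (nat_lit 523) (nat_lit 2539)))))))) (.a (.p (nat_lit 494) (.a (.f (nat_lit 495) (nat_lit 463) (nat_lit 6606) (.f (nat_lit 493) (nat_lit 461) (nat_lit 7629) (.d (nat_lit 527) (nat_lit 492) (nat_lit 492) (nat_lit 622) (nat_lit 6638)))) (.a (.f (nat_lit 589) (nat_lit 621) (nat_lit 5613) (.f (nat_lit 462) (nat_lit 557) (nat_lit 5581) (.d (nat_lit 463) (nat_lit 431) (nat_lit 6574) (nat_lit 495) (nat_lit 6606)))) (.f (nat_lit 493) (nat_lit 461) (nat_lit 7629) (.f (nat_lit 525) (nat_lit 622) (nat_lit 7661) (.d (nat_lit 527) (nat_lit 492) (nat_lit 3564) (nat_lit 561) (nat_lit 525))))))) (.a s37647 (.a (.p (nat_lit 494) (.a (.f (nat_lit 495) (nat_lit 463) (nat_lit 6606) (.f (nat_lit 493) (nat_lit 461) (nat_lit 7629) (.d (nat_lit 527) (nat_lit 492) (nat_lit 492) (nat_lit 622) (nat_lit 6638)))) (.a (.f (nat_lit 493) (nat_lit 461) (nat_lit 7629) (.f (nat_lit 525) (nat_lit 622) (nat_lit 7661) (.f (nat_lit 495) (nat_lit 463) (nat_lit 6606) (.d (nat_lit 524) (nat_lit 496) (nat_lit 1516) (nat_lit 523) (nat_lit 2539))))) (.a (.f (nat_lit 493) (nat_lit 461) (nat_lit 7629) (.f (nat_lit 525) (nat_lit 622) (nat_lit 7661) (.d (nat_lit 527) (nat_lit 492) (nat_lit 3564) (nat_lit 561) (nat_lit 525)))) (.a (.f (nat_lit 495) (nat_lit 463) (nat_lit 6606) (.f (nat_lit 527) (nat_lit 622) (nat_lit 6638) (.f (nat_lit 525) (nat_lit 561) (nat_lit 525) (.d (nat_lit 524) (nat_lit 523) (nat_lit 2539) (nat_lit 559) (nat_lit 524))))) (.f (nat_lit 463) (nat_lit 495) (nat_lit 6606) (.f (nat_lit 462) (nat_lit 431) (nat_lit 6574) (.d (nat_lit 461) (nat_lit 429) (nat_lit 7597) (nat_lit 493) (nat_lit 7629))))))))) (.a s37656 (.a (.p (nat_lit 525) (.a (.d (nat_lit 561) (nat_lit 527) (nat_lit 525) (nat_lit 559) (nat_lit 3597)) (.a (.f (nat_lit 622) (nat_lit 493) (nat_lit 7661) (.f (nat_lit 559) (nat_lit 561) (nat_lit 3597) (.d (nat_lit 557) (nat_lit 524) (nat_lit 3596) (nat_lit 654) (nat_lit 7693)))) (.a (.f (nat_lit 527) (nat_lit 561) (nat_lit 525) (.d (nat_lit 493) (nat_lit 492) (nat_lit 3564) (nat_lit 622) (nat_lit 7661))) (.f (nat_lit 622) (nat_lit 493) (nat_lit 7661) (.f (nat_lit 527) (nat_lit 495) (nat_lit 6638) (.d (nat_lit 557) (nat_lit 556) (nat_lit 1548) (nat_lit 654) (nat_lit 7693)))))))) (.a (.p (nat_lit 494) (.a (.f (nat_lit 589) (nat_lit 621) (nat_lit 5613) (.f (nat_lit 559) (nat_lit 561) (nat_lit 1581) (.d (nat_lit 557) (nat_lit 462) (nat_lit 5581) (nat_lit 588) (nat_lit 1580)))) (.a (.f (nat_lit 589) (nat_lit 621) (nat_lit 5613) (.f (nat_lit 462) (nat_lit 557) (nat_lit 5581) (.d (nat_lit 463) (nat_lit 431) (nat_lit 6574) (nat_lit 495) (nat_lit 6606)))) (.f (nat_lit 495) (nat_lit 463) (nat_lit 6606) (.f (nat_lit 527) (nat_lit 622) (nat_lit 6638) (.f (nat_lit 525) (nat_lit 561) (nat_lit 525) (.d (nat_lit 524) (nat_lit 523) (nat_lit 2539) (nat_lit 559) (nat_lit 524)))))))) s37668))))))))) (.a (.p (nat_lit 525) (.a (.f (nat_lit 559) (nat_lit 561) (nat_lit 3597) (.d (nat_lit 524) (nat_lit 523) (nat_lit 523) (nat_lit 557) (nat_lit 3596))) (.a (.f (nat_lit 527) (nat_lit 561) (nat_lit 525) (.f (nat_lit 557) (nat_lit 556) (nat_lit 1548) (.f (nat_lit 493) (nat_lit 492) (nat_lit 3564) (.f (nat_lit 461) (nat_lit 429) (nat_lit 4525) (.f (nat_lit 462) (nat_lit 430) (nat_lit 6573) (.f (nat_lit 494) (nat_lit 589) (nat_lit 5581) (.f (nat_lit 496) (nat_lit 497) (nat_lit 2541) (.d (nat_lit 495) (nat_lit 460) (nat_lit 3532) (nat_lit 524) (nat_lit 2540))))))))) (.a (.d (nat_lit 561) (nat_lit 527) (nat_lit 525) (nat_lit 559) (nat_lit 3597)) (.p (nat_lit 557) (.a (.f (nat_lit 527) (nat_lit 556) (nat_lit 1548) (.f (nat_lit 524) (nat_lit 559) (nat_lit 524) (.d (nat_lit 492) (nat_lit 491) (nat_lit 3563) (nat_lit 493) (nat_lit 3564)))) (.a (.f (nat_lit 559) (nat_lit 524) (nat_lit 3596) (.f (nat_lit 589) (nat_lit 588) (nat_lit 1580) (.d (nat_lit 494) (nat_lit 462) (nat_lit 5581) (nat_lit 621) (nat_lit 6637)))) (.a (.f (nat_lit 527) (nat_lit 556) (nat_lit 1548) (.f (nat_lit 493) (nat_lit 492) (nat_lit 3564) (.f (nat_lit 461) (nat_lit 429) (nat_lit 4525) (.f (nat_lit 462) (nat_lit 430) (nat_lit 6573) (.f (nat_lit 494) (nat_lit 589) (nat_lit 5581) (.f (nat_lit 496) (nat_lit 497) (nat_lit 2541) (.d (nat_lit 495) (nat_lit 460) (nat_lit 3532) (nat_lit 524) (nat_lit 2540)))))))) (.f (nat_lit 527) (nat_lit 556) (nat_lit 1548) (.f (nat_lit 493) (nat_lit 492) (nat_lit 3564) (.f (nat_lit 461) (nat_lit 429) (nat_lit 4525) (.f (nat_lit 462) (nat_lit 430) (nat_lit 6573) (.f (nat_lit 494) (nat_lit 589) (nat_lit 5581) (.f (nat_lit 496) (nat_lit 497) (nat_lit 2541) (.d (nat_lit 460) (nat_lit 428) (nat_lit 7596) (nat_lit 495) (nat_lit 3532)))))))))))))))) (.a s37711 (.a (.p (nat_lit 590) (.a (.p (nat_lit 494) (.a (.f (nat_lit 495) (nat_lit 463) (nat_lit 6606) (.f (nat_lit 493) (nat_lit 461) (nat_lit 7629) (.d (nat_lit 527) (nat_lit 492) (nat_lit 492) (nat_lit 622) (nat_lit 6638)))) (.a (.f (nat_lit 589) (nat_lit 621) (nat_lit 5613) (.f (nat_lit 462) (nat_lit 557) (nat_lit 5581) (.d (nat_lit 463) (nat_lit 431) (nat_lit 6574) (nat_lit 495) (nat_lit 6606)))) (.f (nat_lit 493) (nat_lit 461) (nat_lit 7629) (.f (nat_lit 525) (nat_lit 622) (nat_lit 7661) (.d (nat_lit 527) (nat_lit 492) (nat_lit 3564) (nat_lit 561) (nat_lit 525))))))) (.a (.p (nat_lit 494) (.a (.f (nat_lit 589) (nat_lit 621) (nat_lit 5613) (.f (nat_lit 462) (nat_lit 557) (nat_lit 5581) (.d (nat_lit 463) (nat_lit 431) (nat_lit 6574) (nat_lit 495) (nat_lit 6606)))) (.a (.f (nat_lit 589) (nat_lit 621) (nat_lit 5613) (.f (nat_lit 557) (nat_lit 462) (nat_lit 5581) (.f (nat_lit 493) (nat_lit 461) (nat_lit 7629) (.f (nat_lit 525) (nat_lit 622) (nat_lit 4589) (.f (nat_lit 588) (nat_lit 620) (nat_lit 5612) (.f (nat_lit 591) (nat_lit 623) (nat_lit 4590) (.f (nat_lit 555) (nat_lit 556) (nat_lit 3627) (.d (nat_lit 587) (nat_lit 554) (nat_lit 3626) (nat_lit 586) (nat_lit 2602))))))))) (.f (nat_lit 493) (nat_lit 461) (nat_lit 7629) (.f (nat_lit 525) (nat_lit 622) (nat_lit 7661) (.f (nat_lit 495) (nat_lit 463) (nat_lit 6606) (.d (nat_lit 524) (nat_lit 496) (nat_lit 1516) (nat_lit 523) (nat_lit 2539)))))))) (.a (.p (nat_lit 494) (.a (.f (nat_lit 495) (nat_lit 463) (nat_lit 6606) (.f (nat_lit 493) (nat_lit 461) (nat_lit 7629) (.d (nat_lit 527) (nat_lit 492) (nat_lit 492) (nat_lit 622) (nat_lit 6638)))) (.a (.f (nat_lit 589) (nat_lit 621) (nat_lit 5613) (.f (nat_lit 462) (nat_lit 557) (nat_lit 5581) (.d (nat_lit 463) (nat_lit 431) (nat_lit 6574) (nat_lit 495) (nat_lit 6606)))) (.f (nat_lit 589) (nat_lit 621) (nat_lit 5613) (.f (nat_lit 462) (nat_lit 557) (nat_lit 5581) (.d (nat_lit 461) (nat_lit 429) (nat_lit 7597) (nat_lit 493) (nat_lit 7629))))))) (.a s37719 (.a (.p (nat_lit 494) (.a (.f (nat_lit 495) (nat_lit 463) (nat_lit 6606) (.f (nat_lit 493) (nat_lit 461) (nat_lit 7629) (.d (nat_lit 527) (nat_lit 492) (nat_lit 492) (nat_lit 622) (nat_lit 6638)))) (.a (.f (nat_lit 493) (nat_lit 461) (nat_lit 7629) (.f (nat_lit 525) (nat_lit 622) (nat_lit 7661) (.f (nat_lit 495) (nat_lit 463) (nat_lit 6606) (.d (nat_lit 524) (nat_lit 496) (nat_lit 1516) (nat_lit 523) (nat_lit 2539))))) (.a (.f (nat_lit 493) (nat_lit 461) (nat_lit 7629) (.f (nat_lit 525) (nat_lit 622) (nat_lit 7661) (.d (nat_lit 527) (nat_lit 492) (nat_lit 3564) (nat_lit 561) (nat_lit 525)))) (.a (.f (nat_lit 495) (nat_lit 463) (nat_lit 6606) (.f (nat_lit 622) (nat_lit 527) (nat_lit 6638) (.d (nat_lit 621) (nat_lit 589) (nat_lit 5613) (nat_lit 653) (nat_lit 5645)))) (.f (nat_lit 463) (nat_lit 495) (nat_lit 6606) (.f (nat_lit 462) (nat_lit 431) (nat_lit 6574) (.d (nat_lit 461) (nat_lit 429) (nat_lit 7597) (nat_lit 493) (nat_lit 7629))))))))) (.a (.p (nat_lit 494) (.a (.f (nat_lit 495) (nat_lit 463) (nat_lit 6606) (.f (nat_lit 493) (nat_lit 461) (nat_lit 7629) (.d (nat_lit 527) (nat_lit 492) (nat_lit 492) (nat_lit 622) (nat_lit 6638)))) (.a (.f (nat_lit 493) (nat_lit 461) (nat_lit 7629) (.f (nat_lit 525) (nat_lit 622) (nat_lit 7661) (.f (nat_lit 495) (nat_lit 463) (nat_lit 6606) (.d (nat_lit 524) (nat_lit 496) (nat_lit 1516) (nat_lit 523) (nat_lit 2539))))) (.a (.f (nat_lit 493) (nat_lit 461) (nat_lit 7629) (.f (nat_lit 525) (nat_lit 622) (nat_lit 7661) (.d (nat_lit 527) (nat_lit 492) (nat_lit 3564) (nat_lit 561) (nat_lit 525)))) (.a (.f (nat_lit 495) (nat_lit 463) (nat_lit 6606) (.f (nat_lit 527) (nat_lit 622) (nat_lit 6638) (.f (nat_lit 525) (nat_lit 561) (nat_lit 525) (.d (nat_lit 524) (nat_lit 496) (nat_lit 2540) (nat_lit 523) (nat_lit 2539))))) (.f (nat_lit 463) (nat_lit 495) (nat_lit 6606) (.f (nat_lit 462) (nat_lit 431) (nat_lit 6574) (.d (nat_lit 461) (nat_lit 429) (nat_lit 7597) (nat_lit 493) (nat_lit 7629))))))))) (.a s37737 (.a (.p (nat_lit 494) (.a (.f (nat_lit 589) (nat_lit 621) (nat_lit 5613) (.f (nat_lit 462) (nat_lit 557) (nat_lit 5581) (.d (nat_lit 463) (nat_lit 431) (nat_lit 6574) (nat_lit 495) (nat_lit 6606)))) (.a (.f (nat_lit 589) (nat_lit 621) (nat_lit 5613) (.f (nat_lit 557) (nat_lit 462) (nat_lit 5581) (.f (nat_lit 623) (nat_lit 591) (nat_lit 4590) (.f (nat_lit 622) (nat_lit 655) (nat_lit 4622) (.d (nat_lit 654) (nat_lit 525) (nat_lit 7693) (nat_lit 686) (nat_lit 7725)))))) (.a (.f (nat_lit 495) (nat_lit 463) (nat_lit 6606) (.f (nat_lit 622) (nat_lit 527) (nat_lit 6638) (.d (nat_lit 621) (nat_lit 589) (nat_lit 5613) (nat_lit 653) (nat_lit 5645)))) (.f (nat_lit 495) (nat_lit 463) (nat_lit 6606) (.f (nat_lit 527) (nat_lit 622) (nat_lit 6638) (.f (nat_lit 525) (nat_lit 561) (nat_lit 525) (.d (nat_lit 524) (nat_lit 496) (nat_lit 2540) (nat_lit 523) (nat_lit 2539))))))))) (.p (nat_lit 494) (.a (.f (nat_lit 589) (nat_lit 621) (nat_lit 5613) (.f (nat_lit 462) (nat_lit 557) (nat_lit 5581) (.d (nat_lit 463) (nat_lit 431) (nat_lit 6574) (nat_lit 495) (nat_lit 6606)))) (.a (.f (nat_lit 589) (nat_lit 621) (nat_lit 5613) (.f (nat_lit 462) (nat_lit 557) (nat_lit 5581) (.d (nat_lit 461) (nat_lit 429) (nat_lit 7597) (nat_lit 493) (nat_lit 7629)))) (.a (.f (nat_lit 463) (nat_lit 495) (nat_lit 6606) (.f (nat_lit 462) (nat_lit 431) (nat_lit 6574) (.d (nat_lit 461) (nat_lit 429) (nat_lit 7597) (nat_lit 493) (nat_lit 7629)))) (.f (nat_lit 493) (nat_lit 461) (nat_lit 7629) (.f (nat_lit 495) (nat_lit 463) (nat_lit 6606) (.f (nat_lit 492) (nat_lit 527) (nat_lit 492) (.f (nat_lit 524) (nat_lit 523) (nat_lit 1515) (.f (nat_lit 525) (nat_lit 496) (nat_lit 1516) (.f (nat_lit 460) (nat_lit 459) (nat_lit 3531) (.d (nat_lit 428) (nat_lit 396) (nat_lit 4492) (nat_lit 557) (nat_lit 4524))))))))))))))))))))) (.a (.p (nat_lit 494) (.a (.p (nat_lit 590) (.a (.f (nat_lit 495) (nat_lit 463) (nat_lit 6606) (.f (nat_lit 493) (nat_lit 461) (nat_lit 7629) (.d (nat_lit 527) (nat_lit 492) (nat_lit 492) (nat_lit 622) (nat_lit 6638)))) (.f (nat_lit 591) (nat_lit 623) (nat_lit 4590) (.f (nat_lit 559) (nat_lit 462) (nat_lit 4558) (.d (nat_lit 561) (nat_lit 525) (nat_lit 3597) (nat_lit 589) (nat_lit 1581)))))) (.a (.p (nat_lit 590) (.a (.f (nat_lit 591) (nat_lit 623) (nat_lit 4590) (.f (nat_lit 559) (nat_lit 462) (nat_lit 4558) (.d (nat_lit 561) (nat_lit 525) (nat_lit 3597) (nat_lit 589) (nat_lit 1581)))) (.a (.f (nat_lit 493) (nat_lit 461) (nat_lit 7629) (.f (nat_lit 525) (nat_lit 622) (nat_lit 7661) (.f (nat_lit 495) (nat_lit 463) (nat_lit 6606) (.d (nat_lit 524) (nat_lit 496) (nat_lit 1516) (nat_lit 523) (nat_lit 2539))))) (.f (nat_lit 591) (nat_lit 623) (nat_lit 4590) (.f (nat_lit 559) (nat_lit 462) (nat_lit 4558) (.d (nat_lit 589) (nat_lit 588) (nat_lit 2604) (nat_lit 621) (nat_lit 5613))))))) (.a s37748 (.a (.p (nat_lit 462) (.a (.f (nat_lit 559) (nat_lit 591) (nat_lit 4558) (.f (nat_lit 527) (nat_lit 430) (nat_lit 4526) (.d (nat_lit 561) (nat_lit 525) (nat_lit 3597) (nat_lit 562) (nat_lit 3598)))) (.a (.f (nat_lit 431) (nat_lit 463) (nat_lit 6574) (.f (nat_lit 430) (nat_lit 399) (nat_lit 6542) (.d (nat_lit 429) (nat_lit 397) (nat_lit 7565) (nat_lit 461) (nat_lit 7597)))) (.f (nat_lit 559) (nat_lit 591) (nat_lit 4558) (.f (nat_lit 525) (nat_lit 561) (nat_lit 3597) (.d (nat_lit 524) (nat_lit 523) (nat_lit 523) (nat_lit 527) (nat_lit 524))))))) (.a (.p (nat_lit 590) (.a (.f (nat_lit 495) (nat_lit 463) (nat_lit 6606) (.f (nat_lit 493) (nat_lit 461) (nat_lit 7629) (.d (nat_lit 527) (nat_lit 492) (nat_lit 492) (nat_lit 622) (nat_lit 6638)))) (.f (nat_lit 591) (nat_lit 623) (nat_lit 4590) (.f (nat_lit 559) (nat_lit 462) (nat_lit 4558) (.d (nat_lit 589) (nat_lit 588) (nat_lit 2604) (nat_lit 621) (nat_lit 5613)))))) (.a s37753 (.a (.p (nat_lit 590) (.a (.f (nat_lit 591) (nat_lit 623) (nat_lit 4590) (.f (nat_lit 559) (nat_lit 462) (nat_lit 4558) (.d (nat_lit 561) (nat_lit 525) (nat_lit 3597) (nat_lit 589) (nat_lit 1581)))) (.a (.f (nat_lit 493) (nat_lit 461) (nat_lit 7629) (.f (nat_lit 525) (nat_lit 622) (nat_lit 7661) (.d (nat_lit 527) (nat_lit 492) (nat_lit 3564) (nat_lit 561) (nat_lit 525)))) (.f (nat_lit 591) (nat_lit 623) (nat_lit 4590) (.f (nat_lit 559) (nat_lit 462) (nat_lit 4558) (.d (nat_lit 589) (nat_lit 588) (nat_lit 2604) (nat_lit 621) (nat_lit 5613))))))) (.a (.p (nat_lit 590) (.a (.f (nat_lit 495) (nat_lit 463) (nat_lit 6606) (.f (nat_lit 493) (nat_lit 461) (nat_lit 7629) (.d (nat_lit 527) (nat_lit 492) (nat_lit 492) (nat_lit 622) (nat_lit 6638)))) (.a (.f (nat_lit 493) (nat_lit 461) (nat_lit 7629) (.f (nat_lit 525) (nat_lit 622) (nat_lit 7661) (.f (nat_lit 495) (nat_lit 463) (nat_lit 6606) (.d (nat_lit 524) (nat_lit 496) (nat_lit 1516) (nat_lit 523) (nat_lit 2539))))) (.a (.f (nat_lit 493) (nat_lit 461) (nat_lit 7629) (.f (nat_lit 525) (nat_lit 622) (nat_lit 7661) (.d (nat_lit 527) (nat_lit 492) (nat_lit 3564) (nat_lit 561) (nat_lit 525)))) (.a (.f (nat_lit 495) (nat_lit 463) (nat_lit 6606) (.f (nat_lit 527) (nat_lit 622) (nat_lit 6638) (.f (nat_lit 525) (nat_lit 561) (nat_lit 525) (.d (nat_lit 524) (nat_lit 523) (nat_lit 2539) (nat_lit 559) (nat_lit 524))))) (.f (nat_lit 591) (nat_lit 623) (nat_lit 4590) (.f (nat_lit 589) (nat_lit 621) (nat_lit 5613) (.d (nat_lit 559) (nat_lit 561) (nat_lit 1581) (nat_lit 588) (nat_lit 2604))))))))) s37759))))))))) (.a (.p (nat_lit 494) (.a (.p (nat_lit 590) (.a (.f (nat_lit 495) (nat_lit 463) (nat_lit 6606) (.f (nat_lit 493) (nat_lit 461) (nat_lit 7629) (.d (nat_lit 527) (nat_lit 492) (nat_lit 492) (nat_lit 622) (nat_lit 6638)))) (.a (.f (nat_lit 589) (nat_lit 621) (nat_lit 5613) (.f (nat_lit 462) (nat_lit 557) (nat_lit 5581) (.d (nat_lit 463) (nat_lit 431) (nat_lit 6574) (nat_lit 495) (nat_lit 6606)))) (.f (nat_lit 591) (nat_lit 623) (nat_lit 4590) (.f (nat_lit 559) (nat_lit 462) (nat_lit 4558) (.d (nat_lit 589) (nat_lit 588) (nat_lit 2604) (nat_lit 621) (nat_lit 5613))))))) (.a s37633 (.a (.p (nat_lit 590) (.a (.f (nat_lit 495) (nat_lit 463) (nat_lit 6606) (.f (nat_lit 493) (nat_lit 461) (nat_lit 7629) (.d (nat_lit 527) (nat_lit 492) (nat_lit 492) (nat_lit 622) (nat_lit 6638)))) (.a (.f (nat_lit 589) (nat_lit 621) (nat_lit 5613) (.f (nat_lit 462) (nat_lit 557) (nat_lit 5581) (.d (nat_lit 463) (nat_lit 431) (nat_lit 6574) (nat_lit 495) (nat_lit 6606)))) (.f (nat_lit 589) (nat_lit 621) (nat_lit 5613) (.f (nat_lit 462) (nat_lit 557) (nat_lit 5581) (.d (nat_lit 461) (nat_lit 429) (nat_lit 7597) (nat_lit 493) (nat_lit 7629))))))) (.a s37700 (.a (.p (nat_lit 590) (.a (.f (nat_lit 591) (nat_lit 623) (nat_lit 4590) (.f (nat_lit 559) (nat_lit 462) (nat_lit 4558) (.d (nat_lit 589) (nat_lit 588) (nat_lit 2604) (nat_lit 621) (nat_lit 5613)))) (.a (.f (nat_lit 493) (nat_lit 461) (nat_lit 7629) (.f (nat_lit 525) (nat_lit 622) (nat_lit 7661) (.f (nat_lit 527) (nat_lit 492) (nat_lit 3564) (.f (nat_lit 557) (nat_lit 556) (nat_lit 1548) (.d (nat_lit 589) (nat_lit 462) (nat_lit 6605) (nat_lit 621) (nat_lit 5613)))))) (.a (.f (nat_lit 591) (nat_lit 623) (nat_lit 4590) (.f (nat_lit 462) (nat_lit 559) (nat_lit 4558) (.d (nat_lit 461) (nat_lit 429) (nat_lit 7597) (nat_lit 493) (nat_lit 7629)))) (.f (nat_lit 493) (nat_lit 461) (nat_lit 7629) (.f (nat_lit 525) (nat_lit 622) (nat_lit 7661) (.f (nat_lit 527) (nat_lit 492) (nat_lit 3564) (.f (nat_lit 524) (nat_lit 559) (nat_lit 524) (.d (nat_lit 496) (nat_lit 495) (nat_lit 2540) (nat_lit 497) (nat_lit 2541)))))))))) (.a (.p (nat_lit 590) (.a (.f (nat_lit 495) (nat_lit 463) (nat_lit 6606) (.f (nat_lit 493) (nat_lit 461) (nat_lit 7629) (.d (nat_lit 527) (nat_lit 492) (nat_lit 492) (nat_lit 622) (nat_lit 6638)))) (.f (nat_lit 591) (nat_lit 623) (nat_lit 4590) (.f (nat_lit 559) (nat_lit 462) (nat_lit 4558) (.d (nat_lit 589) (nat_lit 588) (nat_lit 2604) (nat_lit 621) (nat_lit 5613)))))) (.a (.p (nat_lit 590) (.a (.f (nat_lit 495) (nat_lit 463) (nat_lit 6606) (.f (nat_lit 493) (nat_lit 461) (nat_lit 7629) (.d (nat_lit 527) (nat_lit 492) (nat_lit 492) (nat_lit 622) (nat_lit 6638)))) (.a (.f (nat_lit 591) (nat_lit 623) (nat_lit 4590) (.f (nat_lit 462) (nat_lit 559) (nat_lit 4558) (.d (nat_lit 463) (nat_lit 431) (nat_lit 6574) (nat_lit 495) (nat_lit 6606)))) (.f (nat_lit 591) (nat_lit 623) (nat_lit 4590) (.f (nat_lit 462) (nat_lit 559) (nat_lit 4558) (.d (nat_lit 461) (nat_lit 429) (nat_lit 7597) (nat_lit 493) (nat_lit 7629))))))) (.a (.p (nat_lit 590) (.a (.f (nat_lit 495) (nat_lit 463) (nat_lit 6606) (.f (nat_lit 493) (nat_lit 461) (nat_lit 7629) (.d (nat_lit 527) (nat_lit 492) (nat_lit 492) (nat_lit 622) (nat_lit 6638)))) (.a (.f (nat_lit 493) (nat_lit 461) (nat_lit 7629) (.f (nat_lit 525) (nat_lit 622) (nat_lit 7661) (.f (nat_lit 495) (nat_lit 463) (nat_lit 6606) (.d (nat_lit 524) (nat_lit 496) (nat_lit 1516) (nat_lit 523) (nat_lit 2539))))) (.a (.f (nat_lit 493) (nat_lit 461) (nat_lit 7629) (.f (nat_lit 525) (nat_lit 622) (nat_lit 7661) (.f (nat_lit 527) (nat_lit 492) (nat_lit 3564) (.f (nat_lit 524) (nat_lit 559) (nat_lit 524) (.d (nat_lit 496) (nat_lit 495) (nat_lit 2540) (nat_lit 497) (nat_lit 2541)))))) (.a (.f (nat_lit 493) (nat_lit 461) (nat_lit 7629) (.f (nat_lit 525) (nat_lit 622) (nat_lit 7661) (.f (nat_lit 527) (nat_lit 492) (nat_lit 3564) (.f (nat_lit 559) (nat_lit 524) (nat_lit 524) (.f (nat_lit 591) (nat_lit 623) (nat_lit 4590) (.d (nat_lit 589) (nat_lit 588) (nat_lit 2604) (nat_lit 621) (nat_lit 5613))))))) (.a (.f (nat_lit 495) (nat_lit 463) (nat_lit 6606) (.f (nat_lit 622) (nat_lit 527) (nat_lit 6638) (.d (nat_lit 621) (nat_lit 589) (nat_lit 5613) (nat_lit 653) (nat_lit 5645)))) (.f (nat_lit 493) (nat_lit 461) (nat_lit 7629) (.f (nat_lit 495) (nat_lit 463) (nat_lit 6606) (.f (nat_lit 492) (nat_lit 527) (nat_lit 492) (.f (nat_lit 524) (nat_lit 523) (nat_lit 1515) (.f (nat_lit 525) (nat_lit 496) (nat_lit 1516) (.f (nat_lit 460) (nat_lit 459) (nat_lit 3531) (.d (nat_lit 428) (nat_lit 396) (nat_lit 4492) (nat_lit 557) (nat_lit 4524)))))))))))))) s37774))))))))) (.a (.p (nat_lit 494) (.a (.p (nat_lit 590) (.a (.f (nat_lit 495) (nat_lit 463) (nat_lit 6606) (.f (nat_lit 493) (nat_lit 461) (nat_lit 7629) (.d (nat_lit 527) (nat_lit 492) (nat_lit 492) (nat_lit 622) (nat_lit 6638)))) (.f (nat_lit 591) (nat_lit 623) (nat_lit 4590) (.f (nat_lit 559) (nat_lit 462) (nat_lit 4558) (.d (nat_lit 561) (nat_lit 525) (nat_lit 3597) (nat_lit 562) (nat_lit 1582)))))) (.a (.p (nat_lit 590) (.a (.f (nat_lit 591) (nat_lit 623) (nat_lit 4590) (.f (nat_lit 559) (nat_lit 462) (nat_lit 4558) (.d (nat_lit 561) (nat_lit 525) (nat_lit 3597) (nat_lit 562) (nat_lit 1582)))) (.a (.f (nat_lit 493) (nat_lit 461) (nat_lit 7629) (.f (nat_lit 525) (nat_lit 622) (nat_lit 7661) (.f (nat_lit 495) (nat_lit 463) (nat_lit 6606) (.d (nat_lit 524) (nat_lit 496) (nat_lit 1516) (nat_lit 523) (nat_lit 2539))))) (.f (nat_lit 591) (nat_lit 623) (nat_lit 4590) (.f (nat_lit 462) (nat_lit 559) (nat_lit 4558) (.d (nat_lit 463) (nat_lit 431) (nat_lit 6574) (nat_lit 495) (nat_lit 6606))))))) (.a s37748 (.a (.p (nat_lit 462) (.a (.f (nat_lit 559) (nat_lit 591) (nat_lit 4558) (.f (nat_lit 527) (nat_lit 430) (nat_lit 4526) (.d (nat_lit 561) (nat_lit 525) (nat_lit 3597) (nat_lit 562) (nat_lit 3598)))) (.a (.f (nat_lit 431) (nat_lit 463) (nat_lit 6574) (.f (nat_lit 430) (nat_lit 399) (nat_lit 6542) (.d (nat_lit 429) (nat_lit 397) (nat_lit 7565) (nat_lit 461) (nat_lit 7597)))) (.f (nat_lit 559) (nat_lit 591) (nat_lit 4558) (.f (nat_lit 525) (nat_lit 561) (nat_lit 3597) (.d (nat_lit 524) (nat_lit 523) (nat_lit 523) (nat_lit 527) (nat_lit 524))))))) (.a (.p (nat_lit 590) (.a (.f (nat_lit 495) (nat_lit 463) (nat_lit 6606) (.f (nat_lit 493) (nat_lit 461) (nat_lit 7629) (.d (nat_lit 527) (nat_lit 492) (nat_lit 492) (nat_lit 622) (nat_lit 6638)))) (.a (.f (nat_lit 591) (nat_lit 623) (nat_lit 4590) (.f (nat_lit 462) (nat_lit 559) (nat_lit 4558) (.d (nat_lit 463) (nat_lit 431) (nat_lit 6574) (nat_lit 495) (nat_lit 6606)))) (.f (nat_lit 591) (nat_lit 623) (nat_lit 4590) (.f (nat_lit 462) (nat_lit 559) (nat_lit 4558) (.d (nat_lit 461) (nat_lit 429) (nat_lit 7597) (nat_lit 493) (nat_lit 7629))))))) (.a s37776 (.a (.p (nat_lit 590) (.a (.f (nat_lit 591) (nat_lit 623) (nat_lit 4590) (.f (nat_lit 559) (nat_lit 462) (nat_lit 4558) (.d (nat_lit 561) (nat_lit 525) (nat_lit 3597) (nat_lit 562) (nat_lit 1582)))) (.a (.f (nat_lit 493) (nat_lit 461) (nat_lit 7629) (.f (nat_lit 525) (nat_lit 622) (nat_lit 7661) (.d (nat_lit 527) (nat_lit 492) (nat_lit 3564) (nat_lit 561) (nat_lit 525)))) (.f (nat_lit 591) (nat_lit 623) (nat_lit 4590) (.f (nat_lit 462) (nat_lit 559) (nat_lit 4558) (.d (nat_lit 461) (nat_lit 429) (nat_lit 7597) (nat_lit 493) (nat_lit 7629))))))) (.a (.p (nat_lit 590) (.a (.f (nat_lit 495) (nat_lit 463) (nat_lit 6606) (.f (nat_lit 493) (nat_lit 461) (nat_lit 7629) (.d (nat_lit 527) (nat_lit 492) (nat_lit 492) (nat_lit 622) (nat_lit 6638)))) (.a (.f (nat_lit 493) (nat_lit 461) (nat_lit 7629) (.f (nat_lit 525) (nat_lit 622) (nat_lit 7661) (.f (nat_lit 495) (nat_lit 463) (nat_lit 6606) (.d (nat_lit 524) (nat_lit 496) (nat_lit 1516) (nat_lit 523) (nat_lit 2539))))) (.a (.f (nat_lit 493) (nat_lit 461) (nat_lit 7629) (.f (nat_lit 525) (nat_lit 622) (nat_lit 7661) (.d (nat_lit 527) (nat_lit 492) (nat_lit 3564) (nat_lit 561) (nat_lit 525)))) (.a (.f (nat_lit 495) (nat_lit 463) (nat_lit 6606) (.f (nat_lit 527) (nat_lit 622) (nat_lit 6638) (.f (nat_lit 525) (nat_lit 561) (nat_lit 525) (.d (nat_lit 524) (nat_lit 523) (nat_lit 2539) (nat_lit 559) (nat_lit 524))))) (.f (nat_lit 493) (nat_lit 461) (nat_lit 7629) (.f (nat_lit 495) (nat_lit 463) (nat_lit 6606) (.f (nat_lit 492) (nat_lit 527) (nat_lit 492) (.f (nat_lit 524) (nat_lit 523) (nat_lit 1515) (.f (nat_lit 525) (nat_lit 496) (nat_lit 1516) (.f (nat_lit 460) (nat_lit 459) (nat_lit 3531) (.d (nat_lit 428) (nat_lit 396) (nat_lit 4492) (nat_lit 557) (nat_lit 4524))))))))))))) s37779))))))))) (.a s37784 (.a (.p (nat_lit 525) (.a (.f (nat_lit 559) (nat_lit 561) (nat_lit 3597) (.d (nat_lit 524) (nat_lit 523) (nat_lit 523) (nat_lit 557) (nat_lit 3596))) (.a (.f (nat_lit 527) (nat_lit 561) (nat_lit 525) (.f (nat_lit 557) (nat_lit 556) (nat_lit 1548) (.f (nat_lit 493) (nat_lit 492) (nat_lit 3564) (.d (nat_lit 461) (nat_lit 429) (nat_lit 4525) (nat_lit 590) (nat_lit 4557))))) (.a (.d (nat_lit 561) (nat_lit 527) (nat_lit 525) (nat_lit 559) (nat_lit 3597)) (.p (nat_lit 557) (.a (.f (nat_lit 527) (nat_lit 556) (nat_lit 1548) (.f (nat_lit 524) (nat_lit 559) (nat_lit 524) (.d (nat_lit 492) (nat_lit 491) (nat_lit 3563) (nat_lit 493) (nat_lit 3564)))) (.a (.f (nat_lit 559) (nat_lit 524) (nat_lit 3596) (.f (nat_lit 589) (nat_lit 588) (nat_lit 1580) (.f (nat_lit 621) (nat_lit 653) (nat_lit 6669) (.f (nat_lit 622) (nat_lit 654) (nat_lit 4621) (.f (nat_lit 493) (nat_lit 590) (nat_lit 4589) (.f (nat_lit 461) (nat_lit 429) (nat_lit 4525) (.d (nat_lit 460) (nat_lit 428) (nat_lit 7596) (nat_lit 492) (nat_lit 7628)))))))) (.a (.f (nat_lit 527) (nat_lit 556) (nat_lit 1548) (.f (nat_lit 493) (nat_lit 492) (nat_lit 3564) (.d (nat_lit 461) (nat_lit 429) (nat_lit 4525) (nat_lit 590) (nat_lit 4557)))) (.f (nat_lit 527) (nat_lit 556) (nat_lit 1548) (.f (nat_lit 524) (nat_lit 559) (nat_lit 524) (.d (nat_lit 496) (nat_lit 495) (nat_lit 2540) (nat_lit 497) (nat_lit 2541)))))))))))) (.a (.p (nat_lit 494) (.a s37580 (.a (.p (nat_lit 590) (.a (.f (nat_lit 589) (nat_lit 621) (nat_lit 5613) (.f (nat_lit 559) (nat_lit 561) (nat_lit 1581) (.d (nat_lit 557) (nat_lit 462) (nat_lit 5581) (nat_lit 588) (nat_lit 1580)))) (.a (.f (nat_lit 589) (nat_lit 621) (nat_lit 5613) (.f (nat_lit 462) (nat_lit 557) (nat_lit 5581) (.d (nat_lit 463) (nat_lit 431) (nat_lit 6574) (nat_lit 495) (nat_lit 6606)))) (.f (nat_lit 495) (nat_lit 463) (nat_lit 6606) (.f (nat_lit 527) (nat_lit 622) (nat_lit 6638) (.f (nat_lit 525) (nat_lit 561) (nat_lit 525) (.d (nat_lit 524) (nat_lit 523) (nat_lit 2539) (nat_lit 559) (nat_lit 524)))))))) (.a s37596 (.a s37624 (.a s37803 (.a (.p (nat_lit 462) (.a (.f (nat_lit 559) (nat_lit 591) (nat_lit 4558) (.f (nat_lit 527) (nat_lit 430) (nat_lit 4526) (.d (nat_lit 561) (nat_lit 525) (nat_lit 3597) (nat_lit 562) (nat_lit 3598)))) (.a (.f (nat_lit 431) (nat_lit 463) (nat_lit 6574) (.f (nat_lit 430) (nat_lit 399) (nat_lit 6542) (.d (nat_lit 429) (nat_lit 397) (nat_lit 7565) (nat_lit 461) (nat_lit 7597)))) (.f (nat_lit 559) (nat_lit 591) (nat_lit 4558) (.f (nat_lit 525) (nat_lit 561) (nat_lit 3597) (.d (nat_lit 524) (nat_lit 523) (nat_lit 523) (nat_lit 527) (nat_lit 524))))))) (.a s37700 (.p (nat_lit 590) (.a (.f (nat_lit 589) (nat_lit 621) (nat_lit 5613) (.f (nat_lit 559) (nat_lit 561) (nat_lit 1581) (.d (nat_lit 588) (nat_lit 557) (nat_lit 1580) (nat_lit 587) (nat_lit 2603)))) (.a (.f (nat_lit 495) (nat_lit 463) (nat_lit 6606) (.f (nat_lit 622) (nat_lit 527) (nat_lit 6638) (.d (nat_lit 621) (nat_lit 589) (nat_lit 5613) (nat_lit 653) (nat_lit 5645)))) (.f (nat_lit 495) (nat_lit 463) (nat_lit 6606) (.f (nat_lit 527) (nat_lit 622) (nat_lit 6638) (.f (nat_lit 525) (nat_lit 561) (nat_lit 525) (.d (nat_lit 524) (nat_lit 523) (nat_lit 2539) (nat_lit 559) (nat_lit 524)))))))))))))))) (.a (.p (nat_lit 494) (.a s37580 (.a (.p (nat_lit 590) (.a (.f (nat_lit 589) (nat_lit 621) (nat_lit 5613) (.f (nat_lit 559) (nat_lit 561) (nat_lit 1581) (.d (nat_lit 557) (nat_lit 462) (nat_lit 5581) (nat_lit 588) (nat_lit 1580)))) (.a (.f (nat_lit 589) (nat_lit 621) (nat_lit 5613) (.f (nat_lit 462) (nat_lit 557) (nat_lit 5581) (.d (nat_lit 463) (nat_lit 431) (nat_lit 6574) (nat_lit 495) (nat_lit 6606)))) (.f (nat_lit 495) (nat_lit 463) (nat_lit 6606) (.f (nat_lit 527) (nat_lit 622) (nat_lit 6638) (.f (nat_lit 525) (nat_lit 561) (nat_lit 525) (.d (nat_lit 524) (nat_lit 523) (nat_lit 2539) (nat_lit 559) (nat_lit 524)))))))) (.a s37596 (.a s37624 (.a s37803 (.a s37759 (.a s37774 (.a s37779 (.p (nat_lit 590) (.a (.f (nat_lit 589) (nat_lit 621) (nat_lit 5613) (.f (nat_lit 559) (nat_lit 561) (nat_lit 1581) (.d (nat_lit 588) (nat_lit 557) (nat_lit 1580) (nat_lit 587) (nat_lit 2603)))) (.a (.f (nat_lit 495) (nat_lit 463) (nat_lit 6606) (.f (nat_lit 622) (nat_lit 527) (nat_lit 6638) (.d (nat_lit 621) (nat_lit 589) (nat_lit 5613) (nat_lit 653) (nat_lit 5645)))) (.f (nat_lit 495) (nat_lit 463) (nat_lit 6606) (.f (nat_lit 527) (nat_lit 622) (nat_lit 6638) (.f (nat_lit 525) (nat_lit 561) (nat_lit 525) (.d (nat_lit 524) (nat_lit 523) (nat_lit 2539) (nat_lit 559) (nat_lit 524))))))))))))))))) s37812)))))))))))))) (.a s38560 (.a (.p (nat_lit 558) (.a s37608 (.a (.p (nat_lit 494) (.a s37580 (.a (.p (nat_lit 590) (.a (.f (nat_lit 589) (nat_lit 621) (nat_lit 5613) (.f (nat_lit 559) (nat_lit 561) (nat_lit 1581) (.d (nat_lit 557) (nat_lit 462) (nat_lit 5581) (nat_lit 588) (nat_lit 1580)))) (.a (.f (nat_lit 589) (nat_lit 621) (nat_lit 5613) (.f (nat_lit 462) (nat_lit 557) (nat_lit 5581) (.d (nat_lit 463) (nat_lit 431) (nat_lit 6574) (nat_lit 495) (nat_lit 6606)))) (.a (.f (nat_lit 463) (nat_lit 495) (nat_lit 6606) (.f (nat_lit 462) (nat_lit 431) (nat_lit 6574) (.d (nat_lit 461) (nat_lit 429) (nat_lit 7597) (nat_lit 493) (nat_lit 7629)))) (.f (nat_lit 589) (nat_lit 621) (nat_lit 5613) (.f (nat_lit 559) (nat_lit 561) (nat_lit 1581) (.d (nat_lit 588) (nat_lit 557) (nat_lit 1580) (nat_lit 587) (nat_lit 2603)))))))) (.a (.p (nat_lit 462) (.a (.f (nat_lit 559) (nat_lit 591) (nat_lit 4558) (.f (nat_lit 525) (nat_lit 561) (nat_lit 3597) (.d (nat_lit 557) (nat_lit 524) (nat_lit 3596) (nat_lit 589) (nat_lit 5581)))) (.a (.f (nat_lit 557) (nat_lit 589) (nat_lit 5581) (.f (nat_lit 525) (nat_lit 430) (nat_lit 5549) (.d (nat_lit 559) (nat_lit 524) (nat_lit 3596) (nat_lit 561) (nat_lit 3597)))) (.f (nat_lit 431) (nat_lit 463) (nat_lit 6574) (.f (nat_lit 430) (nat_lit 399) (nat_lit 6542) (.d (nat_lit 429) (nat_lit 397) (nat_lit 7565) (nat_lit 461) (nat_lit 7597))))))) (.a s38565 (.a s37634 (.a (.p (nat_lit 590) (.a (.f (nat_lit 591) (nat_lit 623) (nat_lit 4590) (.f (nat_lit 559) (nat_lit 462) (nat_lit 4558) (.d (nat_lit 561) (nat_lit 525) (nat_lit 3597) (nat_lit 589) (nat_lit 1581)))) (.a (.f (nat_lit 463) (nat_lit 495) (nat_lit 6606) (.f (nat_lit 462) (nat_lit 431) (nat_lit 6574) (.d (nat_lit 461) (nat_lit 429) (nat_lit 7597) (nat_lit 493) (nat_lit 7629)))) (.f (nat_lit 591) (nat_lit 623) (nat_lit 4590) (.f (nat_lit 589) (nat_lit 621) (nat_lit 5613) (.d (nat_lit 559) (nat_lit 561) (nat_lit 1581) (nat_lit 588) (nat_lit 2604))))))) (.a (.p (nat_lit 590) (.a (.f (nat_lit 591) (nat_lit 623) (nat_lit 4590) (.f (nat_lit 559) (nat_lit 462) (nat_lit 4558) (.d (nat_lit 561) (nat_lit 525) (nat_lit 3597) (nat_lit 562) (nat_lit 1582)))) (.a (.f (nat_lit 463) (nat_lit 495) (nat_lit 6606) (.f (nat_lit 462) (nat_lit 431) (nat_lit 6574) (.d (nat_lit 461) (nat_lit 429) (nat_lit 7597) (nat_lit 493) (nat_lit 7629)))) (.f (nat_lit 623) (nat_lit 591) (nat_lit 4590) (.f (nat_lit 622) (nat_lit 655) (nat_lit 4622) (.d (nat_lit 493) (nat_lit 461) (nat_lit 7629) (nat_lit 525) (nat_lit 7661))))))) (.p (nat_lit 590) (.a (.f (nat_lit 589) (nat_lit 621) (nat_lit 5613) (.f (nat_lit 559) (nat_lit 561) (nat_lit 1581) (.d (nat_lit 588) (nat_lit 557) (nat_lit 1580) (nat_lit 587) (nat_lit 2603)))) (.a (.f (nat_lit 621) (nat_lit 589) (nat_lit 5613) (.f (nat_lit 622) (nat_lit 653) (nat_lit 5645) (.d (nat_lit 623) (nat_lit 591) (nat_lit 4590) (nat_lit 655) (nat_lit 4622)))) (.f (nat_lit 623) (nat_lit 591) (nat_lit 4590) (.f (nat_lit 622) (nat_lit 655) (nat_lit 4622) (.d (nat_lit 493) (nat_lit 461) (nat_lit 7629) (nat_lit 525) (nat_lit 7661))))))))))))))) (.a (.p (nat_lit 590) (.a (.p (nat_lit 494) (.a (.f (nat_lit 589) (nat_lit 621) (nat_lit 5613) (.f (nat_lit 559) (nat_lit 561) (nat_lit 1581) (.d (nat_lit 557) (nat_lit 462) (nat_lit 5581) (nat_lit 588) (nat_lit 1580)))) (.f (nat_lit 495) (nat_lit 463) (nat_lit 6606) (.f (nat_lit 493) (nat_lit 461) (nat_lit 7629) (.d (nat_lit 527) (nat_lit 492) (nat_lit 492) (nat_lit 622) (nat_lit 6638)))))) (.a s37668 (.a (.p (nat_lit 494) (.a (.f (nat_lit 495) (nat_lit 463) (nat_lit 6606) (.f (nat_lit 493) (nat_lit 461) (nat_lit 7629) (.d (nat_lit 527) (nat_lit 492) (nat_lit 492) (nat_lit 622) (nat_lit 6638)))) (.a (.f (nat_lit 589) (nat_lit 621) (nat_lit 5613) (.f (nat_lit 462) (nat_lit 557) (nat_lit 5581) (.d (nat_lit 463) (nat_lit 431) (nat_lit 6574) (nat_lit 495) (nat_lit 6606)))) (.f (nat_lit 493) (nat_lit 461) (nat_lit 7629) (.f (nat_lit 525) (nat_lit 622) (nat_lit 7661) (.d (nat_lit 527) (nat_lit 492) (nat_lit 3564) (nat_lit 561) (nat_lit 525))))))) (.a s37647 (.a (.p (nat_lit 494) (.a (.f (nat_lit 495) (nat_lit 463) (nat_lit 6606) (.f (nat_lit 493) (nat_lit 461) (nat_lit 7629) (.d (nat_lit 527) (nat_lit 492) (nat_lit 492) (nat_lit 622) (nat_lit 6638)))) (.a (.f (nat_lit 463) (nat_lit 495) (nat_lit 6606) (.f (nat_lit 462) (nat_lit 431) (nat_lit 6574) (.d (nat_lit 461) (nat_lit 429) (nat_lit 7597) (nat_lit 493) (nat_lit 7629)))) (.a (.f (nat_lit 493) (nat_lit 461) (nat_lit 7629) (.f (nat_lit 525) (nat_lit 622) (nat_lit 7661) (.d (nat_lit 527) (nat_lit 492) (nat_lit 3564) (nat_lit 561) (nat_lit 525)))) (.f (nat_lit 495) (nat_lit 463) (nat_lit 6606) (.f (nat_lit 527) (nat_lit 622) (nat_lit 6638) (.f (nat_lit 525) (nat_lit 561) (nat_lit 525) (.d (nat_lit 524) (nat_lit 523) (nat_lit 2539) (nat_lit 559) (nat_lit 524))))))))) (.a s37656 (.a (.p (nat_lit 525) (.a (.d (nat_lit 561) (nat_lit 527) (nat_lit 525) (nat_lit 559) (nat_lit 3597)) (.a (.f (nat_lit 622) (nat_lit 493) (nat_lit 7661) (.f (nat_lit 559) (nat_lit 561) (nat_lit 3597) (.d (nat_lit 557) (nat_lit 524) (nat_lit 3596) (nat_lit 654) (nat_lit 7693)))) (.a (.f (nat_lit 527) (nat_lit 561) (nat_lit 525) (.d (nat_lit 493) (nat_lit 492) (nat_lit 3564) (nat_lit 622) (nat_lit 7661))) (.f (nat_lit 622) (nat_lit 493) (nat_lit 7661) (.f (nat_lit 527) (nat_lit 495) (nat_lit 6638) (.d (nat_lit 557) (nat_lit 556) (nat_lit 1548) (nat_lit 654) (nat_lit 7693)))))))) (.p (nat_lit 494) (.a (.f (nat_lit 589) (nat_lit 621) (nat_lit 5613) (.f (nat_lit 559) (nat_lit 561) (nat_lit 1581) (.d (nat_lit 557) (nat_lit 462) (nat_lit 5581) (nat_lit 588) (nat_lit 1580)))) (.a (.f (nat_lit 589) (nat_lit 621) (nat_lit 5613) (.f (nat_lit 462) (nat_lit 557) (nat_lit 5581) (.d (nat_lit 463) (nat_lit 431) (nat_lit 6574) (nat_lit 495) (nat_lit 6606)))) (.f (nat_lit 495) (nat_lit 463) (nat_lit 6606) (.f (nat_lit 527) (nat_lit 622) (nat_lit 6638) (.f (nat_lit 525) (nat_lit 561) (nat_lit 525) (.d (nat_lit 524) (nat_lit 523) (nat_lit 2539) (nat_lit 559) (nat_lit 524)))))))))))))))) (.a s38585 (.a s37711 (.a (.p (nat_lit 590) (.a (.p (nat_lit 494) (.a (.f (nat_lit 495) (nat_lit 463) (nat_lit 6606) (.f (nat_lit 493) (nat_lit 461) (nat_lit 7629) (.d (nat_lit 527) (nat_lit 492) (nat_lit 492) (nat_lit 622) (nat_lit 6638)))) (.a (.f (nat_lit 589) (nat_lit 621) (nat_lit 5613) (.f (nat_lit 462) (nat_lit 557) (nat_lit 5581) (.d (nat_lit 463) (nat_lit 431) (nat_lit 6574) (nat_lit 495) (nat_lit 6606)))) (.f (nat_lit 493) (nat_lit 461) (nat_lit 7629) (.f (nat_lit 525) (nat_lit 622) (nat_lit 7661) (.d (nat_lit 527) (nat_lit 492) (nat_lit 3564) (nat_lit 561) (nat_lit 525))))))) (.a (.p (nat_lit 494) (.a (.f (nat_lit 589) (nat_lit 621) (nat_lit 5613) (.f (nat_lit 462) (nat_lit 557) (nat_lit 5581) (.d (nat_lit 463) (nat_lit 431) (nat_lit 6574) (nat_lit 495) (nat_lit 6606)))) (.a (.f (nat_lit 589) (nat_lit 621) (nat_lit 5613) (.f (nat_lit 557) (nat_lit 462) (nat_lit 5581) (.f (nat_lit 493) (nat_lit 461) (nat_lit 7629) (.f (nat_lit 525) (nat_lit 622) (nat_lit 4589) (.f (nat_lit 588) (nat_lit 620) (nat_lit 5612) (.f (nat_lit 591) (nat_lit 623) (nat_lit 4590) (.f (nat_lit 555) (nat_lit 556) (nat_lit 3627) (.d (nat_lit 587) (nat_lit 554) (nat_lit 3626) (nat_lit 586) (nat_lit 2602))))))))) (.a (.f (nat_lit 463) (nat_lit 495) (nat_lit 6606) (.f (nat_lit 462) (nat_lit 431) (nat_lit 6574) (.d (nat_lit 461) (nat_lit 429) (nat_lit 7597) (nat_lit 493) (nat_lit 7629)))) (.f (nat_lit 621) (nat_lit 589) (nat_lit 5613) (.f (nat_lit 622) (nat_lit 653) (nat_lit 5645) (.d (nat_lit 623) (nat_lit 591) (nat_lit 4590) (nat_lit 655) (nat_lit 4622)))))))) (.a (.p (nat_lit 494) (.a (.f (nat_lit 495) (nat_lit 463) (nat_lit 6606) (.f (nat_lit 493) (nat_lit 461) (nat_lit 7629) (.d (nat_lit 527) (nat_lit 492) (nat_lit 492) (nat_lit 622) (nat_lit 6638)))) (.a (.f (nat_lit 589) (nat_lit 621) (nat_lit 5613) (.f (nat_lit 462) (nat_lit 557) (nat_lit 5581) (.d (nat_lit 463) (nat_lit 431) (nat_lit 6574) (nat_lit 495) (nat_lit 6606)))) (.f (nat_lit 589) (nat_lit 621) (nat_lit 5613) (.f (nat_lit 462) (nat_lit 557) (nat_lit 5581) (.d (nat_lit 461) (nat_lit 429) (nat_lit 7597) (nat_lit 493) (nat_lit 7629))))))) (.a s37719 (.a (.p (nat_lit 494) (.a (.f (nat_lit 495) (nat_lit 463) (nat_lit 6606) (.f (nat_lit 493) (nat_lit 461) (nat_lit 7629) (.d (nat_lit 527) (nat_lit 492) (nat_lit 492) (nat_lit 622) (nat_lit 6638)))) (.a (.f (nat_lit 463) (nat_lit 495) (nat_lit 6606) (.f (nat_lit 462) (nat_lit 431) (nat_lit 6574) (.d (nat_lit 461) (nat_lit 429) (nat_lit 7597) (nat_lit 493) (nat_lit 7629)))) (.a (.f (nat_lit 493) (nat_lit 461) (nat_lit 7629) (.f (nat_lit 525) (nat_lit 622) (nat_lit 7661) (.d (nat_lit 527) (nat_lit 492) (nat_lit 3564) (nat_lit 561) (nat_lit 525)))) (.f (nat_lit 495) (nat_lit 463) (nat_lit 6606) (.f (nat_lit 622) (nat_lit 527) (nat_lit 6638) (.d (nat_lit 621) (nat_lit 589) (nat_lit 5613) (nat_lit 653) (nat_lit 5645)))))))) (.a s37737 (.a (.p (nat_lit 494) (.a (.f (nat_lit 589) (nat_lit 621) (nat_lit 5613) (.f (nat_lit 462) (nat_lit 557) (nat_lit 5581) (.d (nat_lit 463) (nat_lit 431) (nat_lit 6574) (nat_lit 495) (nat_lit 6606)))) (.a (.f (nat_lit 589) (nat_lit 621) (nat_lit 5613) (.f (nat_lit 557) (nat_lit 462) (nat_lit 5581) (.f (nat_lit 623) (nat_lit 591) (nat_lit 4590) (.f (nat_lit 622) (nat_lit 655) (nat_lit 4622) (.d (nat_lit 654) (nat_lit 525) (nat_lit 7693) (nat_lit 686) (nat_lit 7725)))))) (.a (.f (nat_lit 495) (nat_lit 463) (nat_lit 6606) (.f (nat_lit 622) (nat_lit 527) (nat_lit 6638) (.d (nat_lit 621) (nat_lit 589) (nat_lit 5613) (nat_lit 653) (nat_lit 5645)))) (.f (nat_lit 495) (nat_lit 463) (nat_lit 6606) (.f (nat_lit 527) (nat_lit 622) (nat_lit 6638) (.f (nat_lit 525) (nat_lit 561) (nat_lit 525) (.f (nat_lit 557) (nat_lit 556) (nat_lit 1548) (.f (nat_lit 524) (nat_lit 523) (nat_lit 2539) (.f (nat_lit 462) (nat_lit 430) (nat_lit 5549) (.f (nat_lit 492) (nat_lit 491) (nat_lit 3563) (.f (nat_lit 460) (nat_lit 428) (nat_lit 4524) (.d (nat_lit 461) (nat_lit 429) (nat_lit 7597) (nat_lit 459) (nat_lit 459)))))))))))))) (.a (.p (nat_lit 494) (.a (.f (nat_lit 589) (nat_lit 621) (nat_lit 5613) (.f (nat_lit 462) (nat_lit 557) (nat_lit 5581) (.d (nat_lit 463) (nat_lit 431) (nat_lit 6574) (nat_lit 495) (nat_lit 6606)))) (.a (.f (nat_lit 589) (nat_lit 621) (nat_lit 5613) (.f (nat_lit 462) (nat_lit 557) (nat_lit 5581) (.d (nat_lit 461) (nat_lit 429) (nat_lit 7597) (nat_lit 493) (nat_lit 7629)))) (.a (.f (nat_lit 463) (nat_lit 495) (nat_lit 6606) (.f (nat_lit 462) (nat_lit 431) (nat_lit 6574) (.d (nat_lit 461) (nat_lit 429) (nat_lit 7597) (nat_lit 493) (nat_lit 7629)))) (.f (nat_lit 493) (nat_lit 461) (nat_lit 7629) (.f (nat_lit 495) (nat_lit 463) (nat_lit 6606) (.f (nat_lit 492) (nat_lit 527) (nat_lit 492) (.f (nat_lit 523) (nat_lit 524) (nat_lit 1515) (.f (nat_lit 491) (nat_lit 522) (nat_lit 1514) (.d (nat_lit 459) (nat_lit 458) (nat_lit 3530) (nat_lit 460) (nat_lit 3531))))))))))) (.a (.p (nat_lit 494) (.a (.f (nat_lit 589) (nat_lit 621) (nat_lit 5613) (.f (nat_lit 462) (nat_lit 557) (nat_lit 5581) (.d (nat_lit 463) (nat_lit 431) (nat_lit 6574) (nat_lit 495) (nat_lit 6606)))) (.a (.f (nat_lit 589) (nat_lit 621) (nat_lit 5613) (.f (nat_lit 557) (nat_lit 462) (nat_lit 5581) (.f (nat_lit 623) (nat_lit 591) (nat_lit 4590) (.f (nat_lit 622) (nat_lit 655) (nat_lit 4622) (.d (nat_lit 654) (nat_lit 525) (nat_lit 7693) (nat_lit 686) (nat_lit 7725)))))) (.a (.f (nat_lit 495) (nat_lit 463) (nat_lit 6606) (.f (nat_lit 622) (nat_lit 527) (nat_lit 6638) (.d (nat_lit 621) (nat_lit 589) (nat_lit 5613) (nat_lit 653) (nat_lit 5645)))) (.a (.f (nat_lit 623) (nat_lit 591) (nat_lit 4590) (.f (nat_lit 622) (nat_lit 655) (nat_lit 4622) (.f (nat_lit 653) (nat_lit 621) (nat_lit 5645) (.f (nat_lit 654) (nat_lit 685) (nat_lit 5677) (.d (nat_lit 525) (nat_lit 493) (nat_lit 7661) (nat_lit 557) (nat_lit 7693)))))) (.f (nat_lit 463) (nat_lit 495) (nat_lit 6606) (.f (nat_lit 462) (nat_lit 431) (nat_lit 6574) (.f (nat_lit 557) (nat_lit 589) (nat_lit 5581) (.f (nat_lit 525) (nat_lit 430) (nat_lit 5549) (.d (nat_lit 622) (nat_lit 493) (nat_lit 7661) (nat_lit 654) (nat_lit 7693))))))))))) (.p (nat_lit 494) (.a (.f (nat_lit 495) (nat_lit 463) (nat_lit 6606) (.f (nat_lit 493) (nat_lit 461) (nat_lit 7629) (.d (nat_lit 527) (nat_lit 492) (nat_lit 492) (nat_lit 622) (nat_lit 6638)))) (.a (.f (nat_lit 463) (nat_lit 495) (nat_lit 6606) (.f (nat_lit 462) (nat_lit 431) (nat_lit 6574) (.d (nat_lit 461) (nat_lit 429) (nat_lit 7597) (nat_lit 493) (nat_lit 7629)))) (.a (.f (nat_lit 493) (nat_lit 461) (nat_lit 7629) (.f (nat_lit 525) (nat_lit 622) (nat_lit 7661) (.d (nat_lit 527) (nat_lit 492) (nat_lit 3564) (nat_lit 561) (nat_lit 525)))) (.a (.f (nat_lit 495) (nat_lit 463) (nat_lit 6606) (.f (nat_lit 527) (nat_lit 622) (nat_lit 6638) (.f (nat_lit 525) (nat_lit 561) (nat_lit 525) (.f (nat_lit 557) (nat_lit 556) (nat_lit 1548) (.f (nat_lit 524) (nat_lit 523) (nat_lit 2539) (.f (nat_lit 462) (nat_lit 430) (nat_lit 5549) (.f (nat_lit 492) (nat_lit 491) (nat_lit 3563) (.f (nat_lit 460) (nat_lit 428) (nat_lit 4524) (.d (nat_lit 461) (nat_lit 429) (nat_lit 7597) (nat_lit 459) (nat_lit 459)))))))))) (.f (nat_lit 463) (nat_lit 495) (nat_lit 6606) (.f (nat_lit 462) (nat_lit 431) (nat_lit 6574) (.f (nat_lit 557) (nat_lit 589) (nat_lit 5581) (.f (nat_lit 525) (nat_lit 430) (nat_lit 5549) (.d (nat_lit 622) (nat_lit 493) (nat_lit 7661) (nat_lit 654) (nat_lit 7693))))))))))))))))))))) (.a (.p (nat_lit 494) (.a (.p (nat_lit 590) (.a (.f (nat_lit 495) (nat_lit 463) (nat_lit 6606) (.f (nat_lit 493) (nat_lit 461) (nat_lit 7629) (.d (nat_lit 527) (nat_lit 492) (nat_lit 492) (nat_lit 622) (nat_lit 6638)))) (.f (nat_lit 591) (nat_lit 623) (nat_lit 4590) (.f (nat_lit 559) (nat_lit 462) (nat_lit 4558) (.d (nat_lit 561) (nat_lit 525) (nat_lit 3597) (nat_lit 589) (nat_lit 1581)))))) (.a (.p (nat_lit 590) (.a (.f (nat_lit 591) (nat_lit 623) (nat_lit 4590) (.f (nat_lit 559) (nat_lit 462) (nat_lit 4558) (.d (nat_lit 561) (nat_lit 525) (nat_lit 3597) (nat_lit 589) (nat_lit 1581)))) (.a (.f (nat_lit 463) (nat_lit 495) (nat_lit 6606) (.f (nat_lit 462) (nat_lit 431) (nat_lit 6574) (.d (nat_lit 461) (nat_lit 429) (nat_lit 7597) (nat_lit 493) (nat_lit 7629)))) (.f (nat_lit 591) (nat_lit 623) (nat_lit 4590) (.f (nat_lit 589) (nat_lit 621) (nat_lit 5613) (.d (nat_lit 559) (nat_lit 561) (nat_lit 1581) (nat_lit 588) (nat_lit 2604))))))) (.a s38618 (.a (.p (nat_lit 462) (.a (.f (nat_lit 559) (nat_lit 591) (nat_lit 4558) (.f (nat_lit 527) (nat_lit 430) (nat_lit 4526) (.d (nat_lit 561) (nat_lit 525) (nat_lit 3597) (nat_lit 562) (nat_lit 3598)))) (.a (.f (nat_lit 431) (nat_lit 463) (nat_lit 6574) (.f (nat_lit 430) (nat_lit 399) (nat_lit 6542) (.d (nat_lit 429) (nat_lit 397) (nat_lit 7565) (nat_lit 461) (nat_lit 7597)))) (.f (nat_lit 559) (nat_lit 591) (nat_lit 4558) (.f (nat_lit 525) (nat_lit 561) (nat_lit 3597) (.d (nat_lit 524) (nat_lit 523) (nat_lit 523) (nat_lit 527) (nat_lit 524))))))) (.a (.p (nat_lit 590) (.a (.f (nat_lit 495) (nat_lit 463) (nat_lit 6606) (.f (nat_lit 493) (nat_lit 461) (nat_lit 7629) (.d (nat_lit 527) (nat_lit 492) (nat_lit 492) (nat_lit 622) (nat_lit 6638)))) (.f (nat_lit 591) (nat_lit 623) (nat_lit 4590) (.f (nat_lit 559) (nat_lit 462) (nat_lit 4558) (.d (nat_lit 589) (nat_lit 588) (nat_lit 2604) (nat_lit 621) (nat_lit 5613)))))) (.a s38619 (.a (.p (nat_lit 590) (.a (.f (nat_lit 591) (nat_lit 623) (nat_lit 4590) (.f (nat_lit 559) (nat_lit 462) (nat_lit 4558) (.d (nat_lit 561) (nat_lit 525) (nat_lit 3597) (nat_lit 589) (nat_lit 1581)))) (.a (.f (nat_lit 493) (nat_lit 461) (nat_lit 7629) (.f (nat_lit 525) (nat_lit 622) (nat_lit 7661) (.d (nat_lit 527) (nat_lit 492) (nat_lit 3564) (nat_lit 561) (nat_lit 525)))) (.f (nat_lit 591) (nat_lit 623) (nat_lit 4590) (.f (nat_lit 559) (nat_lit 462) (nat_lit 4558) (.d (nat_lit 589) (nat_lit 588) (nat_lit 2604) (nat_lit 621) (nat_lit 5613))))))) (.a (.p (nat_lit 590) (.a (.f (nat_lit 495) (nat_lit 463) (nat_lit 6606) (.f (nat_lit 493) (nat_lit 461) (nat_lit 7629) (.d (nat_lit 527) (nat_lit 492) (nat_lit 492) (nat_lit 622) (nat_lit 6638)))) (.f (nat_lit 591) (nat_lit 623) (nat_lit 4590) (.f (nat_lit 589) (nat_lit 621) (nat_lit 5613) (.d (nat_lit 559) (nat_lit 561) (nat_lit 1581) (nat_lit 588) (nat_lit 2604)))))) s37759))))))))) (.a (.p (nat_lit 494) (.a (.p (nat_lit 590) (.a (.f (nat_lit 495) (nat_lit 463) (nat_lit 6606) (.f (nat_lit 493) (nat_lit 461) (nat_lit 7629) (.d (nat_lit 527) (nat_lit 492) (nat_lit 492) (nat_lit 622) (nat_lit 6638)))) (.a (.f (nat_lit 589) (nat_lit 621) (nat_lit 5613) (.f (nat_lit 462) (nat_lit 557) (nat_lit 5581) (.d (nat_lit 463) (nat_lit 431) (nat_lit 6574) (nat_lit 495) (nat_lit 6606)))) (.f (nat_lit 591) (nat_lit 623) (nat_lit 4590) (.f (nat_lit 559) (nat_lit 462) (nat_lit 4558) (.d (nat_lit 589) (nat_lit 588) (nat_lit 2604) (nat_lit 621) (nat_lit 5613))))))) (.a s38565 (.a (.p (nat_lit 590) (.a (.f (nat_lit 495) (nat_lit 463) (nat_lit 6606) (.f (nat_lit 493) (nat_lit 461) (nat_lit 7629) (.d (nat_lit 527) (nat_lit 492) (nat_lit 492) (nat_lit 622) (nat_lit 6638)))) (.a (.f (nat_lit 589) (nat_lit 621) (nat_lit 5613) (.f (nat_lit 462) (nat_lit 557) (nat_lit 5581) (.d (nat_lit 463) (nat_lit 431) (nat_lit 6574) (nat_lit 495) (nat_lit 6606)))) (.f (nat_lit 589) (nat_lit 621) (nat_lit 5613) (.f (nat_lit 462) (nat_lit 557) (nat_lit 5581) (.d (nat_lit 461) (nat_lit 429) (nat_lit 7597) (nat_lit 493) (nat_lit 7629))))))) (.a s37700 (.a s38622 (.a (.p (nat_lit 590) (.a (.f (nat_lit 495) (nat_lit 463) (nat_lit 6606) (.f (nat_lit 493) (nat_lit 461) (nat_lit 7629) (.d (nat_lit 527) (nat_lit 492) (nat_lit 492) (nat_lit 622) (nat_lit 6638)))) (.f (nat_lit 591) (nat_lit 623) (nat_lit 4590) (.f (nat_lit 559) (nat_lit 462) (nat_lit 4558) (.d (nat_lit 589) (nat_lit 588) (nat_lit 2604) (nat_lit 621) (nat_lit 5613)))))) (.a (.p (nat_lit 590) (.a (.f (nat_lit 495) (nat_lit 463) (nat_lit 6606) (.f (nat_lit 493) (nat_lit 461) (nat_lit 7629) (.d (nat_lit 527) (nat_lit 492) (nat_lit 492) (nat_lit 622) (nat_lit 6638)))) (.a (.f (nat_lit 591) (nat_lit 623) (nat_lit 4590) (.f (nat_lit 462) (nat_lit 559) (nat_lit 4558) (.d (nat_lit 463) (nat_lit 431) (nat_lit 6574) (nat_lit 495) (nat_lit 6606)))) (.f (nat_lit 591) (nat_lit 623) (nat_lit 4590) (.f (nat_lit 462) (nat_lit 559) (nat_lit 4558) (.d (nat_lit 461) (nat_lit 429) (nat_lit 7597) (nat_lit 493) (nat_lit 7629))))))) (.a (.p (nat_lit 590) (.a (.f (nat_lit 495) (nat_lit 463) (nat_lit 6606) (.f (nat_lit 493) (nat_lit 461) (nat_lit 7629) (.d (nat_lit 527) (nat_lit 492) (nat_lit 492) (nat_lit 622) (nat_lit 6638)))) (.a (.f (nat_lit 621) (nat_lit 589) (nat_lit 5613) (.f (nat_lit 622) (nat_lit 653) (nat_lit 5645) (.d (nat_lit 623) (nat_lit 591) (nat_lit 4590) (nat_lit 655) (nat_lit 4622)))) (.f (nat_lit 591) (nat_lit 623) (nat_lit 4590) (.f (nat_lit 589) (nat_lit 621) (nat_lit 5613) (.f (nat_lit 588) (nat_lit 559) (nat_lit 2604) (.f (nat_lit 556) (nat_lit 555) (nat_lit 3627) (.f (nat_lit 557) (nat_lit 592) (nat_lit 3628) (.f (nat_lit 620) (nat_lit 619) (nat_lit 1611) (.d (nat_lit 493) (nat_lit 461) (nat_lit 7629) (nat_lit 525) (nat_lit 5612))))))))))) s37774))))))))) (.a (.p (nat_lit 494) (.a (.p (nat_lit 590) (.a (.f (nat_lit 495) (nat_lit 463) (nat_lit 6606) (.f (nat_lit 493) (nat_lit 461) (nat_lit 7629) (.d (nat_lit 527) (nat_lit 492) (nat_lit 492) (nat_lit 622) (nat_lit 6638)))) (.f (nat_lit 591) (nat_lit 623) (nat_lit 4590) (.f (nat_lit 559) (nat_lit 462) (nat_lit 4558) (.d (nat_lit 561) (nat_lit 525) (nat_lit 3597) (nat_lit 562) (nat_lit 1582)))))) (.a (.p (nat_lit 590) (.a (.f (nat_lit 591) (nat_lit 623) (nat_lit 4590) (.f (nat_lit 559) (nat_lit 462) (nat_lit 4558) (.d (nat_lit 561) (nat_lit 525) (nat_lit 3597) (nat_lit 562) (nat_lit 1582)))) (.a (.f (nat_lit 463) (nat_lit 495) (nat_lit 6606) (.f (nat_lit 462) (nat_lit 431) (nat_lit 6574) (.d (nat_lit 461) (nat_lit 429) (nat_lit 7597) (nat_lit 493) (nat_lit 7629)))) (.f (nat_lit 623) (nat_lit 591) (nat_lit 4590) (.f (nat_lit 622) (nat_lit 655) (nat_lit 4622) (.d (nat_lit 493) (nat_lit 461) (nat_lit 7629) (nat_lit 525) (nat_lit 7661))))))) (.a s38618 (.a (.p (nat_lit 462) (.a (.f (nat_lit 559) (nat_lit 591) (nat_lit 4558) (.f (nat_lit 527) (nat_lit 430) (nat_lit 4526) (.d (nat_lit 561) (nat_lit 525) (nat_lit 3597) (nat_lit 562) (nat_lit 3598)))) (.a (.f (nat_lit 431) (nat_lit 463) (nat_lit 6574) (.f (nat_lit 430) (nat_lit 399) (nat_lit 6542) (.d (nat_lit 429) (nat_lit 397) (nat_lit 7565) (nat_lit 461) (nat_lit 7597)))) (.f (nat_lit 559) (nat_lit 591) (nat_lit 4558) (.f (nat_lit 525) (nat_lit 561) (nat_lit 3597) (.d (nat_lit 524) (nat_lit 523) (nat_lit 523) (nat_lit 527) (nat_lit 524))))))) (.a (.p (nat_lit 590) (.a (.f (nat_lit 495) (nat_lit 463) (nat_lit 6606) (.f (nat_lit 493) (nat_lit 461) (nat_lit 7629) (.d (nat_lit 527) (nat_lit 492) (nat_lit 492) (nat_lit 622) (nat_lit 6638)))) (.a (.f (nat_lit 591) (nat_lit 623) (nat_lit 4590) (.f (nat_lit 462) (nat_lit 559) (nat_lit 4558) (.d (nat_lit 463) (nat_lit 431) (nat_lit 6574) (nat_lit 495) (nat_lit 6606)))) (.f (nat_lit 591) (nat_lit 623) (nat_lit 4590) (.f (nat_lit 462) (nat_lit 559) (nat_lit 4558) (.d (nat_lit 461) (nat_lit 429) (nat_lit 7597) (nat_lit 493) (nat_lit 7629))))))) (.a s38632 (.a (.p (nat_lit 590) (.a (.f (nat_lit 591) (nat_lit 623) (nat_lit 4590) (.f (nat_lit 559) (nat_lit 462) (nat_lit 4558) (.d (nat_lit 561) (nat_lit 525) (nat_lit 3597) (nat_lit 562) (nat_lit 1582)))) (.a (.f (nat_lit 493) (nat_lit 461) (nat_lit 7629) (.f (nat_lit 525) (nat_lit 622) (nat_lit 7661) (.d (nat_lit 527) (nat_lit 492) (nat_lit 3564) (nat_lit 561) (nat_lit 525)))) (.f (nat_lit 591) (nat_lit 623) (nat_lit 4590) (.f (nat_lit 462) (nat_lit 559) (nat_lit 4558) (.d (nat_lit 461) (nat_lit 429) (nat_lit 7597) (nat_lit 493) (nat_lit 7629))))))) (.a s38633 s38634))))))))) (.a (.p (nat_lit 525) (.a (.f (nat_lit 559) (nat_lit 561) (nat_lit 3597) (.d (nat_lit 524) (nat_lit 523) (nat_lit 523) (nat_lit 557) (nat_lit 3596))) (.a (.f (nat_lit 527) (nat_lit 561) (nat_lit 525) (.f (nat_lit 557) (nat_lit 556) (nat_lit 1548) (.f (nat_lit 493) (nat_lit 492) (nat_lit 3564) (.d (nat_lit 461) (nat_lit 429) (nat_lit 4525) (nat_lit 590) (nat_lit 4557))))) (.a (.d (nat_lit 561) (nat_lit 527) (nat_lit 525) (nat_lit 559) (nat_lit 3597)) (.p (nat_lit 557) (.a (.f (nat_lit 527) (nat_lit 556) (nat_lit 1548) (.f (nat_lit 524) (nat_lit 559) (nat_lit 524) (.d (nat_lit 492) (nat_lit 491) (nat_lit 3563) (nat_lit 493) (nat_lit 3564)))) (.a (.f (nat_lit 559) (nat_lit 524) (nat_lit 3596) (.f (nat_lit 589) (nat_lit 588) (nat_lit 1580) (.f (nat_lit 621) (nat_lit 653) (nat_lit 6669) (.f (nat_lit 622) (nat_lit 654) (nat_lit 4621) (.f (nat_lit 493) (nat_lit 590) (nat_lit 4589) (.f (nat_lit 461) (nat_lit 429) (nat_lit 4525) (.d (nat_lit 460) (nat_lit 428) (nat_lit 7596) (nat_lit 492) (nat_lit 7628)))))))) (.a (.f (nat_lit 527) (nat_lit 556) (nat_lit 1548) (.f (nat_lit 493) (nat_lit 492) (nat_lit 3564) (.d (nat_lit 461) (nat_lit 429) (nat_lit 4525) (nat_lit 590) (nat_lit 4557)))) (.f (nat_lit 556) (nat_lit 527) (nat_lit 1548) (.f (nat_lit 559) (nat_lit 524) (nat_lit 3596) (.d (nat_lit 588) (nat_lit 587) (nat_lit 1579) (nat_lit 589) (nat_lit 1580)))))))))))) (.a (.p (nat_lit 494) (.a s37580 (.a (.p (nat_lit 590) (.a (.f (nat_lit 589) (nat_lit 621) (nat_lit 5613) (.f (nat_lit 559) (nat_lit 561) (nat_lit 1581) (.d (nat_lit 557) (nat_lit 462) (nat_lit 5581) (nat_lit 588) (nat_lit 1580)))) (.a (.f (nat_lit 589) (nat_lit 621) (nat_lit 5613) (.f (nat_lit 462) (nat_lit 557) (nat_lit 5581) (.d (nat_lit 463) (nat_lit 431) (nat_lit 6574) (nat_lit 495) (nat_lit 6606)))) (.f (nat_lit 495) (nat_lit 463) (nat_lit 6606) (.f (nat_lit 527) (nat_lit 622) (nat_lit 6638) (.f (nat_lit 525) (nat_lit 561) (nat_lit 525) (.d (nat_lit 524) (nat_lit 523) (nat_lit 2539) (nat_lit 559) (nat_lit 524)))))))) (.a s37596 (.a s37624 (.a (.p (nat_lit 590) (.a (.f (nat_lit 589) (nat_lit 621) (nat_lit 5613) (.f (nat_lit 462) (nat_lit 557) (nat_lit 5581) (.d (nat_lit 463) (nat_lit 431) (nat_lit 6574) (nat_lit 495) (nat_lit 6606)))) (.a (.f (nat_lit 589) (nat_lit 621) (nat_lit 5613) (.f (nat_lit 557) (nat_lit 462) (nat_lit 5581) (.f (nat_lit 623) (nat_lit 591) (nat_lit 4590) (.f (nat_lit 622) (nat_lit 655) (nat_lit 4622) (.d (nat_lit 654) (nat_lit 525) (nat_lit 7693) (nat_lit 686) (nat_lit 7725)))))) (.a (.f (nat_lit 495) (nat_lit 463) (nat_lit 6606) (.f (nat_lit 622) (nat_lit 527) (nat_lit 6638) (.d (nat_lit 621) (nat_lit 589) (nat_lit 5613) (nat_lit 653) (nat_lit 5645)))) (.f (nat_lit 495) (nat_lit 463) (nat_lit 6606) (.f (nat_lit 527) (nat_lit 622) (nat_lit 6638) (.f (nat_lit 525) (nat_lit 561) (nat_lit 525) (.f (nat_lit 557) (nat_lit 556) (nat_lit 1548) (.f (nat_lit 524) (nat_lit 523) (nat_lit 2539) (.f (nat_lit 462) (nat_lit 430) (nat_lit 5549) (.f (nat_lit 492) (nat_lit 491) (nat_lit 3563) (.f (nat_lit 460) (nat_lit 428) (nat_lit 4524) (.d (nat_lit 461) (nat_lit 429) (nat_lit 7597) (nat_lit 459) (nat_lit 459)))))))))))))) (.a (.p (nat_lit 462) (.a (.f (nat_lit 559) (nat_lit 591) (nat_lit 4558) (.f (nat_lit 527) (nat_lit 430) (nat_lit 4526) (.d (nat_lit 561) (nat_lit 525) (nat_lit 3597) (nat_lit 562) (nat_lit 3598)))) (.a (.f (nat_lit 431) (nat_lit 463) (nat_lit 6574) (.f (nat_lit 430) (nat_lit 399) (nat_lit 6542) (.d (nat_lit 429) (nat_lit 397) (nat_lit 7565) (nat_lit 461) (nat_lit 7597)))) (.f (nat_lit 559) (nat_lit 591) (nat_lit 4558) (.f (nat_lit 525) (nat_lit 561) (nat_lit 3597) (.d (nat_lit 524) (nat_lit 523) (nat_lit 523) (nat_lit 527) (nat_lit 524))))))) (.a s37700 (.p (nat_lit 590) (.a (.f (nat_lit 589) (nat_lit 621) (nat_lit 5613) (.f (nat_lit 559) (nat_lit 561) (nat_lit 1581) (.d (nat_lit 588) (nat_lit 557) (nat_lit 1580) (nat_lit 587) (nat_lit 2603)))) (.a (.f (nat_lit 495) (nat_lit 463) (nat_lit 6606) (.f (nat_lit 622) (nat_lit 527) (nat_lit 6638) (.d (nat_lit 621) (nat_lit 589) (nat_lit 5613) (nat_lit 653) (nat_lit 5645)))) (.f (nat_lit 495) (nat_lit 463) (nat_lit 6606) (.f (nat_lit 527) (nat_lit 622) (nat_lit 6638) (.f (nat_lit 525) (nat_lit 561) (nat_lit 525) (.d (nat_lit 524) (nat_lit 523) (nat_lit 2539) (nat_lit 559) (nat_lit 524)))))))))))))))) (.a (.p (nat_lit 494) (.a s37580 (.a (.p (nat_lit 590) (.a (.f (nat_lit 589) (nat_lit 621) (nat_lit 5613) (.f (nat_lit 559) (nat_lit 561) (nat_lit 1581) (.d (nat_lit 557) (nat_lit 462) (nat_lit 5581) (nat_lit 588) (nat_lit 1580)))) (.a (.f (nat_lit 589) (nat_lit 621) (nat_lit 5613) (.f (nat_lit 462) (nat_lit 557) (nat_lit 5581) (.d (nat_lit 463) (nat_lit 431) (nat_lit 6574) (nat_lit 495) (nat_lit 6606)))) (.f (nat_lit 495) (nat_lit 463) (nat_lit 6606) (.f (nat_lit 527) (nat_lit 622) (nat_lit 6638) (.f (nat_lit 525) (nat_lit 561) (nat_lit 525) (.d (nat_lit 524) (nat_lit 523) (nat_lit 2539) (nat_lit 559) (nat_lit 524)))))))) (.a s37596 (.a s37624 (.a s38642 (.a s37759 (.a s38634 (.p (nat_lit 590) (.a (.f (nat_lit 589) (nat_lit 621) (nat_lit 5613) (.f (nat_lit 559) (nat_lit 561) (nat_lit 1581) (.d (nat_lit 588) (nat_lit 557) (nat_lit 1580) (nat_lit 587) (nat_lit 2603)))) (.a (.f (nat_lit 495) (nat_lit 463) (nat_lit 6606) (.f (nat_lit 622) (nat_lit 527) (nat_lit 6638) (.d (nat_lit 621) (nat_lit 589) (nat_lit 5613) (nat_lit 653) (nat_lit 5645)))) (.f (nat_lit 495) (nat_lit 463) (nat_lit 6606) (.f (nat_lit 527) (nat_lit 622) (nat_lit 6638) (.f (nat_lit 525) (nat_lit 561) (nat_lit 525) (.d (nat_lit 524) (nat_lit 523) (nat_lit 2539) (nat_lit 559) (nat_lit 524)))))))))))))))) (.a (.p (nat_lit 494) (.a s37596 (.a (.p (nat_lit 462) (.a (.f (nat_lit 559) (nat_lit 591) (nat_lit 4558) (.f (nat_lit 525) (nat_lit 561) (nat_lit 3597) (.d (nat_lit 557) (nat_lit 524) (nat_lit 3596) (nat_lit 589) (nat_lit 5581)))) (.a (.f (nat_lit 557) (nat_lit 589) (nat_lit 5581) (.f (nat_lit 525) (nat_lit 430) (nat_lit 5549) (.d (nat_lit 559) (nat_lit 524) (nat_lit 3596) (nat_lit 561) (nat_lit 3597)))) (.f (nat_lit 431) (nat_lit 463) (nat_lit 6574) (.f (nat_lit 430) (nat_lit 399) (nat_lit 6542) (.d (nat_lit 429) (nat_lit 397) (nat_lit 7565) (nat_lit 461) (nat_lit 7597))))))) (.a s38618 (.a s37700 (.a (.p (nat_lit 590) (.a (.f (nat_lit 495) (nat_lit 463) (nat_lit 6606) (.f (nat_lit 493) (nat_lit 461) (nat_lit 7629) (.d (nat_lit 527) (nat_lit 492) (nat_lit 492) (nat_lit 622) (nat_lit 6638)))) (.a (.f (nat_lit 463) (nat_lit 495) (nat_lit 6606) (.f (nat_lit 462) (nat_lit 431) (nat_lit 6574) (.d (nat_lit 461) (nat_lit 429) (nat_lit 7597) (nat_lit 493) (nat_lit 7629)))) (.a (.f (nat_lit 493) (nat_lit 461) (nat_lit 7629) (.f (nat_lit 525) (nat_lit 622) (nat_lit 7661) (.d (nat_lit 527) (nat_lit 492) (nat_lit 3564) (nat_lit 561) (nat_lit 525)))) (.a (.f (nat_lit 495) (nat_lit 463) (nat_lit 6606) (.f (nat_lit 527) (nat_lit 622) (nat_lit 6638) (.f (nat_lit 525) (nat_lit 561) (nat_lit 525) (.f (nat_lit 557) (nat_lit 556) (nat_lit 1548) (.f (nat_lit 524) (nat_lit 523) (nat_lit 2539) (.f (nat_lit 462) (nat_lit 430) (nat_lit 5549) (.f (nat_lit 492) (nat_lit 491) (nat_lit 3563) (.f (nat_lit 460) (nat_lit 428) (nat_lit 4524) (.d (nat_lit 461) (nat_lit 429) (nat_lit 7597) (nat_lit 459) (nat_lit 459)))))))))) (.f (nat_lit 463) (nat_lit 495) (nat_lit 6606) (.f (nat_lit 462) (nat_lit 431) (nat_lit 6574) (.f (nat_lit 557) (nat_lit 589) (nat_lit 5581) (.f (nat_lit 525) (nat_lit 430) (nat_lit 5549) (.d (nat_lit 622) (nat_lit 493) (nat_lit 7661) (nat_lit 654) (nat_lit 7693))))))))))) (.a s38633 (.p (nat_lit 590) (.a (.f (nat_lit 495) (nat_lit 463) (nat_lit 6606) (.f (nat_lit 493) (nat_lit 461) (nat_lit 7629) (.d (nat_lit 527) (nat_lit 492) (nat_lit 492) (nat_lit 622) (nat_lit 6638)))) (.f (nat_lit 591) (nat_lit 623) (nat_lit 4590) (.f (nat_lit 559) (nat_lit 462) (nat_lit 4558) (.d (nat_lit 561) (nat_lit 525) (nat_lit 3597) (nat_lit 589) (nat_lit 1581))))))))))))) s37812)))))))))))))) (.a (.p (nat_lit 496) (.a s38003 (.a s38661 (.a s38681 (.a (.p (nat_lit 495) (.a s38682 (.a (.p (nat_lit 525) (.a (.f (nat_lit 494) (nat_lit 497) (nat_lit 1517) (.d (nat_lit 524) (nat_lit 493) (nat_lit 1516) (nat_lit 523) (nat_lit 2539))) (.a (.d (nat_lit 527) (nat_lit 497) (nat_lit 2541) (nat_lit 561) (nat_lit 525)) (.d (nat_lit 527) (nat_lit 524) (nat_lit 2540) (nat_lit 561) (nat_lit 525))))) (.f (nat_lit 463) (nat_lit 592) (nat_lit 7631) (.d (nat_lit 431) (nat_lit 399) (nat_lit 4495) (nat_lit 527) (nat_lit 4527)))))) (.a (.p (nat_lit 497) (.a (.f (nat_lit 527) (nat_lit 525) (nat_lit 2541) (.d (nat_lit 498) (nat_lit 495) (nat_lit 1518) (nat_lit 499) (nat_lit 1519))) (.f (nat_lit 465) (nat_lit 592) (nat_lit 6608) (.d (nat_lit 433) (nat_lit 401) (nat_lit 5520) (nat_lit 464) (nat_lit 6576))))) (.a s38693 (.a (.p (nat_lit 525) (.a (.p (nat_lit 495) (.a (.f (nat_lit 494) (nat_lit 497) (nat_lit 1517) (.d (nat_lit 524) (nat_lit 493) (nat_lit 1516) (nat_lit 523) (nat_lit 2539))) (.f (nat_lit 463) (nat_lit 592) (nat_lit 7631) (.d (nat_lit 431) (nat_lit 399) (nat_lit 4495) (nat_lit 464) (nat_lit 7599))))) (.a (.d (nat_lit 527) (nat_lit 497) (nat_lit 2541) (nat_lit 561) (nat_lit 525)) (.f (nat_lit 527) (nat_lit 561) (nat_lit 525) (.d (nat_lit 524) (nat_lit 495) (nat_lit 2540) (nat_lit 559) (nat_lit 524)))))) s38711)))))))) (.a (.p (nat_lit 496) (.a (.p (nat_lit 464) (.a (.f (nat_lit 559) (nat_lit 591) (nat_lit 5583) (.f (nat_lit 527) (nat_lit 432) (nat_lit 5551) (.d (nat_lit 525) (nat_lit 524) (nat_lit 524) (nat_lit 561) (nat_lit 525)))) (.f (nat_lit 465) (nat_lit 433) (nat_lit 6576) (.f (nat_lit 463) (nat_lit 431) (nat_lit 7599) (.d (nat_lit 592) (nat_lit 495) (nat_lit 7631) (nat_lit 497) (nat_lit 6608)))))) (.a s38661 (.a s37826 (.a (.p (nat_lit 495) (.a (.f (nat_lit 463) (nat_lit 592) (nat_lit 7631) (.d (nat_lit 431) (nat_lit 399) (nat_lit 4495) (nat_lit 527) (nat_lit 4527))) (.a (.p (nat_lit 525) (.a (.f (nat_lit 494) (nat_lit 497) (nat_lit 1517) (.d (nat_lit 524) (nat_lit 493) (nat_lit 1516) (nat_lit 523) (nat_lit 2539))) (.a (.d (nat_lit 527) (nat_lit 497) (nat_lit 2541) (nat_lit 561) (nat_lit 525)) (.d (nat_lit 527) (nat_lit 524) (nat_lit 2540) (nat_lit 561) (nat_lit 525))))) (.p (nat_lit 497) (.a (.f (nat_lit 465) (nat_lit 592) (nat_lit 6608) (.d (nat_lit 494) (nat_lit 466) (nat_lit 2510) (nat_lit 525) (nat_lit 1517))) (.a (.f (nat_lit 494) (nat_lit 525) (nat_lit 1517) (.f (nat_lit 462) (nat_lit 461) (nat_lit 3533) (.f (nat_lit 463) (nat_lit 498) (nat_lit 3534) (.d (nat_lit 431) (nat_lit 399) (nat_lit 4495) (nat_lit 558) (nat_lit 6574))))) (.d (nat_lit 592) (nat_lit 463) (nat_lit 7631) (nat_lit 465) (nat_lit 6608)))))))) (.a (.p (nat_lit 497) (.a (.f (nat_lit 527) (nat_lit 525) (nat_lit 2541) (.d (nat_lit 498) (nat_lit 495) (nat_lit 1518) (nat_lit 499) (nat_lit 1519))) (.f (nat_lit 465) (nat_lit 592) (nat_lit 6608) (.d (nat_lit 433) (nat_lit 401) (nat_lit 5520) (nat_lit 464) (nat_lit 6576))))) (.a s38693 (.a (.p (nat_lit 525) (.a (.p (nat_lit 495) (.a (.f (nat_lit 494) (nat_lit 497) (nat_lit 1517) (.d (nat_lit 524) (nat_lit 493) (nat_lit 1516) (nat_lit 523) (nat_lit 2539))) (.f (nat_lit 463) (nat_lit 592) (nat_lit 7631) (.d (nat_lit 431) (nat_lit 399) (nat_lit 4495) (nat_lit 464) (nat_lit 7599))))) (.a (.d (nat_lit 527) (nat_lit 497) (nat_lit 2541) (nat_lit 561) (nat_lit 525)) (.f (nat_lit 527) (nat_lit 561) (nat_lit 525) (.d (nat_lit 524) (nat_lit 495) (nat_lit 2540) (nat_lit 559) (nat_lit 524)))))) s38711)))))))) (.a (.p (nat_lit 496) (.a s37826 (.a (.p (nat_lit 494) (.a (.p (nat_lit 558) (.a s37847 (.a (.p (nat_lit 590) (.a (.f (nat_lit 589) (nat_lit 621) (nat_lit 5613) (.f (nat_lit 559) (nat_lit 561) (nat_lit 1581) (.d (nat_lit 557) (nat_lit 462) (nat_lit 5581) (nat_lit 588) (nat_lit 1580)))) (.a (.f (nat_lit 461) (nat_lit 493) (nat_lit 7629) (.f (nat_lit 462) (nat_lit 429) (nat_lit 7597) (.d (nat_lit 463) (nat_lit 431) (nat_lit 6574) (nat_lit 495) (nat_lit 6606)))) (.f (nat_lit 589) (nat_lit 621) (nat_lit 5613) (.f (nat_lit 559) (nat_lit 561) (nat_lit 1581) (.d (nat_lit 588) (nat_lit 557) (nat_lit 1580) (nat_lit 587) (nat_lit 2603))))))) (.a s37882 (.p (nat_lit 590) (.a (.f (nat_lit 589) (nat_lit 621) (nat_lit 5613) (.f (nat_lit 559) (nat_lit 561) (nat_lit 1581) (.d (nat_lit 588) (nat_lit 557) (nat_lit 1580) (nat_lit 587) (nat_lit 2603)))) (.a (.f (nat_lit 621) (nat_lit 589) (nat_lit 5613) (.f (nat_lit 622) (nat_lit 653) (nat_lit 5645) (.d (nat_lit 623) (nat_lit 591) (nat_lit 4590) (nat_lit 655) (nat_lit 4622)))) (.f (nat_lit 591) (nat_lit 623) (nat_lit 4590) (.f (nat_lit 464) (nat_lit 559) (nat_lit 5583) (.d (nat_lit 463) (nat_lit 431) (nat_lit 7599) (nat_lit 495) (nat_lit 6606))))))))))) (.a (.p (nat_lit 464) (.a (.f (nat_lit 465) (nat_lit 433) (nat_lit 6576) (.f (nat_lit 495) (nat_lit 493) (nat_lit 2509) (.d (nat_lit 466) (nat_lit 463) (nat_lit 1486) (nat_lit 467) (nat_lit 1487)))) (.a (.f (nat_lit 465) (nat_lit 433) (nat_lit 6576) (.f (nat_lit 495) (nat_lit 493) (nat_lit 2509) (.d (nat_lit 466) (nat_lit 467) (nat_lit 1487) (nat_lit 497) (nat_lit 2510)))) (.a (.f (nat_lit 431) (nat_lit 463) (nat_lit 7599) (.f (nat_lit 432) (nat_lit 399) (nat_lit 7567) (.d (nat_lit 433) (nat_lit 401) (nat_lit 6544) (nat_lit 465) (nat_lit 6576)))) (.f (nat_lit 431) (nat_lit 463) (nat_lit 7599) (.f (nat_lit 432) (nat_lit 399) (nat_lit 7567) (.f (nat_lit 527) (nat_lit 559) (nat_lit 5551) (.f (nat_lit 495) (nat_lit 400) (nat_lit 5519) (.f (nat_lit 493) (nat_lit 492) (nat_lit 492) (.f (nat_lit 461) (nat_lit 460) (nat_lit 3532) (.d (nat_lit 497) (nat_lit 462) (nat_lit 3533) (nat_lit 498) (nat_lit 1518)))))))))))) (.a (.p (nat_lit 558) (.a (.p (nat_lit 590) (.a (.f (nat_lit 589) (nat_lit 621) (nat_lit 5613) (.f (nat_lit 559) (nat_lit 561) (nat_lit 1581) (.d (nat_lit 557) (nat_lit 462) (nat_lit 5581) (nat_lit 588) (nat_lit 1580)))) (.a (.f (nat_lit 461) (nat_lit 493) (nat_lit 7629) (.f (nat_lit 462) (nat_lit 429) (nat_lit 7597) (.d (nat_lit 463) (nat_lit 431) (nat_lit 6574) (nat_lit 495) (nat_lit 6606)))) (.f (nat_lit 589) (nat_lit 621) (nat_lit 5613) (.f (nat_lit 559) (nat_lit 561) (nat_lit 1581) (.d (nat_lit 588) (nat_lit 557) (nat_lit 1580) (nat_lit 587) (nat_lit 2603))))))) (.a (.p (nat_lit 462) (.a (.f (nat_lit 461) (nat_lit 429) (nat_lit 7597) (.f (nat_lit 495) (nat_lit 497) (nat_lit 3533) (.d (nat_lit 460) (nat_lit 459) (nat_lit 459) (nat_lit 493) (nat_lit 3532)))) (.a (.f (nat_lit 431) (nat_lit 463) (nat_lit 6574) (.f (nat_lit 430) (nat_lit 399) (nat_lit 6542) (.d (nat_lit 429) (nat_lit 397) (nat_lit 7565) (nat_lit 461) (nat_lit 7597)))) (.f (nat_lit 559) (nat_lit 591) (nat_lit 4558) (.f (nat_lit 527) (nat_lit 430) (nat_lit 4526) (.d (nat_lit 557) (nat_lit 556) (nat_lit 2572) (nat_lit 589) (nat_lit 5581))))))) (.a (.p (nat_lit 590) (.a (.f (nat_lit 461) (nat_lit 493) (nat_lit 7629) (.f (nat_lit 462) (nat_lit 429) (nat_lit 7597) (.d (nat_lit 463) (nat_lit 431) (nat_lit 6574) (nat_lit 495) (nat_lit 6606)))) (.a (.f (nat_lit 461) (nat_lit 493) (nat_lit 7629) (.f (nat_lit 462) (nat_lit 429) (nat_lit 7597) (.d (nat_lit 589) (nat_lit 557) (nat_lit 5581) (nat_lit 621) (nat_lit 5613)))) (.f (nat_lit 621) (nat_lit 589) (nat_lit 5613) (.f (nat_lit 622) (nat_lit 653) (nat_lit 5645) (.d (nat_lit 623) (nat_lit 591) (nat_lit 4590) (nat_lit 655) (nat_lit 4622))))))) (.a s38061 (.a (.p (nat_lit 590) (.a (.f (nat_lit 461) (nat_lit 493) (nat_lit 7629) (.f (nat_lit 462) (nat_lit 429) (nat_lit 7597) (.d (nat_lit 463) (nat_lit 431) (nat_lit 6574) (nat_lit 495) (nat_lit 6606)))) (.f (nat_lit 621) (nat_lit 589) (nat_lit 5613) (.f (nat_lit 622) (nat_lit 653) (nat_lit 5645) (.d (nat_lit 623) (nat_lit 591) (nat_lit 4590) (nat_lit 655) (nat_lit 4622)))))) (.a (.p (nat_lit 590) (.a (.f (nat_lit 461) (nat_lit 493) (nat_lit 7629) (.f (nat_lit 462) (nat_lit 429) (nat_lit 7597) (.d (nat_lit 463) (nat_lit 431) (nat_lit 6574) (nat_lit 495) (nat_lit 6606)))) (.a (.f (nat_lit 591) (nat_lit 623) (nat_lit 4590) (.f (nat_lit 462) (nat_lit 559) (nat_lit 4558) (.d (nat_lit 461) (nat_lit 429) (nat_lit 7597) (nat_lit 493) (nat_lit 7629)))) (.a (.f (nat_lit 495) (nat_lit 463) (nat_lit 6606) (.f (nat_lit 493) (nat_lit 461) (nat_lit 7629) (.d (nat_lit 527) (nat_lit 492) (nat_lit 492) (nat_lit 622) (nat_lit 6638)))) (.f (nat_lit 591) (nat_lit 623) (nat_lit 4590) (.f (nat_lit 462) (nat_lit 559) (nat_lit 4558) (.d (nat_lit 463) (nat_lit 431) (nat_lit 6574) (nat_lit 495) (nat_lit 6606)))))))) (.a (.p (nat_lit 590) (.a (.f (nat_lit 589) (nat_lit 621) (nat_lit 5613) (.f (nat_lit 559) (nat_lit 561) (nat_lit 1581) (.d (nat_lit 588) (nat_lit 557) (nat_lit 1580) (nat_lit 587) (nat_lit 2603)))) (.f (nat_lit 495) (nat_lit 463) (nat_lit 6606) (.f (nat_lit 493) (nat_lit 461) (nat_lit 7629) (.d (nat_lit 527) (nat_lit 492) (nat_lit 492) (nat_lit 622) (nat_lit 6638)))))) (.p (nat_lit 590) (.a (.f (nat_lit 589) (nat_lit 621) (nat_lit 5613) (.f (nat_lit 559) (nat_lit 561) (nat_lit 1581) (.d (nat_lit 557) (nat_lit 462) (nat_lit 5581) (nat_lit 588) (nat_lit 1580)))) (.a (.f (nat_lit 621) (nat_lit 589) (nat_lit 5613) (.f (nat_lit 622) (nat_lit 653) (nat_lit 5645) (.d (nat_lit 623) (nat_lit 591) (nat_lit 4590) (nat_lit 655) (nat_lit 4622)))) (.f (nat_lit 591) (nat_lit 623) (nat_lit 4590) (.f (nat_lit 462) (nat_lit 559) (nat_lit 4558) (.d (nat_lit 463) (nat_lit 431) (nat_lit 6574) (nat_lit 495) (nat_lit 6606))))))))))))))) (.a s38771 (.a (.p (nat_lit 558) (.a s37882 (.a (.p (nat_lit 590) (.a (.f (nat_lit 589) (nat_lit 621) (nat_lit 5613) (.f (nat_lit 559) (nat_lit 561) (nat_lit 1581) (.d (nat_lit 557) (nat_lit 462) (nat_lit 5581) (nat_lit 588) (nat_lit 1580)))) (.a (.f (nat_lit 461) (nat_lit 493) (nat_lit 7629) (.f (nat_lit 462) (nat_lit 429) (nat_lit 7597) (.d (nat_lit 589) (nat_lit 557) (nat_lit 5581) (nat_lit 621) (nat_lit 5613)))) (.a (.f (nat_lit 461) (nat_lit 493) (nat_lit 7629) (.f (nat_lit 462) (nat_lit 429) (nat_lit 7597) (.f (nat_lit 495) (nat_lit 497) (nat_lit 3533) (.f (nat_lit 527) (nat_lit 622) (nat_lit 6638) (.d (nat_lit 430) (nat_lit 398) (nat_lit 4494) (nat_lit 559) (nat_lit 4526)))))) (.f (nat_lit 589) (nat_lit 621) (nat_lit 5613) (.f (nat_lit 559) (nat_lit 561) (nat_lit 1581) (.d (nat_lit 588) (nat_lit 557) (nat_lit 1580) (nat_lit 587) (nat_lit 2603)))))))) (.a (.p (nat_lit 464) (.a (.f (nat_lit 465) (nat_lit 433) (nat_lit 6576) (.f (nat_lit 495) (nat_lit 493) (nat_lit 2509) (.d (nat_lit 466) (nat_lit 467) (nat_lit 1487) (nat_lit 497) (nat_lit 2510)))) (.f (nat_lit 559) (nat_lit 591) (nat_lit 5583) (.f (nat_lit 527) (nat_lit 432) (nat_lit 5551) (.f (nat_lit 557) (nat_lit 556) (nat_lit 2572) (.d (nat_lit 462) (nat_lit 430) (nat_lit 4526) (nat_lit 589) (nat_lit 5581))))))) (.a s38757 (.a (.p (nat_lit 590) (.a (.f (nat_lit 591) (nat_lit 623) (nat_lit 4590) (.d (nat_lit 559) (nat_lit 462) (nat_lit 4558) (nat_lit 464) (nat_lit 5583))) (.a (.f (nat_lit 461) (nat_lit 493) (nat_lit 7629) (.f (nat_lit 462) (nat_lit 429) (nat_lit 7597) (.f (nat_lit 495) (nat_lit 497) (nat_lit 3533) (.f (nat_lit 527) (nat_lit 622) (nat_lit 6638) (.d (nat_lit 430) (nat_lit 398) (nat_lit 4494) (nat_lit 559) (nat_lit 4526)))))) (.f (nat_lit 621) (nat_lit 589) (nat_lit 5613) (.f (nat_lit 622) (nat_lit 653) (nat_lit 5645) (.d (nat_lit 623) (nat_lit 591) (nat_lit 4590) (nat_lit 655) (nat_lit 4622))))))) (.a (.p (nat_lit 590) (.a (.f (nat_lit 591) (nat_lit 623) (nat_lit 4590) (.d (nat_lit 559) (nat_lit 462) (nat_lit 4558) (nat_lit 464) (nat_lit 5583))) (.a (.f (nat_lit 461) (nat_lit 493) (nat_lit 7629) (.f (nat_lit 462) (nat_lit 429) (nat_lit 7597) (.f (nat_lit 495) (nat_lit 497) (nat_lit 3533) (.f (nat_lit 527) (nat_lit 622) (nat_lit 6638) (.d (nat_lit 430) (nat_lit 398) (nat_lit 4494) (nat_lit 559) (nat_lit 4526)))))) (.a (.f (nat_lit 461) (nat_lit 493) (nat_lit 7629) (.f (nat_lit 462) (nat_lit 429) (nat_lit 7597) (.f (nat_lit 495) (nat_lit 497) (nat_lit 3533) (.f (nat_lit 622) (nat_lit 527) (nat_lit 6638) (.d (nat_lit 623) (nat_lit 591) (nat_lit 4590) (nat_lit 655) (nat_lit 4622)))))) (.f (nat_lit 591) (nat_lit 623) (nat_lit 4590) (.f (nat_lit 464) (nat_lit 559) (nat_lit 5583) (.f (nat_lit 465) (nat_lit 433) (nat_lit 6576) (.d (nat_lit 493) (nat_lit 461) (nat_lit 7629) (nat_lit 495) (nat_lit 2509))))))))) (.a (.p (nat_lit 590) (.a (.f (nat_lit 589) (nat_lit 621) (nat_lit 5613) (.f (nat_lit 559) (nat_lit 561) (nat_lit 1581) (.d (nat_lit 588) (nat_lit 557) (nat_lit 1580) (nat_lit 587) (nat_lit 2603)))) (.a (.f (nat_lit 621) (nat_lit 589) (nat_lit 5613) (.f (nat_lit 622) (nat_lit 653) (nat_lit 5645) (.d (nat_lit 623) (nat_lit 591) (nat_lit 4590) (nat_lit 655) (nat_lit 4622)))) (.f (nat_lit 591) (nat_lit 623) (nat_lit 4590) (.f (nat_lit 464) (nat_lit 559) (nat_lit 5583) (.f (nat_lit 465) (nat_lit 433) (nat_lit 6576) (.d (nat_lit 493) (nat_lit 461) (nat_lit 7629) (nat_lit 495) (nat_lit 2509)))))))) (.p (nat_lit 590) (.a (.f (nat_lit 589) (nat_lit 621) (nat_lit 5613) (.f (nat_lit 559) (nat_lit 561) (nat_lit 1581) (.d (nat_lit 557) (nat_lit 462) (nat_lit 5581) (nat_lit 588) (nat_lit 1580)))) (.a (.f (nat_lit 621) (nat_lit 589) (nat_lit 5613) (.f (nat_lit 622) (nat_lit 653) (nat_lit 5645) (.d (nat_lit 623) (nat_lit 591) (nat_lit 4590) (nat_lit 655) (nat_lit 4622)))) (.f (nat_lit 591) (nat_lit 623) (nat_lit 4590) (.d (nat_lit 559) (nat_lit 462) (nat_lit 4558) (nat_lit 464) (nat_lit 5583)))))))))))))) (.a (.p (nat_lit 464) (.a (.f (nat_lit 431) (nat_lit 463) (nat_lit 7599) (.f (nat_lit 432) (nat_lit 399) (nat_lit 7567) (.d (nat_lit 433) (nat_lit 401) (nat_lit 6544) (nat_lit 465) (nat_lit 6576)))) (.a (.f (nat_lit 559) (nat_lit 591) (nat_lit 5583) (.f (nat_lit 432) (nat_lit 527) (nat_lit 5551) (.d (nat_lit 433) (nat_lit 401) (nat_lit 6544) (nat_lit 465) (nat_lit 6576)))) (.a (.f (nat_lit 559) (nat_lit 591) (nat_lit 5583) (.f (nat_lit 527) (nat_lit 432) (nat_lit 5551) (.f (nat_lit 462) (nat_lit 430) (nat_lit 4526) (.f (nat_lit 463) (nat_lit 431) (nat_lit 7599) (.f (nat_lit 461) (nat_lit 497) (nat_lit 461) (.d (nat_lit 429) (nat_lit 428) (nat_lit 3500) (nat_lit 558) (nat_lit 7597))))))) (.f (nat_lit 463) (nat_lit 431) (nat_lit 7599) (.f (nat_lit 465) (nat_lit 433) (nat_lit 6576) (.f (nat_lit 462) (nat_lit 493) (nat_lit 1485) (.d (nat_lit 497) (nat_lit 461) (nat_lit 461) (nat_lit 498) (nat_lit 462))))))))) (.a (.p (nat_lit 464) (.a (.f (nat_lit 465) (nat_lit 433) (nat_lit 6576) (.f (nat_lit 495) (nat_lit 493) (nat_lit 2509) (.d (nat_lit 466) (nat_lit 463) (nat_lit 1486) (nat_lit 467) (nat_lit 1487)))) (.a (.f (nat_lit 465) (nat_lit 433) (nat_lit 6576) (.f (nat_lit 495) (nat_lit 493) (nat_lit 2509) (.d (nat_lit 466) (nat_lit 467) (nat_lit 1487) (nat_lit 497) (nat_lit 2510)))) (.a (.f (nat_lit 431) (nat_lit 463) (nat_lit 7599) (.f (nat_lit 432) (nat_lit 399) (nat_lit 7567) (.d (nat_lit 433) (nat_lit 401) (nat_lit 6544) (nat_lit 465) (nat_lit 6576)))) (.f (nat_lit 559) (nat_lit 591) (nat_lit 5583) (.f (nat_lit 432) (nat_lit 527) (nat_lit 5551) (.d (nat_lit 431) (nat_lit 399) (nat_lit 7567) (nat_lit 463) (nat_lit 7599)))))))) (.a (.p (nat_lit 464) (.a (.f (nat_lit 431) (nat_lit 463) (nat_lit 7599) (.f (nat_lit 432) (nat_lit 399) (nat_lit 7567) (.d (nat_lit 433) (nat_lit 401) (nat_lit 6544) (nat_lit 465) (nat_lit 6576)))) (.a (.f (nat_lit 559) (nat_lit 591) (nat_lit 5583) (.f (nat_lit 432) (nat_lit 527) (nat_lit 5551) (.d (nat_lit 433) (nat_lit 401) (nat_lit 6544) (nat_lit 465) (nat_lit 6576)))) (.a (.f (nat_lit 559) (nat_lit 591) (nat_lit 5583) (.f (nat_lit 527) (nat_lit 432) (nat_lit 5551) (.f (nat_lit 462) (nat_lit 430) (nat_lit 4526) (.f (nat_lit 463) (nat_lit 431) (nat_lit 7599) (.f (nat_lit 461) (nat_lit 497) (nat_lit 461) (.d (nat_lit 429) (nat_lit 428) (nat_lit 3500) (nat_lit 558) (nat_lit 7597))))))) (.f (nat_lit 463) (nat_lit 431) (nat_lit 7599) (.f (nat_lit 465) (nat_lit 433) (nat_lit 6576) (.f (nat_lit 466) (nat_lit 495) (nat_lit 1486) (.f (nat_lit 498) (nat_lit 499) (nat_lit 463) (.f (nat_lit 462) (nat_lit 497) (nat_lit 462) (.f (nat_lit 429) (nat_lit 430) (nat_lit 3501) (.d (nat_lit 461) (nat_lit 428) (nat_lit 3500) (nat_lit 558) (nat_lit 7597)))))))))))) (.p (nat_lit 464) (.a (.f (nat_lit 465) (nat_lit 433) (nat_lit 6576) (.f (nat_lit 495) (nat_lit 493) (nat_lit 2509) (.d (nat_lit 466) (nat_lit 463) (nat_lit 1486) (nat_lit 467) (nat_lit 1487)))) (.a (.f (nat_lit 559) (nat_lit 591) (nat_lit 5583) (.f (nat_lit 432) (nat_lit 527) (nat_lit 5551) (.d (nat_lit 433) (nat_lit 401) (nat_lit 6544) (nat_lit 465) (nat_lit 6576)))) (.f (nat_lit 559) (nat_lit 591) (nat_lit 5583) (.f (nat_lit 432) (nat_lit 527) (nat_lit 5551) (.d (nat_lit 431) (nat_lit 399) (nat_lit 7567) (nat_lit 463) (nat_lit 7599)))))))))))))))) (.a s38681 (.a (.p (nat_lit 590) (.a (.p (nat_lit 592) (.a (.f (nat_lit 495) (nat_lit 463) (nat_lit 7631) (.f (nat_lit 527) (nat_lit 624) (nat_lit 7663) (.d (nat_lit 497) (nat_lit 465) (nat_lit 6608) (nat_lit 498) (nat_lit 1518)))) (.f (nat_lit 591) (nat_lit 623) (nat_lit 5615) (.f (nat_lit 589) (nat_lit 561) (nat_lit 2605) (.f (nat_lit 588) (nat_lit 559) (nat_lit 2604) (.d (nat_lit 620) (nat_lit 619) (nat_lit 1611) (nat_lit 621) (nat_lit 1612))))))) (.a (.p (nat_lit 558) (.a (.p (nat_lit 494) (.a (.f (nat_lit 589) (nat_lit 621) (nat_lit 5613) (.f (nat_lit 559) (nat_lit 561) (nat_lit 1581) (.d (nat_lit 557) (nat_lit 462) (nat_lit 5581) (nat_lit 588) (nat_lit 1580)))) (.a (.f (nat_lit 461) (nat_lit 493) (nat_lit 7629) (.f (nat_lit 462) (nat_lit 429) (nat_lit 7597) (.d (nat_lit 463) (nat_lit 431) (nat_lit 6574) (nat_lit 495) (nat_lit 6606)))) (.f (nat_lit 589) (nat_lit 621) (nat_lit 5613) (.f (nat_lit 559) (nat_lit 561) (nat_lit 1581) (.d (nat_lit 588) (nat_lit 557) (nat_lit 1580) (nat_lit 587) (nat_lit 2603))))))) (.a (.p (nat_lit 494) (.a (.f (nat_lit 461) (nat_lit 493) (nat_lit 7629) (.f (nat_lit 462) (nat_lit 429) (nat_lit 7597) (.d (nat_lit 463) (nat_lit 431) (nat_lit 6574) (nat_lit 495) (nat_lit 6606)))) (.a (.f (nat_lit 461) (nat_lit 493) (nat_lit 7629) (.f (nat_lit 462) (nat_lit 429) (nat_lit 7597) (.d (nat_lit 589) (nat_lit 557) (nat_lit 5581) (nat_lit 621) (nat_lit 5613)))) (.f (nat_lit 621) (nat_lit 589) (nat_lit 5613) (.f (nat_lit 622) (nat_lit 653) (nat_lit 5645) (.d (nat_lit 623) (nat_lit 591) (nat_lit 4590) (nat_lit 655) (nat_lit 4622))))))) (.a s38214 (.a (.p (nat_lit 494) (.a (.f (nat_lit 461) (nat_lit 493) (nat_lit 7629) (.f (nat_lit 462) (nat_lit 429) (nat_lit 7597) (.d (nat_lit 463) (nat_lit 431) (nat_lit 6574) (nat_lit 495) (nat_lit 6606)))) (.f (nat_lit 621) (nat_lit 589) (nat_lit 5613) (.f (nat_lit 622) (nat_lit 653) (nat_lit 5645) (.d (nat_lit 623) (nat_lit 591) (nat_lit 4590) (nat_lit 655) (nat_lit 4622)))))) (.a (.p (nat_lit 494) (.a (.f (nat_lit 461) (nat_lit 493) (nat_lit 7629) (.f (nat_lit 462) (nat_lit 429) (nat_lit 7597) (.d (nat_lit 463) (nat_lit 431) (nat_lit 6574) (nat_lit 495) (nat_lit 6606)))) (.a (.f (nat_lit 591) (nat_lit 623) (nat_lit 4590) (.f (nat_lit 462) (nat_lit 559) (nat_lit 4558) (.d (nat_lit 461) (nat_lit 429) (nat_lit 7597) (nat_lit 493) (nat_lit 7629)))) (.a (.f (nat_lit 495) (nat_lit 463) (nat_lit 6606) (.f (nat_lit 493) (nat_lit 461) (nat_lit 7629) (.d (nat_lit 527) (nat_lit 492) (nat_lit 492) (nat_lit 622) (nat_lit 6638)))) (.f (nat_lit 591) (nat_lit 623) (nat_lit 4590) (.f (nat_lit 462) (nat_lit 559) (nat_lit 4558) (.d (nat_lit 463) (nat_lit 431) (nat_lit 6574) (nat_lit 495) (nat_lit 6606)))))))) s38844)))))) (.a (.p (nat_lit 591) (.a (.f (nat_lit 592) (nat_lit 623) (nat_lit 5615) (.f (nat_lit 589) (nat_lit 561) (nat_lit 2605) (.f (nat_lit 588) (nat_lit 559) (nat_lit 2604) (.d (nat_lit 620) (nat_lit 619) (nat_lit 1611) (nat_lit 621) (nat_lit 1612))))) (.a (.p (nat_lit 558) (.a (.f (nat_lit 494) (nat_lit 623) (nat_lit 4590) (.f (nat_lit 589) (nat_lit 621) (nat_lit 5613) (.d (nat_lit 462) (nat_lit 557) (nat_lit 5581) (nat_lit 559) (nat_lit 4558)))) (.a (.f (nat_lit 494) (nat_lit 623) (nat_lit 4590) (.f (nat_lit 589) (nat_lit 621) (nat_lit 5613) (.f (nat_lit 462) (nat_lit 557) (nat_lit 5581) (.d (nat_lit 463) (nat_lit 431) (nat_lit 6574) (nat_lit 495) (nat_lit 6606))))) (.a (.f (nat_lit 494) (nat_lit 623) (nat_lit 4590) (.f (nat_lit 559) (nat_lit 462) (nat_lit 4558) (.d (nat_lit 589) (nat_lit 588) (nat_lit 2604) (nat_lit 621) (nat_lit 5613)))) (.a (.f (nat_lit 623) (nat_lit 494) (nat_lit 4590) (.d (nat_lit 655) (nat_lit 559) (nat_lit 6671) (nat_lit 622) (nat_lit 4622))) (.a (.p (nat_lit 494) (.a (.f (nat_lit 589) (nat_lit 621) (nat_lit 5613) (.d (nat_lit 462) (nat_lit 557) (nat_lit 5581) (nat_lit 559) (nat_lit 4558))) (.a (.f (nat_lit 589) (nat_lit 621) (nat_lit 5613) (.f (nat_lit 462) (nat_lit 557) (nat_lit 5581) (.d (nat_lit 463) (nat_lit 431) (nat_lit 6574) (nat_lit 495) (nat_lit 6606)))) (.a (.f (nat_lit 559) (nat_lit 462) (nat_lit 4558) (.d (nat_lit 589) (nat_lit 588) (nat_lit 2604) (nat_lit 621) (nat_lit 5613))) (.a (.f (nat_lit 462) (nat_lit 559) (nat_lit 4558) (.d (nat_lit 463) (nat_lit 431) (nat_lit 6574) (nat_lit 495) (nat_lit 6606))) (.f (nat_lit 589) (nat_lit 621) (nat_lit 5613) (.d (nat_lit 559) (nat_lit 561) (nat_lit 1581) (nat_lit 588) (nat_lit 2604)))))))) (.p (nat_lit 622) (.a (.f (nat_lit 623) (nat_lit 655) (nat_lit 4622) (.f (nat_lit 621) (nat_lit 653) (nat_lit 5645) (.f (nat_lit 620) (nat_lit 619) (nat_lit 2635) (.f (nat_lit 588) (nat_lit 587) (nat_lit 3659) (.d (nat_lit 589) (nat_lit 559) (nat_lit 2604) (nat_lit 624) (nat_lit 3660)))))) (.a (.f (nat_lit 655) (nat_lit 623) (nat_lit 4622) (.f (nat_lit 654) (nat_lit 687) (nat_lit 4654) (.d (nat_lit 653) (nat_lit 621) (nat_lit 5645) (nat_lit 685) (nat_lit 5677)))) (.a (.f (nat_lit 653) (nat_lit 621) (nat_lit 5645) (.f (nat_lit 654) (nat_lit 685) (nat_lit 5677) (.f (nat_lit 559) (nat_lit 686) (nat_lit 6702) (.d (nat_lit 589) (nat_lit 561) (nat_lit 1581) (nat_lit 588) (nat_lit 2604))))) (.f (nat_lit 655) (nat_lit 623) (nat_lit 4622) (.f (nat_lit 654) (nat_lit 687) (nat_lit 4654) (.f (nat_lit 559) (nat_lit 686) (nat_lit 6702) (.d (nat_lit 589) (nat_lit 561) (nat_lit 1581) (nat_lit 588) (nat_lit 2604))))))))))))))) (.a (.f (nat_lit 592) (nat_lit 623) (nat_lit 5615) (.f (nat_lit 589) (nat_lit 561) (nat_lit 2605) (.f (nat_lit 621) (nat_lit 620) (nat_lit 1612) (.f (nat_lit 558) (nat_lit 494) (nat_lit 5613) (.d (nat_lit 653) (nat_lit 557) (nat_lit 6669) (nat_lit 622) (nat_lit 5645)))))) (.a (.f (nat_lit 623) (nat_lit 592) (nat_lit 5615) (.f (nat_lit 558) (nat_lit 494) (nat_lit 4590) (.d (nat_lit 655) (nat_lit 559) (nat_lit 6671) (nat_lit 622) (nat_lit 4622)))) s38895))))) (.a (.p (nat_lit 558) (.a (.p (nat_lit 494) (.a (.f (nat_lit 589) (nat_lit 621) (nat_lit 5613) (.f (nat_lit 559) (nat_lit 561) (nat_lit 1581) (.d (nat_lit 557) (nat_lit 462) (nat_lit 5581) (nat_lit 588) (nat_lit 1580)))) (.a (.f (nat_lit 461) (nat_lit 493) (nat_lit 7629) (.f (nat_lit 462) (nat_lit 429) (nat_lit 7597) (.d (nat_lit 463) (nat_lit 431) (nat_lit 6574) (nat_lit 495) (nat_lit 6606)))) (.f (nat_lit 589) (nat_lit 621) (nat_lit 5613) (.f (nat_lit 559) (nat_lit 561) (nat_lit 1581) (.d (nat_lit 588) (nat_lit 557) (nat_lit 1580) (nat_lit 587) (nat_lit 2603))))))) (.a s38906 (.a s38907 (.a s38914 (.a (.p (nat_lit 495) (.a (.f (nat_lit 527) (nat_lit 622) (nat_lit 6638) (.d (nat_lit 463) (nat_lit 431) (nat_lit 4527) (nat_lit 559) (nat_lit 5582))) (.a (.d (nat_lit 463) (nat_lit 494) (nat_lit 6606) (nat_lit 592) (nat_lit 7631)) (.f (nat_lit 527) (nat_lit 622) (nat_lit 6638) (.f (nat_lit 497) (nat_lit 498) (nat_lit 1518) (.d (nat_lit 592) (nat_lit 465) (nat_lit 6608) (nat_lit 624) (nat_lit 7663))))))) (.a (.p (nat_lit 589) (.a (.f (nat_lit 559) (nat_lit 561) (nat_lit 1581) (.d (nat_lit 588) (nat_lit 557) (nat_lit 1580) (nat_lit 587) (nat_lit 2603))) (.a (.f (nat_lit 621) (nat_lit 494) (nat_lit 5613) (.d (nat_lit 653) (nat_lit 557) (nat_lit 6669) (nat_lit 622) (nat_lit 5645))) (.f (nat_lit 621) (nat_lit 494) (nat_lit 5613) (.d (nat_lit 653) (nat_lit 622) (nat_lit 5645) (nat_lit 685) (nat_lit 6701)))))) (.p (nat_lit 622) (.a (.f (nat_lit 655) (nat_lit 623) (nat_lit 4622) (.f (nat_lit 654) (nat_lit 687) (nat_lit 4654) (.d (nat_lit 653) (nat_lit 621) (nat_lit 5645) (nat_lit 685) (nat_lit 5677)))) (.a (.f (nat_lit 527) (nat_lit 495) (nat_lit 6638) (.f (nat_lit 559) (nat_lit 654) (nat_lit 6670) (.d (nat_lit 561) (nat_lit 562) (nat_lit 3598) (nat_lit 589) (nat_lit 1581)))) (.p (nat_lit 589) (.a (.f (nat_lit 623) (nat_lit 655) (nat_lit 4622) (.f (nat_lit 621) (nat_lit 653) (nat_lit 5645) (.d (nat_lit 624) (nat_lit 588) (nat_lit 3660) (nat_lit 625) (nat_lit 3661)))) (.a (.f (nat_lit 559) (nat_lit 561) (nat_lit 1581) (.d (nat_lit 588) (nat_lit 557) (nat_lit 1580) (nat_lit 587) (nat_lit 2603))) (.f (nat_lit 527) (nat_lit 495) (nat_lit 6638) (.f (nat_lit 621) (nat_lit 653) (nat_lit 5645) (.f (nat_lit 623) (nat_lit 655) (nat_lit 4622) (.f (nat_lit 559) (nat_lit 561) (nat_lit 1581) (.f (nat_lit 624) (nat_lit 625) (nat_lit 3661) (.d (nat_lit 656) (nat_lit 592) (nat_lit 7695) (nat_lit 657) (nat_lit 621)))))))))))))))))))) (.a (.p (nat_lit 592) (.a (.f (nat_lit 495) (nat_lit 463) (nat_lit 7631) (.f (nat_lit 527) (nat_lit 624) (nat_lit 7663) (.d (nat_lit 497) (nat_lit 465) (nat_lit 6608) (nat_lit 498) (nat_lit 1518)))) (.f (nat_lit 591) (nat_lit 623) (nat_lit 5615) (.f (nat_lit 589) (nat_lit 561) (nat_lit 2605) (.f (nat_lit 621) (nat_lit 620) (nat_lit 1612) (.f (nat_lit 558) (nat_lit 494) (nat_lit 5613) (.d (nat_lit 653) (nat_lit 557) (nat_lit 6669) (nat_lit 622) (nat_lit 5645)))))))) (.a (.p (nat_lit 558) (.a s38214 (.a s38907 (.a (.p (nat_lit 494) (.a (.f (nat_lit 461) (nat_lit 493) (nat_lit 7629) (.f (nat_lit 462) (nat_lit 429) (nat_lit 7597) (.d (nat_lit 589) (nat_lit 557) (nat_lit 5581) (nat_lit 621) (nat_lit 5613)))) (.a (.f (nat_lit 621) (nat_lit 589) (nat_lit 5613) (.f (nat_lit 622) (nat_lit 653) (nat_lit 5645) (.d (nat_lit 623) (nat_lit 591) (nat_lit 4590) (nat_lit 655) (nat_lit 4622)))) (.f (nat_lit 461) (nat_lit 493) (nat_lit 7629) (.f (nat_lit 462) (nat_lit 429) (nat_lit 7597) (.f (nat_lit 495) (nat_lit 497) (nat_lit 3533) (.f (nat_lit 622) (nat_lit 527) (nat_lit 6638) (.d (nat_lit 623) (nat_lit 591) (nat_lit 4590) (nat_lit 655) (nat_lit 4622))))))))) (.a (.p (nat_lit 494) (.a (.f (nat_lit 621) (nat_lit 589) (nat_lit 5613) (.f (nat_lit 622) (nat_lit 653) (nat_lit 5645) (.d (nat_lit 623) (nat_lit 591) (nat_lit 4590) (nat_lit 655) (nat_lit 4622)))) (.a (.f (nat_lit 461) (nat_lit 493) (nat_lit 7629) (.f (nat_lit 462) (nat_lit 429) (nat_lit 7597) (.f (nat_lit 495) (nat_lit 497) (nat_lit 3533) (.f (nat_lit 527) (nat_lit 622) (nat_lit 6638) (.d (nat_lit 430) (nat_lit 398) (nat_lit 4494) (nat_lit 559) (nat_lit 4526)))))) (.f (nat_lit 591) (nat_lit 623) (nat_lit 4590) (.f (nat_lit 462) (nat_lit 559) (nat_lit 4558) (.d (nat_lit 461) (nat_lit 429) (nat_lit 7597) (nat_lit 493) (nat_lit 7629))))))) (.a (.p (nat_lit 494) (.a (.f (nat_lit 591) (nat_lit 623) (nat_lit 4590) (.f (nat_lit 462) (nat_lit 559) (nat_lit 4558) (.d (nat_lit 461) (nat_lit 429) (nat_lit 7597) (nat_lit 493) (nat_lit 7629)))) (.a (.f (nat_lit 461) (nat_lit 493) (nat_lit 7629) (.f (nat_lit 462) (nat_lit 429) (nat_lit 7597) (.f (nat_lit 495) (nat_lit 497) (nat_lit 3533) (.f (nat_lit 527) (nat_lit 622) (nat_lit 6638) (.d (nat_lit 430) (nat_lit 398) (nat_lit 4494) (nat_lit 559) (nat_lit 4526)))))) (.a (.f (nat_lit 461) (nat_lit 493) (nat_lit 7629) (.f (nat_lit 462) (nat_lit 429) (nat_lit 7597) (.f (nat_lit 495) (nat_lit 497) (nat_lit 3533) (.f (nat_lit 622) (nat_lit 527) (nat_lit 6638) (.d (nat_lit 623) (nat_lit 591) (nat_lit 4590) (nat_lit 655) (nat_lit 4622)))))) (.f (nat_lit 623) (nat_lit 591) (nat_lit 4590) (.f (nat_lit 622) (nat_lit 655) (nat_lit 4622) (.f (nat_lit 527) (nat_lit 495) (nat_lit 6638) (.f (nat_lit 653) (nat_lit 621) (nat_lit 5645) (.d (nat_lit 654) (nat_lit 559) (nat_lit 6670) (nat_lit 685) (nat_lit 5677)))))))))) (.a s38844 (.a (.p (nat_lit 494) (.a (.f (nat_lit 589) (nat_lit 621) (nat_lit 5613) (.f (nat_lit 559) (nat_lit 561) (nat_lit 1581) (.d (nat_lit 557) (nat_lit 462) (nat_lit 5581) (nat_lit 588) (nat_lit 1580)))) (.a (.f (nat_lit 461) (nat_lit 493) (nat_lit 7629) (.f (nat_lit 462) (nat_lit 429) (nat_lit 7597) (.d (nat_lit 589) (nat_lit 557) (nat_lit 5581) (nat_lit 621) (nat_lit 5613)))) (.a (.f (nat_lit 591) (nat_lit 623) (nat_lit 4590) (.f (nat_lit 462) (nat_lit 559) (nat_lit 4558) (.d (nat_lit 461) (nat_lit 429) (nat_lit 7597) (nat_lit 493) (nat_lit 7629)))) (.f (nat_lit 589) (nat_lit 621) (nat_lit 5613) (.f (nat_lit 559) (nat_lit 561) (nat_lit 1581) (.d (nat_lit 588) (nat_lit 557) (nat_lit 1580) (nat_lit 587) (nat_lit 2603)))))))) (.p (nat_lit 494) (.a (.f (nat_lit 591) (nat_lit 623) (nat_lit 4590) (.f (nat_lit 462) (nat_lit 559) (nat_lit 4558) (.d (nat_lit 461) (nat_lit 429) (nat_lit 7597) (nat_lit 493) (nat_lit 7629)))) (.a (.f (nat_lit 461) (nat_lit 493) (nat_lit 7629) (.f (nat_lit 462) (nat_lit 429) (nat_lit 7597) (.f (nat_lit 495) (nat_lit 497) (nat_lit 3533) (.f (nat_lit 527) (nat_lit 622) (nat_lit 6638) (.d (nat_lit 430) (nat_lit 398) (nat_lit 4494) (nat_lit 559) (nat_lit 4526)))))) (.a (.f (nat_lit 461) (nat_lit 493) (nat_lit 7629) (.f (nat_lit 462) (nat_lit 429) (nat_lit 7597) (.f (nat_lit 495) (nat_lit 497) (nat_lit 3533) (.f (nat_lit 622) (nat_lit 527) (nat_lit 6638) (.d (nat_lit 623) (nat_lit 591) (nat_lit 4590) (nat_lit 655) (nat_lit 4622)))))) (.f (nat_lit 623) (nat_lit 591) (nat_lit 4590) (.f (nat_lit 622) (nat_lit 655) (nat_lit 4622) (.f (nat_lit 527) (nat_lit 495) (nat_lit 6638) (.f (nat_lit 559) (nat_lit 654) (nat_lit 6670) (.d (nat_lit 561) (nat_lit 562) (nat_lit 3598) (nat_lit 589) (nat_lit 1581)))))))))))))))))) (.a (.p (nat_lit 592) (.a (.f (nat_lit 495) (nat_lit 463) (nat_lit 7631) (.f (nat_lit 527) (nat_lit 624) (nat_lit 7663) (.d (nat_lit 497) (nat_lit 465) (nat_lit 6608) (nat_lit 498) (nat_lit 1518)))) (.a (.f (nat_lit 623) (nat_lit 591) (nat_lit 5615) (.f (nat_lit 624) (nat_lit 655) (nat_lit 5647) (.f (nat_lit 625) (nat_lit 657) (nat_lit 4624) (.f (nat_lit 622) (nat_lit 589) (nat_lit 3661) (.f (nat_lit 653) (nat_lit 654) (nat_lit 1645) (.d (nat_lit 621) (nat_lit 558) (nat_lit 5645) (nat_lit 652) (nat_lit 1644))))))) (.f (nat_lit 495) (nat_lit 463) (nat_lit 7631) (.f (nat_lit 497) (nat_lit 465) (nat_lit 6608) (.f (nat_lit 498) (nat_lit 527) (nat_lit 1518) (.f (nat_lit 531) (nat_lit 530) (nat_lit 495) (.f (nat_lit 499) (nat_lit 532) (nat_lit 496) (.d (nat_lit 467) (nat_lit 466) (nat_lit 2511) (nat_lit 468) (nat_lit 2512)))))))))) (.a (.p (nat_lit 495) (.a (.f (nat_lit 463) (nat_lit 592) (nat_lit 7631) (.d (nat_lit 431) (nat_lit 399) (nat_lit 4495) (nat_lit 527) (nat_lit 4527))) (.a (.p (nat_lit 558) (.a (.f (nat_lit 527) (nat_lit 622) (nat_lit 6638) (.d (nat_lit 463) (nat_lit 431) (nat_lit 4527) (nat_lit 559) (nat_lit 5582))) (.a (.f (nat_lit 494) (nat_lit 463) (nat_lit 6606) (.f (nat_lit 461) (nat_lit 493) (nat_lit 7629) (.d (nat_lit 462) (nat_lit 429) (nat_lit 7597) (nat_lit 497) (nat_lit 3533)))) (.f (nat_lit 622) (nat_lit 527) (nat_lit 6638) (.f (nat_lit 623) (nat_lit 655) (nat_lit 4622) (.f (nat_lit 494) (nat_lit 591) (nat_lit 4590) (.f (nat_lit 461) (nat_lit 493) (nat_lit 7629) (.d (nat_lit 462) (nat_lit 429) (nat_lit 7597) (nat_lit 497) (nat_lit 3533))))))))) (.a (.p (nat_lit 494) (.a (.d (nat_lit 463) (nat_lit 558) (nat_lit 6606) (nat_lit 592) (nat_lit 7631)) (.a (.f (nat_lit 558) (nat_lit 463) (nat_lit 6606) (.f (nat_lit 461) (nat_lit 493) (nat_lit 7629) (.d (nat_lit 462) (nat_lit 429) (nat_lit 7597) (nat_lit 497) (nat_lit 3533)))) (.a (.p (nat_lit 461) (.a (.d (nat_lit 493) (nat_lit 460) (nat_lit 3532) (nat_lit 558) (nat_lit 7629)) (.f (nat_lit 497) (nat_lit 462) (nat_lit 3533) (.d (nat_lit 465) (nat_lit 466) (nat_lit 2510) (nat_lit 592) (nat_lit 6608))))) (.p (nat_lit 497) (.a (.d (nat_lit 592) (nat_lit 463) (nat_lit 7631) (nat_lit 465) (nat_lit 6608)) (.a (.f (nat_lit 462) (nat_lit 461) (nat_lit 3533) (.f (nat_lit 498) (nat_lit 463) (nat_lit 3534) (.d (nat_lit 466) (nat_lit 465) (nat_lit 2510) (nat_lit 467) (nat_lit 2511)))) (.a (.d (nat_lit 465) (nat_lit 466) (nat_lit 2510) (nat_lit 592) (nat_lit 6608)) (.f (nat_lit 463) (nat_lit 592) (nat_lit 7631) (.d (nat_lit 462) (nat_lit 461) (nat_lit 3533) (nat_lit 498) (nat_lit 3534))))))))))) (.p (nat_lit 497) (.a (.f (nat_lit 527) (nat_lit 498) (nat_lit 1518) (.d (nat_lit 592) (nat_lit 465) (nat_lit 6608) (nat_lit 624) (nat_lit 7663))) (.a (.f (nat_lit 498) (nat_lit 527) (nat_lit 1518) (.f (nat_lit 466) (nat_lit 467) (nat_lit 2511) (.f (nat_lit 465) (nat_lit 494) (nat_lit 2510) (.f (nat_lit 530) (nat_lit 531) (nat_lit 495) (.d (nat_lit 433) (nat_lit 401) (nat_lit 5520) (nat_lit 562) (nat_lit 7601)))))) (.a (.f (nat_lit 465) (nat_lit 592) (nat_lit 6608) (.f (nat_lit 466) (nat_lit 494) (nat_lit 2510) (.d (nat_lit 467) (nat_lit 468) (nat_lit 1488) (nat_lit 498) (nat_lit 2511)))) (.a (.f (nat_lit 527) (nat_lit 498) (nat_lit 1518) (.f (nat_lit 592) (nat_lit 624) (nat_lit 7663) (.f (nat_lit 591) (nat_lit 623) (nat_lit 5615) (.d (nat_lit 622) (nat_lit 558) (nat_lit 6638) (nat_lit 559) (nat_lit 5614))))) (.f (nat_lit 592) (nat_lit 465) (nat_lit 6608) (.f (nat_lit 624) (nat_lit 527) (nat_lit 7663) (.d (nat_lit 623) (nat_lit 591) (nat_lit 5615) (nat_lit 655) (nat_lit 5647))))))))))))) (.a (.p (nat_lit 591) (.a (.f (nat_lit 592) (nat_lit 623) (nat_lit 5615) (.f (nat_lit 589) (nat_lit 561) (nat_lit 2605) (.f (nat_lit 588) (nat_lit 559) (nat_lit 2604) (.d (nat_lit 620) (nat_lit 619) (nat_lit 1611) (nat_lit 621) (nat_lit 1612))))) (.a (.p (nat_lit 559) (.a (.d (nat_lit 623) (nat_lit 527) (nat_lit 6639) (nat_lit 655) (nat_lit 6671)) (.f (nat_lit 589) (nat_lit 588) (nat_lit 2604) (.d (nat_lit 561) (nat_lit 558) (nat_lit 1581) (nat_lit 562) (nat_lit 1582))))) (.a (.f (nat_lit 592) (nat_lit 623) (nat_lit 5615) (.f (nat_lit 589) (nat_lit 561) (nat_lit 2605) (.f (nat_lit 621) (nat_lit 620) (nat_lit 1612) (.f (nat_lit 558) (nat_lit 494) (nat_lit 5613) (.d (nat_lit 653) (nat_lit 557) (nat_lit 6669) (nat_lit 622) (nat_lit 5645)))))) (.a (.f (nat_lit 623) (nat_lit 592) (nat_lit 5615) (.f (nat_lit 558) (nat_lit 494) (nat_lit 4590) (.d (nat_lit 655) (nat_lit 559) (nat_lit 6671) (nat_lit 622) (nat_lit 4622)))) s38895))))) (.p (nat_lit 558) (.a (.p (nat_lit 494) (.a (.f (nat_lit 589) (nat_lit 621) (nat_lit 5613) (.f (nat_lit 559) (nat_lit 561) (nat_lit 1581) (.d (nat_lit 557) (nat_lit 462) (nat_lit 5581) (nat_lit 588) (nat_lit 1580)))) (.a (.f (nat_lit 461) (nat_lit 493) (nat_lit 7629) (.f (nat_lit 462) (nat_lit 429) (nat_lit 7597) (.d (nat_lit 463) (nat_lit 431) (nat_lit 6574) (nat_lit 495) (nat_lit 6606)))) (.f (nat_lit 589) (nat_lit 621) (nat_lit 5613) (.f (nat_lit 559) (nat_lit 561) (nat_lit 1581) (.d (nat_lit 588) (nat_lit 557) (nat_lit 1580) (nat_lit 587) (nat_lit 2603))))))) (.a s38906 (.a s38907 (.a s38914 (.a (.p (nat_lit 495) (.a (.f (nat_lit 527) (nat_lit 622) (nat_lit 6638) (.d (nat_lit 463) (nat_lit 431) (nat_lit 4527) (nat_lit 559) (nat_lit 5582))) (.a (.d (nat_lit 463) (nat_lit 494) (nat_lit 6606) (nat_lit 592) (nat_lit 7631)) (.f (nat_lit 527) (nat_lit 622) (nat_lit 6638) (.f (nat_lit 497) (nat_lit 498) (nat_lit 1518) (.d (nat_lit 592) (nat_lit 465) (nat_lit 6608) (nat_lit 624) (nat_lit 7663))))))) (.a (.p (nat_lit 589) (.a (.f (nat_lit 559) (nat_lit 561) (nat_lit 1581) (.d (nat_lit 588) (nat_lit 557) (nat_lit 1580) (nat_lit 587) (nat_lit 2603))) (.a (.f (nat_lit 621) (nat_lit 494) (nat_lit 5613) (.d (nat_lit 653) (nat_lit 557) (nat_lit 6669) (nat_lit 622) (nat_lit 5645))) (.f (nat_lit 621) (nat_lit 494) (nat_lit 5613) (.d (nat_lit 653) (nat_lit 622) (nat_lit 5645) (nat_lit 685) (nat_lit 6701)))))) (.p (nat_lit 589) (.a (.f (nat_lit 559) (nat_lit 561) (nat_lit 1581) (.d (nat_lit 588) (nat_lit 557) (nat_lit 1580) (nat_lit 587) (nat_lit 2603))) (.a (.p (nat_lit 495) (.a (.f (nat_lit 527) (nat_lit 622) (nat_lit 6638) (.d (nat_lit 463) (nat_lit 431) (nat_lit 5550) (nat_lit 592) (nat_lit 7631))) (.a (.f (nat_lit 622) (nat_lit 527) (nat_lit 6638) (.f (nat_lit 653) (nat_lit 621) (nat_lit 5645) (.f (nat_lit 654) (nat_lit 685) (nat_lit 5677) (.f (nat_lit 687) (nat_lit 655) (nat_lit 4654) (.d (nat_lit 686) (nat_lit 557) (nat_lit 7725) (nat_lit 719) (nat_lit 4686)))))) (.a (.f (nat_lit 592) (nat_lit 463) (nat_lit 7631) (.f (nat_lit 591) (nat_lit 561) (nat_lit 2605) (.f (nat_lit 621) (nat_lit 620) (nat_lit 1612) (.d (nat_lit 653) (nat_lit 557) (nat_lit 6669) (nat_lit 622) (nat_lit 5645))))) (.f (nat_lit 592) (nat_lit 463) (nat_lit 7631) (.f (nat_lit 591) (nat_lit 561) (nat_lit 2605) (.d (nat_lit 624) (nat_lit 527) (nat_lit 7663) (nat_lit 625) (nat_lit 589)))))))) (.a (.f (nat_lit 559) (nat_lit 561) (nat_lit 1581) (.d (nat_lit 588) (nat_lit 587) (nat_lit 2603) (nat_lit 591) (nat_lit 2604))) (.p (nat_lit 622) (.a (.f (nat_lit 653) (nat_lit 621) (nat_lit 5645) (.f (nat_lit 654) (nat_lit 685) (nat_lit 5677) (.f (nat_lit 687) (nat_lit 655) (nat_lit 4654) (.d (nat_lit 686) (nat_lit 557) (nat_lit 7725) (nat_lit 719) (nat_lit 4686))))) (.a (.f (nat_lit 527) (nat_lit 495) (nat_lit 6638) (.f (nat_lit 654) (nat_lit 559) (nat_lit 6670) (.d (nat_lit 653) (nat_lit 621) (nat_lit 5645) (nat_lit 685) (nat_lit 5677)))) (.a (.f (nat_lit 527) (nat_lit 495) (nat_lit 6638) (.f (nat_lit 559) (nat_lit 654) (nat_lit 6670) (.d (nat_lit 588) (nat_lit 557) (nat_lit 1580) (nat_lit 591) (nat_lit 2604)))) (.f (nat_lit 621) (nat_lit 653) (nat_lit 5645) (.f (nat_lit 495) (nat_lit 527) (nat_lit 6638) (.f (nat_lit 592) (nat_lit 463) (nat_lit 7631) (.f (nat_lit 591) (nat_lit 620) (nat_lit 1612) (.f (nat_lit 588) (nat_lit 559) (nat_lit 2604) (.d (nat_lit 556) (nat_lit 555) (nat_lit 3627) (nat_lit 557) (nat_lit 3628)))))))))))))))))))))))))))))))) (.a (.p (nat_lit 464) (.a (.f (nat_lit 465) (nat_lit 433) (nat_lit 6576) (.f (nat_lit 463) (nat_lit 431) (nat_lit 7599) (.d (nat_lit 592) (nat_lit 495) (nat_lit 7631) (nat_lit 497) (nat_lit 6608)))) (.a (.f (nat_lit 433) (nat_lit 465) (nat_lit 6576) (.f (nat_lit 432) (nat_lit 401) (nat_lit 6544) (.d (nat_lit 431) (nat_lit 399) (nat_lit 7567) (nat_lit 463) (nat_lit 7599)))) (.a s39078 (.a (.p (nat_lit 432) (.a (.d (nat_lit 431) (nat_lit 399) (nat_lit 7567) (nat_lit 463) (nat_lit 7599)) (.a (.f (nat_lit 399) (nat_lit 431) (nat_lit 7567) (.f (nat_lit 400) (nat_lit 367) (nat_lit 7535) (.d (nat_lit 401) (nat_lit 369) (nat_lit 6512) (nat_lit 433) (nat_lit 6544)))) (.f (nat_lit 401) (nat_lit 433) (nat_lit 6544) (.f (nat_lit 400) (nat_lit 369) (nat_lit 6512) (.f (nat_lit 495) (nat_lit 527) (nat_lit 5519) (.d (nat_lit 463) (nat_lit 368) (nat_lit 5487) (nat_lit 592) (nat_lit 7631)))))))) (.p (nat_lit 495) (.a (.d (nat_lit 463) (nat_lit 431) (nat_lit 7599) (nat_lit 592) (nat_lit 7631)) (.a (.p (nat_lit 494) (.a (.f (nat_lit 463) (nat_lit 431) (nat_lit 7599) (.f (nat_lit 493) (nat_lit 492) (nat_lit 2508) (.f (nat_lit 461) (nat_lit 460) (nat_lit 3532) (.f (nat_lit 462) (nat_lit 497) (nat_lit 461) (.d (nat_lit 429) (nat_lit 397) (nat_lit 4493) (nat_lit 428) (nat_lit 3500)))))) (.a (.f (nat_lit 493) (nat_lit 465) (nat_lit 2509) (.f (nat_lit 527) (nat_lit 492) (nat_lit 492) (.f (nat_lit 461) (nat_lit 460) (nat_lit 3532) (.d (nat_lit 497) (nat_lit 462) (nat_lit 3533) (nat_lit 498) (nat_lit 1518))))) (.a (.f (nat_lit 463) (nat_lit 431) (nat_lit 7599) (.d (nat_lit 465) (nat_lit 466) (nat_lit 1486) (nat_lit 493) (nat_lit 2509))) (.f (nat_lit 431) (nat_lit 463) (nat_lit 7599) (.f (nat_lit 432) (nat_lit 399) (nat_lit 7567) (.f (nat_lit 527) (nat_lit 400) (nat_lit 5519) (.f (nat_lit 497) (nat_lit 498) (nat_lit 1518) (.f (nat_lit 465) (nat_lit 466) (nat_lit 2510) (.f (nat_lit 462) (nat_lit 461) (nat_lit 3533) (.d (nat_lit 430) (nat_lit 398) (nat_lit 4494) (nat_lit 429) (nat_lit 429)))))))))))) (.p (nat_lit 497) (.a (.f (nat_lit 465) (nat_lit 592) (nat_lit 6608) (.d (nat_lit 494) (nat_lit 466) (nat_lit 2510) (nat_lit 493) (nat_lit 2509))) (.a (.f (nat_lit 498) (nat_lit 527) (nat_lit 1518) (.f (nat_lit 466) (nat_lit 467) (nat_lit 2511) (.f (nat_lit 465) (nat_lit 494) (nat_lit 2510) (.f (nat_lit 499) (nat_lit 500) (nat_lit 3536) (.d (nat_lit 531) (nat_lit 530) (nat_lit 495) (nat_lit 532) (nat_lit 496)))))) (.a (.f (nat_lit 498) (nat_lit 527) (nat_lit 1518) (.f (nat_lit 531) (nat_lit 530) (nat_lit 495) (.f (nat_lit 499) (nat_lit 532) (nat_lit 496) (.d (nat_lit 467) (nat_lit 466) (nat_lit 2511) (nat_lit 468) (nat_lit 2512))))) (.f (nat_lit 527) (nat_lit 498) (nat_lit 1518) (.d (nat_lit 592) (nat_lit 465) (nat_lit 6608) (nat_lit 624) (nat_lit 7663))))))))))))))) (.a s39134 (.a s39138 (.a s39147 (.a (.p (nat_lit 592) (.a (.f (nat_lit 591) (nat_lit 623) (nat_lit 5615) (.f (nat_lit 464) (nat_lit 559) (nat_lit 5583) (.d (nat_lit 465) (nat_lit 433) (nat_lit 6576) (nat_lit 497) (nat_lit 6608)))) (.a (.f (nat_lit 495) (nat_lit 463) (nat_lit 7631) (.f (nat_lit 527) (nat_lit 624) (nat_lit 7663) (.d (nat_lit 497) (nat_lit 465) (nat_lit 6608) (nat_lit 498) (nat_lit 1518)))) (.f (nat_lit 591) (nat_lit 623) (nat_lit 5615) (.f (nat_lit 559) (nat_lit 464) (nat_lit 5583) (.f (nat_lit 495) (nat_lit 463) (nat_lit 7631) (.f (nat_lit 527) (nat_lit 624) (nat_lit 4591) (.f (nat_lit 590) (nat_lit 622) (nat_lit 5614) (.d (nat_lit 561) (nat_lit 562) (nat_lit 3598) (nat_lit 589) (nat_lit 2605)))))))))) (.p (nat_lit 592) (.a (.f (nat_lit 591) (nat_lit 623) (nat_lit 5615) (.f (nat_lit 464) (nat_lit 559) (nat_lit 5583) (.d (nat_lit 463) (nat_lit 431) (nat_lit 7599) (nat_lit 495) (nat_lit 7631)))) (.a (.f (nat_lit 495) (nat_lit 463) (nat_lit 7631) (.f (nat_lit 527) (nat_lit 624) (nat_lit 7663) (.d (nat_lit 497) (nat_lit 465) (nat_lit 6608) (nat_lit 498) (nat_lit 1518)))) (.a (.f (nat_lit 623) (nat_lit 591) (nat_lit 5615) (.f (nat_lit 624) (nat_lit 655) (nat_lit 5647) (.f (nat_lit 527) (nat_lit 495) (nat_lit 7663) (.f (nat_lit 657) (nat_lit 625) (nat_lit 4624) (.d (nat_lit 656) (nat_lit 559) (nat_lit 7695) (nat_lit 689) (nat_lit 4656)))))) (.p (nat_lit 624) (.a (.d (nat_lit 623) (nat_lit 591) (nat_lit 5615) (nat_lit 655) (nat_lit 5647)) (.a (.f (nat_lit 655) (nat_lit 623) (nat_lit 5647) (.f (nat_lit 656) (nat_lit 687) (nat_lit 5679) (.d (nat_lit 657) (nat_lit 625) (nat_lit 4624) (nat_lit 689) (nat_lit 4656)))) (.f (nat_lit 657) (nat_lit 625) (nat_lit 4624) (.f (nat_lit 656) (nat_lit 689) (nat_lit 4656) (.f (nat_lit 559) (nat_lit 527) (nat_lit 7695) (.d (nat_lit 591) (nat_lit 464) (nat_lit 5583) (nat_lit 688) (nat_lit 7727)))))))))))))))))))))) (.a s40716 (.a (.p (nat_lit 496) (.a s38285 (.a (.p (nat_lit 559) (.a (.f (nat_lit 591) (nat_lit 464) (nat_lit 5583) (.d (nat_lit 623) (nat_lit 527) (nat_lit 6639) (nat_lit 655) (nat_lit 6671))) (.a (.p (nat_lit 558) (.a (.f (nat_lit 525) (nat_lit 561) (nat_lit 3597) (.d (nat_lit 524) (nat_lit 523) (nat_lit 523) (nat_lit 557) (nat_lit 3596))) (.f (nat_lit 591) (nat_lit 464) (nat_lit 5583) (.f (nat_lit 623) (nat_lit 655) (nat_lit 6671) (.d (nat_lit 494) (nat_lit 462) (nat_lit 4558) (nat_lit 590) (nat_lit 4590)))))) (.p (nat_lit 525) (.a (.f (nat_lit 558) (nat_lit 561) (nat_lit 3597) (.d (nat_lit 524) (nat_lit 523) (nat_lit 523) (nat_lit 557) (nat_lit 3596))) (.a (.d (nat_lit 527) (nat_lit 524) (nat_lit 524) (nat_lit 561) (nat_lit 525)) (.a (.d (nat_lit 527) (nat_lit 497) (nat_lit 2541) (nat_lit 524) (nat_lit 524)) (.d (nat_lit 527) (nat_lit 497) (nat_lit 2541) (nat_lit 561) (nat_lit 525))))))))) (.a (.p (nat_lit 497) (.a (.f (nat_lit 527) (nat_lit 525) (nat_lit 2541) (.d (nat_lit 498) (nat_lit 495) (nat_lit 1518) (nat_lit 499) (nat_lit 1519))) (.f (nat_lit 465) (nat_lit 592) (nat_lit 6608) (.d (nat_lit 433) (nat_lit 401) (nat_lit 5520) (nat_lit 464) (nat_lit 6576))))) (.a s39134 (.a s40736 (.p (nat_lit 525) (.a (.f (nat_lit 527) (nat_lit 561) (nat_lit 525) (.d (nat_lit 524) (nat_lit 495) (nat_lit 2540) (nat_lit 559) (nat_lit 524))) (.a (.p (nat_lit 559) (.a (.f (nat_lit 558) (nat_lit 561) (nat_lit 3597) (.d (nat_lit 524) (nat_lit 523) (nat_lit 523) (nat_lit 557) (nat_lit 3596))) (.f (nat_lit 591) (nat_lit 464) (nat_lit 5583) (.d (nat_lit 623) (nat_lit 592) (nat_lit 5615) (nat_lit 655) (nat_lit 6671))))) (.a (.f (nat_lit 527) (nat_lit 561) (nat_lit 525) (.f (nat_lit 524) (nat_lit 495) (nat_lit 2540) (.d (nat_lit 556) (nat_lit 555) (nat_lit 1547) (nat_lit 557) (nat_lit 1548)))) (.a (.p (nat_lit 559) (.a (.f (nat_lit 591) (nat_lit 464) (nat_lit 5583) (.d (nat_lit 623) (nat_lit 592) (nat_lit 5615) (nat_lit 655) (nat_lit 6671))) (.a (.f (nat_lit 527) (nat_lit 524) (nat_lit 524) (.d (nat_lit 591) (nat_lit 464) (nat_lit 5583) (nat_lit 623) (nat_lit 6639))) (.a (.f (nat_lit 527) (nat_lit 524) (nat_lit 524) (.f (nat_lit 557) (nat_lit 556) (nat_lit 1548) (.f (nat_lit 493) (nat_lit 492) (nat_lit 3564) (.f (nat_lit 464) (nat_lit 432) (nat_lit 5551) (.f (nat_lit 465) (nat_lit 433) (nat_lit 6576) (.f (nat_lit 494) (nat_lit 495) (nat_lit 2509) (.d (nat_lit 462) (nat_lit 430) (nat_lit 4526) (nat_lit 589) (nat_lit 6605)))))))) (.f (nat_lit 524) (nat_lit 527) (nat_lit 524) (.d (nat_lit 558) (nat_lit 523) (nat_lit 523) (nat_lit 557) (nat_lit 3596))))))) (.f (nat_lit 561) (nat_lit 527) (nat_lit 525) (.f (nat_lit 559) (nat_lit 558) (nat_lit 3597) (.f (nat_lit 591) (nat_lit 464) (nat_lit 5583) (.d (nat_lit 623) (nat_lit 592) (nat_lit 5615) (nat_lit 655) (nat_lit 6671)))))))))))))))) (.a (.p (nat_lit 496) (.a s37826 (.a (.p (nat_lit 464) (.a (.f (nat_lit 433) (nat_lit 465) (nat_lit 6576) (.f (nat_lit 432) (nat_lit 401) (nat_lit 6544) (.d (nat_lit 431) (nat_lit 399) (nat_lit 7567) (nat_lit 463) (nat_lit 7599)))) (.a (.f (nat_lit 433) (nat_lit 465) (nat_lit 6576) (.f (nat_lit 432) (nat_lit 401) (nat_lit 6544) (.f (nat_lit 527) (nat_lit 559) (nat_lit 5551) (.f (nat_lit 400) (nat_lit 495) (nat_lit 5519) (.d (nat_lit 399) (nat_lit 367) (nat_lit 7535) (nat_lit 431) (nat_lit 7567)))))) (.a (.f (nat_lit 431) (nat_lit 463) (nat_lit 7599) (.f (nat_lit 432) (nat_lit 399) (nat_lit 7567) (.f (nat_lit 527) (nat_lit 559) (nat_lit 5551) (.f (nat_lit 401) (nat_lit 433) (nat_lit 6544) (.d (nat_lit 400) (nat_lit 369) (nat_lit 6512) (nat_lit 495) (nat_lit 5519)))))) (.a (.f (nat_lit 559) (nat_lit 591) (nat_lit 5583) (.f (nat_lit 432) (nat_lit 527) (nat_lit 5551) (.d (nat_lit 433) (nat_lit 401) (nat_lit 6544) (nat_lit 465) (nat_lit 6576)))) (.a (.f (nat_lit 559) (nat_lit 591) (nat_lit 5583) (.f (nat_lit 432) (nat_lit 527) (nat_lit 5551) (.d (nat_lit 431) (nat_lit 399) (nat_lit 7567) (nat_lit 463) (nat_lit 7599)))) (.p (nat_lit 497) (.a (.f (nat_lit 527) (nat_lit 525) (nat_lit 2541) (.d (nat_lit 498) (nat_lit 495) (nat_lit 1518) (nat_lit 499) (nat_lit 1519))) (.a (.f (nat_lit 463) (nat_lit 431) (nat_lit 7599) (.f (nat_lit 465) (nat_lit 433) (nat_lit 6576) (.d (nat_lit 498) (nat_lit 462) (nat_lit 462) (nat_lit 499) (nat_lit 3535)))) (.f (nat_lit 525) (nat_lit 527) (nat_lit 2541) (.f (nat_lit 465) (nat_lit 433) (nat_lit 6576) (.f (nat_lit 494) (nat_lit 495) (nat_lit 1517) (.f (nat_lit 463) (nat_lit 431) (nat_lit 7599) (.d (nat_lit 462) (nat_lit 461) (nat_lit 461) (nat_lit 493) (nat_lit 1485))))))))))))))) (.a s38681 (.a (.p (nat_lit 495) (.a s38682 (.a (.p (nat_lit 525) (.a (.f (nat_lit 494) (nat_lit 497) (nat_lit 1517) (.d (nat_lit 524) (nat_lit 493) (nat_lit 1516) (nat_lit 523) (nat_lit 2539))) (.a (.d (nat_lit 527) (nat_lit 497) (nat_lit 2541) (nat_lit 524) (nat_lit 2540)) (.a (.f (nat_lit 524) (nat_lit 527) (nat_lit 2540) (.d (nat_lit 494) (nat_lit 493) (nat_lit 1516) (nat_lit 523) (nat_lit 2539))) (.d (nat_lit 497) (nat_lit 494) (nat_lit 1517) (nat_lit 527) (nat_lit 2541)))))) (.f (nat_lit 463) (nat_lit 592) (nat_lit 7631) (.d (nat_lit 431) (nat_lit 399) (nat_lit 4495) (nat_lit 527) (nat_lit 4527)))))) (.a (.p (nat_lit 497) (.a (.f (nat_lit 527) (nat_lit 525) (nat_lit 2541) (.d (nat_lit 498) (nat_lit 495) (nat_lit 1518) (nat_lit 499) (nat_lit 1519))) (.f (nat_lit 465) (nat_lit 592) (nat_lit 6608) (.d (nat_lit 433) (nat_lit 401) (nat_lit 5520) (nat_lit 464) (nat_lit 6576))))) (.a s39138 s39147))))))) (.a (.p (nat_lit 496) (.a (.p (nat_lit 464) (.a (.f (nat_lit 559) (nat_lit 591) (nat_lit 5583) (.f (nat_lit 527) (nat_lit 432) (nat_lit 5551) (.d (nat_lit 525) (nat_lit 524) (nat_lit 524) (nat_lit 561) (nat_lit 525)))) (.f (nat_lit 465) (nat_lit 433) (nat_lit 6576) (.f (nat_lit 463) (nat_lit 431) (nat_lit 7599) (.d (nat_lit 592) (nat_lit 495) (nat_lit 7631) (nat_lit 497) (nat_lit 6608)))))) (.a s38661 (.a s37826 (.a s40736 (.a (.p (nat_lit 497) (.a (.f (nat_lit 527) (nat_lit 525) (nat_lit 2541) (.d (nat_lit 498) (nat_lit 495) (nat_lit 1518) (nat_lit 499) (nat_lit 1519))) (.f (nat_lit 465) (nat_lit 592) (nat_lit 6608) (.d (nat_lit 433) (nat_lit 401) (nat_lit 5520) (nat_lit 464) (nat_lit 6576))))) (.a s38693 (.a (.p (nat_lit 525) (.a (.p (nat_lit 495) (.a (.f (nat_lit 494) (nat_lit 497) (nat_lit 1517) (.d (nat_lit 524) (nat_lit 493) (nat_lit 1516) (nat_lit 523) (nat_lit 2539))) (.f (nat_lit 463) (nat_lit 592) (nat_lit 7631) (.d (nat_lit 431) (nat_lit 399) (nat_lit 4495) (nat_lit 464) (nat_lit 7599))))) (.a (.d (nat_lit 527) (nat_lit 497) (nat_lit 2541) (nat_lit 561) (nat_lit 525)) (.f (nat_lit 527) (nat_lit 561) (nat_lit 525) (.d (nat_lit 524) (nat_lit 495) (nat_lit 2540) (nat_lit 559) (nat_lit 524)))))) s38711)))))))) (.a (.p (nat_lit 558) (.a s37784 (.a (.p (nat_lit 494) (.a (.p (nat_lit 462) (.a (.f (nat_lit 559) (nat_lit 591) (nat_lit 4558) (.f (nat_lit 525) (nat_lit 561) (nat_lit 3597) (.d (nat_lit 557) (nat_lit 524) (nat_lit 3596) (nat_lit 589) (nat_lit 5581)))) (.a (.f (nat_lit 557) (nat_lit 589) (nat_lit 5581) (.f (nat_lit 525) (nat_lit 430) (nat_lit 5549) (.d (nat_lit 559) (nat_lit 524) (nat_lit 3596) (nat_lit 561) (nat_lit 3597)))) (.f (nat_lit 431) (nat_lit 463) (nat_lit 6574) (.f (nat_lit 430) (nat_lit 399) (nat_lit 6542) (.d (nat_lit 429) (nat_lit 397) (nat_lit 7565) (nat_lit 461) (nat_lit 7597))))))) (.a (.p (nat_lit 590) (.a (.f (nat_lit 589) (nat_lit 621) (nat_lit 5613) (.f (nat_lit 559) (nat_lit 561) (nat_lit 1581) (.d (nat_lit 557) (nat_lit 462) (nat_lit 5581) (nat_lit 588) (nat_lit 1580)))) (.a (.f (nat_lit 589) (nat_lit 621) (nat_lit 5613) (.f (nat_lit 462) (nat_lit 557) (nat_lit 5581) (.d (nat_lit 461) (nat_lit 429) (nat_lit 7597) (nat_lit 493) (nat_lit 7629)))) (.a (.f (nat_lit 493) (nat_lit 461) (nat_lit 7629) (.f (nat_lit 622) (nat_lit 525) (nat_lit 7661) (.d (nat_lit 621) (nat_lit 589) (nat_lit 5613) (nat_lit 653) (nat_lit 5645)))) (.f (nat_lit 493) (nat_lit 461) (nat_lit 7629) (.f (nat_lit 525) (nat_lit 622) (nat_lit 7661) (.f (nat_lit 559) (nat_lit 561) (nat_lit 3597) (.d (nat_lit 524) (nat_lit 523) (nat_lit 523) (nat_lit 557) (nat_lit 3596))))))))) (.a s37708 (.a s38622 (.a s40777 (.a (.p (nat_lit 559) (.a (.f (nat_lit 525) (nat_lit 561) (nat_lit 3597) (.d (nat_lit 524) (nat_lit 523) (nat_lit 523) (nat_lit 557) (nat_lit 3596))) (.f (nat_lit 591) (nat_lit 462) (nat_lit 4558) (.f (nat_lit 623) (nat_lit 655) (nat_lit 6671) (.d (nat_lit 496) (nat_lit 464) (nat_lit 5583) (nat_lit 592) (nat_lit 5615)))))) (.p (nat_lit 590) (.a (.f (nat_lit 589) (nat_lit 621) (nat_lit 5613) (.f (nat_lit 559) (nat_lit 561) (nat_lit 1581) (.d (nat_lit 588) (nat_lit 557) (nat_lit 1580) (nat_lit 587) (nat_lit 2603)))) (.a (.f (nat_lit 621) (nat_lit 589) (nat_lit 5613) (.f (nat_lit 622) (nat_lit 653) (nat_lit 5645) (.d (nat_lit 623) (nat_lit 591) (nat_lit 4590) (nat_lit 655) (nat_lit 4622)))) (.f (nat_lit 623) (nat_lit 591) (nat_lit 4590) (.f (nat_lit 622) (nat_lit 655) (nat_lit 4622) (.d (nat_lit 493) (nat_lit 461) (nat_lit 7629) (nat_lit 525) (nat_lit 7661)))))))))))))) (.a s38585 (.a (.p (nat_lit 590) (.a s40785 (.a (.p (nat_lit 589) (.a (.f (nat_lit 621) (nat_lit 494) (nat_lit 5613) (.d (nat_lit 653) (nat_lit 557) (nat_lit 6669) (nat_lit 622) (nat_lit 5645))) (.a (.f (nat_lit 621) (nat_lit 494) (nat_lit 5613) (.d (nat_lit 653) (nat_lit 622) (nat_lit 5645) (nat_lit 685) (nat_lit 6701))) (.f (nat_lit 559) (nat_lit 561) (nat_lit 1581) (.d (nat_lit 588) (nat_lit 557) (nat_lit 1580) (nat_lit 587) (nat_lit 2603)))))) (.a s40806 (.a (.p (nat_lit 494) (.a (.f (nat_lit 591) (nat_lit 623) (nat_lit 4590) (.f (nat_lit 559) (nat_lit 462) (nat_lit 4558) (.d (nat_lit 589) (nat_lit 588) (nat_lit 2604) (nat_lit 621) (nat_lit 5613)))) (.a (.f (nat_lit 589) (nat_lit 621) (nat_lit 5613) (.f (nat_lit 559) (nat_lit 561) (nat_lit 1581) (.f (nat_lit 461) (nat_lit 493) (nat_lit 7629) (.f (nat_lit 462) (nat_lit 429) (nat_lit 7597) (.f (nat_lit 431) (nat_lit 463) (nat_lit 6574) (.d (nat_lit 430) (nat_lit 399) (nat_lit 6542) (nat_lit 527) (nat_lit 4526))))))) (.a (.f (nat_lit 621) (nat_lit 589) (nat_lit 5613) (.f (nat_lit 622) (nat_lit 653) (nat_lit 5645) (.d (nat_lit 623) (nat_lit 591) (nat_lit 4590) (nat_lit 655) (nat_lit 4622)))) (.f (nat_lit 591) (nat_lit 623) (nat_lit 4590) (.f (nat_lit 462) (nat_lit 559) (nat_lit 4558) (.d (nat_lit 461) (nat_lit 429) (nat_lit 7597) (nat_lit 493) (nat_lit 7629)))))))) (.a s40840 (.a (.p (nat_lit 622) (.a (.f (nat_lit 655) (nat_lit 623) (nat_lit 4622) (.f (nat_lit 654) (nat_lit 687) (nat_lit 4654) (.d (nat_lit 653) (nat_lit 621) (nat_lit 5645) (nat_lit 685) (nat_lit 5677)))) (.a (.f (nat_lit 653) (nat_lit 621) (nat_lit 5645) (.f (nat_lit 654) (nat_lit 685) (nat_lit 5677) (.f (nat_lit 559) (nat_lit 527) (nat_lit 6670) (.f (nat_lit 687) (nat_lit 655) (nat_lit 4654) (.d (nat_lit 686) (nat_lit 591) (nat_lit 6702) (nat_lit 719) (nat_lit 4686)))))) (.a (.f (nat_lit 653) (nat_lit 621) (nat_lit 5645) (.f (nat_lit 654) (nat_lit 685) (nat_lit 5677) (.f (nat_lit 559) (nat_lit 527) (nat_lit 6670) (.f (nat_lit 589) (nat_lit 561) (nat_lit 1581) (.d (nat_lit 588) (nat_lit 557) (nat_lit 1580) (nat_lit 587) (nat_lit 2603)))))) (.a (.f (nat_lit 655) (nat_lit 623) (nat_lit 4622) (.f (nat_lit 654) (nat_lit 687) (nat_lit 4654) (.f (nat_lit 559) (nat_lit 527) (nat_lit 6670) (.f (nat_lit 589) (nat_lit 561) (nat_lit 1581) (.d (nat_lit 588) (nat_lit 557) (nat_lit 1580) (nat_lit 587) (nat_lit 2603)))))) (.p (nat_lit 589) (.a (.f (nat_lit 559) (nat_lit 561) (nat_lit 1581) (.d (nat_lit 588) (nat_lit 557) (nat_lit 1580) (nat_lit 587) (nat_lit 2603))) (.a (.f (nat_lit 623) (nat_lit 655) (nat_lit 4622) (.f (nat_lit 621) (nat_lit 653) (nat_lit 5645) (.d (nat_lit 624) (nat_lit 588) (nat_lit 3660) (nat_lit 625) (nat_lit 3661)))) (.f (nat_lit 621) (nat_lit 653) (nat_lit 5645) (.f (nat_lit 623) (nat_lit 655) (nat_lit 4622) (.f (nat_lit 624) (nat_lit 625) (nat_lit 3661) (.f (nat_lit 559) (nat_lit 561) (nat_lit 1581) (.f (nat_lit 656) (nat_lit 657) (nat_lit 621) (.d (nat_lit 527) (nat_lit 591) (nat_lit 4623) (nat_lit 592) (nat_lit 7695))))))))))))))) (.p (nat_lit 622) (.a (.f (nat_lit 623) (nat_lit 655) (nat_lit 4622) (.f (nat_lit 591) (nat_lit 494) (nat_lit 4590) (.f (nat_lit 496) (nat_lit 592) (nat_lit 5615) (.d (nat_lit 559) (nat_lit 464) (nat_lit 5583) (nat_lit 527) (nat_lit 6639))))) (.a (.f (nat_lit 655) (nat_lit 623) (nat_lit 4622) (.f (nat_lit 654) (nat_lit 687) (nat_lit 4654) (.f (nat_lit 559) (nat_lit 527) (nat_lit 6670) (.f (nat_lit 589) (nat_lit 561) (nat_lit 1581) (.d (nat_lit 588) (nat_lit 557) (nat_lit 1580) (nat_lit 587) (nat_lit 2603)))))) (.a (.f (nat_lit 623) (nat_lit 655) (nat_lit 4622) (.f (nat_lit 591) (nat_lit 494) (nat_lit 4590) (.f (nat_lit 592) (nat_lit 496) (nat_lit 5615) (.f (nat_lit 589) (nat_lit 561) (nat_lit 2605) (.d (nat_lit 588) (nat_lit 559) (nat_lit 2604) (nat_lit 587) (nat_lit 587)))))) (.a (.f (nat_lit 623) (nat_lit 655) (nat_lit 4622) (.f (nat_lit 591) (nat_lit 494) (nat_lit 4590) (.f (nat_lit 592) (nat_lit 496) (nat_lit 5615) (.f (nat_lit 589) (nat_lit 561) (nat_lit 2605) (.d (nat_lit 588) (nat_lit 587) (nat_lit 587) (nat_lit 624) (nat_lit 588)))))) (.p (nat_lit 559) (.a (.f (nat_lit 589) (nat_lit 561) (nat_lit 1581) (.d (nat_lit 588) (nat_lit 557) (nat_lit 1580) (nat_lit 587) (nat_lit 2603))) (.a (.f (nat_lit 654) (nat_lit 527) (nat_lit 6670) (.f (nat_lit 591) (nat_lit 686) (nat_lit 6702) (.d (nat_lit 561) (nat_lit 562) (nat_lit 1582) (nat_lit 589) (nat_lit 1581)))) (.f (nat_lit 654) (nat_lit 527) (nat_lit 6670) (.f (nat_lit 686) (nat_lit 591) (nat_lit 6702) (.d (nat_lit 685) (nat_lit 653) (nat_lit 5677) (nat_lit 717) (nat_lit 5709))))))))))))))))))) (.a (.p (nat_lit 590) (.a s37719 (.a s40806 (.a (.p (nat_lit 494) (.a (.f (nat_lit 493) (nat_lit 461) (nat_lit 7629) (.f (nat_lit 525) (nat_lit 622) (nat_lit 7661) (.d (nat_lit 527) (nat_lit 492) (nat_lit 3564) (nat_lit 561) (nat_lit 525)))) (.a (.f (nat_lit 589) (nat_lit 621) (nat_lit 5613) (.f (nat_lit 462) (nat_lit 557) (nat_lit 5581) (.d (nat_lit 461) (nat_lit 429) (nat_lit 7597) (nat_lit 493) (nat_lit 7629)))) (.a (.f (nat_lit 589) (nat_lit 621) (nat_lit 5613) (.f (nat_lit 462) (nat_lit 557) (nat_lit 5581) (.f (nat_lit 431) (nat_lit 463) (nat_lit 6574) (.f (nat_lit 430) (nat_lit 399) (nat_lit 6542) (.d (nat_lit 429) (nat_lit 397) (nat_lit 7565) (nat_lit 461) (nat_lit 7597)))))) (.f (nat_lit 621) (nat_lit 589) (nat_lit 5613) (.f (nat_lit 622) (nat_lit 653) (nat_lit 5645) (.f (nat_lit 525) (nat_lit 493) (nat_lit 7661) (.f (nat_lit 527) (nat_lit 561) (nat_lit 525) (.d (nat_lit 557) (nat_lit 556) (nat_lit 1548) (nat_lit 654) (nat_lit 7693)))))))))) (.a s40890 (.a (.p (nat_lit 525) (.a (.f (nat_lit 527) (nat_lit 561) (nat_lit 525) (.d (nat_lit 493) (nat_lit 492) (nat_lit 3564) (nat_lit 622) (nat_lit 7661))) (.a (.f (nat_lit 622) (nat_lit 493) (nat_lit 7661) (.f (nat_lit 654) (nat_lit 557) (nat_lit 7693) (.d (nat_lit 653) (nat_lit 621) (nat_lit 5645) (nat_lit 685) (nat_lit 5677)))) (.a (.f (nat_lit 527) (nat_lit 561) (nat_lit 525) (.f (nat_lit 557) (nat_lit 556) (nat_lit 1548) (.f (nat_lit 622) (nat_lit 654) (nat_lit 7693) (.f (nat_lit 623) (nat_lit 655) (nat_lit 4622) (.f (nat_lit 496) (nat_lit 497) (nat_lit 2541) (.d (nat_lit 591) (nat_lit 494) (nat_lit 4590) (nat_lit 592) (nat_lit 5615))))))) (.f (nat_lit 527) (nat_lit 561) (nat_lit 525) (.f (nat_lit 557) (nat_lit 556) (nat_lit 1548) (.d (nat_lit 493) (nat_lit 461) (nat_lit 4557) (nat_lit 492) (nat_lit 3564)))))))) (.a (.p (nat_lit 525) (.a (.f (nat_lit 527) (nat_lit 561) (nat_lit 525) (.d (nat_lit 493) (nat_lit 492) (nat_lit 3564) (nat_lit 622) (nat_lit 7661))) (.a (.f (nat_lit 622) (nat_lit 493) (nat_lit 7661) (.f (nat_lit 654) (nat_lit 557) (nat_lit 7693) (.d (nat_lit 653) (nat_lit 621) (nat_lit 5645) (nat_lit 685) (nat_lit 5677)))) (.a (.f (nat_lit 527) (nat_lit 561) (nat_lit 525) (.f (nat_lit 557) (nat_lit 556) (nat_lit 1548) (.f (nat_lit 622) (nat_lit 654) (nat_lit 7693) (.f (nat_lit 621) (nat_lit 653) (nat_lit 5645) (.f (nat_lit 623) (nat_lit 655) (nat_lit 4622) (.f (nat_lit 496) (nat_lit 497) (nat_lit 2541) (.f (nat_lit 591) (nat_lit 592) (nat_lit 5615) (.f (nat_lit 620) (nat_lit 619) (nat_lit 2635) (.d (nat_lit 652) (nat_lit 589) (nat_lit 5644) (nat_lit 651) (nat_lit 1643)))))))))) (.f (nat_lit 527) (nat_lit 561) (nat_lit 525) (.f (nat_lit 557) (nat_lit 556) (nat_lit 1548) (.d (nat_lit 493) (nat_lit 461) (nat_lit 4557) (nat_lit 492) (nat_lit 3564)))))))) (.a s40920 (.a (.p (nat_lit 494) (.a (.f (nat_lit 589) (nat_lit 621) (nat_lit 5613) (.f (nat_lit 462) (nat_lit 557) (nat_lit 5581) (.d (nat_lit 461) (nat_lit 429) (nat_lit 7597) (nat_lit 493) (nat_lit 7629)))) (.a s40149 (.a (.p (nat_lit 462) (.a (.d (nat_lit 461) (nat_lit 429) (nat_lit 7597) (nat_lit 493) (nat_lit 7629)) (.a (.f (nat_lit 431) (nat_lit 463) (nat_lit 6574) (.f (nat_lit 430) (nat_lit 399) (nat_lit 6542) (.d (nat_lit 429) (nat_lit 397) (nat_lit 7565) (nat_lit 461) (nat_lit 7597)))) (.f (nat_lit 431) (nat_lit 463) (nat_lit 6574) (.f (nat_lit 430) (nat_lit 399) (nat_lit 6542) (.f (nat_lit 525) (nat_lit 557) (nat_lit 5549) (.f (nat_lit 527) (nat_lit 561) (nat_lit 525) (.d (nat_lit 493) (nat_lit 398) (nat_lit 5517) (nat_lit 492) (nat_lit 3564))))))))) (.a (.f (nat_lit 493) (nat_lit 461) (nat_lit 7629) (.f (nat_lit 591) (nat_lit 623) (nat_lit 4590) (.f (nat_lit 589) (nat_lit 621) (nat_lit 5613) (.f (nat_lit 592) (nat_lit 561) (nat_lit 2605) (.f (nat_lit 556) (nat_lit 557) (nat_lit 3628) (.f (nat_lit 588) (nat_lit 555) (nat_lit 3627) (.f (nat_lit 620) (nat_lit 619) (nat_lit 1611) (.f (nat_lit 524) (nat_lit 525) (nat_lit 6636) (.f (nat_lit 491) (nat_lit 523) (nat_lit 7659) (.d (nat_lit 492) (nat_lit 459) (nat_lit 7627) (nat_lit 527) (nat_lit 491))))))))))) (.a (.f (nat_lit 589) (nat_lit 621) (nat_lit 5613) (.f (nat_lit 462) (nat_lit 557) (nat_lit 5581) (.f (nat_lit 431) (nat_lit 463) (nat_lit 6574) (.f (nat_lit 430) (nat_lit 399) (nat_lit 6542) (.d (nat_lit 429) (nat_lit 397) (nat_lit 7565) (nat_lit 461) (nat_lit 7597)))))) (.f (nat_lit 589) (nat_lit 621) (nat_lit 5613) (.f (nat_lit 591) (nat_lit 623) (nat_lit 4590) (.f (nat_lit 557) (nat_lit 462) (nat_lit 5581) (.d (nat_lit 592) (nat_lit 556) (nat_lit 3628) (nat_lit 561) (nat_lit 2605))))))))))) s40930))))))))) (.a (.p (nat_lit 494) (.a (.p (nat_lit 462) (.a (.f (nat_lit 559) (nat_lit 591) (nat_lit 4558) (.f (nat_lit 527) (nat_lit 430) (nat_lit 4526) (.d (nat_lit 561) (nat_lit 525) (nat_lit 3597) (nat_lit 562) (nat_lit 3598)))) (.a (.f (nat_lit 431) (nat_lit 463) (nat_lit 6574) (.f (nat_lit 430) (nat_lit 399) (nat_lit 6542) (.d (nat_lit 429) (nat_lit 397) (nat_lit 7565) (nat_lit 461) (nat_lit 7597)))) (.f (nat_lit 559) (nat_lit 591) (nat_lit 4558) (.f (nat_lit 525) (nat_lit 561) (nat_lit 3597) (.d (nat_lit 524) (nat_lit 523) (nat_lit 523) (nat_lit 527) (nat_lit 524))))))) (.a s40777 (.a (.p (nat_lit 462) (.a (.f (nat_lit 431) (nat_lit 463) (nat_lit 6574) (.f (nat_lit 430) (nat_lit 399) (nat_lit 6542) (.d (nat_lit 429) (nat_lit 397) (nat_lit 7565) (nat_lit 461) (nat_lit 7597)))) (.a (.f (nat_lit 429) (nat_lit 461) (nat_lit 7597) (.f (nat_lit 430) (nat_lit 397) (nat_lit 7565) (.f (nat_lit 527) (nat_lit 559) (nat_lit 4526) (.f (nat_lit 525) (nat_lit 561) (nat_lit 525) (.d (nat_lit 493) (nat_lit 398) (nat_lit 5517) (nat_lit 492) (nat_lit 3564)))))) (.a (.f (nat_lit 431) (nat_lit 463) (nat_lit 6574) (.f (nat_lit 430) (nat_lit 399) (nat_lit 6542) (.f (nat_lit 527) (nat_lit 559) (nat_lit 4526) (.f (nat_lit 525) (nat_lit 561) (nat_lit 525) (.d (nat_lit 493) (nat_lit 398) (nat_lit 5517) (nat_lit 492) (nat_lit 3564)))))) (.f (nat_lit 461) (nat_lit 429) (nat_lit 7597) (.f (nat_lit 463) (nat_lit 431) (nat_lit 6574) (.f (nat_lit 493) (nat_lit 590) (nat_lit 7629) (.d (nat_lit 492) (nat_lit 464) (nat_lit 1484) (nat_lit 491) (nat_lit 2507))))))))) (.a (.p (nat_lit 462) (.a (.f (nat_lit 431) (nat_lit 463) (nat_lit 6574) (.f (nat_lit 430) (nat_lit 399) (nat_lit 6542) (.d (nat_lit 429) (nat_lit 397) (nat_lit 7565) (nat_lit 461) (nat_lit 7597)))) (.f (nat_lit 591) (nat_lit 559) (nat_lit 4558) (.f (nat_lit 623) (nat_lit 590) (nat_lit 4590) (.f (nat_lit 592) (nat_lit 496) (nat_lit 5615) (.d (nat_lit 655) (nat_lit 624) (nat_lit 5647) (nat_lit 687) (nat_lit 6703))))))) (.a s40150 (.a (.p (nat_lit 590) (.a (.f (nat_lit 493) (nat_lit 461) (nat_lit 7629) (.f (nat_lit 525) (nat_lit 622) (nat_lit 7661) (.d (nat_lit 527) (nat_lit 492) (nat_lit 3564) (nat_lit 561) (nat_lit 525)))) (.a (.f (nat_lit 591) (nat_lit 623) (nat_lit 4590) (.f (nat_lit 589) (nat_lit 621) (nat_lit 5613) (.d (nat_lit 559) (nat_lit 561) (nat_lit 1581) (nat_lit 588) (nat_lit 2604)))) (.f (nat_lit 493) (nat_lit 461) (nat_lit 7629) (.f (nat_lit 525) (nat_lit 622) (nat_lit 7661) (.f (nat_lit 527) (nat_lit 492) (nat_lit 3564) (.f (nat_lit 559) (nat_lit 524) (nat_lit 524) (.f (nat_lit 591) (nat_lit 623) (nat_lit 4590) (.d (nat_lit 589) (nat_lit 588) (nat_lit 2604) (nat_lit 621) (nat_lit 5613)))))))))) (.p (nat_lit 590) (.a (.f (nat_lit 591) (nat_lit 623) (nat_lit 4590) (.f (nat_lit 559) (nat_lit 462) (nat_lit 4558) (.d (nat_lit 561) (nat_lit 525) (nat_lit 3597) (nat_lit 589) (nat_lit 1581)))) (.a (.f (nat_lit 621) (nat_lit 589) (nat_lit 5613) (.f (nat_lit 622) (nat_lit 653) (nat_lit 5645) (.f (nat_lit 525) (nat_lit 493) (nat_lit 7661) (.d (nat_lit 561) (nat_lit 527) (nat_lit 525) (nat_lit 559) (nat_lit 3597))))) (.a (.f (nat_lit 591) (nat_lit 623) (nat_lit 4590) (.f (nat_lit 559) (nat_lit 462) (nat_lit 4558) (.d (nat_lit 589) (nat_lit 588) (nat_lit 2604) (nat_lit 621) (nat_lit 5613)))) (.a (.f (nat_lit 621) (nat_lit 589) (nat_lit 5613) (.f (nat_lit 622) (nat_lit 653) (nat_lit 5645) (.d (nat_lit 623) (nat_lit 591) (nat_lit 4590) (nat_lit 655) (nat_lit 4622)))) (.f (nat_lit 591) (nat_lit 623) (nat_lit 4590) (.f (nat_lit 559) (nat_lit 462) (nat_lit 4558) (.d (nat_lit 561) (nat_lit 525) (nat_lit 3597) (nat_lit 562) (nat_lit 1582)))))))))))))))) (.a (.p (nat_lit 494) (.a s37700 (.a s38622 (.a (.p (nat_lit 590) (.a (.f (nat_lit 493) (nat_lit 461) (nat_lit 7629) (.f (nat_lit 525) (nat_lit 622) (nat_lit 7661) (.f (nat_lit 527) (nat_lit 492) (nat_lit 3564) (.f (nat_lit 557) (nat_lit 556) (nat_lit 1548) (.d (nat_lit 589) (nat_lit 462) (nat_lit 6605) (nat_lit 621) (nat_lit 5613)))))) (.a (.f (nat_lit 589) (nat_lit 621) (nat_lit 5613) (.f (nat_lit 462) (nat_lit 557) (nat_lit 5581) (.d (nat_lit 461) (nat_lit 429) (nat_lit 7597) (nat_lit 493) (nat_lit 7629)))) (.a (.f (nat_lit 493) (nat_lit 461) (nat_lit 7629) (.f (nat_lit 622) (nat_lit 525) (nat_lit 7661) (.d (nat_lit 621) (nat_lit 589) (nat_lit 5613) (nat_lit 653) (nat_lit 5645)))) (.a (.f (nat_lit 493) (nat_lit 461) (nat_lit 7629) (.f (nat_lit 525) (nat_lit 622) (nat_lit 7661) (.f (nat_lit 527) (nat_lit 492) (nat_lit 3564) (.f (nat_lit 524) (nat_lit 559) (nat_lit 524) (.d (nat_lit 556) (nat_lit 555) (nat_lit 1547) (nat_lit 557) (nat_lit 1548)))))) (.a (.f (nat_lit 589) (nat_lit 621) (nat_lit 5613) (.f (nat_lit 462) (nat_lit 557) (nat_lit 5581) (.f (nat_lit 431) (nat_lit 463) (nat_lit 6574) (.f (nat_lit 430) (nat_lit 399) (nat_lit 6542) (.d (nat_lit 429) (nat_lit 397) (nat_lit 7565) (nat_lit 461) (nat_lit 7597)))))) (.f (nat_lit 589) (nat_lit 621) (nat_lit 5613) (.f (nat_lit 557) (nat_lit 462) (nat_lit 5581) (.f (nat_lit 559) (nat_lit 588) (nat_lit 1580) (.f (nat_lit 525) (nat_lit 524) (nat_lit 3596) (.d (nat_lit 622) (nat_lit 493) (nat_lit 7661) (nat_lit 654) (nat_lit 7693)))))))))))) (.a (.p (nat_lit 462) (.a (.f (nat_lit 431) (nat_lit 463) (nat_lit 6574) (.f (nat_lit 430) (nat_lit 399) (nat_lit 6542) (.d (nat_lit 429) (nat_lit 397) (nat_lit 7565) (nat_lit 461) (nat_lit 7597)))) (.f (nat_lit 591) (nat_lit 559) (nat_lit 4558) (.f (nat_lit 623) (nat_lit 590) (nat_lit 4590) (.f (nat_lit 592) (nat_lit 496) (nat_lit 5615) (.d (nat_lit 655) (nat_lit 624) (nat_lit 5647) (nat_lit 687) (nat_lit 6703))))))) (.a (.p (nat_lit 590) (.a (.f (nat_lit 493) (nat_lit 461) (nat_lit 7629) (.f (nat_lit 525) (nat_lit 622) (nat_lit 7661) (.f (nat_lit 527) (nat_lit 492) (nat_lit 3564) (.f (nat_lit 559) (nat_lit 524) (nat_lit 524) (.f (nat_lit 591) (nat_lit 623) (nat_lit 4590) (.d (nat_lit 589) (nat_lit 588) (nat_lit 2604) (nat_lit 621) (nat_lit 5613))))))) (.a (.f (nat_lit 621) (nat_lit 589) (nat_lit 5613) (.f (nat_lit 622) (nat_lit 653) (nat_lit 5645) (.d (nat_lit 623) (nat_lit 591) (nat_lit 4590) (nat_lit 655) (nat_lit 4622)))) (.a (.f (nat_lit 493) (nat_lit 461) (nat_lit 7629) (.f (nat_lit 622) (nat_lit 525) (nat_lit 7661) (.d (nat_lit 621) (nat_lit 589) (nat_lit 5613) (nat_lit 653) (nat_lit 5645)))) (.a (.f (nat_lit 623) (nat_lit 591) (nat_lit 4590) (.f (nat_lit 622) (nat_lit 655) (nat_lit 4622) (.d (nat_lit 493) (nat_lit 461) (nat_lit 7629) (nat_lit 525) (nat_lit 7661)))) (.f (nat_lit 591) (nat_lit 623) (nat_lit 4590) (.f (nat_lit 589) (nat_lit 621) (nat_lit 5613) (.f (nat_lit 588) (nat_lit 559) (nat_lit 2604) (.f (nat_lit 556) (nat_lit 555) (nat_lit 3627) (.f (nat_lit 557) (nat_lit 592) (nat_lit 3628) (.f (nat_lit 620) (nat_lit 619) (nat_lit 1611) (.d (nat_lit 493) (nat_lit 461) (nat_lit 7629) (nat_lit 525) (nat_lit 5612))))))))))))) (.p (nat_lit 590) (.a (.f (nat_lit 591) (nat_lit 623) (nat_lit 4590) (.f (nat_lit 559) (nat_lit 462) (nat_lit 4558) (.d (nat_lit 589) (nat_lit 588) (nat_lit 2604) (nat_lit 621) (nat_lit 5613)))) (.a (.f (nat_lit 589) (nat_lit 621) (nat_lit 5613) (.f (nat_lit 557) (nat_lit 462) (nat_lit 5581) (.f (nat_lit 559) (nat_lit 588) (nat_lit 1580) (.f (nat_lit 525) (nat_lit 524) (nat_lit 3596) (.d (nat_lit 622) (nat_lit 493) (nat_lit 7661) (nat_lit 654) (nat_lit 7693)))))) (.a (.f (nat_lit 589) (nat_lit 621) (nat_lit 5613) (.f (nat_lit 557) (nat_lit 462) (nat_lit 5581) (.f (nat_lit 623) (nat_lit 591) (nat_lit 4590) (.f (nat_lit 622) (nat_lit 655) (nat_lit 4622) (.d (nat_lit 654) (nat_lit 525) (nat_lit 7693) (nat_lit 686) (nat_lit 7725)))))) (.a (.f (nat_lit 623) (nat_lit 591) (nat_lit 4590) (.f (nat_lit 622) (nat_lit 655) (nat_lit 4622) (.f (nat_lit 653) (nat_lit 621) (nat_lit 5645) (.f (nat_lit 654) (nat_lit 685) (nat_lit 5677) (.d (nat_lit 525) (nat_lit 493) (nat_lit 7661) (nat_lit 557) (nat_lit 7693)))))) (.f (nat_lit 591) (nat_lit 623) (nat_lit 4590) (.f (nat_lit 462) (nat_lit 559) (nat_lit 4558) (.f (nat_lit 557) (nat_lit 589) (nat_lit 5581) (.f (nat_lit 525) (nat_lit 430) (nat_lit 5549) (.d (nat_lit 556) (nat_lit 527) (nat_lit 1548) (nat_lit 555) (nat_lit 555))))))))))))))))) (.a (.p (nat_lit 525) (.a (.f (nat_lit 559) (nat_lit 561) (nat_lit 3597) (.d (nat_lit 524) (nat_lit 523) (nat_lit 523) (nat_lit 557) (nat_lit 3596))) (.a (.f (nat_lit 527) (nat_lit 561) (nat_lit 525) (.f (nat_lit 557) (nat_lit 556) (nat_lit 1548) (.f (nat_lit 493) (nat_lit 492) (nat_lit 3564) (.d (nat_lit 461) (nat_lit 429) (nat_lit 4525) (nat_lit 590) (nat_lit 4557))))) (.a (.d (nat_lit 561) (nat_lit 527) (nat_lit 525) (nat_lit 559) (nat_lit 3597)) (.p (nat_lit 493) (.a (.f (nat_lit 527) (nat_lit 492) (nat_lit 3564) (.f (nat_lit 559) (nat_lit 524) (nat_lit 524) (.f (nat_lit 557) (nat_lit 556) (nat_lit 2572) (.d (nat_lit 461) (nat_lit 429) (nat_lit 4525) (nat_lit 590) (nat_lit 4557))))) (.a (.f (nat_lit 461) (nat_lit 429) (nat_lit 4525) (.d (nat_lit 590) (nat_lit 557) (nat_lit 4557) (nat_lit 622) (nat_lit 7661))) (.f (nat_lit 527) (nat_lit 492) (nat_lit 3564) (.f (nat_lit 559) (nat_lit 524) (nat_lit 524) (.f (nat_lit 496) (nat_lit 497) (nat_lit 2541) (.d (nat_lit 464) (nat_lit 432) (nat_lit 5551) (nat_lit 591) (nat_lit 5583)))))))))))) (.p (nat_lit 559) (.a (.f (nat_lit 525) (nat_lit 561) (nat_lit 3597) (.d (nat_lit 524) (nat_lit 523) (nat_lit 523) (nat_lit 557) (nat_lit 3596))) (.a (.p (nat_lit 557) (.a (.f (nat_lit 588) (nat_lit 589) (nat_lit 1580) (.f (nat_lit 556) (nat_lit 587) (nat_lit 1579) (.f (nat_lit 591) (nat_lit 592) (nat_lit 556) (.f (nat_lit 555) (nat_lit 590) (nat_lit 555) (.d (nat_lit 523) (nat_lit 522) (nat_lit 3594) (nat_lit 524) (nat_lit 3595)))))) (.a (.f (nat_lit 556) (nat_lit 527) (nat_lit 2572) (.d (nat_lit 588) (nat_lit 587) (nat_lit 1579) (nat_lit 589) (nat_lit 1580))) (.a (.f (nat_lit 556) (nat_lit 527) (nat_lit 2572) (.f (nat_lit 591) (nat_lit 592) (nat_lit 556) (.f (nat_lit 555) (nat_lit 590) (nat_lit 555) (.d (nat_lit 587) (nat_lit 586) (nat_lit 1578) (nat_lit 588) (nat_lit 1579))))) (.a (.f (nat_lit 527) (nat_lit 556) (nat_lit 2572) (.f (nat_lit 561) (nat_lit 562) (nat_lit 3598) (.f (nat_lit 590) (nat_lit 589) (nat_lit 1581) (.f (nat_lit 622) (nat_lit 654) (nat_lit 6670) (.f (nat_lit 623) (nat_lit 655) (nat_lit 4622) (.d (nat_lit 591) (nat_lit 494) (nat_lit 4590) (nat_lit 496) (nat_lit 6639))))))) (.f (nat_lit 589) (nat_lit 588) (nat_lit 1580) (.f (nat_lit 561) (nat_lit 590) (nat_lit 1581) (.f (nat_lit 562) (nat_lit 527) (nat_lit 3598) (.f (nat_lit 531) (nat_lit 530) (nat_lit 2575) (.f (nat_lit 563) (nat_lit 532) (nat_lit 2576) (.d (nat_lit 595) (nat_lit 594) (nat_lit 559) (nat_lit 596) (nat_lit 560)))))))))))) (.a (.f (nat_lit 561) (nat_lit 525) (nat_lit 3597) (.f (nat_lit 562) (nat_lit 527) (nat_lit 3598) (.d (nat_lit 590) (nat_lit 589) (nat_lit 1581) (nat_lit 591) (nat_lit 1582)))) (.p (nat_lit 557) (.a (.f (nat_lit 588) (nat_lit 589) (nat_lit 1580) (.f (nat_lit 556) (nat_lit 587) (nat_lit 1579) (.f (nat_lit 591) (nat_lit 592) (nat_lit 556) (.f (nat_lit 555) (nat_lit 590) (nat_lit 555) (.d (nat_lit 523) (nat_lit 522) (nat_lit 3594) (nat_lit 524) (nat_lit 3595)))))) (.a (.f (nat_lit 556) (nat_lit 527) (nat_lit 2572) (.d (nat_lit 588) (nat_lit 587) (nat_lit 1579) (nat_lit 589) (nat_lit 1580))) (.a (.f (nat_lit 556) (nat_lit 527) (nat_lit 2572) (.f (nat_lit 591) (nat_lit 592) (nat_lit 556) (.f (nat_lit 555) (nat_lit 590) (nat_lit 555) (.d (nat_lit 587) (nat_lit 586) (nat_lit 1578) (nat_lit 588) (nat_lit 1579))))) (.a (.f (nat_lit 556) (nat_lit 527) (nat_lit 2572) (.d (nat_lit 524) (nat_lit 523) (nat_lit 3595) (nat_lit 525) (nat_lit 3596))) (.f (nat_lit 525) (nat_lit 524) (nat_lit 3596) (.f (nat_lit 589) (nat_lit 588) (nat_lit 1580) (.d (nat_lit 494) (nat_lit 462) (nat_lit 5581) (nat_lit 621) (nat_lit 6637)))))))))))))))))))))) (.a (.p (nat_lit 590) (.a (.p (nat_lit 558) (.a (.p (nat_lit 494) (.a (.f (nat_lit 589) (nat_lit 621) (nat_lit 5613) (.f (nat_lit 559) (nat_lit 561) (nat_lit 1581) (.d (nat_lit 557) (nat_lit 462) (nat_lit 5581) (nat_lit 588) (nat_lit 1580)))) (.f (nat_lit 495) (nat_lit 463) (nat_lit 6606) (.f (nat_lit 493) (nat_lit 461) (nat_lit 7629) (.d (nat_lit 527) (nat_lit 492) (nat_lit 492) (nat_lit 622) (nat_lit 6638)))))) (.a s41021 (.a s37719 (.a s40840 (.a s40785 (.p (nat_lit 525) (.a (.d (nat_lit 561) (nat_lit 527) (nat_lit 525) (nat_lit 559) (nat_lit 3597)) (.a (.f (nat_lit 622) (nat_lit 493) (nat_lit 7661) (.f (nat_lit 559) (nat_lit 561) (nat_lit 3597) (.d (nat_lit 557) (nat_lit 524) (nat_lit 3596) (nat_lit 654) (nat_lit 7693)))) (.a (.f (nat_lit 527) (nat_lit 561) (nat_lit 525) (.d (nat_lit 493) (nat_lit 492) (nat_lit 3564) (nat_lit 622) (nat_lit 7661))) (.f (nat_lit 622) (nat_lit 493) (nat_lit 7661) (.f (nat_lit 527) (nat_lit 495) (nat_lit 6638) (.d (nat_lit 557) (nat_lit 556) (nat_lit 1548) (nat_lit 654) (nat_lit 7693)))))))))))))) (.a (.p (nat_lit 558) (.a (.p (nat_lit 494) (.a (.f (nat_lit 589) (nat_lit 621) (nat_lit 5613) (.f (nat_lit 559) (nat_lit 561) (nat_lit 1581) (.d (nat_lit 557) (nat_lit 462) (nat_lit 5581) (nat_lit 588) (nat_lit 1580)))) (.f (nat_lit 495) (nat_lit 463) (nat_lit 6606) (.f (nat_lit 493) (nat_lit 461) (nat_lit 7629) (.d (nat_lit 527) (nat_lit 492) (nat_lit 492) (nat_lit 622) (nat_lit 6638)))))) (.a s41021 (.a s37719 (.a (.p (nat_lit 494) (.a (.f (nat_lit 495) (nat_lit 463) (nat_lit 6606) (.f (nat_lit 493) (nat_lit 461) (nat_lit 7629) (.d (nat_lit 527) (nat_lit 492) (nat_lit 492) (nat_lit 622) (nat_lit 6638)))) (.f (nat_lit 591) (nat_lit 623) (nat_lit 4590) (.f (nat_lit 559) (nat_lit 462) (nat_lit 4558) (.d (nat_lit 561) (nat_lit 525) (nat_lit 3597) (nat_lit 589) (nat_lit 1581)))))) (.a (.p (nat_lit 494) (.a (.f (nat_lit 495) (nat_lit 463) (nat_lit 6606) (.f (nat_lit 493) (nat_lit 461) (nat_lit 7629) (.d (nat_lit 527) (nat_lit 492) (nat_lit 492) (nat_lit 622) (nat_lit 6638)))) (.f (nat_lit 591) (nat_lit 623) (nat_lit 4590) (.f (nat_lit 559) (nat_lit 462) (nat_lit 4558) (.d (nat_lit 589) (nat_lit 588) (nat_lit 2604) (nat_lit 621) (nat_lit 5613)))))) (.a (.p (nat_lit 589) (.a (.f (nat_lit 621) (nat_lit 494) (nat_lit 5613) (.d (nat_lit 653) (nat_lit 557) (nat_lit 6669) (nat_lit 622) (nat_lit 5645))) (.a (.f (nat_lit 621) (nat_lit 494) (nat_lit 5613) (.d (nat_lit 653) (nat_lit 622) (nat_lit 5645) (nat_lit 685) (nat_lit 6701))) (.f (nat_lit 559) (nat_lit 561) (nat_lit 1581) (.d (nat_lit 588) (nat_lit 557) (nat_lit 1580) (nat_lit 587) (nat_lit 2603)))))) s40785))))))) (.a (.p (nat_lit 558) (.a s41021 (.a s40785 (.a s40806 (.a s40890 (.a (.p (nat_lit 589) (.a (.f (nat_lit 621) (nat_lit 494) (nat_lit 5613) (.d (nat_lit 653) (nat_lit 557) (nat_lit 6669) (nat_lit 622) (nat_lit 5645))) (.a (.f (nat_lit 621) (nat_lit 494) (nat_lit 5613) (.d (nat_lit 653) (nat_lit 622) (nat_lit 5645) (nat_lit 685) (nat_lit 6701))) (.f (nat_lit 559) (nat_lit 561) (nat_lit 1581) (.d (nat_lit 588) (nat_lit 557) (nat_lit 1580) (nat_lit 587) (nat_lit 2603)))))) (.p (nat_lit 494) (.a (.f (nat_lit 591) (nat_lit 623) (nat_lit 4590) (.f (nat_lit 559) (nat_lit 462) (nat_lit 4558) (.d (nat_lit 561) (nat_lit 525) (nat_lit 3597) (nat_lit 589) (nat_lit 1581)))) (.a (.f (nat_lit 493) (nat_lit 461) (nat_lit 7629) (.f (nat_lit 525) (nat_lit 622) (nat_lit 7661) (.f (nat_lit 495) (nat_lit 463) (nat_lit 6606) (.d (nat_lit 524) (nat_lit 496) (nat_lit 1516) (nat_lit 523) (nat_lit 2539))))) (.f (nat_lit 591) (nat_lit 623) (nat_lit 4590) (.f (nat_lit 462) (nat_lit 559) (nat_lit 4558) (.d (nat_lit 461) (nat_lit 429) (nat_lit 7597) (nat_lit 493) (nat_lit 7629))))))))))))) (.a (.p (nat_lit 558) (.a (.p (nat_lit 494) (.a (.f (nat_lit 589) (nat_lit 621) (nat_lit 5613) (.f (nat_lit 559) (nat_lit 561) (nat_lit 1581) (.d (nat_lit 557) (nat_lit 462) (nat_lit 5581) (nat_lit 588) (nat_lit 1580)))) (.f (nat_lit 495) (nat_lit 463) (nat_lit 6606) (.f (nat_lit 493) (nat_lit 461) (nat_lit 7629) (.d (nat_lit 527) (nat_lit 492) (nat_lit 492) (nat_lit 622) (nat_lit 6638)))))) (.a s41021 (.a s37737 (.a s41028 (.a s41029 (.a (.p (nat_lit 589) (.a (.f (nat_lit 621) (nat_lit 494) (nat_lit 5613) (.d (nat_lit 653) (nat_lit 557) (nat_lit 6669) (nat_lit 622) (nat_lit 5645))) (.a (.f (nat_lit 621) (nat_lit 494) (nat_lit 5613) (.d (nat_lit 653) (nat_lit 622) (nat_lit 5645) (nat_lit 685) (nat_lit 6701))) (.f (nat_lit 559) (nat_lit 561) (nat_lit 1581) (.d (nat_lit 588) (nat_lit 557) (nat_lit 1580) (nat_lit 587) (nat_lit 2603)))))) s41030))))))) (.a (.p (nat_lit 592) (.a (.p (nat_lit 496) (.a (.f (nat_lit 495) (nat_lit 463) (nat_lit 7631) (.f (nat_lit 527) (nat_lit 624) (nat_lit 7663) (.d (nat_lit 497) (nat_lit 465) (nat_lit 6608) (nat_lit 498) (nat_lit 1518)))) (.f (nat_lit 591) (nat_lit 623) (nat_lit 5615) (.f (nat_lit 589) (nat_lit 561) (nat_lit 2605) (.f (nat_lit 588) (nat_lit 559) (nat_lit 2604) (.d (nat_lit 620) (nat_lit 619) (nat_lit 1611) (nat_lit 621) (nat_lit 1612))))))) (.a (.p (nat_lit 624) (.a (.f (nat_lit 623) (nat_lit 655) (nat_lit 5647) (.f (nat_lit 591) (nat_lit 496) (nat_lit 5615) (.d (nat_lit 589) (nat_lit 588) (nat_lit 588) (nat_lit 625) (nat_lit 589)))) (.a (.f (nat_lit 623) (nat_lit 655) (nat_lit 5647) (.f (nat_lit 625) (nat_lit 657) (nat_lit 4624) (.d (nat_lit 591) (nat_lit 589) (nat_lit 589) (nat_lit 626) (nat_lit 3662)))) (.a (.f (nat_lit 655) (nat_lit 623) (nat_lit 5647) (.f (nat_lit 656) (nat_lit 687) (nat_lit 5679) (.d (nat_lit 657) (nat_lit 625) (nat_lit 4624) (nat_lit 689) (nat_lit 4656)))) (.a (.f (nat_lit 657) (nat_lit 625) (nat_lit 4624) (.f (nat_lit 656) (nat_lit 689) (nat_lit 4656) (.f (nat_lit 687) (nat_lit 655) (nat_lit 5679) (.f (nat_lit 688) (nat_lit 719) (nat_lit 5711) (.f (nat_lit 591) (nat_lit 559) (nat_lit 7727) (.f (nat_lit 589) (nat_lit 561) (nat_lit 2605) (.f (nat_lit 621) (nat_lit 620) (nat_lit 1612) (.f (nat_lit 558) (nat_lit 494) (nat_lit 5613) (.d (nat_lit 653) (nat_lit 557) (nat_lit 6669) (nat_lit 622) (nat_lit 5645)))))))))) (.a (.f (nat_lit 625) (nat_lit 657) (nat_lit 4624) (.f (nat_lit 591) (nat_lit 589) (nat_lit 589) (.d (nat_lit 623) (nat_lit 496) (nat_lit 5615) (nat_lit 626) (nat_lit 3662)))) (.f (nat_lit 623) (nat_lit 655) (nat_lit 5647) (.f (nat_lit 591) (nat_lit 496) (nat_lit 5615) (.d (nat_lit 589) (nat_lit 561) (nat_lit 2605) (nat_lit 588) (nat_lit 588)))))))))) (.a (.p (nat_lit 624) (.a (.f (nat_lit 623) (nat_lit 655) (nat_lit 5647) (.f (nat_lit 625) (nat_lit 657) (nat_lit 4624) (.d (nat_lit 591) (nat_lit 589) (nat_lit 589) (nat_lit 626) (nat_lit 3662)))) (.a (.f (nat_lit 655) (nat_lit 623) (nat_lit 5647) (.f (nat_lit 656) (nat_lit 687) (nat_lit 5679) (.d (nat_lit 657) (nat_lit 625) (nat_lit 4624) (nat_lit 689) (nat_lit 4656)))) (.a (.f (nat_lit 657) (nat_lit 625) (nat_lit 4624) (.f (nat_lit 656) (nat_lit 689) (nat_lit 4656) (.f (nat_lit 687) (nat_lit 655) (nat_lit 5679) (.f (nat_lit 688) (nat_lit 719) (nat_lit 5711) (.f (nat_lit 591) (nat_lit 559) (nat_lit 7727) (.f (nat_lit 589) (nat_lit 561) (nat_lit 2605) (.f (nat_lit 621) (nat_lit 620) (nat_lit 1612) (.f (nat_lit 558) (nat_lit 494) (nat_lit 5613) (.d (nat_lit 653) (nat_lit 557) (nat_lit 6669) (nat_lit 622) (nat_lit 5645)))))))))) (.f (nat_lit 527) (nat_lit 495) (nat_lit 7663) (.f (nat_lit 559) (nat_lit 656) (nat_lit 7695) (.f (nat_lit 561) (nat_lit 562) (nat_lit 3598) (.d (nat_lit 589) (nat_lit 558) (nat_lit 1581) (nat_lit 591) (nat_lit 2605))))))))) (.a (.p (nat_lit 624) (.a (.f (nat_lit 655) (nat_lit 623) (nat_lit 5647) (.f (nat_lit 656) (nat_lit 687) (nat_lit 5679) (.d (nat_lit 657) (nat_lit 625) (nat_lit 4624) (nat_lit 689) (nat_lit 4656)))) (.a (.f (nat_lit 527) (nat_lit 495) (nat_lit 7663) (.f (nat_lit 656) (nat_lit 559) (nat_lit 7695) (.d (nat_lit 657) (nat_lit 625) (nat_lit 4624) (nat_lit 689) (nat_lit 4656)))) (.a (.f (nat_lit 527) (nat_lit 495) (nat_lit 7663) (.f (nat_lit 559) (nat_lit 656) (nat_lit 7695) (.f (nat_lit 561) (nat_lit 562) (nat_lit 3598) (.f (nat_lit 589) (nat_lit 558) (nat_lit 1581) (.f (nat_lit 623) (nat_lit 655) (nat_lit 5647) (.f (nat_lit 622) (nat_lit 625) (nat_lit 3661) (.d (nat_lit 588) (nat_lit 587) (nat_lit 587) (nat_lit 621) (nat_lit 3660)))))))) (.a (.f (nat_lit 527) (nat_lit 495) (nat_lit 7663) (.f (nat_lit 656) (nat_lit 559) (nat_lit 7695) (.d (nat_lit 655) (nat_lit 623) (nat_lit 5647) (nat_lit 687) (nat_lit 5679)))) (.f (nat_lit 623) (nat_lit 655) (nat_lit 5647) (.f (nat_lit 625) (nat_lit 657) (nat_lit 4624) (.f (nat_lit 622) (nat_lit 589) (nat_lit 3661) (.f (nat_lit 653) (nat_lit 654) (nat_lit 1645) (.d (nat_lit 621) (nat_lit 558) (nat_lit 5645) (nat_lit 652) (nat_lit 1644))))))))))) (.a (.p (nat_lit 496) (.a (.f (nat_lit 591) (nat_lit 623) (nat_lit 5615) (.f (nat_lit 589) (nat_lit 561) (nat_lit 2605) (.f (nat_lit 588) (nat_lit 559) (nat_lit 2604) (.d (nat_lit 620) (nat_lit 619) (nat_lit 1611) (nat_lit 621) (nat_lit 1612))))) (.f (nat_lit 495) (nat_lit 463) (nat_lit 7631) (.f (nat_lit 497) (nat_lit 465) (nat_lit 6608) (.f (nat_lit 498) (nat_lit 527) (nat_lit 1518) (.f (nat_lit 531) (nat_lit 530) (nat_lit 495) (.f (nat_lit 499) (nat_lit 532) (nat_lit 496) (.d (nat_lit 467) (nat_lit 466) (nat_lit 2511) (nat_lit 468) (nat_lit 2512))))))))) (.a (.p (nat_lit 496) (.a (.f (nat_lit 495) (nat_lit 463) (nat_lit 7631) (.f (nat_lit 527) (nat_lit 624) (nat_lit 7663) (.d (nat_lit 497) (nat_lit 465) (nat_lit 6608) (nat_lit 498) (nat_lit 1518)))) (.f (nat_lit 591) (nat_lit 623) (nat_lit 5615) (.f (nat_lit 589) (nat_lit 561) (nat_lit 2605) (.f (nat_lit 621) (nat_lit 620) (nat_lit 1612) (.f (nat_lit 558) (nat_lit 494) (nat_lit 5613) (.d (nat_lit 653) (nat_lit 557) (nat_lit 6669) (nat_lit 622) (nat_lit 5645)))))))) (.a (.p (nat_lit 496) (.a (.f (nat_lit 495) (nat_lit 463) (nat_lit 7631) (.f (nat_lit 527) (nat_lit 624) (nat_lit 7663) (.d (nat_lit 497) (nat_lit 465) (nat_lit 6608) (nat_lit 498) (nat_lit 1518)))) (.a (.f (nat_lit 623) (nat_lit 591) (nat_lit 5615) (.f (nat_lit 624) (nat_lit 655) (nat_lit 5647) (.f (nat_lit 625) (nat_lit 657) (nat_lit 4624) (.f (nat_lit 622) (nat_lit 589) (nat_lit 3661) (.f (nat_lit 653) (nat_lit 654) (nat_lit 1645) (.d (nat_lit 621) (nat_lit 558) (nat_lit 5645) (nat_lit 652) (nat_lit 1644))))))) (.f (nat_lit 495) (nat_lit 463) (nat_lit 7631) (.f (nat_lit 497) (nat_lit 465) (nat_lit 6608) (.f (nat_lit 498) (nat_lit 527) (nat_lit 1518) (.f (nat_lit 531) (nat_lit 530) (nat_lit 495) (.f (nat_lit 499) (nat_lit 532) (nat_lit 496) (.d (nat_lit 467) (nat_lit 466) (nat_lit 2511) (nat_lit 468) (nat_lit 2512)))))))))) (.a (.p (nat_lit 496) (.a (.f (nat_lit 495) (nat_lit 463) (nat_lit 7631) (.f (nat_lit 527) (nat_lit 624) (nat_lit 7663) (.d (nat_lit 497) (nat_lit 465) (nat_lit 6608) (nat_lit 498) (nat_lit 1518)))) (.a (.f (nat_lit 591) (nat_lit 623) (nat_lit 5615) (.f (nat_lit 464) (nat_lit 559) (nat_lit 5583) (.d (nat_lit 465) (nat_lit 433) (nat_lit 6576) (nat_lit 497) (nat_lit 6608)))) (.f (nat_lit 591) (nat_lit 623) (nat_lit 5615) (.f (nat_lit 559) (nat_lit 464) (nat_lit 5583) (.f (nat_lit 495) (nat_lit 463) (nat_lit 7631) (.d (nat_lit 527) (nat_lit 622) (nat_lit 5614) (nat_lit 624) (nat_lit 7663)))))))) (.p (nat_lit 496) (.a (.f (nat_lit 495) (nat_lit 463) (nat_lit 7631) (.f (nat_lit 527) (nat_lit 624) (nat_lit 7663) (.d (nat_lit 497) (nat_lit 465) (nat_lit 6608) (nat_lit 498) (nat_lit 1518)))) (.a (.f (nat_lit 465) (nat_lit 497) (nat_lit 6608) (.f (nat_lit 464) (nat_lit 433) (nat_lit 6576) (.f (nat_lit 591) (nat_lit 559) (nat_lit 5583) (.f (nat_lit 589) (nat_lit 561) (nat_lit 2605) (.f (nat_lit 621) (nat_lit 620) (nat_lit 1612) (.f (nat_lit 558) (nat_lit 494) (nat_lit 5613) (.d (nat_lit 653) (nat_lit 557) (nat_lit 6669) (nat_lit 622) (nat_lit 5645)))))))) (.f (nat_lit 495) (nat_lit 463) (nat_lit 7631) (.f (nat_lit 527) (nat_lit 624) (nat_lit 7663) (.f (nat_lit 622) (nat_lit 558) (nat_lit 6638) (.f (nat_lit 591) (nat_lit 559) (nat_lit 5614) (.f (nat_lit 589) (nat_lit 561) (nat_lit 2605) (.f (nat_lit 620) (nat_lit 621) (nat_lit 1612) (.f (nat_lit 588) (nat_lit 619) (nat_lit 1611) (.d (nat_lit 556) (nat_lit 555) (nat_lit 3627) (nat_lit 557) (nat_lit 3628))))))))))))))))))))) (.a (.p (nat_lit 558) (.a s37719 (.a s40806 (.a s37737 (.a s40890 (.a s40920 (.a (.p (nat_lit 494) (.a (.f (nat_lit 589) (nat_lit 621) (nat_lit 5613) (.f (nat_lit 462) (nat_lit 557) (nat_lit 5581) (.d (nat_lit 461) (nat_lit 429) (nat_lit 7597) (nat_lit 493) (nat_lit 7629)))) (.a (.f (nat_lit 493) (nat_lit 461) (nat_lit 7629) (.f (nat_lit 495) (nat_lit 463) (nat_lit 6606) (.f (nat_lit 492) (nat_lit 527) (nat_lit 492) (.f (nat_lit 523) (nat_lit 524) (nat_lit 1515) (.f (nat_lit 491) (nat_lit 522) (nat_lit 1514) (.d (nat_lit 459) (nat_lit 458) (nat_lit 3530) (nat_lit 460) (nat_lit 3531))))))) (.f (nat_lit 495) (nat_lit 463) (nat_lit 6606) (.f (nat_lit 591) (nat_lit 623) (nat_lit 4590) (.f (nat_lit 589) (nat_lit 621) (nat_lit 5613) (.f (nat_lit 592) (nat_lit 561) (nat_lit 2605) (.d (nat_lit 624) (nat_lit 527) (nat_lit 7663) (nat_lit 625) (nat_lit 589))))))))) s40930))))))) (.a (.p (nat_lit 558) (.a s37647 (.a s41021 (.a s40785 (.a s37719 (.a s40840 (.p (nat_lit 525) (.a (.d (nat_lit 561) (nat_lit 527) (nat_lit 525) (nat_lit 559) (nat_lit 3597)) (.a (.f (nat_lit 622) (nat_lit 493) (nat_lit 7661) (.f (nat_lit 559) (nat_lit 561) (nat_lit 3597) (.d (nat_lit 557) (nat_lit 524) (nat_lit 3596) (nat_lit 654) (nat_lit 7693)))) (.a (.f (nat_lit 527) (nat_lit 561) (nat_lit 525) (.d (nat_lit 493) (nat_lit 492) (nat_lit 3564) (nat_lit 622) (nat_lit 7661))) (.f (nat_lit 622) (nat_lit 493) (nat_lit 7661) (.f (nat_lit 527) (nat_lit 495) (nat_lit 6638) (.d (nat_lit 557) (nat_lit 556) (nat_lit 1548) (nat_lit 654) (nat_lit 7693)))))))))))))) (.a (.p (nat_lit 558) (.a s40840 (.a (.p (nat_lit 494) (.a (.f (nat_lit 495) (nat_lit 463) (nat_lit 6606) (.f (nat_lit 493) (nat_lit 461) (nat_lit 7629) (.d (nat_lit 527) (nat_lit 492) (nat_lit 492) (nat_lit 622) (nat_lit 6638)))) (.f (nat_lit 591) (nat_lit 623) (nat_lit 4590) (.f (nat_lit 559) (nat_lit 462) (nat_lit 4558) (.d (nat_lit 561) (nat_lit 525) (nat_lit 3597) (nat_lit 589) (nat_lit 1581)))))) (.a s40890 (.a s41028 (.a (.p (nat_lit 525) (.a (.d (nat_lit 561) (nat_lit 527) (nat_lit 525) (nat_lit 559) (nat_lit 3597)) (.f (nat_lit 622) (nat_lit 493) (nat_lit 7661) (.f (nat_lit 655) (nat_lit 623) (nat_lit 4622) (.f (nat_lit 654) (nat_lit 687) (nat_lit 4654) (.d (nat_lit 653) (nat_lit 621) (nat_lit 5645) (nat_lit 685) (nat_lit 5677))))))) (.p (nat_lit 494) (.a (.f (nat_lit 591) (nat_lit 623) (nat_lit 4590) (.f (nat_lit 559) (nat_lit 462) (nat_lit 4558) (.d (nat_lit 561) (nat_lit 525) (nat_lit 3597) (nat_lit 589) (nat_lit 1581)))) (.f (nat_lit 493) (nat_lit 461) (nat_lit 7629) (.f (nat_lit 495) (nat_lit 463) (nat_lit 6606) (.f (nat_lit 492) (nat_lit 527) (nat_lit 492) (.f (nat_lit 523) (nat_lit 524) (nat_lit 1515) (.f (nat_lit 491) (nat_lit 522) (nat_lit 1514) (.d (nat_lit 459) (nat_lit 458) (nat_lit 3530) (nat_lit 460) (nat_lit 3531))))))))))))))) (.a (.p (nat_lit 558) (.a s40806 (.a (.p (nat_lit 494) (.a (.f (nat_lit 495) (nat_lit 463) (nat_lit 6606) (.f (nat_lit 493) (nat_lit 461) (nat_lit 7629) (.d (nat_lit 527) (nat_lit 492) (nat_lit 492) (nat_lit 622) (nat_lit 6638)))) (.f (nat_lit 591) (nat_lit 623) (nat_lit 4590) (.f (nat_lit 559) (nat_lit 462) (nat_lit 4558) (.d (nat_lit 589) (nat_lit 588) (nat_lit 2604) (nat_lit 621) (nat_lit 5613)))))) (.a s41029 (.a s40840 (.a (.p (nat_lit 622) (.a (.f (nat_lit 655) (nat_lit 623) (nat_lit 4622) (.f (nat_lit 654) (nat_lit 687) (nat_lit 4654) (.d (nat_lit 653) (nat_lit 621) (nat_lit 5645) (nat_lit 685) (nat_lit 5677)))) (.a (.f (nat_lit 653) (nat_lit 621) (nat_lit 5645) (.f (nat_lit 654) (nat_lit 685) (nat_lit 5677) (.f (nat_lit 559) (nat_lit 527) (nat_lit 6670) (.f (nat_lit 687) (nat_lit 655) (nat_lit 4654) (.d (nat_lit 686) (nat_lit 591) (nat_lit 6702) (nat_lit 719) (nat_lit 4686)))))) (.a (.f (nat_lit 525) (nat_lit 493) (nat_lit 7661) (.f (nat_lit 527) (nat_lit 495) (nat_lit 6638) (.d (nat_lit 557) (nat_lit 556) (nat_lit 1548) (nat_lit 654) (nat_lit 7693)))) (.f (nat_lit 527) (nat_lit 495) (nat_lit 6638) (.f (nat_lit 525) (nat_lit 493) (nat_lit 7661) (.f (nat_lit 559) (nat_lit 524) (nat_lit 524) (.f (nat_lit 623) (nat_lit 655) (nat_lit 4622) (.d (nat_lit 496) (nat_lit 497) (nat_lit 2541) (nat_lit 591) (nat_lit 6639)))))))))) (.a (.p (nat_lit 494) (.a (.f (nat_lit 591) (nat_lit 623) (nat_lit 4590) (.f (nat_lit 559) (nat_lit 462) (nat_lit 4558) (.d (nat_lit 589) (nat_lit 588) (nat_lit 2604) (nat_lit 621) (nat_lit 5613)))) (.a (.f (nat_lit 589) (nat_lit 621) (nat_lit 5613) (.f (nat_lit 462) (nat_lit 557) (nat_lit 5581) (.d (nat_lit 461) (nat_lit 429) (nat_lit 7597) (nat_lit 493) (nat_lit 7629)))) (.a (.f (nat_lit 591) (nat_lit 623) (nat_lit 4590) (.f (nat_lit 462) (nat_lit 559) (nat_lit 4558) (.d (nat_lit 461) (nat_lit 429) (nat_lit 7597) (nat_lit 493) (nat_lit 7629)))) (.f (nat_lit 493) (nat_lit 461) (nat_lit 7629) (.f (nat_lit 495) (nat_lit 463) (nat_lit 6606) (.f (nat_lit 492) (nat_lit 527) (nat_lit 492) (.f (nat_lit 524) (nat_lit 523) (nat_lit 1515) (.f (nat_lit 525) (nat_lit 496) (nat_lit 1516) (.f (nat_lit 460) (nat_lit 459) (nat_lit 3531) (.d (nat_lit 428) (nat_lit 396) (nat_lit 4492) (nat_lit 557) (nat_lit 4524)))))))))))) (.p (nat_lit 494) (.a (.f (nat_lit 495) (nat_lit 463) (nat_lit 6606) (.f (nat_lit 493) (nat_lit 461) (nat_lit 7629) (.d (nat_lit 527) (nat_lit 492) (nat_lit 492) (nat_lit 622) (nat_lit 6638)))) (.a (.f (nat_lit 493) (nat_lit 461) (nat_lit 7629) (.f (nat_lit 525) (nat_lit 622) (nat_lit 7661) (.f (nat_lit 495) (nat_lit 463) (nat_lit 6606) (.d (nat_lit 524) (nat_lit 496) (nat_lit 1516) (nat_lit 523) (nat_lit 2539))))) (.a (.f (nat_lit 591) (nat_lit 623) (nat_lit 4590) (.f (nat_lit 462) (nat_lit 559) (nat_lit 4558) (.d (nat_lit 461) (nat_lit 429) (nat_lit 7597) (nat_lit 493) (nat_lit 7629)))) (.f (nat_lit 495) (nat_lit 463) (nat_lit 6606) (.f (nat_lit 622) (nat_lit 527) (nat_lit 6638) (.d (nat_lit 623) (nat_lit 591) (nat_lit 4590) (nat_lit 655) (nat_lit 4622))))))))))))))) (.a (.p (nat_lit 558) (.a (.p (nat_lit 525) (.a (.d (nat_lit 561) (nat_lit 527) (nat_lit 525) (nat_lit 559) (nat_lit 3597)) (.a (.f (nat_lit 622) (nat_lit 493) (nat_lit 7661) (.f (nat_lit 559) (nat_lit 561) (nat_lit 3597) (.d (nat_lit 557) (nat_lit 524) (nat_lit 3596) (nat_lit 654) (nat_lit 7693)))) (.a (.f (nat_lit 527) (nat_lit 561) (nat_lit 525) (.d (nat_lit 493) (nat_lit 492) (nat_lit 3564) (nat_lit 622) (nat_lit 7661))) (.f (nat_lit 622) (nat_lit 493) (nat_lit 7661) (.f (nat_lit 527) (nat_lit 495) (nat_lit 6638) (.d (nat_lit 557) (nat_lit 556) (nat_lit 1548) (nat_lit 654) (nat_lit 7693)))))))) (.a s41021 (.a s40840 (.a s37737 (.p (nat_lit 494) (.a (.f (nat_lit 591) (nat_lit 623) (nat_lit 4590) (.f (nat_lit 559) (nat_lit 462) (nat_lit 4558) (.d (nat_lit 561) (nat_lit 525) (nat_lit 3597) (nat_lit 562) (nat_lit 1582)))) (.a (.f (nat_lit 493) (nat_lit 461) (nat_lit 7629) (.f (nat_lit 495) (nat_lit 463) (nat_lit 6606) (.f (nat_lit 492) (nat_lit 527) (nat_lit 492) (.f (nat_lit 524) (nat_lit 523) (nat_lit 1515) (.f (nat_lit 525) (nat_lit 496) (nat_lit 1516) (.f (nat_lit 460) (nat_lit 459) (nat_lit 3531) (.d (nat_lit 428) (nat_lit 396) (nat_lit 4492) (nat_lit 557) (nat_lit 4524)))))))) (.f (nat_lit 591) (nat_lit 623) (nat_lit 4590) (.f (nat_lit 462) (nat_lit 559) (nat_lit 4558) (.d (nat_lit 461) (nat_lit 429) (nat_lit 7597) (nat_lit 493) (nat_lit 7629)))))))))))) (.a (.p (nat_lit 592) (.a (.p (nat_lit 496) (.a (.f (nat_lit 495) (nat_lit 463) (nat_lit 7631) (.f (nat_lit 527) (nat_lit 624) (nat_lit 7663) (.d (nat_lit 497) (nat_lit 465) (nat_lit 6608) (nat_lit 498) (nat_lit 1518)))) (.f (nat_lit 591) (nat_lit 623) (nat_lit 5615) (.f (nat_lit 589) (nat_lit 561) (nat_lit 2605) (.f (nat_lit 588) (nat_lit 559) (nat_lit 2604) (.d (nat_lit 620) (nat_lit 619) (nat_lit 1611) (nat_lit 621) (nat_lit 1612))))))) (.a (.p (nat_lit 624) (.a (.f (nat_lit 623) (nat_lit 655) (nat_lit 5647) (.f (nat_lit 591) (nat_lit 496) (nat_lit 5615) (.d (nat_lit 589) (nat_lit 588) (nat_lit 588) (nat_lit 625) (nat_lit 589)))) (.a (.f (nat_lit 623) (nat_lit 655) (nat_lit 5647) (.f (nat_lit 625) (nat_lit 657) (nat_lit 4624) (.d (nat_lit 591) (nat_lit 589) (nat_lit 589) (nat_lit 626) (nat_lit 3662)))) (.a (.f (nat_lit 655) (nat_lit 623) (nat_lit 5647) (.f (nat_lit 656) (nat_lit 687) (nat_lit 5679) (.d (nat_lit 657) (nat_lit 625) (nat_lit 4624) (nat_lit 689) (nat_lit 4656)))) (.a (.f (nat_lit 657) (nat_lit 625) (nat_lit 4624) (.f (nat_lit 656) (nat_lit 689) (nat_lit 4656) (.f (nat_lit 687) (nat_lit 655) (nat_lit 5679) (.f (nat_lit 688) (nat_lit 719) (nat_lit 5711) (.f (nat_lit 591) (nat_lit 559) (nat_lit 7727) (.f (nat_lit 589) (nat_lit 561) (nat_lit 2605) (.f (nat_lit 620) (nat_lit 621) (nat_lit 1612) (.f (nat_lit 588) (nat_lit 619) (nat_lit 1611) (.d (nat_lit 556) (nat_lit 555) (nat_lit 3627) (nat_lit 557) (nat_lit 3628)))))))))) (.a (.f (nat_lit 625) (nat_lit 657) (nat_lit 4624) (.f (nat_lit 591) (nat_lit 589) (nat_lit 589) (.d (nat_lit 623) (nat_lit 496) (nat_lit 5615) (nat_lit 626) (nat_lit 3662)))) (.f (nat_lit 623) (nat_lit 655) (nat_lit 5647) (.f (nat_lit 591) (nat_lit 496) (nat_lit 5615) (.d (nat_lit 589) (nat_lit 561) (nat_lit 2605) (nat_lit 588) (nat_lit 588)))))))))) (.a (.p (nat_lit 624) (.a (.f (nat_lit 623) (nat_lit 655) (nat_lit 5647) (.f (nat_lit 625) (nat_lit 657) (nat_lit 4624) (.d (nat_lit 591) (nat_lit 589) (nat_lit 589) (nat_lit 626) (nat_lit 3662)))) (.a (.f (nat_lit 655) (nat_lit 623) (nat_lit 5647) (.f (nat_lit 656) (nat_lit 687) (nat_lit 5679) (.d (nat_lit 657) (nat_lit 625) (nat_lit 4624) (nat_lit 689) (nat_lit 4656)))) (.a (.f (nat_lit 527) (nat_lit 495) (nat_lit 7663) (.f (nat_lit 656) (nat_lit 559) (nat_lit 7695) (.d (nat_lit 657) (nat_lit 625) (nat_lit 4624) (nat_lit 689) (nat_lit 4656)))) (.f (nat_lit 527) (nat_lit 495) (nat_lit 7663) (.f (nat_lit 656) (nat_lit 559) (nat_lit 7695) (.d (nat_lit 655) (nat_lit 623) (nat_lit 5647) (nat_lit 687) (nat_lit 5679)))))))) (.a (.p (nat_lit 624) (.a (.f (nat_lit 655) (nat_lit 623) (nat_lit 5647) (.f (nat_lit 656) (nat_lit 687) (nat_lit 5679) (.d (nat_lit 657) (nat_lit 625) (nat_lit 4624) (nat_lit 689) (nat_lit 4656)))) (.a (.f (nat_lit 527) (nat_lit 495) (nat_lit 7663) (.f (nat_lit 656) (nat_lit 559) (nat_lit 7695) (.d (nat_lit 657) (nat_lit 625) (nat_lit 4624) (nat_lit 689) (nat_lit 4656)))) (.a (.f (nat_lit 527) (nat_lit 495) (nat_lit 7663) (.f (nat_lit 656) (nat_lit 559) (nat_lit 7695) (.d (nat_lit 655) (nat_lit 623) (nat_lit 5647) (nat_lit 687) (nat_lit 5679)))) (.f (nat_lit 527) (nat_lit 495) (nat_lit 7663) (.f (nat_lit 525) (nat_lit 561) (nat_lit 525) (.f (nat_lit 524) (nat_lit 559) (nat_lit 524) (.d (nat_lit 556) (nat_lit 555) (nat_lit 1547) (nat_lit 557) (nat_lit 1548))))))))) (.a (.p (nat_lit 496) (.a (.f (nat_lit 591) (nat_lit 623) (nat_lit 5615) (.f (nat_lit 589) (nat_lit 561) (nat_lit 2605) (.f (nat_lit 588) (nat_lit 559) (nat_lit 2604) (.d (nat_lit 620) (nat_lit 619) (nat_lit 1611) (nat_lit 621) (nat_lit 1612))))) (.f (nat_lit 495) (nat_lit 463) (nat_lit 7631) (.f (nat_lit 497) (nat_lit 465) (nat_lit 6608) (.f (nat_lit 498) (nat_lit 527) (nat_lit 1518) (.f (nat_lit 531) (nat_lit 530) (nat_lit 495) (.f (nat_lit 499) (nat_lit 532) (nat_lit 496) (.d (nat_lit 467) (nat_lit 466) (nat_lit 2511) (nat_lit 468) (nat_lit 2512))))))))) (.a (.p (nat_lit 496) (.a (.f (nat_lit 495) (nat_lit 463) (nat_lit 7631) (.f (nat_lit 527) (nat_lit 624) (nat_lit 7663) (.d (nat_lit 497) (nat_lit 465) (nat_lit 6608) (nat_lit 498) (nat_lit 1518)))) (.f (nat_lit 591) (nat_lit 623) (nat_lit 5615) (.f (nat_lit 589) (nat_lit 561) (nat_lit 2605) (.f (nat_lit 620) (nat_lit 621) (nat_lit 1612) (.f (nat_lit 588) (nat_lit 619) (nat_lit 1611) (.d (nat_lit 556) (nat_lit 555) (nat_lit 3627) (nat_lit 557) (nat_lit 3628)))))))) (.p (nat_lit 496) (.a (.f (nat_lit 495) (nat_lit 463) (nat_lit 7631) (.f (nat_lit 527) (nat_lit 624) (nat_lit 7663) (.d (nat_lit 497) (nat_lit 465) (nat_lit 6608) (nat_lit 498) (nat_lit 1518)))) (.a (.f (nat_lit 465) (nat_lit 497) (nat_lit 6608) (.f (nat_lit 464) (nat_lit 433) (nat_lit 6576) (.f (nat_lit 591) (nat_lit 559) (nat_lit 5583) (.f (nat_lit 589) (nat_lit 561) (nat_lit 2605) (.f (nat_lit 620) (nat_lit 621) (nat_lit 1612) (.f (nat_lit 588) (nat_lit 619) (nat_lit 1611) (.d (nat_lit 556) (nat_lit 555) (nat_lit 3627) (nat_lit 557) (nat_lit 3628)))))))) (.f (nat_lit 495) (nat_lit 463) (nat_lit 7631) (.f (nat_lit 527) (nat_lit 624) (nat_lit 7663) (.d (nat_lit 525) (nat_lit 524) (nat_lit 2540) (nat_lit 561) (nat_lit 525)))))))))))))) (.a (.p (nat_lit 558) (.a s37647 (.a s41021 (.a s40785 (.a s37719 (.a s40840 s40930)))))) (.a (.p (nat_lit 558) (.a (.p (nat_lit 494) (.a (.f (nat_lit 589) (nat_lit 621) (nat_lit 5613) (.f (nat_lit 559) (nat_lit 561) (nat_lit 1581) (.d (nat_lit 557) (nat_lit 462) (nat_lit 5581) (nat_lit 588) (nat_lit 1580)))) (.f (nat_lit 495) (nat_lit 463) (nat_lit 6606) (.f (nat_lit 493) (nat_lit 461) (nat_lit 7629) (.d (nat_lit 527) (nat_lit 492) (nat_lit 492) (nat_lit 622) (nat_lit 6638)))))) (.a (.p (nat_lit 589) (.a (.f (nat_lit 621) (nat_lit 494) (nat_lit 5613) (.d (nat_lit 653) (nat_lit 557) (nat_lit 6669) (nat_lit 622) (nat_lit 5645))) (.a (.f (nat_lit 621) (nat_lit 494) (nat_lit 5613) (.d (nat_lit 653) (nat_lit 622) (nat_lit 5645) (nat_lit 685) (nat_lit 6701))) (.f (nat_lit 559) (nat_lit 561) (nat_lit 1581) (.d (nat_lit 588) (nat_lit 557) (nat_lit 1580) (nat_lit 587) (nat_lit 2603)))))) (.a s37737 (.a s41028 (.a s41029 s41030)))))) (.p (nat_lit 558) (.a (.p (nat_lit 525) (.a (.d (nat_lit 561) (nat_lit 527) (nat_lit 525) (nat_lit 559) (nat_lit 3597)) (.a (.f (nat_lit 622) (nat_lit 493) (nat_lit 7661) (.f (nat_lit 559) (nat_lit 561) (nat_lit 3597) (.d (nat_lit 557) (nat_lit 524) (nat_lit 3596) (nat_lit 654) (nat_lit 7693)))) (.a (.f (nat_lit 527) (nat_lit 561) (nat_lit 525) (.d (nat_lit 493) (nat_lit 492) (nat_lit 3564) (nat_lit 622) (nat_lit 7661))) (.f (nat_lit 622) (nat_lit 493) (nat_lit 7661) (.f (nat_lit 527) (nat_lit 495) (nat_lit 6638) (.d (nat_lit 557) (nat_lit 556) (nat_lit 1548) (nat_lit 654) (nat_lit 7693)))))))) (.a (.p (nat_lit 494) (.a (.f (nat_lit 591) (nat_lit 623) (nat_lit 4590) (.f (nat_lit 559) (nat_lit 462) (nat_lit 4558) (.d (nat_lit 561) (nat_lit 525) (nat_lit 3597) (nat_lit 589) (nat_lit 1581)))) (.a (.f (nat_lit 493) (nat_lit 461) (nat_lit 7629) (.f (nat_lit 525) (nat_lit 622) (nat_lit 7661) (.f (nat_lit 495) (nat_lit 463) (nat_lit 6606) (.d (nat_lit 524) (nat_lit 496) (nat_lit 1516) (nat_lit 523) (nat_lit 2539))))) (.f (nat_lit 591) (nat_lit 623) (nat_lit 4590) (.f (nat_lit 462) (nat_lit 559) (nat_lit 4558) (.d (nat_lit 461) (nat_lit 429) (nat_lit 7597) (nat_lit 493) (nat_lit 7629))))))) (.a (.p (nat_lit 494) (.a (.f (nat_lit 495) (nat_lit 463) (nat_lit 6606) (.f (nat_lit 493) (nat_lit 461) (nat_lit 7629) (.d (nat_lit 527) (nat_lit 492) (nat_lit 492) (nat_lit 622) (nat_lit 6638)))) (.a (.f (nat_lit 591) (nat_lit 623) (nat_lit 4590) (.f (nat_lit 462) (nat_lit 559) (nat_lit 4558) (.d (nat_lit 461) (nat_lit 429) (nat_lit 7597) (nat_lit 493) (nat_lit 7629)))) (.f (nat_lit 495) (nat_lit 463) (nat_lit 6606) (.f (nat_lit 622) (nat_lit 527) (nat_lit 6638) (.d (nat_lit 623) (nat_lit 591) (nat_lit 4590) (nat_lit 655) (nat_lit 4622))))))) (.a s40930 (.a (.p (nat_lit 494) (.a (.f (nat_lit 591) (nat_lit 623) (nat_lit 4590) (.f (nat_lit 559) (nat_lit 462) (nat_lit 4558) (.d (nat_lit 561) (nat_lit 525) (nat_lit 3597) (nat_lit 589) (nat_lit 1581)))) (.a (.f (nat_lit 495) (nat_lit 463) (nat_lit 6606) (.f (nat_lit 527) (nat_lit 622) (nat_lit 6638) (.f (nat_lit 525) (nat_lit 561) (nat_lit 525) (.d (nat_lit 524) (nat_lit 523) (nat_lit 2539) (nat_lit 559) (nat_lit 524))))) (.f (nat_lit 495) (nat_lit 463) (nat_lit 6606) (.f (nat_lit 622) (nat_lit 527) (nat_lit 6638) (.d (nat_lit 623) (nat_lit 591) (nat_lit 4590) (nat_lit 655) (nat_lit 4622))))))) (.p (nat_lit 494) (.a (.f (nat_lit 591) (nat_lit 623) (nat_lit 4590) (.f (nat_lit 559) (nat_lit 462) (nat_lit 4558) (.d (nat_lit 561) (nat_lit 525) (nat_lit 3597) (nat_lit 589) (nat_lit 1581)))) (.f (nat_lit 493) (nat_lit 461) (nat_lit 7629) (.f (nat_lit 495) (nat_lit 463) (nat_lit 6606) (.f (nat_lit 492) (nat_lit 527) (nat_lit 492) (.f (nat_lit 523) (nat_lit 524) (nat_lit 1515) (.f (nat_lit 491) (nat_lit 522) (nat_lit 1514) (.d (nat_lit 459) (nat_lit 458) (nat_lit 3530) (nat_lit 460) (nat_lit 3531))))))))))))))))))))))))))))) (.a (.p (nat_lit 496) (.a (.p (nat_lit 464) (.a (.f (nat_lit 559) (nat_lit 591) (nat_lit 5583) (.f (nat_lit 527) (nat_lit 432) (nat_lit 5551) (.d (nat_lit 525) (nat_lit 524) (nat_lit 524) (nat_lit 561) (nat_lit 525)))) (.f (nat_lit 465) (nat_lit 433) (nat_lit 6576) (.f (nat_lit 463) (nat_lit 431) (nat_lit 7599) (.d (nat_lit 592) (nat_lit 495) (nat_lit 7631) (nat_lit 497) (nat_lit 6608)))))) (.a s41174 (.a s37826 (.a s38681 (.a s40736 (.a (.p (nat_lit 497) (.a (.f (nat_lit 527) (nat_lit 525) (nat_lit 2541) (.d (nat_lit 498) (nat_lit 495) (nat_lit 1518) (nat_lit 499) (nat_lit 1519))) (.f (nat_lit 465) (nat_lit 592) (nat_lit 6608) (.d (nat_lit 433) (nat_lit 401) (nat_lit 5520) (nat_lit 464) (nat_lit 6576))))) (.a s38693 s39147)))))))) (.a (.p (nat_lit 496) (.a (.p (nat_lit 464) (.a (.f (nat_lit 559) (nat_lit 591) (nat_lit 5583) (.f (nat_lit 527) (nat_lit 432) (nat_lit 5551) (.d (nat_lit 525) (nat_lit 524) (nat_lit 524) (nat_lit 561) (nat_lit 525)))) (.f (nat_lit 465) (nat_lit 433) (nat_lit 6576) (.f (nat_lit 463) (nat_lit 431) (nat_lit 7599) (.d (nat_lit 592) (nat_lit 495) (nat_lit 7631) (nat_lit 497) (nat_lit 6608)))))) (.a s41174 (.a s37826 (.a s38681 (.a s40736 (.a (.p (nat_lit 497) (.a (.f (nat_lit 527) (nat_lit 525) (nat_lit 2541) (.d (nat_lit 498) (nat_lit 495) (nat_lit 1518) (nat_lit 499) (nat_lit 1519))) (.f (nat_lit 465) (nat_lit 592) (nat_lit 6608) (.d (nat_lit 433) (nat_lit 401) (nat_lit 5520) (nat_lit 464) (nat_lit 6576))))) (.a s39138 (.a (.p (nat_lit 525) (.a (.p (nat_lit 495) (.a (.f (nat_lit 494) (nat_lit 497) (nat_lit 1517) (.d (nat_lit 524) (nat_lit 493) (nat_lit 1516) (nat_lit 523) (nat_lit 2539))) (.f (nat_lit 463) (nat_lit 592) (nat_lit 7631) (.d (nat_lit 431) (nat_lit 399) (nat_lit 4495) (nat_lit 464) (nat_lit 7599))))) (.a (.d (nat_lit 527) (nat_lit 497) (nat_lit 2541) (nat_lit 561) (nat_lit 525)) (.f (nat_lit 527) (nat_lit 561) (nat_lit 525) (.d (nat_lit 524) (nat_lit 495) (nat_lit 2540) (nat_lit 559) (nat_lit 524)))))) s38711))))))))) (.p (nat_lit 592) (.a s37491 (.a (.p (nat_lit 624) (.a (.f (nat_lit 527) (nat_lit 495) (nat_lit 7663) (.f (nat_lit 559) (nat_lit 656) (nat_lit 7695) (.d (nat_lit 561) (nat_lit 525) (nat_lit 525) (nat_lit 562) (nat_lit 3598)))) (.a (.f (nat_lit 655) (nat_lit 623) (nat_lit 5647) (.f (nat_lit 656) (nat_lit 687) (nat_lit 5679) (.d (nat_lit 657) (nat_lit 625) (nat_lit 4624) (nat_lit 689) (nat_lit 4656)))) (.f (nat_lit 527) (nat_lit 495) (nat_lit 7663) (.f (nat_lit 561) (nat_lit 525) (nat_lit 525) (.d (nat_lit 562) (nat_lit 559) (nat_lit 3598) (nat_lit 563) (nat_lit 3599))))))) (.a s37506 (.a (.p (nat_lit 495) (.a (.f (nat_lit 527) (nat_lit 624) (nat_lit 7663) (.d (nat_lit 463) (nat_lit 431) (nat_lit 4527) (nat_lit 496) (nat_lit 7631))) (.a (.f (nat_lit 496) (nat_lit 463) (nat_lit 7631) (.f (nat_lit 497) (nat_lit 465) (nat_lit 6608) (.f (nat_lit 494) (nat_lit 525) (nat_lit 1517) (.f (nat_lit 461) (nat_lit 462) (nat_lit 3533) (.f (nat_lit 493) (nat_lit 460) (nat_lit 3532) (.f (nat_lit 591) (nat_lit 623) (nat_lit 5615) (.f (nat_lit 590) (nat_lit 558) (nat_lit 7629) (.f (nat_lit 589) (nat_lit 561) (nat_lit 2605) (.f (nat_lit 620) (nat_lit 621) (nat_lit 1612) (.f (nat_lit 588) (nat_lit 619) (nat_lit 1611) (.d (nat_lit 556) (nat_lit 555) (nat_lit 3627) (nat_lit 557) (nat_lit 3628)))))))))))) (.f (nat_lit 624) (nat_lit 527) (nat_lit 7663) (.f (nat_lit 655) (nat_lit 623) (nat_lit 5647) (.f (nat_lit 656) (nat_lit 687) (nat_lit 5679) (.d (nat_lit 657) (nat_lit 625) (nat_lit 4624) (nat_lit 689) (nat_lit 4656)))))))) (.a (.p (nat_lit 624) (.a (.f (nat_lit 655) (nat_lit 623) (nat_lit 5647) (.f (nat_lit 656) (nat_lit 687) (nat_lit 5679) (.d (nat_lit 657) (nat_lit 625) (nat_lit 4624) (nat_lit 689) (nat_lit 4656)))) (.a (.f (nat_lit 657) (nat_lit 625) (nat_lit 4624) (.f (nat_lit 656) (nat_lit 689) (nat_lit 4656) (.f (nat_lit 687) (nat_lit 655) (nat_lit 5679) (.f (nat_lit 688) (nat_lit 719) (nat_lit 5711) (.d (nat_lit 559) (nat_lit 527) (nat_lit 7695) (nat_lit 591) (nat_lit 7727)))))) (.a (.f (nat_lit 657) (nat_lit 625) (nat_lit 4624) (.f (nat_lit 656) (nat_lit 689) (nat_lit 4656) (.f (nat_lit 527) (nat_lit 559) (nat_lit 7695) (.f (nat_lit 525) (nat_lit 561) (nat_lit 525) (.f (nat_lit 496) (nat_lit 497) (nat_lit 2541) (.f (nat_lit 623) (nat_lit 591) (nat_lit 5615) (.f (nat_lit 557) (nat_lit 556) (nat_lit 1548) (.f (nat_lit 493) (nat_lit 492) (nat_lit 3564) (.f (nat_lit 622) (nat_lit 621) (nat_lit 621) (.d (nat_lit 590) (nat_lit 558) (nat_lit 7661) (nat_lit 589) (nat_lit 4589))))))))))) (.f (nat_lit 623) (nat_lit 655) (nat_lit 5647) (.f (nat_lit 496) (nat_lit 591) (nat_lit 5615) (.f (nat_lit 465) (nat_lit 497) (nat_lit 6608) (.f (nat_lit 464) (nat_lit 433) (nat_lit 6576) (.f (nat_lit 431) (nat_lit 463) (nat_lit 7599) (.f (nat_lit 432) (nat_lit 399) (nat_lit 7567) (.f (nat_lit 527) (nat_lit 559) (nat_lit 5551) (.f (nat_lit 525) (nat_lit 561) (nat_lit 525) (.f (nat_lit 429) (nat_lit 430) (nat_lit 429) (.f (nat_lit 493) (nat_lit 492) (nat_lit 3564) (.f (nat_lit 461) (nat_lit 558) (nat_lit 4525) (.f (nat_lit 557) (nat_lit 556) (nat_lit 1548) (.d (nat_lit 428) (nat_lit 396) (nat_lit 7564) (nat_lit 460) (nat_lit 7596)))))))))))))))))) (.p (nat_lit 496) (.a (.f (nat_lit 495) (nat_lit 463) (nat_lit 7631) (.f (nat_lit 527) (nat_lit 624) (nat_lit 7663) (.d (nat_lit 497) (nat_lit 465) (nat_lit 6608) (nat_lit 525) (nat_lit 2541)))) (.a (.f (nat_lit 463) (nat_lit 495) (nat_lit 7631) (.f (nat_lit 464) (nat_lit 431) (nat_lit 7599) (.d (nat_lit 465) (nat_lit 433) (nat_lit 6576) (nat_lit 497) (nat_lit 6608)))) (.a (.f (nat_lit 497) (nat_lit 465) (nat_lit 6608) (.f (nat_lit 527) (nat_lit 525) (nat_lit 2541) (.d (nat_lit 498) (nat_lit 495) (nat_lit 1518) (nat_lit 499) (nat_lit 1519)))) (.a (.f (nat_lit 465) (nat_lit 497) (nat_lit 6608) (.f (nat_lit 464) (nat_lit 433) (nat_lit 6576) (.f (nat_lit 431) (nat_lit 463) (nat_lit 7599) (.f (nat_lit 432) (nat_lit 399) (nat_lit 7567) (.f (nat_lit 527) (nat_lit 559) (nat_lit 5551) (.f (nat_lit 525) (nat_lit 561) (nat_lit 525) (.f (nat_lit 429) (nat_lit 430) (nat_lit 429) (.f (nat_lit 493) (nat_lit 492) (nat_lit 3564) (.f (nat_lit 461) (nat_lit 558) (nat_lit 4525) (.f (nat_lit 557) (nat_lit 556) (nat_lit 1548) (.d (nat_lit 428) (nat_lit 396) (nat_lit 7564) (nat_lit 460) (nat_lit 7596)))))))))))) (.a (.f (nat_lit 495) (nat_lit 463) (nat_lit 7631) (.f (nat_lit 527) (nat_lit 624) (nat_lit 7663) (.d (nat_lit 525) (nat_lit 497) (nat_lit 2541) (nat_lit 561) (nat_lit 525)))) (.f (nat_lit 495) (nat_lit 463) (nat_lit 7631) (.f (nat_lit 527) (nat_lit 624) (nat_lit 7663) (.f (nat_lit 561) (nat_lit 525) (nat_lit 525) (.d (nat_lit 562) (nat_lit 559) (nat_lit 3598) (nat_lit 563) (nat_lit 3599)))))))))))))))))))))))))))))))))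
end Vale.Agent.Lib.P062.Part4
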