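import Vale.Agent.Lib.P062.Part4.A0_0
import Vale.Agent.Lib.P062.Reduce

set_option maxRecDepth 100000
set_option linter.all false

namespace Vale.Agent.Lib.P062.Part4
open Vale.Agent.Lib.P062 Vale.Agent.Lib.P062.V2

theorem alt0 : WinsAt m2 747510271067514199510168562708513184466866200365917691198320798527980533892687819335362186930372965769920122323789693259607434936914068629672508512775646981672391207782506668559994591131358824759296 :=
  winsAt_of_chk (t := s16448) (by decide +kernel)

end Vale.Agent.Lib.P062.Part4
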